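import Vale.Agent.P019.MathlibFull
import Vale.Agent.P019.MathlibFull2
import Vale.Agent.P019.MathlibUsed
import Vale.Agent.P019.Defs

set_option linter.all false

namespace AFastfced9ax7a
@[reducible] noncomputable def a0.{u1} {x1 : ℕ} {x2 : Type u1} [x3 : Field x2] : AddCommMonoid (Vale.Agent.P019.V x1 x2) := inferInstance
@[reducible] def a1.{u1} {x1 : Type u1} [x2 : Field x1] {x3 : Subfield x1} : CommSemiring ↥x3 := inferInstance
@[reducible] noncomputable def a2.{u1} {x1 : Type u1} [x2 : Field x1] {x3 : Subfield x1} : Module (↥x3) (Polynomial ↥x3) := inferInstance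
@[reducible] noncomputable def a3.{u1} {x1 : Type u1} [x2 : Field x1] {x3 : ValuationSubring x1} : One x3.ValueGroup := inferInstance
@[reducible] noncomputable def a4.{u1} {x1 : ℕ} {x2 : Type u1} [x3 : Field x2] : SMulZeroClass (ZMod x1) (Vale.Agent.P019.V x1 x2) := inferInstance
theorem a5.{u1} {x1 : Type u1} [x2 : Field x1] {x3 : ValuationSubring x1} : MulHomClass (Valuation x1 x3.ValueGroup) x1 x3.ValueGroup := inferInstance
@[reducible] noncomputable def a6.{u1} {x1 : Type u1} [x2 : Field x1] {x3 : ValuationSubring x1} : Preorder x3.ValueGroup := inferInstance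
@[reducible] noncomputable def a7.{u1} {x1 : Type u1} [x2 : Field x1] {x3 : ValuationSubring x1} : LT x3.ValueGroup := inferInstance
theorem a8.{u1} {x1 : Type u1} [x2 : Field x1] : SubsemiringClass (Subfield x1) x1 := inferInstance
@[reducible] noncomputable def a9.{u1} {x1 : ℕ} {x2 : Type u1} [x3 : Field x2] : SMul (ZMod x1) (Vale.Agent.P019.V x1 x2) := inferInstance
@[reducible] noncomputable def a10.{u1} {x1 : Type u1} [x2 : Field x1] {x3 : ValuationSubring x1} : PartialOrder x3.ValueGroup := inferInstance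
@[reducible] def a11.{u1} {x1 : Type u1} [x2 : Field x1] {x3 : ValuationSubring x1} : NonAssocSemiring ↥x3 := inferInstance
@[reducible] def a12.{u1} {x1 : Type u1} [x2 : Field x1] {x3 : ValuationSubring x1} : Semiring ↥x3 := inferInstance
@[reducible] noncomputable def a13.{u1} {x1 : ℕ} {x2 : Type u1} [x3 : Field x2] : DistribSMul (ZMod x1) (Vale.Agent.P019.V x1 x2) := inferInstance
@[reducible] def a14.{u1} {x1 : Type u1} [x2 : Field x1] {x3 : Subfield x1} {x4 : Subfield x1} : CommRing ↥(x3 ⊔ x4) := inferInstance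
@[reducible] noncomputable def a15.{u1} {x1 : Type u1} [x2 : Field x1] {x3 : ValuationSubring x1} : SemilatticeInf x3.ValueGroup := inferInstance
@[reducible] def a16.{u1} {x1 : Type u1} [x2 : Field x1] {x3 : Subfield x1} : CommRing ↥x3 := inferInstance
@[reducible] noncomputable def a17.{u1} {x1 : Type u1} [x2 : Field x1] {x3 : ValuationSubring x1} : Lattice x3.ValueGroup := inferInstance
@[reducible] def a18.{u1} {x1 : Type u1} [x2 : Field x1] {x3 : ValuationSubring x1} : CommSemiring ↥x3 := inferInstance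
@[reducible] def a19.{u1} {x1 : Type u1} [x2 : Field x1] {x3 : Subfield x1} : Semiring ↥x3 := inferInstance
@[reducible] noncomputable def a20.{u1} {x1 : Type u1} [x2 : Field x1] {x3 : Subfield x1} : Algebra (↥x3) (Polynomial ↥x3) := inferInstance
theorem a21.{u1} {x1 : Type u1} [x2 : Field x1] {x3 : ValuationSubring x1} : ZeroLEOneClass x3.ValueGroup := inferInstance
@[reducible] noncomputable def a22.{u1} {x1 : ℕ} {x2 : Type u1} [x3 : Field x2] : DistribMulAction (ZMod x1) (Vale.Agent.P019.V x1 x2) := inferInstance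
@[reducible] def a23.{u1} {x1 : Type u1} [x2 : Field x1] {x3 : Subfield x1} : Zero ↥x3 := inferInstance
@[reducible] noncomputable def a24.{u1} {x1 : Type u1} [x2 : Field x1] {x3 : ValuationSubring x1} : MulZeroClass x3.ValueGroup := inferInstance
@[reducible] def a25.{u1} {x1 : Type u1} [x2 : Field x1] {x3 : Subfield x1} : NonAssocSemiring ↥x3 := inferInstance
@[reducible] noncomputable def a26.{u1} {x1 : ℕ} {x2 : Type u1} [x3 : Field x2] : Zero (Vale.Agent.P019.V x1 x2) := inferInstance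
theorem a27.{u1} {x1 : Type u1} [x2 : Field x1] {x3 : ValuationSubring x1} : MulLeftMono x3.ValueGroup := inferInstance
@[reducible] noncomputable def a28.{u1} {x1 : Type u1} [x2 : Field x1] {x3 : ValuationSubring x1} : LE x3.ValueGroup := inferInstance
theorem a29.{u1} {x1 : Type u1} [x2 : Field x1] {x3 : ValuationSubring x1} : Nontrivial x3.ValueGroup := inferInstance
@[reducible] noncomputable def a30.{u1} {x1 : Type u1} [x2 : Field x1] {x3 : ValuationSubring x1} : Zero x3.ValueGroup := inferInstance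
theorem a31.{u1} {x1 : Type u1} [x2 : Field x1] : SubsemiringClass (ValuationSubring x1) x1 := inferInstance
@[reducible] noncomputable def a32.{u1} {x1 : ℕ} {x2 : Type u1} [x3 : Field x2] : AddZero (Vale.Agent.P019.V x1 x2) := inferInstance
theorem a33.{u1} {x1 : ℕ} {x2 : Type u1} [x3 : Field x2] : AddMonoidHomClass (Vale.Agent.P019.V x1 x2 →ₗ[ZMod x1] ZMod x1) (Vale.Agent.P019.V x1 x2) (ZMod x1) := inferInstance
@[reducible] noncomputable def a34.{u1} {x1 : ℕ} {x2 : Type u1} [x3 : Field x2] : AddZeroClass (Vale.Agent.P019.V x1 x2) := inferInstance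
@[reducible] noncomputable def a35.{u1} {x1 : ℕ} {x2 : Type u1} [x3 : Field x2] : AddMonoid (Vale.Agent.P019.V x1 x2) := inferInstance
@[reducible] noncomputable def a36.{u1} {x1 : Type u1} [x2 : Field x1] {x3 : ValuationSubring x1} : Mul x3.ValueGroup := inferInstance
@[reducible] noncomputable def a37.{u1} {x1 : ℕ} {x2 : Type u1} [x3 : Field x2] : Add (Vale.Agent.P019.V x1 x2) := inferInstance
@[reducible] noncomputable def a38.{u1} {x1 : Type u1} [x2 : Field x1] {x3 : ValuationSubring x1} : MulZeroOneClass x3.ValueGroup := inferInstance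
theorem a39.{u1} {x1 : Type u1} [x2 : Field x1] {x3 : Subfield x1} : Nontrivial ↥x3 := inferInstance
theorem a40.{u1} {x1 : Type u1} [x2 : Field x1] {x3 : ValuationSubring x1} : PosMulMono x3.ValueGroup := inferInstance
theorem a41.{u1} {x1 : ℕ} {x2 : Type u1} [x3 : Field x2] : SMulCommClass (ZMod x1) (ZMod x1) (Vale.Agent.P019.V x1 x2) := inferInstance
@[reducible] noncomputable def a42.{u1} {x1 : Type u1} [x2 : Field x1] {x3 : ValuationSubring x1} : MonoidWithZero x3.ValueGroup := inferInstance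
theorem a43.{u1} {x1 : Type u1} [x2 : Field x1] {x3 : Subfield x1} : MulHomClass (Polynomial ↥x3 →ₐ[↥x3] x1) (Polynomial ↥x3) x1 := inferInstance
@[reducible] def a44.{u1} {x1 : Type u1} [x2 : Field x1] {x3 : Subfield x1} : NonAssocRing ↥x3 := inferInstance
theorem a45.{u1} {x1 : Type u1} [x2 : Field x1] : AddSubmonoidClass (Subfield x1) x1 := inferInstance
theorem a46.{u1} {x1 : Type u1} [x2 : Field x1] {x3 : Subfield x1} : NonUnitalAlgHomClass (Polynomial ↥x3 →ₐ[↥x3] x1) (↥x3) (Polynomial ↥x3) x1 := inferInstance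
theorem a47.{u1} {x1 : Type u1} [x2 : Field x1] {x3 : ValuationSubring x1} : PosMulReflectLT x3.ValueGroup := inferInstance
@[reducible] def a48.{u1} {x1 : Type u1} [x2 : Field x1] {x3 : Subfield x1} : Monoid ↥x3 := inferInstance
@[reducible] def a49.{u1} {x1 : Type u1} [x2 : Field x1] {x3 : Subfield x1} : NonAssocCommRing ↥x3 := inferInstance
theorem a50.{u1} {x1 : Type u1} [x2 : Field x1] {x3 : ValuationSubring x1} : MonoidHomClass (Valuation x1 x3.ValueGroup) x1 x3.ValueGroup := inferInstance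
theorem a51.{u1} {x1 : Type u1} [x2 : Field x1] : AddSubmonoidClass (ValuationSubring x1) x1 := inferInstance
@[reducible] noncomputable def a52.{u1} {x1 : ℕ} {x2 : Type u1} [x3 : Field x2] : AddCommMagma (Vale.Agent.P019.V x1 x2) := inferInstance
theorem a53.{u1} {x1 : Type u1} [x2 : Field x1] : SubmonoidClass (ValuationSubring x1) x1 := inferInstance
@[reducible] noncomputable def a54.{u1} {x1 : ℕ} {x2 : Type u1} [x3 : Field x2] : AddCommSemigroup (Vale.Agent.P019.V x1 x2) := inferInstance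
@[reducible] noncomputable def a55.{u1} {x1 : Type u1} [x2 : Field x1] {x3 : ValuationSubring x1} : MulOneClass x3.ValueGroup := inferInstance
theorem a56.{u1, u2} {x1 : Type u1} {x2 : Type u2} [x3 : Field x1] [x4 : Field x2] : MulHomClass (x1 →+* x2) x1 x2 := inferInstance
@[reducible] noncomputable def a57.{u1} {x1 : ℕ} {x2 : Type u1} [x3 : Field x2] : SubNegMonoid (Vale.Agent.P019.V x1 x2) := inferInstance
theorem a58.{u1} {x1 : Type u1} [x2 : Field x1] : ZeroMemClass (Subfield x1) x1 := inferInstance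
@[reducible] noncomputable def a59.{u1} {x1 : Type u1} [x2 : Field x1] {x3 : Subfield x1} : SubNegMonoid (Polynomial ↥x3) := inferInstance
theorem a60.{u1, u2} {x1 : Type u1} {x2 : Type u2} [x3 : Field x1] [x4 : Field x2] : MonoidHomClass (x1 →+* x2) x1 x2 := inferInstance
@[reducible] noncomputable def a61.{u1} {x1 : ℕ} {x2 : Type u1} [x3 : Field x2] : AddGroup (Vale.Agent.P019.V x1 x2) := inferInstance
theorem a62.{u1, u2} {x1 : Type u1} {x2 : Type u2} [x3 : Field x1] [x4 : Field x2] : MonoidWithZeroHomClass (x1 →+* x2) x1 x2 := inferInstance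
theorem a63.{u1} {x1 : Type u1} [x2 : Field x1] {x3 : Subfield x1} : MonoidWithZeroHomClass (↥x3 →+* x1) (↥x3) x1 := inferInstance
@[reducible] def a64.{u1} {x1 : Type u1} [x2 : Field x1] {x3 : Subfield x1} : One ↥x3 := inferInstance
theorem a65.{u1} {x1 : ℕ} {x2 : Type u1} [x3 : Field x2] : DistribMulActionSemiHomClass (Vale.Agent.P019.V x1 x2 →ₗ[ZMod x1] ZMod x1) (⇑(RingHom.id (ZMod x1))) (Vale.Agent.P019.V x1 x2) (ZMod x1) := inferInstance
@[reducible] noncomputable def a66.{u1} {x1 : Type u1} [x2 : Field x1] {x3 : Subfield x1} : AddGroup (Polynomial ↥x3) := inferInstance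
theorem a67.{u1} {x1 : Type u1} [x2 : Field x1] {x3 : Subfield x1} : NoZeroDivisors ↥x3 := inferInstance
@[reducible] noncomputable def a68.{u1} {x1 : Type u1} [x2 : Field x1] {x3 : Subfield x1} : AddGroupWithOne (Polynomial ↥x3) := inferInstance
@[reducible] noncomputable def a69.{u1} {x1 : Type u1} [x2 : Field x1] {x3 : ValuationSubring x1} : MulOne x3.ValueGroup := inferInstance
theorem a70.{u1} {x1 : Type u1} [x2 : Field x1] {x3 : Subfield x1} : IsDomain ↥x3 := inferInstance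
@[reducible] def a71.{u1} {x1 : Type u1} [x2 : Field x1] {x3 : Subfield x1} : MulOneClass ↥x3 := inferInstance
theorem a72.{u1} {x1 : Type u1} [x2 : Field x1] {x3 : Subfield x1} : MonoidHomClass (↥x3 →+* x1) (↥x3) x1 := inferInstance
@[reducible] def a73.{u1} {x1 : Type u1} [x2 : Field x1] {x3 : Subfield x1} : Pow ↥x3 ℕ := inferInstance
theorem a74.{u1, u2} {x1 : Type u1} {x2 : Type u2} [x3 : Field x1] [x4 : Field x2] [x5 : Algebra x1 x2] : AddSubmonoidClass (IntermediateField x1 x2) x2 := inferInstance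
end AFastfced9ax7a
attribute [local instance] AFastfced9ax7a.a0 AFastfced9ax7a.a1 AFastfced9ax7a.a2 AFastfced9ax7a.a3
  AFastfced9ax7a.a4 AFastfced9ax7a.a5 AFastfced9ax7a.a6 AFastfced9ax7a.a7 AFastfced9ax7a.a8
  AFastfced9ax7a.a9 AFastfced9ax7a.a10 AFastfced9ax7a.a11 AFastfced9ax7a.a12 AFastfced9ax7a.a13
  AFastfced9ax7a.a14 AFastfced9ax7a.a15 AFastfced9ax7a.a16 AFastfced9ax7a.a17 AFastfced9ax7a.a18
  AFastfced9ax7a.a19 AFastfced9ax7a.a20 AFastfced9ax7a.a21 AFastfced9ax7a.a22 AFastfced9ax7a.a23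
  AFastfced9ax7a.a24 AFastfced9ax7a.a25 AFastfced9ax7a.a26 AFastfced9ax7a.a27 AFastfced9ax7a.a28
  AFastfced9ax7a.a29 AFastfced9ax7a.a30 AFastfced9ax7a.a31 AFastfced9ax7a.a32 AFastfced9ax7a.a33
  AFastfced9ax7a.a34 AFastfced9ax7a.a35 AFastfced9ax7a.a36 AFastfced9ax7a.a37 AFastfced9ax7a.a38
  AFastfced9ax7a.a39 AFastfced9ax7a.a40 AFastfced9ax7a.a41 AFastfced9ax7a.a42 AFastfced9ax7a.a43
  AFastfced9ax7a.a44 AFastfced9ax7a.a45 AFastfced9ax7a.a46 AFastfced9ax7a.a47 AFastfced9ax7a.a48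
  AFastfced9ax7a.a49 AFastfced9ax7a.a50 AFastfced9ax7a.a51 AFastfced9ax7a.a52 AFastfced9ax7a.a53
  AFastfced9ax7a.a54 AFastfced9ax7a.a55 AFastfced9ax7a.a56 AFastfced9ax7a.a57 AFastfced9ax7a.a58
  AFastfced9ax7a.a59 AFastfced9ax7a.a60 AFastfced9ax7a.a61 AFastfced9ax7a.a62 AFastfced9ax7a.a63
  AFastfced9ax7a.a64 AFastfced9ax7a.a65 AFastfced9ax7a.a66 AFastfced9ax7a.a67 AFastfced9ax7a.a68
  AFastfced9ax7a.a69 AFastfced9ax7a.a70 AFastfced9ax7a.a71 AFastfced9ax7a.a72 AFastfced9ax7a.a73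
  AFastfced9ax7a.a74
namespace AFastfced9ax7b
theorem a0.{u1} {x1 : Type u1} [x2 : Field x1] {x3 : Subfield x1} : AddHomClass (Polynomial ↥x3 →ₐ[↥x3] x1) (Polynomial ↥x3) x1 := inferInstance
theorem a1.{u1} {x1 : Type u1} [x2 : Field x1] {x3 : Subfield x1} : LinearMapClass (Polynomial ↥x3 →ₐ[↥x3] x1) (↥x3) (Polynomial ↥x3) x1 := inferInstance
theorem a2.{u1} {x1 : Type u1} [x2 : Field x1] {x3 : Subfield x1} : IsScalarTower (↥x3) (↥x3) x1 := inferInstance
theorem a3.{u1} {x1 : Type u1} [x2 : Field x1] {x3 : ValuationSubring x1} : AddMonoidHomClass (↥x3 →+* IsLocalRing.ResidueField ↥x3) (↥x3) (IsLocalRing.ResidueField ↥x3) := inferInstance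
theorem a4.{u1} {x1 : Type u1} [x2 : Field x1] {x3 : ValuationSubring x1} : CovariantClass x3.ValueGroup x3.ValueGroup (Function.swap fun x1_1 x2_1 => x1_1 * x2_1) fun x1_1 x2_1 => x1_1 ≤ x2_1 := inferInstance
theorem a5.{u1, u2} {x1 : Type u1} {x2 : Type u2} [x3 : Field x1] [x4 : Field x2] : AddHomClass (x1 →+* x2) x1 x2 := inferInstance
@[reducible] def a6.{u1} {x1 : Type u1} [x2 : Field x1] {x3 : @Subfield x1 (@Field.toDivisionRing x1 x2)} {x4 : Finset x1} : @Algebra (↥x3) (↥(@IntermediateField.adjoin (↥x3) (@Subfield.toField x1 x2 x3) x1 x2 (@Subfield.toAlgebra x1 x2 x3) (@SetLike.coe (Finset x1) x1 (@Finset.instSetLike x1) x4))) (@Semifield.toCommSemiring (↥x3) (@Field.toSemifield (↥x3) (@Subfield.toField x1 x2 x3))) (@DivisionSemiring.toSemiring (↥(@IntermediateField.adjoin (↥x3) (@Subfield.toField x1 x2 x3) x1 x2 (@Subfield.toAlgebra x1 x2 x3) (@SetLike.coe (Finset x1) x1 (@Finset.instSetLike x1) x4))) (@Semifield.toDivisionSemiring (↥(@IntermediateField.adjoin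 (↥x3) (@Subfield.toField x1 x2 x3) x1 x2 (@Subfield.toAlgebra x1 x2 x3) (@SetLike.coe (Finset x1) x1 (@Finset.instSetLike x1) x4))) (@Field.toSemifield (↥(@IntermediateField.adjoin (↥x3) (@Subfield.toField x1 x2 x3) x1 x2 (@Subfield.toAlgebra x1 x2 x3) (@SetLike.coe (Finset x1) x1 (@Finset.instSetLike x1) x4))) (@IntermediateField.toField (↥x3) x1 (@Subfield.toField x1 x2 x3) x2 (@Subfield.toAlgebra x1 x2 x3) (@IntermediateField.adjoin (↥x3) (@Subfield.toField x1 x2 x3) x1 x2 (@Subfield.toAlgebra x1 x2 x3) (@SetLike.coe (Finset x1) x1 (@Finset.instSetLike x1) x4)))))) := inferInstance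
theorem a7.{u1, u2} {x1 : Type u1} {x2 : Type u2} [x3 : Field x1] [x4 : Field x2] : AddMonoidHomClass (x1 →+* x2) x1 x2 := inferInstance
@[reducible] noncomputable def a8.{u1, u2, u3} {x1 : Type u1} {x2 : Type u2} [x3 : Field x2] [x4 : Field x1] [x5 : Algebra x2 x1] {x6 : Type u3} : Algebra (↥(algebraicClosure x2 x1)) (AddMonoidAlgebra (↥(algebraicClosure x2 x1)) (x6 →₀ ℕ)) := inferInstance
theorem a9.{u1} {x1 : Type u1} [x2 : Field x1] {x3 : Subfield x1} {x4 : ℕ} [x5 : Fact (Nat.Prime x4)] [x6 : IsAlgClosed ↥x3] [x7 : CharZero x1] : HasEnoughRootsOfUnity (↥x3) x4 := inferInstance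
end AFastfced9ax7b
attribute [local instance] AFastfced9ax7b.a0 AFastfced9ax7b.a1 AFastfced9ax7b.a2 AFastfced9ax7b.a3
  AFastfced9ax7b.a4 AFastfced9ax7b.a5 AFastfced9ax7b.a6 AFastfced9ax7b.a7 AFastfced9ax7b.a8
  AFastfced9ax7b.a9
attribute [local instance] O19.fr O19.tf O19.pj O19.fl

section

section

namespace Vale.Agent.P019

open scoped TensorProduct

section cl

variable (ℓ : ℕ) {F : Type*} [Field F]

/-- class map extended by `0` at `0`. -/
noncomputable def cl (z : F) : V ℓ F := by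
  classical exact if h : z = 0 then 0 else V.mk ℓ (Units.mk0 z h)

theorem cl_zero : cl ℓ (0 : F) = 0 := by simp [cl]

theorem cl_of_ne {z : F} (h : z ≠ 0) : cl ℓ z = V.mk ℓ (Units.mk0 z h) := by simp [cl, h]

theorem cl_unit (x : Fˣ) : cl ℓ (x : F) = V.mk ℓ x := by
  rw [cl_of_ne ℓ x.ne_zero]; simp

theorem mk_mul (x y : Fˣ) : V.mk ℓ (x * y) = V.mk ℓ x + V.mk ℓ y := rfl

theorem mk_one : V.mk ℓ (1 : Fˣ) = 0 := rfl

theorem mk_inv (x : Fˣ) : V.mk ℓ x⁻¹ = - V.mk ℓ x := rfl

theorem mk_surj (v : V ℓ F) : ∃ x : Fˣ, V.mk ℓ x = v := by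
  obtain ⟨y, rfl⟩ := Additive.ofMul.surjective v
  obtain ⟨z, rfl⟩ := QuotientGroup.mk_surjective y
  exact ⟨z, rfl⟩

theorem mk_eq_zero_iff (x : Fˣ) : V.mk ℓ x = 0 ↔ ∃ y : Fˣ, y ^ ℓ = x := by
  change Additive.ofMul (QuotientGroup.mk x : Fˣ ⧸ (powMonoidHom ℓ : Fˣ →* Fˣ).range) = 0 ↔ _
  rw [ofMul_eq_zero, QuotientGroup.eq_one_iff]
  rfl

theorem cl_one : cl ℓ (1 : F) = 0 := by
  rw [cl_of_ne ℓ one_ne_zero]; simp [mk_one]

theorem cl_mul {x y : F} (hx : x ≠ 0) (hy : y ≠ 0) : cl ℓ (x * y) = cl ℓ x + cl ℓ y := by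
  rw [cl_of_ne ℓ hx, cl_of_ne ℓ hy, cl_of_ne ℓ (mul_ne_zero hx hy), ← mk_mul]
  congr 1
  ext; simp

theorem cl_inv (x : F) : cl ℓ x⁻¹ = - cl ℓ x := by
  by_cases hx : x = 0
  · simp [hx, cl_zero]
  · rw [cl_of_ne ℓ hx, cl_of_ne ℓ (inv_ne_zero hx), ← mk_inv]
    congr 1
    ext; simp

theorem cl_div {x y : F} (hx : x ≠ 0) (hy : y ≠ 0) : cl ℓ (x / y) = cl ℓ x - cl ℓ y := by
  rw [div_eq_mul_inv, cl_mul ℓ hx (inv_ne_zero hy), cl_inv, sub_eq_add_neg]

theorem cl_pow (x : F) (n : ℕ) : cl ℓ (x ^ n) = n • cl ℓ x := by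
  by_cases hx : x = 0
  · subst hx
    rcases Nat.eq_zero_or_pos n with h | h
    · subst h; simp [cl_one]
    · rw [zero_pow h.ne', cl_zero]; simp
  · induction n with
    | zero => simp [cl_one]
    | succ n ih => rw [pow_succ, cl_mul ℓ (pow_ne_zero _ hx) hx, ih, succ_nsmul]

theorem cl_zpow (x : F) (n : ℤ) : cl ℓ (x ^ n) = n • cl ℓ x := by
  cases n with
  | ofNat n => simpa using cl_pow ℓ x n
  | negSucc n =>
    rw [zpow_negSucc, cl_inv, cl_pow, negSucc_zsmul]

theorem cl_surj (v : V ℓ F) : ∃ z : F, z ≠ 0 ∧ cl ℓ z = v := by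
  obtain ⟨x, rfl⟩ := mk_surj ℓ v
  exact ⟨x, x.ne_zero, cl_unit ℓ x⟩

theorem cl_eq_zero_iff {z : F} (hz : z ≠ 0) : cl ℓ z = 0 ↔ ∃ w : F, w ≠ 0 ∧ w ^ ℓ = z := by
  rw [cl_of_ne ℓ hz, mk_eq_zero_iff]
  constructor
  · rintro ⟨y, hy⟩
    refine ⟨y, y.ne_zero, ?_⟩
    have := congrArg (fun u : Fˣ => (u : F)) hy
    simpa using this
  · rintro ⟨w, hw, h⟩
    refine ⟨Units.mk0 w hw, ?_⟩
    ext; simpa using h

theorem cl_pow_self (x : F) : cl ℓ (x ^ ℓ) = 0 := by
  by_cases hx : x = 0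
  · subst hx
    rcases Nat.eq_zero_or_pos ℓ with h | h
    · subst h; simp [cl_one]
    · rw [zero_pow h.ne', cl_zero]
  · rw [cl_eq_zero_iff ℓ (pow_ne_zero _ hx)]
    exact ⟨x, hx, rfl⟩

theorem cl_eq_iff {x y : F} (hx : x ≠ 0) (hy : y ≠ 0) :
    cl ℓ x = cl ℓ y ↔ ∃ w : F, w ≠ 0 ∧ x = y * w ^ ℓ := by
  rw [← sub_eq_zero, ← cl_div ℓ hx hy, cl_eq_zero_iff ℓ (div_ne_zero hx hy)]
  constructor
  · rintro ⟨w, hw, h⟩
    exact ⟨w, hw, by rw [h]; field_simp⟩
  · rintro ⟨w, hw, h⟩
    exact ⟨w, hw, by rw [h]; field_simp⟩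

theorem cl_neg (h : ∃ i : F, i ^ ℓ = -1) (x : F) : cl ℓ (-x) = cl ℓ x := by
  by_cases hx : x = 0
  · simp [hx]
  · obtain ⟨i, hi⟩ := h
    have hi0 : (-1 : F) ≠ 0 := by simp
    have : (-x) = (-1) * x := by ring
    rw [this, cl_mul ℓ hi0 hx, ← hi, cl_pow_self, zero_add]

end cl

section lift

variable {ℓ : ℕ} {F : Type*} [Field F]

/-- A homomorphism `F^× → ZMod ℓ` induces a linear functional on `V`. -/
noncomputable def V.lift (φ : Fˣ →* Multiplicative (ZMod ℓ)) : V ℓ F →ₗ[ZMod ℓ] ZMod ℓ :=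
  AddMonoidHom.toZModLinearMap ℓ
    (MonoidHom.toAdditiveLeft
      (QuotientGroup.lift (powMonoidHom ℓ : Fˣ →* Fˣ).range φ (by
        rintro _ ⟨y, rfl⟩
        rw [MonoidHom.mem_ker, powMonoidHom_apply, map_pow]
        apply Multiplicative.toAdd.injective
        rw [toAdd_pow, toAdd_one, nsmul_eq_mul]
        simp)))

theorem V.lift_mk (φ : Fˣ →* Multiplicative (ZMod ℓ)) (x : Fˣ) :
    V.lift φ (V.mk ℓ x) = (φ x).toAdd := rfl

end lift

section orth

variable {ℓ : ℕ} {K L : Type*} [Field K] [Field L]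

/-- `u ⟂ w` : the product of `u` and `w` in `K_2/ℓ` vanishes. -/
def Orth (u w : V ℓ K) : Prop := u ⊗ₜ[ZMod ℓ] w ∈ R ℓ K

theorem Orth.add_left {u u' w : V ℓ K} (h : Orth u w) (h' : Orth u' w) : Orth (u + u') w := by
  unfold Orth at *
  rw [TensorProduct.add_tmul]; exact Submodule.add_mem _ h h'

theorem Orth.add_right {u w w' : V ℓ K} (h : Orth u w) (h' : Orth u w') : Orth u (w + w') := by
  unfold Orth at *
  rw [TensorProduct.tmul_add]; exact Submodule.add_mem _ h h'

theorem Orth.smul_left {u w : V ℓ K} (c : ZMod ℓ) (h : Orth u w) : Orth (c • u) w := by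
  unfold Orth at *
  rw [← TensorProduct.smul_tmul']; exact Submodule.smul_mem _ _ h

theorem Orth.smul_right {u w : V ℓ K} (c : ZMod ℓ) (h : Orth u w) : Orth u (c • w) := by
  unfold Orth at *
  rw [TensorProduct.tmul_smul]; exact Submodule.smul_mem _ _ h

theorem Orth.neg_left {u w : V ℓ K} (h : Orth u w) : Orth (-u) w := by
  unfold Orth at *
  rw [TensorProduct.neg_tmul]; exact Submodule.neg_mem _ h

theorem Orth.neg_right {u w : V ℓ K} (h : Orth u w) : Orth u (-w) := by
  unfold Orth at *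
  rw [TensorProduct.tmul_neg]; exact Submodule.neg_mem _ h

theorem Orth.sub_right {u w w' : V ℓ K} (h : Orth u w) (h' : Orth u w') : Orth u (w - w') := by
  rw [sub_eq_add_neg]; exact h.add_right h'.neg_right

theorem orth_zero_left (w : V ℓ K) : Orth 0 w := by
  unfold Orth; rw [TensorProduct.zero_tmul]; exact Submodule.zero_mem _

theorem orth_zero_right (w : V ℓ K) : Orth w 0 := by
  unfold Orth; rw [TensorProduct.tmul_zero]; exact Submodule.zero_mem _

/-- Steinberg relation. -/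
theorem orth_one_sub (x : K) : Orth (cl ℓ x) (cl ℓ (1 - x)) := by
  by_cases hx : x = 0
  · rw [hx, cl_zero]; exact orth_zero_left _
  by_cases hx1 : 1 - x = 0
  · rw [hx1, cl_zero]; exact orth_zero_right _
  · rw [cl_of_ne ℓ hx, cl_of_ne ℓ hx1]
    exact Submodule.subset_span ⟨_, _, by simp, rfl⟩

/-- A subspace is isotropic if all its pairs are orthogonal. -/
def Isotropic (U : Submodule (ZMod ℓ) (V ℓ K)) : Prop := ∀ u ∈ U, ∀ w ∈ U, Orth u w

theorem Compatible.symm {Θ : V ℓ K ≃ₗ[ZMod ℓ] V ℓ L} (h : Compatible Θ) :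
    Compatible Θ.symm := by
  unfold Compatible at *
  rw [← h, ← Submodule.map_comp, ← TensorProduct.map_comp]
  simp

theorem Compatible.orth {Θ : V ℓ K ≃ₗ[ZMod ℓ] V ℓ L} (h : Compatible Θ) {u w : V ℓ K}
    (huw : Orth u w) : Orth (Θ u) (Θ w) := by
  unfold Compatible Orth at *
  rw [← h]
  exact ⟨u ⊗ₜ w, huw, by simp⟩

end orth

section cpair

variable {ℓ : ℕ} {K L : Type*} [Field K] [Field L]

/-- `f, g` form a C-pair. -/
def CPair (f g : V ℓ K →ₗ[ZMod ℓ] ZMod ℓ) : Prop :=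
  ∀ x : K, f (cl ℓ x) * g (cl ℓ (1 - x)) = f (cl ℓ (1 - x)) * g (cl ℓ x)

/-- the alternating form `f ∧ g`. -/
noncomputable def wedge (f g : V ℓ K →ₗ[ZMod ℓ] ZMod ℓ) :
    V ℓ K ⊗[ZMod ℓ] V ℓ K →ₗ[ZMod ℓ] ZMod ℓ :=
  TensorProduct.lift ((LinearMap.mul (ZMod ℓ) (ZMod ℓ)).compl₁₂ f g) -
  TensorProduct.lift ((LinearMap.mul (ZMod ℓ) (ZMod ℓ)).compl₁₂ g f)

theorem wedge_tmul (f g : V ℓ K →ₗ[ZMod ℓ] ZMod ℓ) (u w : V ℓ K) :
    wedge f g (u ⊗ₜ w) = f u * g w - g u * f w := by
  simp [wedge]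

theorem cpair_iff (f g : V ℓ K →ₗ[ZMod ℓ] ZMod ℓ) :
    CPair f g ↔ ∀ t ∈ R ℓ K, wedge f g t = 0 := by
  constructor
  · intro h t ht
    have : R ℓ K ≤ LinearMap.ker (wedge f g) := by
      unfold R
      rw [Submodule.span_le]
      rintro _ ⟨x, y, hxy, rfl⟩
      have hy : (y : K) = 1 - x := by rw [← hxy]; ring
      have := h (x : K)
      rw [← hy, cl_unit, cl_unit] at this
      rw [SetLike.mem_coe, LinearMap.mem_ker, wedge_tmul, this]
      ring
    exact this ht
  · intro h x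
    have := h _ (orth_one_sub (ℓ := ℓ) x)
    rw [wedge_tmul, sub_eq_zero] at this
    rw [this]; ring

/-- the common kernel of all functionals forming a C-pair with `f`. -/
def H (f : V ℓ K →ₗ[ZMod ℓ] ZMod ℓ) : Submodule (ZMod ℓ) (V ℓ K) where
  carrier := {v | ∀ g : V ℓ K →ₗ[ZMod ℓ] ZMod ℓ, CPair f g → g v = 0}
  zero_mem' := by intro g _; simp
  add_mem' := by intro a b ha hb g hg; rw [map_add, ha g hg, hb g hg, add_zero]
  smul_mem' := by intro c a ha g hg; rw [map_smul, ha g hg, smul_zero]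

theorem CPair.self (f : V ℓ K →ₗ[ZMod ℓ] ZMod ℓ) : CPair f f := by
  intro x; ring

theorem H_le_ker (f : V ℓ K →ₗ[ZMod ℓ] ZMod ℓ) {v : V ℓ K} (hv : v ∈ H f) : f v = 0 :=
  hv f (CPair.self f)

theorem Compatible.cpair {Θ : V ℓ K ≃ₗ[ZMod ℓ] V ℓ L} (h : Compatible Θ)
    {f g : V ℓ L →ₗ[ZMod ℓ] ZMod ℓ} (hfg : CPair f g) :
    CPair (f ∘ₗ Θ.toLinearMap) (g ∘ₗ Θ.toLinearMap) := by
  intro x
  have h1 := h.orth (orth_one_sub (ℓ := ℓ) x)
  have := (cpair_iff f g).1 hfg _ h1
  rw [wedge_tmul, sub_eq_zero] at this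
  simp only [LinearMap.comp_apply, LinearEquiv.coe_coe]
  rw [this]; ring

theorem Compatible.mem_H {Θ : V ℓ K ≃ₗ[ZMod ℓ] V ℓ L} (h : Compatible Θ)
    {f : V ℓ L →ₗ[ZMod ℓ] ZMod ℓ} {v : V ℓ K} :
    Θ v ∈ H f ↔ v ∈ H (f ∘ₗ Θ.toLinearMap) := by
  constructor
  · intro hv g hg
    have h2 := h.symm.cpair hg
    have h3 : (f ∘ₗ Θ.toLinearMap) ∘ₗ Θ.symm.toLinearMap = f := by
      ext; simp
    rw [h3] at h2
    have := hv _ h2
    simpa using this
  · intro hv g hg
    exact hv _ (h.cpair hg)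

end cpair

end Vale.Agent.P019
end
end

section

section

namespace Vale.Agent.P019

open scoped TensorProduct

variable {ℓ : ℕ} {K : Type*} [Field K]

section U1

theorem val_one_add {O : ValuationSubring K} {m : K} (hm : O.valuation m < 1) :
    O.valuation (1 + m) = 1 := by
  exact Valuation.map_one_add_of_lt _ hm

theorem one_add_ne_zero {O : ValuationSubring K} {m : K} (hm : O.valuation m < 1) :
    1 + m ≠ 0 := by
  intro h
  have := val_one_add hm
  rw [h, map_zero] at this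
  exact zero_ne_one this

/-- the classes of `1 + m`, `m` in the maximal ideal of `O`. -/
noncomputable def U1 (ℓ : ℕ) (O : ValuationSubring K) : Submodule (ZMod ℓ) (V ℓ K) :=
  AddSubgroup.toZModSubmodule ℓ
  { carrier := {v | ∃ m : K, O.valuation m < 1 ∧ v = cl ℓ (1 + m)}
    zero_mem' := ⟨0, by simp, by simp [cl_one]⟩
    add_mem' := by
      rintro _ _ ⟨m, hm, rfl⟩ ⟨n, hn, rfl⟩
      refine ⟨m + n + m * n, ?_, ?_⟩
      · refine lt_of_le_of_lt (O.valuation.map_add _ _) (max_lt ?_ ?_)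
        · exact lt_of_le_of_lt (O.valuation.map_add _ _) (max_lt hm hn)
        · rw [map_mul]
          exact mul_lt_one_of_nonneg_of_lt_one_left zero_le hm hn.le
      · rw [← cl_mul ℓ (one_add_ne_zero hm) (one_add_ne_zero hn)]
        congr 1; ring
    neg_mem' := by
      rintro _ ⟨m, hm, rfl⟩
      refine ⟨-m / (1 + m), ?_, ?_⟩
      · rw [map_div₀, val_one_add hm, div_one, Valuation.map_neg]; exact hm
      · rw [← cl_inv]
        congr 1
        have := one_add_ne_zero hm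
        field_simp
        ring }

theorem mem_U1 {O : ValuationSubring K} {v : V ℓ K} :
    v ∈ U1 ℓ O ↔ ∃ m : K, O.valuation m < 1 ∧ v = cl ℓ (1 + m) := Iff.rfl

theorem cl_mem_U1 {O : ValuationSubring K} {m : K} (hm : O.valuation m < 1) :
    cl ℓ (1 + m) ∈ U1 ℓ O := ⟨m, hm, rfl⟩

/-- if `x ≡ y` modulo the maximal ideal and `y` is a unit then the classes agree modulo `U1`. -/
theorem cl_sub_cl_mem_U1 {O : ValuationSubring K} {x y : K} (hy : O.valuation y = 1)
    (hxy : O.valuation (x - y) < 1) : cl ℓ x - cl ℓ y ∈ U1 ℓ O := by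
  have hy0 : y ≠ 0 := by
    rintro rfl; rw [map_zero] at hy; exact zero_ne_one hy
  have hx : O.valuation x = 1 := by
    have : x = y + (x - y) := by ring
    rw [this, Valuation.map_add_eq_of_lt_left, hy]
    rwa [hy]
  have hx0 : x ≠ 0 := by
    rintro rfl; rw [map_zero] at hx; exact zero_ne_one hx
  refine ⟨(x - y) / y, ?_, ?_⟩
  · rw [map_div₀, hy, div_one]; exact hxy
  · rw [← cl_div ℓ hx0 hy0]
    congr 1
    field_simp
    ring

/-- the tame symbol relation on generators. -/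
theorem tame_gen (hneg : ∃ i : K, i ^ ℓ = -1) (O : ValuationSubring K)
    (f : V ℓ K →ₗ[ZMod ℓ] ZMod ℓ) (hf : ∀ z : K, O.valuation z = 1 → f (cl ℓ z) = 0)
    (x : K) : f (cl ℓ (1 - x)) • cl ℓ x - f (cl ℓ x) • cl ℓ (1 - x) ∈ U1 ℓ O := by
  by_cases hx0 : x = 0
  · subst hx0; simp [cl_zero, cl_one]
  by_cases hx1 : 1 - x = 0
  · rw [hx1, cl_zero]; simp
  rcases lt_trichotomy (O.valuation x) 1 with h | h | h
  · have h1 : O.valuation (1 - x) = 1 := by
      have := val_one_add (O := O) (m := -x) (by rwa [Valuation.map_neg])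
      rwa [← sub_eq_add_neg] at this
    rw [hf _ h1, zero_smul, zero_sub]
    refine Submodule.neg_mem _ (Submodule.smul_mem _ _ ?_)
    rw [sub_eq_add_neg]
    exact cl_mem_U1 (by rwa [Valuation.map_neg])
  · rw [hf _ h, zero_smul, sub_zero]
    have h1 : O.valuation (1 - x) ≤ 1 := by
      refine le_trans (O.valuation.map_sub _ _) ?_
      rw [map_one, h]; simp
    rcases h1.lt_or_eq with h2 | h2
    · refine Submodule.smul_mem _ _ ?_
      have : x = 1 + (-(1 - x)) := by ring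
      rw [this]
      exact cl_mem_U1 (by rwa [Valuation.map_neg])
    · rw [hf _ h2, zero_smul]; exact Submodule.zero_mem _
  · have hinv : O.valuation x⁻¹ < 1 := by
      rw [map_inv₀]; exact inv_lt_one_of_one_lt₀ h
    have e1 : (1 - x) = (-x) * (1 + -x⁻¹) := by field_simp; ring
    have hm : O.valuation (-x⁻¹) < 1 := by rwa [Valuation.map_neg]
    have e2 : cl ℓ (1 - x) = cl ℓ x + cl ℓ (1 + -x⁻¹) := by
      rw [e1, cl_mul ℓ (neg_ne_zero.2 hx0) (one_add_ne_zero hm), cl_neg ℓ hneg]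
    have e3 : f (cl ℓ (1 + -x⁻¹)) = 0 := hf _ (val_one_add hm)
    rw [e2, map_add, e3, add_zero, smul_add]
    have : f (cl ℓ x) • cl ℓ x - (f (cl ℓ x) • cl ℓ x + f (cl ℓ x) • cl ℓ (1 + -x⁻¹)) =
      -(f (cl ℓ x) • cl ℓ (1 + -x⁻¹)) := by abel
    rw [this]
    exact Submodule.neg_mem _ (Submodule.smul_mem _ _ (cl_mem_U1 hm))

/-- the tame symbol as a linear map. -/
noncomputable def tame (O : ValuationSubring K) (f : V ℓ K →ₗ[ZMod ℓ] ZMod ℓ) :
    V ℓ K ⊗[ZMod ℓ] V ℓ K →ₗ[ZMod ℓ] (V ℓ K ⧸ U1 ℓ O) :=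
  (U1 ℓ O).mkQ ∘ₗ
    (TensorProduct.lift ((LinearMap.lsmul (ZMod ℓ) (V ℓ K)).flip.compl₂ f) -
     TensorProduct.lift ((LinearMap.lsmul (ZMod ℓ) (V ℓ K)) ∘ₗ f))

theorem tame_tmul (O : ValuationSubring K) (f : V ℓ K →ₗ[ZMod ℓ] ZMod ℓ) (u w : V ℓ K) :
    tame O f (u ⊗ₜ w) = (U1 ℓ O).mkQ (f w • u - f u • w) := by
  simp [tame]

theorem tame_orth (hneg : ∃ i : K, i ^ ℓ = -1) (O : ValuationSubring K)
    (f : V ℓ K →ₗ[ZMod ℓ] ZMod ℓ) (hf : ∀ z : K, O.valuation z = 1 → f (cl ℓ z) = 0)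
    {u w : V ℓ K} (h : Orth u w) : f w • u - f u • w ∈ U1 ℓ O := by
  have key : R ℓ K ≤ LinearMap.ker (tame O f) := by
    unfold R
    rw [Submodule.span_le]
    rintro _ ⟨x, y, hxy, rfl⟩
    have hy : (y : K) = 1 - x := by rw [← hxy]; ring
    have := tame_gen hneg O f hf (x : K)
    rw [← hy, cl_unit, cl_unit] at this
    rw [SetLike.mem_coe, LinearMap.mem_ker, tame_tmul, Submodule.mkQ_apply,
      Submodule.Quotient.mk_eq_zero]
    exact this
  have := key h
  rw [LinearMap.mem_ker, tame_tmul, Submodule.mkQ_apply,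
      Submodule.Quotient.mk_eq_zero] at this
  exact this

theorem cpair_of_U1 (hneg : ∃ i : K, i ^ ℓ = -1) (O : ValuationSubring K)
    (f g : V ℓ K →ₗ[ZMod ℓ] ZMod ℓ) (hf : ∀ z : K, O.valuation z = 1 → f (cl ℓ z) = 0)
    (hg : ∀ v ∈ U1 ℓ O, g v = 0) : CPair f g := by
  intro x
  have := hg _ (tame_gen hneg O f hf x)
  rw [map_sub, map_smul, map_smul, smul_eq_mul, smul_eq_mul, sub_eq_zero] at this
  exact this.symm

theorem H_le_U1 [Fact ℓ.Prime] (hneg : ∃ i : K, i ^ ℓ = -1) (O : ValuationSubring K)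
    (f : V ℓ K →ₗ[ZMod ℓ] ZMod ℓ) (hf : ∀ z : K, O.valuation z = 1 → f (cl ℓ z) = 0) :
    H f ≤ U1 ℓ O := by
  intro v hv
  by_contra hvn
  obtain ⟨g, hg1, hg2⟩ := Submodule.exists_le_ker_of_notMem hvn
  exact hg1 (hv g (cpair_of_U1 hneg O f g hf (fun w hw => hg2 hw)))

end U1

section unif

/-- `π` is a uniformizer of the (discrete) valuation subring `O`. -/
structure IsUnif (O : ValuationSubring K) (π : K) : Prop where
  ne : π ≠ 0
  lt : O.valuation π < 1
  rep : ∀ z : K, z ≠ 0 → ∃ n : ℤ, O.valuation (z * π ^ n) = 1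

end unif

end Vale.Agent.P019
end
end

section

section

/-!
# Places and the unramified lemma
-/

namespace Vale.Agent.P019

open Polynomial

/-- A place of `F` with values in `C`. -/
structure Pl (F C : Type*) [Field F] [Field C] where
  O : ValuationSubring F
  ψ : O →+* C
  ker : ∀ x : O, ψ x = 0 ↔ O.valuation (x : F) < 1

namespace Pl

variable {F C : Type*} [Field F] [Field C] (P : Pl F C)

/-- evaluation, extended by zero. -/
noncomputable def ev (x : F) : C := by classical exact if h : x ∈ P.O then P.ψ ⟨x, h⟩ else 0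

theorem ev_of_mem {x : F} (h : x ∈ P.O) : P.ev x = P.ψ ⟨x, h⟩ := by simp [ev, h]

/-- units of the place. -/
def U (x : F) : Prop := x ∈ P.O ∧ P.ev x ≠ 0

theorem ev_zero : P.ev 0 = 0 := by
  rw [P.ev_of_mem P.O.zero_mem]; exact map_zero P.ψ

theorem ev_one : P.ev 1 = 1 := by
  rw [P.ev_of_mem P.O.one_mem]; exact map_one P.ψ

theorem ev_mul {x y : F} (hx : x ∈ P.O) (hy : y ∈ P.O) : P.ev (x * y) = P.ev x * P.ev y := by
  rw [P.ev_of_mem hx, P.ev_of_mem hy, P.ev_of_mem (P.O.mul_mem _ _ hx hy), ← map_mul]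
  rfl

theorem ev_add {x y : F} (hx : x ∈ P.O) (hy : y ∈ P.O) : P.ev (x + y) = P.ev x + P.ev y := by
  rw [P.ev_of_mem hx, P.ev_of_mem hy, P.ev_of_mem (P.O.add_mem _ _ hx hy), ← map_add]
  rfl

theorem ev_neg {x : F} (hx : x ∈ P.O) : P.ev (-x) = - P.ev x := by
  rw [P.ev_of_mem hx, P.ev_of_mem (P.O.neg_mem _ hx), ← map_neg]
  rfl

theorem ev_sub {x y : F} (hx : x ∈ P.O) (hy : y ∈ P.O) : P.ev (x - y) = P.ev x - P.ev y := by
  rw [sub_eq_add_neg, P.ev_add hx (P.O.neg_mem _ hy), P.ev_neg hy, sub_eq_add_neg]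

theorem ev_pow {x : F} (hx : x ∈ P.O) (n : ℕ) : P.ev (x ^ n) = P.ev x ^ n := by
  induction n with
  | zero => simp [ev_one]
  | succ n ih =>
    rw [pow_succ, pow_succ, P.ev_mul (pow_mem hx n) hx, ih]

theorem ev_eq_zero_iff {x : F} (hx : x ∈ P.O) : P.ev x = 0 ↔ P.O.valuation x < 1 := by
  rw [P.ev_of_mem hx, P.ker]

theorem mem_of_lt {x : F} (h : P.O.valuation x < 1) : x ∈ P.O :=
  (P.O.valuation_le_one_iff x).1 h.le

theorem ev_of_lt {x : F} (h : P.O.valuation x < 1) : P.ev x = 0 :=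
  (P.ev_eq_zero_iff (P.mem_of_lt h)).2 h

theorem U_iff {x : F} : P.U x ↔ P.O.valuation x = 1 := by
  constructor
  · rintro ⟨h, h'⟩
    rw [Ne, P.ev_eq_zero_iff h, not_lt] at h'
    exact le_antisymm ((P.O.valuation_le_one_iff x).2 h) h'
  · intro h
    have hx := (P.O.valuation_le_one_iff x).1 h.le
    refine ⟨hx, ?_⟩
    rw [Ne, P.ev_eq_zero_iff hx, h]
    exact lt_irrefl 1

theorem U.ne_zero {P : Pl F C} {x : F} (h : P.U x) : x ≠ 0 := by
  rintro rfl
  exact h.2 P.ev_zero

theorem U.mul {P : Pl F C} {x y : F} (h : P.U x) (h' : P.U y) : P.U (x * y) :=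
  ⟨P.O.mul_mem _ _ h.1 h'.1, by rw [P.ev_mul h.1 h'.1]; exact mul_ne_zero h.2 h'.2⟩

theorem U.inv_mem {P : Pl F C} {x : F} (h : P.U x) : x⁻¹ ∈ P.O := by
  rw [← P.O.valuation_le_one_iff, map_inv₀, P.U_iff.1 h, inv_one]

theorem U.ev_inv {P : Pl F C} {x : F} (h : P.U x) : P.ev x⁻¹ = (P.ev x)⁻¹ := by
  have h1 := P.ev_mul h.1 h.inv_mem
  rw [mul_inv_cancel₀ h.ne_zero, P.ev_one] at h1
  exact eq_inv_of_mul_eq_one_right h1.symm

theorem U.inv {P : Pl F C} {x : F} (h : P.U x) : P.U x⁻¹ :=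
  ⟨h.inv_mem, by rw [h.ev_inv]; exact inv_ne_zero h.2⟩

theorem U.pow {P : Pl F C} {x : F} (h : P.U x) (n : ℕ) : P.U (x ^ n) :=
  ⟨pow_mem h.1 n, by rw [P.ev_pow h.1]; exact pow_ne_zero n h.2⟩

theorem U.zpow {P : Pl F C} {x : F} (h : P.U x) (n : ℤ) : P.U (x ^ n) := by
  cases n with
  | ofNat n => simpa using h.pow n
  | negSucc n =>
    rw [zpow_negSucc]
    exact (h.pow _).inv

theorem U.div {P : Pl F C} {x y : F} (h : P.U x) (h' : P.U y) : P.U (x / y) := by
  rw [div_eq_mul_inv]; exact h.mul h'.inv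

theorem ev_div {x y : F} (hx : x ∈ P.O) (h' : P.U y) : P.ev (x / y) = P.ev x / P.ev y := by
  rw [div_eq_mul_inv, P.ev_mul hx h'.inv_mem, h'.ev_inv, div_eq_mul_inv]

theorem U_one : P.U 1 := ⟨P.O.one_mem, by rw [P.ev_one]; exact one_ne_zero⟩

end Pl

section unr

variable {K Ω : Type*} [Field K] [Field Ω]

/-- `P` is discrete on `F` with uniformizer `π` and residue field inside `κ`. -/
def Gd (P : Pl K Ω) (π : K) (κ : Subfield Ω) (F : Subfield K) : Prop :=
  ∀ z ∈ F, z ≠ 0 → ∃ n : ℤ, P.U (z * π ^ n) ∧ P.ev (z * π ^ n) ∈ κ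

variable {P : Pl K Ω} {π : K} {κ : Subfield Ω} {F : Subfield K}

/-- an element of `F` in the valuation ring is `π ^ n * unit` with `n` natural. -/
theorem Gd.nat (hπ : π ≠ 0) (hπO : π ∈ P.O) (hπ0 : P.ev π = 0) (hF : Gd P π κ F)
    {z : K} (hz : z ∈ F) (hz0 : z ≠ 0) (hzO : z ∈ P.O) :
    ∃ (n : ℕ) (u : K), z = π ^ n * u ∧ P.U u ∧ P.ev u ∈ κ := by
  obtain ⟨n, hn, hn'⟩ := hF z hz hz0
  have hn0 : n ≤ 0 := by
    by_contra hcon
    push Not at hcon
    obtain ⟨m, hm⟩ := Int.eq_ofNat_of_zero_le (a := n) (by omega)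
    rw [hm, zpow_natCast] at hn
    have h3 := hn.2
    rw [P.ev_mul hzO (pow_mem hπO m), P.ev_pow hπO, hπ0, zero_pow (by omega), mul_zero] at h3
    exact h3 rfl
  obtain ⟨m, hm⟩ := Int.eq_ofNat_of_zero_le (a := -n) (by omega)
  refine ⟨m, z * π ^ n, ?_, hn, hn'⟩
  have : n = -(m : ℤ) := by omega
  rw [this, zpow_neg, zpow_natCast]
  field_simp

theorem Gd.ev_mem (hπ : π ≠ 0) (hπO : π ∈ P.O) (hπ0 : P.ev π = 0) (hF : Gd P π κ F)
    {z : K} (hz : z ∈ F) (hzO : z ∈ P.O) : P.ev z ∈ κ := by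
  by_cases hz0 : z = 0
  · rw [hz0, P.ev_zero]; exact κ.zero_mem
  obtain ⟨n, u, rfl, hu, hu'⟩ := hF.nat hπ hπO hπ0 hz hz0 hzO
  rw [P.ev_mul (pow_mem hπO n) hu.1, P.ev_pow hπO, hπ0]
  rcases Nat.eq_zero_or_pos n with h | h
  · rw [h]; simpa using hu'
  · rw [zero_pow h.ne', zero_mul]; exact κ.zero_mem

theorem Gd.div_pi (hπ : π ≠ 0) (hπO : π ∈ P.O) (hπ0 : P.ev π = 0) (hπF : π ∈ F)
    (hF : Gd P π κ F) {z : K} (hz : z ∈ F) (hzO : z ∈ P.O) (hz0 : P.ev z = 0) :
    ∃ w ∈ F, w ∈ P.O ∧ z = π * w := by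
  by_cases h0 : z = 0
  · exact ⟨0, F.zero_mem, P.O.zero_mem, by rw [h0, mul_zero]⟩
  obtain ⟨n, u, he, hu, hu'⟩ := hF.nat hπ hπO hπ0 hz h0 hzO
  have hn : n ≠ 0 := by
    rintro rfl
    rw [he, pow_zero, one_mul] at hz0
    exact hu.2 hz0
  obtain ⟨m, rfl⟩ := Nat.exists_eq_succ_of_ne_zero hn
  refine ⟨π ^ m * u, ?_, P.O.mul_mem _ _ (pow_mem hπO m) hu.1, ?_⟩
  · have : π ^ m * u = z / π := by rw [he, pow_succ]; field_simp
    rw [this]; exact F.div_mem hz hπF
  · rw [he, pow_succ]; ring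

variable (P F) in
/-- the valuation ring of `F`. -/
def RF : Subring F := P.O.toSubring.comap (algebraMap F K)

theorem mem_RF {a : F} : a ∈ RF P F ↔ (a : K) ∈ P.O := Iff.rfl

variable (P F) in
/-- evaluation on the valuation ring of `F`. -/
noncomputable def evF : RF P F →+* Ω :=
  P.ψ.comp (RingHom.codRestrict ((algebraMap F K).comp (RF P F).subtype) P.O.toSubring
    (fun a => a.2))

theorem evF_apply (a : RF P F) : evF P F a = P.ev ((a : F) : K) := by
  rw [P.ev_of_mem (mem_RF.1 a.2)]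
  rfl

variable (P F) in
/-- polynomial evaluation at `θ`. -/
noncomputable def evθ (θ : K) : (RF P F)[X] →+* K :=
  Polynomial.eval₂RingHom ((algebraMap F K).comp (RF P F).subtype) θ

theorem evθ_mem {θ : K} (hθ : θ ∈ P.O) (G : (RF P F)[X]) : evθ P F θ G ∈ P.O := by
  have : evθ P F θ G = G.sum (fun n a => ((a : F) : K) * θ ^ n) := by
    change eval₂ _ θ G = _
    rw [eval₂_eq_sum]
    rfl
  rw [this]
  exact P.O.toSubring.sum_mem (fun n _ => P.O.mul_mem _ _ (mem_RF.1 (G.coeff n).2) (pow_mem hθ n))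

theorem ev_evθ {θ : K} (hθ : θ ∈ P.O) (G : (RF P F)[X]) :
    P.ev (evθ P F θ G) = (G.map (evF P F)).eval (P.ev θ) := by
  induction G using Polynomial.induction_on' with
  | add p q hp hq =>
    rw [map_add, P.ev_add (evθ_mem hθ p) (evθ_mem hθ q), hp, hq, Polynomial.map_add, eval_add]
  | monomial n a =>
    have h1 : evθ P F θ (monomial n a) = ((a : F) : K) * θ ^ n := by
      change eval₂ _ θ (monomial n a) = _
      rw [eval₂_monomial]
      rfl
    rw [h1, P.ev_mul (mem_RF.1 a.2) (pow_mem hθ n), P.ev_pow hθ, map_monomial, eval_monomial,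
      evF_apply]

/-- lifting: all coefficients of `G` reduce to zero implies `G = π * G'`. -/
theorem exists_pi_mul (hπ : π ≠ 0) (hπO : π ∈ P.O) (hπ0 : P.ev π = 0) (hπF : π ∈ F)
    (hF : Gd P π κ F) (G : (RF P F)[X]) (hG : G.map (evF P F) = 0) :
    ∃ G' : (RF P F)[X], G = C ⟨⟨π, hπF⟩, hπO⟩ * G' := by
  have h : ∀ n, ∃ w : RF P F, G.coeff n = ⟨⟨π, hπF⟩, hπO⟩ * w := by
    intro n
    have h1 : evF P F (G.coeff n) = 0 := by
      rw [← coeff_map, hG, coeff_zero]
    rw [evF_apply] at h1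
    obtain ⟨w, hw, hw', e⟩ := hF.div_pi hπ hπO hπ0 hπF (G.coeff n : F).2 (mem_RF.1 (G.coeff n).2) h1
    exact ⟨⟨⟨w, hw⟩, hw'⟩, Subtype.ext (Subtype.ext e)⟩
  exact (C_dvd_iff_dvd_coeff _ _).2 (fun n => ⟨(h n).choose, (h n).choose_spec⟩)

/-- every monic-type minimal choice. -/
theorem exists_min_poly (θ' : Ω) (Φ : (RF P F)[X]) (hmon : Φ.Monic)
    (hΦ : (Φ.map (evF P F)).eval θ' = 0) :
    ∃ g : (RF P F)[X], g.Monic ∧ (g.map (evF P F)).eval θ' = 0 ∧
      ∀ r : (RF P F)[X], r.degree < g.degree → (r.map (evF P F)).eval θ' = 0 →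
        r.map (evF P F) = 0 := by
  classical
  have hex : ∃ d : ℕ, ∃ g : (RF P F)[X], g.Monic ∧ (g.map (evF P F)).eval θ' = 0 ∧
      g.natDegree = d := ⟨_, Φ, hmon, hΦ, rfl⟩
  obtain ⟨g, hg1, hg2, hg3⟩ := Nat.find_spec hex
  refine ⟨g, hg1, hg2, ?_⟩
  intro r hr hr0
  by_contra hne
  -- leading unit coefficient
  set rb := r.map (evF P F) with hrb
  have hlead : rb.leadingCoeff ≠ 0 := leadingCoeff_ne_zero.2 hne
  set d := rb.natDegree with hd
  have hcd : evF P F (r.coeff d) ≠ 0 := by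
    rw [← coeff_map]; exact hlead
  rw [evF_apply] at hcd
  have hU : P.U ((r.coeff d : F) : K) := ⟨mem_RF.1 (r.coeff d).2, hcd⟩
  let c : RF P F := ⟨(r.coeff d : F)⁻¹, by rw [mem_RF]; simpa using hU.inv_mem⟩
  have hc : c * r.coeff d = 1 := by
    apply Subtype.ext; apply Subtype.ext
    change ((r.coeff d : F) : K)⁻¹ * ((r.coeff d : F) : K) = 1
    exact inv_mul_cancel₀ hU.ne_zero
  -- truncated polynomial
  let t : (RF P F)[X] := C c * (∑ i ∈ Finset.range d, monomial i (r.coeff i)) + X ^ d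
  have hdeg : (C c * (∑ i ∈ Finset.range d, monomial i (r.coeff i))).degree < (d : WithBot ℕ) := by
    refine lt_of_le_of_lt (degree_mul_le _ _) ?_
    have h1 : (∑ i ∈ Finset.range d, monomial i (r.coeff i)).degree < (d : WithBot ℕ) := by
      refine lt_of_le_of_lt (degree_sum_le _ _) ?_
      refine (Finset.sup_lt_iff (WithBot.bot_lt_coe d)).2 ?_
      intro i hi
      refine lt_of_le_of_lt (degree_monomial_le _ _) ?_
      exact WithBot.coe_lt_coe.2 (Finset.mem_range.1 hi)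
    refine lt_of_le_of_lt (add_le_add_left degree_C_le _) ?_
    rwa [zero_add]
  have htmon : t.Monic := monic_X_pow_add hdeg |> fun h => by
    rwa [add_comm] at h
  have htdeg : t.natDegree = d := by
    have : t.degree = d := by
      change (_ + X ^ d : (RF P F)[X]).degree = d
      rw [degree_add_eq_right_of_degree_lt]
      · exact degree_X_pow d
      · rw [degree_X_pow]; exact hdeg
    exact natDegree_eq_of_degree_eq_some this
  have hteval : (t.map (evF P F)).eval θ' = 0 := by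
    have h1 : t.map (evF P F) = C (evF P F c) * rb := by
      have h2 : rb = ∑ i ∈ Finset.range (d + 1), monomial i (rb.coeff i) :=
        rb.as_sum_range
      rw [h2, Finset.sum_range_succ]
      change (C c * (∑ i ∈ Finset.range d, monomial i (r.coeff i)) + X ^ d).map (evF P F) = _
      rw [Polynomial.map_add, Polynomial.map_mul, Polynomial.map_C, Polynomial.map_pow,
        Polynomial.map_X, Polynomial.map_sum, mul_add]
      refine congrArg₂ (· + ·) (congrArg (C (evF P F c) * ·) ?_) ?_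
      · refine Finset.sum_congr rfl fun i _ => ?_
        rw [map_monomial, hrb, coeff_map]
      · rw [C_mul_monomial, hrb, coeff_map, ← map_mul, hc, map_one, ← X_pow_eq_monomial]
    rw [h1, eval_mul, hr0, mul_zero]
  have hlt : d < Nat.find hex := by
    rw [← hg3]
    have h1 : d ≤ r.natDegree := natDegree_map_le
    have h2 : r ≠ 0 := by
      rintro rfl
      exact hne (by rw [hrb, Polynomial.map_zero])
    have h3 := natDegree_lt_natDegree h2 hr
    omega
  exact Nat.find_min hex hlt ⟨t, htmon, hteval, htdeg⟩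


theorem eval_mem_subfield (κ : Subfield Ω) (G : Polynomial Ω) (hG : ∀ i, G.coeff i ∈ κ) {x : Ω}
    (hx : x ∈ κ) : G.eval x ∈ κ := by
  rw [eval_eq_sum]
  exact κ.toSubring.sum_mem (fun n _ => κ.mul_mem (hG n) (pow_mem hx n))

/-- elements of a simple algebraic extension are polynomials in the generator. -/
theorem exists_aeval_of_mem_closure {θ : K} (hθ : IsIntegral F θ) {z : K}
    (hz : z ∈ Subfield.closure ((F : Set K) ∪ {θ})) : ∃ Q : F[X], aeval θ Q = z := by
  have h1 : Subfield.closure ((F : Set K) ∪ {θ}) ≤ (IntermediateField.adjoin F {θ}).toSubfield := by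
    rw [Subfield.closure_le]
    rintro x (hx | hx)
    · exact (IntermediateField.adjoin F {θ}).algebraMap_mem ⟨x, hx⟩
    · rw [Set.mem_singleton_iff] at hx
      rw [hx]
      exact IntermediateField.mem_adjoin_simple_self F θ
  have h2 : z ∈ (IntermediateField.adjoin F {θ}).toSubalgebra := h1 hz
  rw [IntermediateField.adjoin_simple_toSubalgebra_of_isAlgebraic hθ.isAlgebraic,
    Algebra.adjoin_singleton_eq_range_aeval] at h2
  obtain ⟨Q, hQ⟩ := h2
  exact ⟨Q, hQ⟩

theorem Gd.clear_one (hπO : π ∈ P.O) (hF : Gd P π κ F) (hπF : π ∈ F) {a : K} (ha : a ∈ F) :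
    ∃ N : ℕ, π ^ N * a ∈ P.O := by
  by_cases ha0 : a = 0
  · exact ⟨0, by rw [ha0, mul_zero]; exact P.O.zero_mem⟩
  obtain ⟨n, hn, -⟩ := hF a ha ha0
  rcases le_total 0 n with h | h
  · obtain ⟨m, rfl⟩ := Int.eq_ofNat_of_zero_le h
    refine ⟨m, ?_⟩
    rw [mul_comm, ← zpow_natCast]
    exact hn.1
  · refine ⟨0, ?_⟩
    by_cases hπ : π = 0
    · by_cases hn0 : n = 0
      · rw [hn0] at hn
        simpa using hn.1
      · rw [hπ, zero_zpow n hn0, mul_zero] at hn
        exact absurd rfl hn.ne_zero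
    · obtain ⟨m, hm⟩ := Int.eq_ofNat_of_zero_le (a := -n) (by omega)
      have e : π ^ 0 * a = (a * π ^ n) * π ^ m := by
        have : n = -(m : ℤ) := by omega
        rw [this, zpow_neg, zpow_natCast]
        field_simp
      rw [e]
      exact P.O.mul_mem _ _ hn.1 (pow_mem hπO m)

theorem evθ_C {θ : K} (a : RF P F) : evθ P F θ (Polynomial.C a) = ((a : F) : K) := by
  change eval₂ _ θ (Polynomial.C a) = _
  rw [eval₂_C]
  rfl

theorem Gd.clear (hπO : π ∈ P.O) (hF : Gd P π κ F) (hπF : π ∈ F) (θ : K) (Q : F[X]) :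
    ∃ (N : ℕ) (G : (RF P F)[X]), evθ P F θ G = π ^ N * aeval θ Q := by
  induction Q using Polynomial.induction_on' with
  | add p q hp hq =>
    obtain ⟨N, G, h⟩ := hp
    obtain ⟨M, H, h'⟩ := hq
    refine ⟨N + M, Polynomial.C ⟨⟨π, hπF⟩, hπO⟩ ^ M * G + Polynomial.C ⟨⟨π, hπF⟩, hπO⟩ ^ N * H, ?_⟩
    rw [map_add, map_mul, map_mul, map_pow, map_pow, evθ_C, h, h', map_add]
    change π ^ M * _ + π ^ N * _ = _
    ring
  | monomial n a =>
    obtain ⟨N, hN⟩ := hF.clear_one hπO hπF a.2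
    refine ⟨N, monomial n ⟨⟨π ^ N * a, F.mul_mem (pow_mem hπF N) a.2⟩, hN⟩, ?_⟩
    have h1 : evθ P F θ (monomial n ⟨⟨π ^ N * a, F.mul_mem (pow_mem hπF N) a.2⟩, hN⟩) =
        (π ^ N * a) * θ ^ n := by
      change eval₂ _ θ (monomial n _) = _
      rw [eval₂_monomial]
      rfl
    rw [h1, aeval_monomial]
    change _ = π ^ N * ((a : K) * θ ^ n)
    ring

/-- **Unramified lemma.** -/
theorem Gd.adjoin (hπ : π ≠ 0) (hπO : π ∈ P.O) (hπ0 : P.ev π = 0) (hπF : π ∈ F)
    (hF : Gd P π κ F) {θ : K} (hθ : θ ∈ P.O) (hθκ : P.ev θ ∈ κ)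
    (Φ : F[X]) (hmon : Φ.Monic) (hcoef : ∀ i, ((Φ.coeff i : F) : K) ∈ P.O)
    (hroot : aeval θ Φ = 0) (hder : P.U (aeval θ (derivative Φ))) :
    Gd P π κ (Subfield.closure (F ∪ {θ})) := by
  classical
  -- lift `Φ` to the valuation ring
  have hlift : Φ ∈ Polynomial.lifts (RF P F).subtype := by
    rw [Polynomial.lifts_iff_coeff_lifts]
    intro n
    exact ⟨⟨Φ.coeff n, hcoef n⟩, rfl⟩
  obtain ⟨Ψ, hΨ, -, hΨmon⟩ := Polynomial.lifts_and_degree_eq_and_monic hlift hmon
  have hev : ∀ G : (RF P F)[X], evθ P F θ G = aeval θ (G.map (RF P F).subtype) := by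
    intro G
    rw [aeval_def, eval₂_map]
    rfl
  have hevΨ : evθ P F θ Ψ = 0 := by rw [hev, hΨ, hroot]
  have hevΨ' : evθ P F θ (derivative Ψ) = aeval θ (derivative Φ) := by
    rw [hev, ← derivative_map, hΨ]
  have hΨ0 : (Ψ.map (evF P F)).eval (P.ev θ) = 0 := by
    rw [← ev_evθ hθ, hevΨ, P.ev_zero]
  obtain ⟨g, hgmon, hg0, hgmin⟩ := exists_min_poly (P.ev θ) Ψ hΨmon hΨ0
  set πR : RF P F := ⟨⟨π, hπF⟩, hπO⟩ with hπR
  have hEπ : evθ P F θ (Polynomial.C πR) = π := evθ_C _
  have hevg : P.ev (evθ P F θ g) = 0 := by rw [ev_evθ hθ, hg0]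
  have hdiv : ∀ G : (RF P F)[X], P.ev (evθ P F θ G) = 0 →
      ∃ s s' : (RF P F)[X], G = g * s + Polynomial.C πR * s' := by
    intro G hG
    have h1 := modByMonic_add_div G g
    have h2 : ((G %ₘ g).map (evF P F)).eval (P.ev θ) = 0 := by
      have h3 : G %ₘ g = G - g * (G /ₘ g) := by rw [eq_sub_iff_add_eq]; exact h1
      rw [h3, Polynomial.map_sub, Polynomial.map_mul, eval_sub, eval_mul, hg0, zero_mul, sub_zero,
        ← ev_evθ hθ, hG]
    have h4 := hgmin _ (degree_modByMonic_lt G hgmon) h2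
    obtain ⟨s', hs'⟩ := exists_pi_mul hπ hπO hπ0 hπF hF _ h4
    exact ⟨G /ₘ g, s', by rw [← hs', add_comm]; exact h1.symm⟩
  obtain ⟨h, e, hhe⟩ := hdiv Ψ (by rw [hevΨ, P.ev_zero])
  have hhO := evθ_mem (P := P) (F := F) hθ h
  have hh : P.ev (evθ P F θ h) ≠ 0 := by
    intro hh0
    apply hder.2
    have h1 : derivative Ψ = derivative g * h + g * derivative h +
        Polynomial.C πR * derivative e := by
      rw [hhe]
      simp only [derivative_add, derivative_mul, derivative_C, zero_mul, zero_add]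
    rw [← hevΨ', h1, map_add, map_add, map_mul, map_mul, map_mul, hEπ,
      P.ev_add (P.O.add_mem _ _ (P.O.mul_mem _ _ (evθ_mem hθ _) hhO)
        (P.O.mul_mem _ _ (evθ_mem hθ _) (evθ_mem hθ _))) (P.O.mul_mem _ _ hπO (evθ_mem hθ _)),
      P.ev_add (P.O.mul_mem _ _ (evθ_mem hθ _) hhO) (P.O.mul_mem _ _ (evθ_mem hθ _) (evθ_mem hθ _)),
      P.ev_mul (evθ_mem hθ _) hhO, P.ev_mul (evθ_mem hθ _) (evθ_mem hθ _),
      P.ev_mul hπO (evθ_mem hθ _), hh0, hevg, hπ0]
    simp
  have hhU : P.U (evθ P F θ h) := ⟨hhO, hh⟩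
  have hgh : evθ P F θ g * evθ P F θ h = - (π * evθ P F θ e) := by
    have h1 := hevΨ
    rw [hhe, map_add, map_mul, map_mul, hEπ] at h1
    linear_combination h1
  -- Step A
  have stepA : ∀ G : (RF P F)[X], P.ev (evθ P F θ G) = 0 →
      ∃ G₁ : (RF P F)[X], evθ P F θ G * evθ P F θ h = π * evθ P F θ G₁ := by
    intro G hG
    obtain ⟨s, s', rfl⟩ := hdiv G hG
    refine ⟨s' * h - e * s, ?_⟩
    rw [map_add, map_mul, map_mul, map_sub, map_mul, map_mul, hEπ]
    linear_combination (evθ P F θ s) * hgh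
  -- `θ` is integral
  have hint : IsIntegral F θ := ⟨Φ, hmon, hroot⟩
  -- Step B
  have stepB : ∀ G : (RF P F)[X], evθ P F θ G ≠ 0 →
      ∃ (n : ℕ) (G' : (RF P F)[X]), P.ev (evθ P F θ G') ≠ 0 ∧
        evθ P F θ G * evθ P F θ h ^ n = π ^ n * evθ P F θ G' := by
    intro G hG
    by_contra hcon
    push Not at hcon
    have hall : ∀ n : ℕ, ∃ G' : (RF P F)[X],
        evθ P F θ G * evθ P F θ h ^ n = π ^ n * evθ P F θ G' := by
      intro n
      induction n with
      | zero => exact ⟨G, by simp⟩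
      | succ n ih =>
        obtain ⟨G', hG'⟩ := ih
        have h0 : P.ev (evθ P F θ G') = 0 := by
          by_contra hne
          exact hcon n G' hne hG'
        obtain ⟨G₁, hG₁⟩ := stepA G' h0
        refine ⟨G₁, ?_⟩
        rw [pow_succ, pow_succ]
        linear_combination (evθ P F θ h) * hG' + π ^ n * hG₁
    -- inverse of `y`
    have hmem : (evθ P F θ G)⁻¹ ∈ Subfield.closure ((F : Set K) ∪ {θ}) := by
      apply Subfield.inv_mem
      rw [hev, aeval_eq_sum_range]
      refine Subfield.sum_mem _ (fun i _ => ?_)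
      rw [Algebra.smul_def]
      refine Subfield.mul_mem _ ?_ (pow_mem ?_ i)
      · exact Subfield.subset_closure (Or.inl (SetLike.coe_mem _))
      · exact Subfield.subset_closure (Or.inr rfl)
    obtain ⟨Q, hQ⟩ := exists_aeval_of_mem_closure hint hmem
    obtain ⟨N, G', hG'⟩ := hF.clear hπO hπF θ Q
    rw [hQ] at hG'
    obtain ⟨G'', hG''⟩ := hall (N + 1)
    have key : evθ P F θ h ^ (N + 1) = π * (evθ P F θ G'' * evθ P F θ G') := by
      have hπN : π ^ N ≠ 0 := pow_ne_zero N hπ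
      have e1 : evθ P F θ G * evθ P F θ G' = π ^ N := by
        rw [hG']; field_simp
      have e2 : π ^ N * evθ P F θ h ^ (N + 1) = π ^ N * (π * (evθ P F θ G'' * evθ P F θ G')) := by
        rw [← e1]
        linear_combination (evθ P F θ G') * hG'' - (π * evθ P F θ G'' * evθ P F θ G') * e1
      exact mul_left_cancel₀ hπN e2
    have h1 := (hhU.pow (N + 1)).2
    rw [key, P.ev_mul hπO (P.O.mul_mem _ _ (evθ_mem hθ _) (evθ_mem hθ _)), hπ0, zero_mul] at h1
    exact h1 rfl
  -- residues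
  have hκ : ∀ G : (RF P F)[X], P.ev (evθ P F θ G) ∈ κ := by
    intro G
    rw [ev_evθ hθ]
    refine eval_mem_subfield κ _ (fun i => ?_) hθκ
    rw [coeff_map, evF_apply]
    exact hF.ev_mem hπ hπO hπ0 (G.coeff i : F).2 (mem_RF.1 (G.coeff i).2)
  intro z hz hz0
  obtain ⟨Q, rfl⟩ := exists_aeval_of_mem_closure hint hz
  obtain ⟨N, G, hG⟩ := hF.clear hπO hπF θ Q
  have hG0 : evθ P F θ G ≠ 0 := by
    rw [hG]; exact mul_ne_zero (pow_ne_zero N hπ) hz0
  obtain ⟨n, G', hG'0, hG'⟩ := stepB G hG0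
  have hU : P.U (evθ P F θ G') := ⟨evθ_mem hθ _, hG'0⟩
  have e1 : aeval θ Q * π ^ ((N : ℤ) - n) = evθ P F θ G' / evθ P F θ h ^ n := by
    have hn : π ^ n ≠ 0 := pow_ne_zero n hπ
    have hhn : evθ P F θ h ^ n ≠ 0 := (hhU.pow n).ne_zero
    rw [zpow_sub₀ hπ, zpow_natCast, zpow_natCast]
    rw [hG] at hG'
    field_simp
    linear_combination hG'
  refine ⟨(N : ℤ) - n, ?_, ?_⟩
  · rw [e1]; exact hU.div (hhU.pow n)
  · rw [e1, P.ev_div hU.1 (hhU.pow n), P.ev_pow hhO]
    exact κ.div_mem (hκ _) (pow_mem (hκ _) n)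

end unr

end Vale.Agent.P019
end
end
namespace AFastfced9ax975a
@[reducible] def a0.{u1, u2} {x1 : Type u1} [x2 : Field x1] {x3 : Subfield x1} {x4 : Type u2} [x5 : Field x4] {x6 : Vale.Agent.P019.Pl x1 x4} : Semiring ↥(Vale.Agent.P019.RF x6 x3) := inferInstance
@[reducible] def a1.{u1, u2} {x1 : Type u1} [x2 : Field x1] {x3 : Subfield x1} {x4 : Type u2} [x5 : Field x4] {x6 : Vale.Agent.P019.Pl x1 x4} : NonAssocSemiring ↥(Vale.Agent.P019.RF x6 x3) := inferInstance
@[reducible] def a2.{u1, u2} {x1 : Type u1} [x2 : Field x1] {x3 : Subfield x1} {x4 : Type u2} [x5 : Field x4] {x6 : Vale.Agent.P019.Pl x1 x4} : CommSemiring ↥(Vale.Agent.P019.RF x6 x3) := inferInstance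
@[reducible] def a3.{u1, u2} {x1 : Type u1} [x2 : Field x1] {x3 : Subfield x1} {x4 : Type u2} [x5 : Field x4] {x6 : Vale.Agent.P019.Pl x1 x4} : AddCommMonoid ↥(Vale.Agent.P019.RF x6 x3) := inferInstance
end AFastfced9ax975a
attribute [local instance] AFastfced9ax975a.a0 AFastfced9ax975a.a1 AFastfced9ax975a.a2
  AFastfced9ax975a.a3
namespace AFastfced9ax975b
theorem a0.{u1, u2} {x1 : Type u1} [x2 : Field x1] {x3 : Subfield x1} {x4 : Type u2} [x5 : Field x4] {x6 : Vale.Agent.P019.Pl x1 x4} : AddHomClass (Polynomial ↥(Vale.Agent.P019.RF x6 x3) →+* x1) (Polynomial ↥(Vale.Agent.P019.RF x6 x3)) x1 := inferInstance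
theorem a1.{u1, u2} {x1 : Type u1} [x2 : Field x1] {x3 : Subfield x1} {x4 : Type u2} [x5 : Field x4] {x6 : Vale.Agent.P019.Pl x1 x4} : AddMonoidHomClass (Polynomial ↥(Vale.Agent.P019.RF x6 x3) →+* x1) (Polynomial ↥(Vale.Agent.P019.RF x6 x3)) x1 := inferInstance
end AFastfced9ax975b
attribute [local instance] AFastfced9ax975b.a0 AFastfced9ax975b.a1

section

section

/-!
# Finiteness of the kernel of `V_F → V_L` for finitely generated extensions
-/

namespace Vale.Agent.P019

set_option linter.style.haveILetI false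

open IntermediateField

section

variable {F L : Type*} [Field F] [Field L] [Algebra F L]

/-- linear independence over `F` of algebraic elements persists over `F(x)`, `x` algebraically
independent. -/
theorem linearIndependent_adjoin {ι : Type*} {x : ι → L} (hx : AlgebraicIndependent F x) {n : ℕ}
    {w : Fin n → L} (hw : ∀ i, IsAlgebraic F (w i)) (hli : LinearIndependent F w) :
    LinearIndependent (adjoin F (Set.range x)) w := by
  classical
  open IntermediateField.algebraAdjoinAdjoin in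
  refine (LinearIndependent.iff_fractionRing (Algebra.adjoin F (Set.range x))
    (adjoin F (Set.range x))).1 ?_
  rw [Fintype.linearIndependent_iff]
  intro a ha
  have hxE : AlgebraicIndependent (algebraicClosure F L) x := hx.algebraicClosure
  have hp : ∀ i, ∃ p : MvPolynomial ι F, MvPolynomial.aeval x p = (a i : L) := by
    intro i
    have h0 : ∀ y : L, y ∈ Algebra.adjoin F (Set.range x) → ∃ p : MvPolynomial ι F,
        MvPolynomial.aeval x p = y := by
      intro y hy
      rw [Algebra.adjoin_range_eq_range_aeval] at hy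
      exact hy
    exact h0 _ (a i).2
  choose p hp using hp
  let wE : Fin n → algebraicClosure F L := fun i => ⟨w i, mem_algebraicClosure_iff.2 (hw i)⟩
  let q : MvPolynomial ι (algebraicClosure F L) :=
    ∑ i, MvPolynomial.C (wE i) * MvPolynomial.map (algebraMap F (algebraicClosure F L)) (p i)
  have hq : MvPolynomial.aeval x q = 0 := by
    rw [map_sum, ← ha]
    refine Finset.sum_congr rfl (fun i _ => ?_)
    rw [map_mul, MvPolynomial.aeval_C, MvPolynomial.aeval_map_algebraMap, hp, Algebra.smul_def,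
      mul_comm]
    rfl
  have hq0 : q = 0 := (algebraicIndependent_iff.1 hxE) q hq
  intro i
  have hpi : p i = 0 := by
    ext m
    have h1 : ∑ j, (algebraMap F (algebraicClosure F L) ((p j).coeff m)) * wE j = 0 := by
      have h2 := congrArg (MvPolynomial.coeff m) hq0
      rw [MvPolynomial.coeff_sum, MvPolynomial.coeff_zero] at h2
      rw [← h2]
      refine Finset.sum_congr rfl (fun j _ => ?_)
      rw [MvPolynomial.coeff_C_mul, MvPolynomial.coeff_map, mul_comm]
    have h3 : ∑ j, ((p j).coeff m) • w j = 0 := by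
      have h4 := congrArg (fun z : algebraicClosure F L => (z : L)) h1
      simp only [AddSubmonoidClass.coe_finsetSum, MulMemClass.coe_mul, ZeroMemClass.coe_zero] at h4
      rw [← h4]
      refine Finset.sum_congr rfl (fun j _ => ?_)
      rw [Algebra.smul_def]
      rfl
    rw [Fintype.linearIndependent_iff] at hli
    rw [hli _ h3 i, MvPolynomial.coeff_zero]
  have h5 := hp i
  rw [hpi, map_zero] at h5
  exact Subtype.ext h5.symm

/-- `ℓ`-th roots of pairwise inequivalent elements are linearly independent. -/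
theorem linearIndependent_roots [CharZero F] (ℓ : ℕ) [Fact ℓ.Prime] (ζ : F)
    (hζ : IsPrimitiveRoot ζ ℓ) {n : ℕ} {w : Fin n → L} (hw0 : ∀ i, w i ≠ 0)
    (hw : ∀ i, ∃ a : F, w i ^ ℓ = algebraMap F L a)
    (hne : ∀ i j, i ≠ j → ¬ ∃ y : F, w i = w j * algebraMap F L y) :
    LinearIndependent F w := by
  classical
  haveI : NeZero ℓ := ⟨(Fact.out : ℓ.Prime).ne_zero⟩
  have halg : ∀ i, IsAlgebraic F (w i) := by
    intro i
    obtain ⟨a, ha⟩ := hw i
    refine (IsAlgebraic.of_pow (Fact.out : ℓ.Prime).pos ?_)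
    rw [ha]
    exact isAlgebraic_algebraMap a
  let E := algebraicClosure F L
  let Ω := AlgebraicClosure F
  haveI : Algebra.IsAlgebraic F E := algebraicClosure.isAlgebraic F L
  let j : E →ₐ[F] Ω := IsAlgClosed.lift
  haveI : CharZero Ω := charZero_of_injective_algebraMap (algebraMap F Ω).injective
  haveI : IsGalois F Ω := ⟨⟩
  let wE : Fin n → E := fun i => ⟨w i, mem_algebraicClosure_iff.2 (halg i)⟩
  let v : Fin n → Ω := fun i => j (wE i)
  have hv0 : ∀ i, v i ≠ 0 := by
    intro i h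
    have : wE i = 0 := (map_eq_zero j).1 h
    exact hw0 i (congrArg Subtype.val this)
  have hvl : ∀ i, ∃ a : F, v i ^ ℓ = algebraMap F Ω a := by
    intro i
    obtain ⟨a, ha⟩ := hw i
    refine ⟨a, ?_⟩
    have h1 : wE i ^ ℓ = algebraMap F E a := Subtype.ext ha
    change j (wE i) ^ ℓ = _
    rw [← map_pow, h1, AlgHom.commutes]
  have hchar : ∀ (i : Fin n) (σ : Ω ≃ₐ[F] Ω), ∃ c : F, σ (v i) = algebraMap F Ω c * v i := by
    intro i σ
    obtain ⟨a, ha⟩ := hvl i
    have h1 : (σ (v i) / v i) ^ ℓ = 1 := by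
      rw [div_pow, ← map_pow, ha, AlgEquiv.commutes]
      refine div_self ?_
      rw [← ha]; exact pow_ne_zero _ (hv0 i)
    have hζ' : IsPrimitiveRoot (algebraMap F Ω ζ) ℓ :=
      hζ.map_of_injective (algebraMap F Ω).injective
    obtain ⟨m, -, hm⟩ := hζ'.eq_pow_of_pow_eq_one h1
    refine ⟨ζ ^ m, ?_⟩
    rw [map_pow, hm, div_mul_cancel₀ _ (hv0 i)]
  let χ : Fin n → ((Ω ≃ₐ[F] Ω) →* Ω) := fun i =>
    { toFun := fun σ => σ (v i) / v i
      map_one' := by rw [AlgEquiv.one_apply, div_self (hv0 i)]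
      map_mul' := by
        intro σ τ
        obtain ⟨c, hc⟩ := hchar i τ
        rw [AlgEquiv.mul_apply, hc, map_mul, AlgEquiv.commutes, mul_div_assoc, mul_comm,
          mul_div_assoc, div_self (hv0 i), mul_one] }
  have hχ : Function.Injective χ := by
    intro i i' h
    by_contra hii
    have h1 : ∀ σ : Ω ≃ₐ[F] Ω, σ (v i / v i') = v i / v i' := by
      intro σ
      have h2 : σ (v i) / v i = σ (v i') / v i' := DFunLike.congr_fun h σ
      have h3 := hv0 i
      have h4 := hv0 i'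
      have h5 : σ (v i') ≠ 0 := (map_ne_zero σ).2 h4
      rw [map_div₀, div_eq_div_iff h5 h4]
      rw [div_eq_div_iff h3 h4] at h2
      rw [h2]; ring
    obtain ⟨y, hy⟩ := (InfiniteGalois.mem_range_algebraMap_iff_fixed _).2 h1
    apply hne i i' hii
    refine ⟨y, ?_⟩
    have h6 : j (wE i) = j (wE i' * algebraMap F E y) := by
      rw [map_mul, AlgHom.commutes, hy]
      have h4 := hv0 i'
      change v i = v i' * (v i / v i')
      rw [mul_div_cancel₀ _ h4]
    have h7 := j.injective h6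
    exact congrArg Subtype.val h7
  have hli := (linearIndependent_monoidHom (Ω ≃ₐ[F] Ω) Ω).comp χ hχ
  rw [Fintype.linearIndependent_iff] at hli ⊢
  intro c hc i
  have h1 : ∑ i, (algebraMap F Ω (c i) * v i) • (fun f : (Ω ≃ₐ[F] Ω) →* Ω => (f : (Ω ≃ₐ[F] Ω) → Ω))
      (χ i) = 0 := by
    funext σ
    rw [Finset.sum_apply, Pi.zero_apply]
    have h2 : ∑ i, c i • w i = 0 := hc
    have h3 : ∑ i, algebraMap F Ω (c i) * v i = 0 := by
      have h4 : ∑ i, c i • wE i = 0 := by
        apply Subtype.ext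
        rw [AddSubmonoidClass.coe_finsetSum]
        exact h2
      have h5 := congrArg j h4
      rw [map_sum, map_zero] at h5
      rw [← h5]
      refine Finset.sum_congr rfl (fun i _ => ?_)
      rw [Algebra.smul_def, map_mul, AlgHom.commutes]
    have h6 := congrArg σ h3
    rw [map_sum, map_zero] at h6
    rw [← h6]
    refine Finset.sum_congr rfl (fun i _ => ?_)
    rw [map_mul, AlgEquiv.commutes]
    change (algebraMap F Ω (c i) * v i) * (σ (v i) / v i) = _
    rw [mul_assoc, mul_div_cancel₀ _ (hv0 i)]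
  have h7 := hli (fun i => algebraMap F Ω (c i) * v i) h1 i
  have h8 : algebraMap F Ω (c i) = 0 := (mul_eq_zero.1 h7).resolve_right (hv0 i)
  exact (map_eq_zero _).1 h8

/-- **Finite kernel.** -/
theorem finite_kernel [CharZero F] [Algebra.EssFiniteType F L] (ℓ : ℕ) [Fact ℓ.Prime] (ζ : F)
    (hζ : IsPrimitiveRoot ζ ℓ) :
    ∃ N : ℕ, ∀ x : Fin (N + 1) → F, (∀ i, x i ≠ 0 ∧ ∃ w : L, w ^ ℓ = algebraMap F L (x i)) →
      ∃ i j, i ≠ j ∧ ∃ y : F, y ≠ 0 ∧ x i = x j * y ^ ℓ := by
  classical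
  obtain ⟨S, hS⟩ := exists_isTranscendenceBasis F L
  haveI : Algebra.IsAlgebraic (adjoin F (Set.range ((↑) : S → L))) L := hS.isAlgebraic_field
  haveI : Algebra.EssFiniteType (adjoin F (Set.range ((↑) : S → L))) L :=
    Algebra.EssFiniteType.of_comp F _ L
  haveI : Module.Finite (adjoin F (Set.range ((↑) : S → L))) L :=
    Algebra.finite_of_essFiniteType_of_isAlgebraic
  refine ⟨Module.finrank (adjoin F (Set.range ((↑) : S → L))) L, ?_⟩
  intro x hx
  by_contra hcon
  push Not at hcon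
  choose hx0 w hw using hx
  have hℓ : ℓ ≠ 0 := (Fact.out : ℓ.Prime).ne_zero
  have hw0 : ∀ i, w i ≠ 0 := by
    intro i h
    have := hw i
    rw [h, zero_pow hℓ] at this
    exact hx0 i ((map_eq_zero _).1 this.symm)
  have h1 : LinearIndependent F w := by
    refine linearIndependent_roots ℓ ζ hζ hw0 (fun i => ⟨x i, hw i⟩) ?_
    rintro i j hij ⟨y, hy⟩
    have hy0 : y ≠ 0 := by
      rintro rfl
      rw [map_zero, mul_zero] at hy
      exact hw0 i hy
    refine hcon i j hij y hy0 ?_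
    apply (algebraMap F L).injective
    rw [← hw i, hy, mul_pow, hw j, map_mul, map_pow]
  have h2 := linearIndependent_adjoin hS.1 (fun i => by
    refine (IsAlgebraic.of_pow (Fact.out : ℓ.Prime).pos ?_)
    rw [hw i]
    exact isAlgebraic_algebraMap (x i)) h1
  have h3 := h2.fintype_card_le_finrank
  rw [Fintype.card_fin] at h3
  omega

end

end Vale.Agent.P019
end
end

section

section

/-!
# Subfields, relative algebraic closures, constants, models
-/

namespace Vale.Agent.P019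

set_option linter.style.haveILetI false

open Polynomial

section rac

variable {K : Type*} [Field K]

/-- relative algebraic closure of a subfield in the ambient field. -/
def rac (E : Subfield K) : Subfield K := (algebraicClosure E K).toSubfield

theorem mem_rac {E : Subfield K} {z : K} : z ∈ rac E ↔ IsAlgebraic E z := by
  change z ∈ algebraicClosure E K ↔ _
  exact mem_algebraicClosure_iff

/-- the subfield `E(t)`. -/
def adj (E : Subfield K) (t : K) : Subfield K := E ⊔ Subfield.closure {t}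

theorem le_adj (E : Subfield K) (t : K) : E ≤ adj E t := le_sup_left

theorem mem_adj (E : Subfield K) (t : K) : t ∈ adj E t :=
  (le_sup_right : Subfield.closure {t} ≤ adj E t) (Subfield.subset_closure rfl)

theorem adj_le {E F : Subfield K} {t : K} (h : E ≤ F) (ht : t ∈ F) : adj E t ≤ F :=
  sup_le h (Subfield.closure_le.2 (by rintro _ rfl; exact ht))

theorem adj_mono {E F : Subfield K} (h : E ≤ F) (t : K) : adj E t ≤ adj F t :=
  adj_le (h.trans (le_adj F t)) (mem_adj F t)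

theorem isAlgebraic_mono {E F : Subfield K} (h : E ≤ F) {z : K} (hz : IsAlgebraic E z) :
    IsAlgebraic F z := by
  obtain ⟨Q, hQ0, hQ⟩ := hz
  refine ⟨Q.map (Subfield.inclusion h), ?_, ?_⟩
  · rw [Ne, Polynomial.map_eq_zero_iff (RingHom.injective _)]; exact hQ0
  · rw [aeval_def, eval₂_map]; exact hQ

theorem rac_mono {E F : Subfield K} (h : E ≤ F) : rac E ≤ rac F := fun _ hz =>
  mem_rac.2 (isAlgebraic_mono h (mem_rac.1 hz))

theorem isAlgebraic_of_mem {E : Subfield K} {z : K} (hz : z ∈ E) : IsAlgebraic E z :=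
  isAlgebraic_algebraMap (⟨z, hz⟩ : E)

theorem le_rac (E : Subfield K) : E ≤ rac E := fun _ hz => mem_rac.2 (isAlgebraic_of_mem hz)

/-- `E` is relatively algebraically closed in the ambient field. -/
def RAC (E : Subfield K) : Prop := ∀ z, IsAlgebraic E z → z ∈ E

theorem RAC.le {E F : Subfield K} (hF : RAC F) (h : E ≤ F) : rac E ≤ F := fun _ hz =>
  hF _ (isAlgebraic_mono h (mem_rac.1 hz))

/-- transitivity of algebraicity. -/
theorem isAlgebraic_trans {E F : Subfield K} (h : E ≤ F) (hF : ∀ z ∈ F, IsAlgebraic E z) {z : K}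
    (hz : IsAlgebraic F z) : IsAlgebraic E z := by
  letI : Algebra E F := (Subfield.inclusion h).toAlgebra
  haveI : IsScalarTower E F K := IsScalarTower.of_algebraMap_eq (fun _ => rfl)
  haveI : Algebra.IsAlgebraic E F := ⟨fun x => by
    have h1 := hF x.1 x.2
    rw [← isAlgebraic_algebraMap_iff (R := E) (A := K) (algebraMap F K).injective]
    exact h1⟩
  exact hz.restrictScalars E

theorem isAlgebraic_rac {E : Subfield K} {z : K} (hz : IsAlgebraic (rac E) z) :
    IsAlgebraic E z :=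
  isAlgebraic_trans (le_rac E) (fun _ h => mem_rac.1 h) hz

theorem RAC_rac (E : Subfield K) : RAC (rac E) := fun _ hz => mem_rac.2 (isAlgebraic_rac hz)

/-- algebraically closed fields are relatively algebraically closed. -/
theorem RAC_of_isAlgClosed (E : Subfield K) (hE : IsAlgClosed E) : RAC E := by
  intro z hz
  have h1 : IsIntegral E z := hz.isIntegral
  obtain ⟨c, hc⟩ := IsAlgClosed.exists_root (minpoly E z)
    (fun h => (minpoly.degree_pos h1).ne' h)
  have h2 : minpoly E z = X - C c := by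
    have h3 := minpoly.irreducible h1
    have h4 : (X - C c) ∣ minpoly E z := dvd_iff_isRoot.2 hc
    exact eq_of_monic_of_dvd_of_natDegree_le (monic_X_sub_C c) (minpoly.monic h1) h4 (by
      rw [natDegree_X_sub_C]
      have h6 := degree_eq_one_of_irreducible_of_root h3 hc
      exact (natDegree_eq_of_degree_eq_some h6).le)
  have h3 := minpoly.aeval E z
  rw [h2, map_sub, aeval_X, aeval_C, sub_eq_zero] at h3
  rw [h3]
  exact c.2

/-- a relatively algebraically closed subfield of an algebraically closed subfield. -/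
theorem isAlgClosed_of_RAC {E k : Subfield K} (hk : IsAlgClosed k) (hE : RAC E) (h : E ≤ k) :
    IsAlgClosed E := by
  apply IsAlgClosed.of_exists_root
  intro p hp hirr
  obtain ⟨c, hc⟩ := IsAlgClosed.exists_root (p.map (Subfield.inclusion h)) (by
    rw [degree_map]
    exact (degree_pos_of_irreducible hirr).ne')
  have h1 : aeval (c : K) p = 0 := by
    have h2 := congrArg (algebraMap k K) (hc : eval c _ = 0)
    rw [eval_map, map_zero] at h2
    rw [← h2, aeval_def, hom_eval₂]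
    rfl
  have h2 : (c : K) ∈ E := hE _ ⟨p, hirr.ne_zero, h1⟩
  refine ⟨⟨c, h2⟩, ?_⟩
  apply (algebraMap E K).injective
  rw [map_zero, ← h1]
  change _ = aeval (algebraMap E K ⟨c, h2⟩) p
  rw [aeval_algebraMap_apply, coe_aeval_eq_eval]

end rac

section VS

variable (ℓ : ℕ) {K : Type*} [Field K]

/-- the subspace of `V` given by the classes of the elements of a subfield. -/
noncomputable def VS (E : Subfield K) : Submodule (ZMod ℓ) (V ℓ K) :=
  AddSubgroup.toZModSubmodule ℓ
  { carrier := {v | ∃ x ∈ E, x ≠ 0 ∧ v = cl ℓ x}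
    zero_mem' := ⟨1, E.one_mem, one_ne_zero, (cl_one ℓ).symm⟩
    add_mem' := by
      rintro _ _ ⟨x, hx, hx0, rfl⟩ ⟨y, hy, hy0, rfl⟩
      exact ⟨x * y, E.mul_mem hx hy, mul_ne_zero hx0 hy0, (cl_mul ℓ hx0 hy0).symm⟩
    neg_mem' := by
      rintro _ ⟨x, hx, hx0, rfl⟩
      exact ⟨x⁻¹, E.inv_mem hx, inv_ne_zero hx0, (cl_inv ℓ x).symm⟩ }

variable {ℓ}

theorem mem_VS {E : Subfield K} {v : V ℓ K} :
    v ∈ VS ℓ E ↔ ∃ x ∈ E, x ≠ 0 ∧ v = cl ℓ x := Iff.rfl

theorem cl_mem_VS {E : Subfield K} {x : K} (hx : x ∈ E) : cl ℓ x ∈ VS ℓ E := by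
  by_cases h : x = 0
  · rw [h, cl_zero]; exact Submodule.zero_mem _
  · exact ⟨x, hx, h, rfl⟩

theorem VS_mono {E F : Subfield K} (h : E ≤ F) : VS ℓ E ≤ VS ℓ F := by
  rintro _ ⟨x, hx, _, rfl⟩
  exact cl_mem_VS (h hx)

theorem cl_ne_zero_mem_VS {E : Subfield K} {x : K} (hx : x ≠ 0) :
    cl ℓ x ∈ VS ℓ E ↔ ∃ e ∈ E, e ≠ 0 ∧ ∃ w : K, w ≠ 0 ∧ x = e * w ^ ℓ := by
  constructor
  · rintro ⟨e, he, he0, h⟩
    obtain ⟨w, hw, h'⟩ := (cl_eq_iff ℓ hx he0).1 h
    exact ⟨e, he, he0, w, hw, h'⟩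
  · rintro ⟨e, he, he0, w, hw, h'⟩
    exact ⟨e, he, he0, (cl_eq_iff ℓ hx he0).2 ⟨w, hw, h'⟩⟩

end VS

section FG

variable {K : Type*} [Field K]

/-- `Λ` is a finitely generated field extension of `E`. -/
def FG (E Λ : Subfield K) : Prop := ∃ S : Finset K, Λ = E ⊔ Subfield.closure (S : Set K)

/-- `t` is a non-constant with `k(t)` relatively algebraically closed. -/
def Good (k : Subfield K) (t : K) : Prop := t ∉ k ∧ RAC (adj k t)

end FG

/-- A model of a function field of transcendence degree at least two over an algebraically closed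
field of constants. -/
structure Mdl (K : Type*) [Field K] where
  k : Subfield K
  k0 : Subfield K
  K0 : Subfield K
  le_k : k0 ≤ k
  le_K0 : k0 ≤ K0
  ack : IsAlgClosed k
  ack0 : IsAlgClosed k0
  sup : K0 ⊔ k = ⊤
  ctb : (K0 : Set K).Countable
  fg : FG k0 K0
  free : ∀ N : Subfield K, RAC N → k0 ≤ N → N ≤ k →
    ∀ a ∈ k, IsAlgebraic (K0 ⊔ N : Subfield K) a → a ∈ N
  x : K
  y : K
  hx : x ∈ K0
  hy : y ∈ K0
  hxk : x ∉ k
  hyx : ¬ IsAlgebraic (adj k x) y

namespace Mdl

variable {K : Type*} [Field K] (M : Mdl K)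

/-- the function field over smaller constants. -/
def F (N : Subfield K) : Subfield K := M.K0 ⊔ N

/-- algebraically closed subfields of the constants. -/
structure Sub (N : Subfield K) : Prop where
  rac : RAC N
  ge : M.k0 ≤ N
  le : N ≤ M.k

variable {M}

theorem F_mono {N N' : Subfield K} (h : N ≤ N') : M.F N ≤ M.F N' := sup_le_sup_left h _

theorem RAC_k (M : Mdl K) : RAC M.k := RAC_of_isAlgClosed _ M.ack

theorem sub_rac {N : Subfield K} (h0 : M.k0 ≤ N) (h : N ≤ M.k) : M.Sub (rac N) :=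
  ⟨RAC_rac N, h0.trans (le_rac N), M.RAC_k.le h⟩

end Mdl

end Vale.Agent.P019
end
end
namespace AFastfced9ax1417a
@[reducible] def a0.{u1} {x1 : Type u1} [x2 : Field x1] {x3 : Subfield x1} {x4 : x1} : CommRing ↥(Vale.Agent.P019.adj x3 x4) := inferInstance
end AFastfced9ax1417a
attribute [local instance] AFastfced9ax1417a.a0

section

section

namespace Vale.Agent.P019

open Polynomial IntermediateField

section Unr

variable {F L : Type*} [Field F] [Field L] [Algebra F L]

/-- all coefficients are integral at `W`. -/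
def IntCoeff (W : ValuationSubring L) (G : F[X]) : Prop := ∀ i, algebraMap F L (G.coeff i) ∈ W

theorem IntCoeff.add {W : ValuationSubring L} {G H : F[X]} (hG : IntCoeff W G)
    (hH : IntCoeff W H) : IntCoeff W (G + H) := by
  intro i
  rw [coeff_add, map_add]
  exact add_mem (hG _) (hH _)

theorem IntCoeff.one {W : ValuationSubring L} : IntCoeff W (1 : F[X]) := by
  intro i
  rw [coeff_one]
  split_ifs
  · rw [map_one]; exact one_mem _
  · rw [map_zero]; exact zero_mem _

/-- an element integral over the valuation ring is in the valuation ring -/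
theorem mem_of_root {W : ValuationSubring L} {θ : L} {Φ : F[X]} (hmon : Φ.Monic)
    (hint : IntCoeff W Φ) (hroot : aeval θ Φ = 0) : θ ∈ W := by
  by_contra hθ
  have h1 : 1 < W.valuation θ := by
    rw [← not_le]; intro h; exact hθ ((W.valuation_le_one_iff θ).1 h)
  have hθ0 : W.valuation θ ≠ 0 := fun h => by rw [h] at h1; exact absurd h1 (by simp)
  set n := Φ.natDegree with hn
  have hn0 : 0 < n := by
    rcases Nat.eq_zero_or_pos n with h | h
    · have : Φ = 1 := (Polynomial.Monic.natDegree_eq_zero hmon).1 (hn ▸ h)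
      rw [this] at hroot; simp at hroot
    · exact h
  have key : θ ^ n = - ∑ i ∈ Finset.range n, algebraMap F L (Φ.coeff i) * θ ^ i := by
    have := hroot
    rw [aeval_eq_sum_range, Finset.sum_range_succ, ← hn] at this
    have hc : Φ.coeff n = 1 := hmon
    rw [hc, one_smul] at this
    rw [eq_neg_iff_add_eq_zero, add_comm]
    simpa [Algebra.smul_def] using this
  have hlt : W.valuation (∑ i ∈ Finset.range n, algebraMap F L (Φ.coeff i) * θ ^ i)
      < W.valuation θ ^ n := by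
    refine Valuation.map_sum_lt _ (pow_ne_zero _ hθ0) fun i hi => ?_
    rw [map_mul, map_pow]
    calc _ ≤ 1 * W.valuation θ ^ i := by
            gcongr; exact (W.valuation_le_one_iff _).2 (hint i)
      _ = W.valuation θ ^ i := one_mul _
      _ < _ := pow_lt_pow_right₀ h1 (Finset.mem_range.1 hi)
  have h3 := congrArg W.valuation key
  rw [map_pow, Valuation.map_neg] at h3
  rw [← h3] at hlt
  exact lt_irrefl _ hlt

theorem aeval_mem {W : ValuationSubring L} {θ : L} (hθ : θ ∈ W) {G : F[X]}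
    (hG : IntCoeff W G) : aeval θ G ∈ W := by
  rw [aeval_eq_sum_range]
  refine sum_mem fun i _ => ?_
  rw [Algebra.smul_def]
  exact mul_mem (hG i) (pow_mem hθ i)

theorem small_dvd {R : Type*} [CommRing R] (i : R →+* L) (W : ValuationSubring L)
    (hi : ∀ a, i a ∈ W) (hu : ∀ a, W.valuation (i a) = 1 → IsUnit a) (π : R)
    (hπ : ∀ a, W.valuation (i a) < 1 → π ∣ a) (θ : L) (hθ : θ ∈ W) (n : ℕ)
    (hn : ∀ g : R[X], g.Monic → g.natDegree < n → ¬ W.valuation (eval₂ i θ g) < 1) :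
    ∀ m : ℕ, ∀ r : R[X], r.natDegree ≤ m → r.natDegree < n → W.valuation (eval₂ i θ r) < 1 →
      C π ∣ r := by
  have hθ1 : W.valuation θ ≤ 1 := (W.valuation_le_one_iff _).2 hθ
  intro m
  induction m with
  | zero =>
    intro r hr _ hv
    have : r = C (r.coeff 0) := eq_C_of_natDegree_le_zero hr
    rw [this, eval₂_C] at hv
    rw [this]
    obtain ⟨c, hc⟩ := hπ _ hv
    exact ⟨C c, by rw [hc, C_mul]⟩
  | succ m ih =>
    intro r hr hrn hv
    by_cases hr0 : r = 0
    · rw [hr0]; exact dvd_zero _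
    have hlc : W.valuation (i r.leadingCoeff) < 1 := by
      by_contra hcon
      have h1 : W.valuation (i r.leadingCoeff) = 1 :=
        le_antisymm ((W.valuation_le_one_iff _).2 (hi _)) (not_lt.1 hcon)
      obtain ⟨u, hu'⟩ := hu _ h1
      have hmon : (C (↑u⁻¹ : R) * r).Monic := by
        rw [Monic, leadingCoeff_mul']
        · rw [leadingCoeff_C, ← hu', Units.inv_mul]
        · rw [leadingCoeff_C, ← hu', Units.inv_mul]
          intro h10
          apply hr0
          have : (1 : R[X]) = 0 := by rw [← C_1, h10, C_0]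
          rw [← one_mul r, this, zero_mul]
      have hdeg : (C (↑u⁻¹ : R) * r).natDegree ≤ r.natDegree := natDegree_C_mul_le _ _
      refine hn _ hmon (lt_of_le_of_lt hdeg hrn) ?_
      rw [eval₂_mul, map_mul]
      exact lt_of_le_of_lt (mul_le_of_le_one_left' (by
        rw [eval₂_C]; exact (W.valuation_le_one_iff _).2 (hi _))) hv
    have hlead : W.valuation (eval₂ i θ (C r.leadingCoeff * X ^ r.natDegree)) < 1 := by
      rw [eval₂_mul, eval₂_C, eval₂_X_pow, map_mul, map_pow]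
      exact lt_of_le_of_lt (mul_le_of_le_one_right' (pow_le_one₀ zero_le hθ1)) hlc
    have herase : W.valuation (eval₂ i θ r.eraseLead) < 1 := by
      have : r.eraseLead = r - C r.leadingCoeff * X ^ r.natDegree := by
        rw [eq_sub_iff_add_eq, eraseLead_add_C_mul_X_pow]
      rw [this, eval₂_sub]
      exact Valuation.map_sub_lt _ hv hlead
    have hd : C π ∣ r.eraseLead := by
      by_cases he : r.natDegree = 0
      · have : r.eraseLead = 0 := by
          rw [eq_C_of_natDegree_eq_zero he]; simp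
        rw [this]; exact dvd_zero _
      · have h1 : r.eraseLead.natDegree ≤ r.natDegree - 1 := eraseLead_natDegree_le r
        exact ih _ (by omega) (by omega) herase
    obtain ⟨c, hc⟩ := hπ _ hlc
    rw [← eraseLead_add_C_mul_X_pow r]
    refine dvd_add hd ?_
    rw [hc, C_mul, mul_assoc]
    exact dvd_mul_right _ _

theorem stepA {R : Type*} [CommRing R] (i : R →+* L) (W : ValuationSubring L)
    (hi : ∀ a, i a ∈ W) (hu : ∀ a, W.valuation (i a) = 1 → IsUnit a) (π : R)
    (hπ1 : W.valuation (i π) < 1)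
    (hπ : ∀ a, W.valuation (i a) < 1 → π ∣ a) (θ : L) (hθ : θ ∈ W) (Φ : R[X]) (hmon : Φ.Monic)
    (hroot : eval₂ i θ Φ = 0) (hder : W.valuation (eval₂ i θ (derivative Φ)) = 1) (G : R[X])
    (hG : W.valuation (eval₂ i θ G) < 1) :
    ∃ G₂ h : R[X], W.valuation (eval₂ i θ h) = 1 ∧
      eval₂ i θ G * eval₂ i θ h = i π * eval₂ i θ G₂ := by
  classical
  have hev : ∀ P : R[X], W.valuation (eval₂ i θ P) ≤ 1 := by
    intro P
    rw [W.valuation_le_one_iff, eval₂_eq_sum_range]
    exact sum_mem fun j _ => mul_mem (hi _) (pow_mem hθ _)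
  have hex : ∃ n : ℕ, ∃ g : R[X], g.Monic ∧ g.natDegree = n ∧ W.valuation (eval₂ i θ g) < 1 :=
    ⟨_, Φ, hmon, rfl, by rw [hroot, map_zero]; exact zero_lt_one⟩
  obtain ⟨g, hg, hgn, hgv⟩ := Nat.find_spec hex
  have hmin : ∀ g' : R[X], g'.Monic → g'.natDegree < Nat.find hex →
      ¬ W.valuation (eval₂ i θ g') < 1 := fun g' h1 h2 h3 => Nat.find_min hex h2 ⟨g', h1, rfl, h3⟩
  rcases subsingleton_or_nontrivial R with hR | hR
  · exfalso
    have : (i 1 : L) = i 0 := by rw [Subsingleton.elim (1 : R) 0]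
    rw [map_one, map_zero] at this
    exact one_ne_zero this
  have hg1 : g ≠ 1 := by
    rintro rfl
    rw [eval₂_one, map_one] at hgv
    exact lt_irrefl _ hgv
  have key : ∀ P : R[X], W.valuation (eval₂ i θ P) < 1 →
      ∃ s' : R[X], P = g * (P /ₘ g) + C π * s' := by
    intro P hP
    have h1 := modByMonic_add_div P g
    have h2 : W.valuation (eval₂ i θ (P %ₘ g)) < 1 := by
      have : P %ₘ g = P - g * (P /ₘ g) := by rw [eq_sub_iff_add_eq, h1]
      rw [this, eval₂_sub, eval₂_mul]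
      refine Valuation.map_sub_lt _ hP ?_
      rw [map_mul]
      exact lt_of_le_of_lt (mul_le_of_le_one_right' (hev _)) hgv
    have h3 : (P %ₘ g).natDegree < Nat.find hex := by
      rw [← hgn]; exact natDegree_modByMonic_lt P hg hg1
    obtain ⟨s', hs'⟩ := small_dvd i W hi hu π hπ θ hθ _ hmin _ _ le_rfl h3 h2
    exact ⟨s', by rw [← hs', add_comm, h1]⟩
  obtain ⟨e, he⟩ := key Φ (by rw [hroot, map_zero]; exact zero_lt_one)
  obtain ⟨s', hs'⟩ := key G hG
  set h := Φ /ₘ g with hh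
  refine ⟨s' * h - e * (G /ₘ g), h, ?_, ?_⟩
  · have hd : eval₂ i θ (derivative Φ) = eval₂ i θ (derivative g) * eval₂ i θ h +
        (eval₂ i θ g * eval₂ i θ (derivative h) + i π * eval₂ i θ (derivative e)) := by
      conv_lhs => rw [he]
      simp only [derivative_add, derivative_mul, derivative_C, eval₂_add, eval₂_mul, eval₂_C,
        zero_mul, zero_add]
      ring
    have hsm : W.valuation (eval₂ i θ g * eval₂ i θ (derivative h) +
        i π * eval₂ i θ (derivative e)) < 1 := by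
      refine Valuation.map_add_lt _ ?_ ?_
      · rw [map_mul]
        exact lt_of_le_of_lt (mul_le_of_le_one_right' (hev _)) hgv
      · rw [map_mul]
        exact lt_of_le_of_lt (mul_le_of_le_one_right' (hev _)) hπ1
    by_contra hne
    have hlt : W.valuation (eval₂ i θ h) < 1 := lt_of_le_of_ne (hev _) hne
    have : W.valuation (eval₂ i θ (derivative Φ)) < 1 := by
      rw [hd]
      refine Valuation.map_add_lt _ ?_ hsm
      rw [map_mul]
      exact lt_of_le_of_lt (mul_le_of_le_one_left' (hev _)) hlt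
    rw [hder] at this
    exact lt_irrefl _ this
  · have h1 : eval₂ i θ G = eval₂ i θ g * eval₂ i θ (G /ₘ g) + i π * eval₂ i θ s' := by
      conv_lhs => rw [hs']
      simp only [eval₂_add, eval₂_mul, eval₂_C]
    have h2 : eval₂ i θ g * eval₂ i θ h = - (i π * eval₂ i θ e) := by
      have : eval₂ i θ Φ = eval₂ i θ g * eval₂ i θ h + i π * eval₂ i θ e := by
        conv_lhs => rw [he]
        simp only [eval₂_add, eval₂_mul, eval₂_C]
      rw [hroot] at this
      rw [eq_neg_iff_add_eq_zero, ← this]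
    simp only [eval₂_sub, eval₂_mul]
    rw [h1]
    linear_combination (eval₂ i θ (G /ₘ g)) * h2

theorem exists_clear (W : ValuationSubring L) (π : F)
    (hπ : W.valuation (algebraMap F L π) < 1)
    (hF : ∀ z : F, z ≠ 0 → ∃ n : ℤ, W.valuation (algebraMap F L (z * π ^ n)) = 1) (P : F[X]) :
    ∃ M : ℕ, ∀ j, M ≤ j → IntCoeff W (C (π ^ j) * P) := by
  have hone : ∀ a : F, ∃ M : ℕ, ∀ j, M ≤ j → algebraMap F L (π ^ j * a) ∈ W := by
    intro a
    by_cases ha : a = 0
    · exact ⟨0, fun j _ => by rw [ha, mul_zero, map_zero]; exact zero_mem _⟩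
    obtain ⟨n, hn⟩ := hF a ha
    refine ⟨n.toNat, fun j hj => ?_⟩
    by_cases hπ0 : π = 0
    · by_cases hj0 : j = 0
      · subst hj0
        have hn0 : n ≤ 0 := by
          have : n.toNat = 0 := by omega
          omega
        rcases hn0.lt_or_eq with h | h
        · rw [hπ0, zero_zpow _ h.ne, mul_zero, map_zero, map_zero] at hn
          exact absurd hn zero_ne_one
        · rw [h, zpow_zero, mul_one] at hn
          rw [pow_zero, one_mul, ← W.valuation_le_one_iff, hn]
      · rw [hπ0, zero_pow hj0, zero_mul, map_zero]; exact zero_mem _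
    · have h1 : π ^ j * a = (a * π ^ n) * π ^ (j - n.toNat) * π ^ (n.toNat - n).toNat := by
        have h2 : π ^ j * a = a * (π ^ n * π ^ ((j : ℤ) - n)) := by
          rw [← zpow_add₀ hπ0]
          have : n + ((j : ℤ) - n) = j := by ring
          rw [this, zpow_natCast, mul_comm]
        rw [h2, ← mul_assoc, mul_assoc (a * π ^ n)]
        congr 1
        rw [← pow_add, ← zpow_natCast]
        congr 1
        push_cast
        omega
      rw [h1, map_mul, map_mul, map_pow, map_pow, ← W.valuation_le_one_iff, map_mul, map_mul, hn,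
        map_pow, map_pow, one_mul]
      exact mul_le_one' (pow_le_one₀ zero_le hπ.le) (pow_le_one₀ zero_le hπ.le)
  induction P using Polynomial.induction_on' with
  | add P Q hP hQ =>
    obtain ⟨M, hM⟩ := hP
    obtain ⟨N, hN⟩ := hQ
    refine ⟨max M N, fun j hj => ?_⟩
    rw [mul_add]
    exact (hM j (le_trans (le_max_left _ _) hj)).add (hN j (le_trans (le_max_right _ _) hj))
  | monomial m a =>
    obtain ⟨M, hM⟩ := hone a
    refine ⟨M, fun j hj i => ?_⟩
    rw [C_mul_monomial, coeff_monomial]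
    split_ifs
    · exact hM j hj
    · rw [map_zero]; exact zero_mem _

/-- the unramified lemma, including the description of the residues: if `θ` is integral over
`F ∩ W` and `Φ'(θ)` is a unit at `W`, every `z ≠ 0` in `F(θ)` is a power of `π` times a unit, and
the unit is a quotient of polynomials in `θ` with integral coefficients which are units. -/
theorem unr_core (W : ValuationSubring L) (π : F)
    (hπ0 : π ≠ 0) (hπ : W.valuation (algebraMap F L π) < 1)
    (hF : ∀ z : F, z ≠ 0 → ∃ n : ℤ, W.valuation (algebraMap F L (z * π ^ n)) = 1)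
    (θ : L) (Φ : F[X]) (hmon : Φ.Monic) (hint : IntCoeff W Φ)
    (hroot : aeval θ Φ = 0) (hder : W.valuation (aeval θ (derivative Φ)) = 1)
    (z : L) (hz : z ∈ F⟮θ⟯) (hz0 : z ≠ 0) :
    ∃ (n : ℤ) (G H : F[X]), IntCoeff W G ∧ IntCoeff W H ∧ W.valuation (aeval θ H) = 1 ∧
      W.valuation (aeval θ G) = 1 ∧ z * algebraMap F L π ^ n * aeval θ H = aeval θ G := by
  classical
  have hθ : θ ∈ W := mem_of_root hmon hint hroot
  have hπL0 : algebraMap F L π ≠ 0 := by
    rw [Ne, map_eq_zero]; exact hπ0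
  have hWπ0 : W.valuation (algebraMap F L π) ≠ 0 := (Valuation.ne_zero_iff _).2 hπL0
  have hWπpos : 0 < W.valuation (algebraMap F L π) := zero_lt_iff.2 hWπ0
  set R := W.comap (algebraMap F L) with hR
  let i : R →+* L := (algebraMap F L).comp R.subtype
  have hi : ∀ a : R, i a ∈ W := fun a => a.2
  have hiπ : algebraMap F L π ∈ W := (W.valuation_le_one_iff _).1 hπ.le
  let π' : R := ⟨π, hiπ⟩
  have hu : ∀ a : R, W.valuation (i a) = 1 → IsUnit a := by
    intro a ha
    have ha0 : (a : F) ≠ 0 := by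
      intro h
      have : i a = 0 := by change algebraMap F L (a : F) = 0; rw [h, map_zero]
      rw [this, map_zero] at ha; exact zero_ne_one ha
    have hinv : algebraMap F L (a : F)⁻¹ ∈ W := by
      rw [map_inv₀, ← W.valuation_le_one_iff, map_inv₀]
      have : W.valuation (algebraMap F L (a : F)) = 1 := ha
      rw [this, inv_one]
    refine IsUnit.of_mul_eq_one (⟨(a : F)⁻¹, hinv⟩ : R) ?_
    ext
    exact mul_inv_cancel₀ ha0
  have hdvd : ∀ a : R, W.valuation (i a) < 1 → π' ∣ a := by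
    intro a ha
    by_cases ha0 : (a : F) = 0
    · have : a = 0 := by ext; exact ha0
      rw [this]; exact dvd_zero _
    obtain ⟨n, hn⟩ := hF _ ha0
    have hn0 : n < 0 := by
      by_contra hcon
      obtain ⟨m, rfl⟩ := Int.eq_ofNat_of_zero_le (not_lt.1 hcon)
      rw [zpow_natCast, map_mul, map_mul, map_pow, map_pow] at hn
      have h1 : W.valuation (algebraMap F L (a : F)) * W.valuation (algebraMap F L π) ^ m < 1 :=
        lt_of_le_of_lt (mul_le_of_le_one_right' (pow_le_one₀ zero_le hπ.le)) ha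
      rw [hn] at h1; exact lt_irrefl _ h1
    obtain ⟨m, hm⟩ := Int.eq_ofNat_of_zero_le (show 0 ≤ -n - 1 by omega)
    have hn' : n = -((m : ℤ) + 1) := by
      have : -n - 1 = (m : ℤ) := hm
      omega
    have hq : algebraMap F L ((a : F) * π⁻¹) ∈ W := by
      have h2 : (a : F) * π⁻¹ = (a : F) * π ^ n * π ^ m := by
        rw [mul_assoc, hn', ← zpow_natCast π m, ← zpow_add₀ hπ0]
        congr 1
        rw [show (-((m : ℤ) + 1) + (m : ℤ)) = -1 by ring, zpow_neg_one]
      rw [h2, map_mul, map_pow, ← W.valuation_le_one_iff, map_mul, map_pow, hn, one_mul]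
      exact pow_le_one₀ zero_le hπ.le
    refine ⟨⟨(a : F) * π⁻¹, hq⟩, ?_⟩
    ext
    change (a : F) = π * ((a : F) * π⁻¹)
    field_simp
  -- lifting of polynomials
  have hlift : ∀ P : F[X], IntCoeff W P → ∃ P' : R[X], P'.map R.subtype = P := by
    intro P hP
    refine ⟨P.toSubring R.toSubring ?_, ?_⟩
    · intro a ha
      obtain ⟨j, -, rfl⟩ := Polynomial.mem_coeffs_iff.1 ha
      exact hP j
    · exact Polynomial.map_toSubring P R.toSubring _
  have hunlift : ∀ P' : R[X], IntCoeff W (P'.map R.subtype) := by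
    intro P' j
    rw [coeff_map]
    exact (P'.coeff j).2
  have hev : ∀ P' : R[X], eval₂ i θ P' = aeval θ (P'.map R.subtype) := by
    intro P'
    rw [aeval_def, eval₂_map]
  obtain ⟨Φ', hΦ'⟩ := hlift Φ hint
  have hmon' : Φ'.Monic := by
    apply Polynomial.monic_of_injective (f := R.subtype) R.subtype_injective
    rw [hΦ']; exact hmon
  have hroot' : eval₂ i θ Φ' = 0 := by rw [hev, hΦ', hroot]
  have hder' : W.valuation (eval₂ i θ (derivative Φ')) = 1 := by
    rw [hev, ← derivative_map, hΦ', hder]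
  have hstep := stepA i W hi hu π' (show W.valuation (i π') < 1 from hπ) hdvd θ hθ Φ' hmon' hroot'
    hder'
  have hevle : ∀ P : R[X], W.valuation (eval₂ i θ P) ≤ 1 := by
    intro P
    rw [W.valuation_le_one_iff, eval₂_eq_sum_range]
    exact sum_mem fun j _ => mul_mem (hi _) (pow_mem hθ _)
  -- iteration
  have hiter : ∀ N : ℕ, ∀ y : L, (∃ G H : R[X], W.valuation (eval₂ i θ H) = 1 ∧
      y * eval₂ i θ H = eval₂ i θ G) → W.valuation (algebraMap F L π) ^ N < W.valuation y →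
      ∃ (n : ℕ) (G H : R[X]), W.valuation (eval₂ i θ H) = 1 ∧ W.valuation (eval₂ i θ G) = 1 ∧
        y * eval₂ i θ H = algebraMap F L π ^ n * eval₂ i θ G := by
    intro N
    induction N with
    | zero =>
      rintro y ⟨G, H, hH, hy⟩ hlt
      exfalso
      have h1 := congrArg W.valuation hy
      rw [map_mul, hH, mul_one] at h1
      rw [pow_zero, h1] at hlt
      exact absurd hlt (not_lt.2 (hevle G))
    | succ N ih =>
      rintro y ⟨G, H, hH, hy⟩ hlt
      have h1 := congrArg W.valuation hy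
      rw [map_mul, hH, mul_one] at h1
      by_cases hG : W.valuation (eval₂ i θ G) = 1
      · exact ⟨0, G, H, hH, hG, by rw [pow_zero, one_mul, hy]⟩
      have hG' : W.valuation (eval₂ i θ G) < 1 := lt_of_le_of_ne (hevle G) hG
      obtain ⟨G₂, h, hh, hGh⟩ := hstep G hG'
      have hy2 : (y / algebraMap F L π) * eval₂ i θ (H * h) = eval₂ i θ G₂ := by
        rw [eval₂_mul, div_mul_eq_mul_div, div_eq_iff hπL0]
        calc y * (eval₂ i θ H * eval₂ i θ h) = (y * eval₂ i θ H) * eval₂ i θ h := by ring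
          _ = eval₂ i θ G * eval₂ i θ h := by rw [hy]
          _ = i π' * eval₂ i θ G₂ := hGh
          _ = eval₂ i θ G₂ * algebraMap F L π := mul_comm _ _
      have hlt2 : W.valuation (algebraMap F L π) ^ N <
          W.valuation (y / algebraMap F L π) := by
        rw [map_div₀, lt_div_iff₀ hWπpos, ← pow_succ]
        exact hlt
      obtain ⟨n, G₃, H₃, hH₃, hG₃, hy3⟩ := ih (y / algebraMap F L π) ⟨G₂, H * h, by
        rw [eval₂_mul, map_mul, hH, hh, one_mul], hy2⟩ hlt2
      refine ⟨n + 1, G₃, H₃, hH₃, hG₃, ?_⟩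
      rw [div_mul_eq_mul_div, div_eq_iff hπL0] at hy3
      rw [hy3, pow_succ]; ring
  -- representation of z
  have hθint : IsIntegral F θ := ⟨Φ, hmon, by rw [← aeval_def]; exact hroot⟩
  have hzA : z ∈ Algebra.adjoin F {θ} := by
    rw [← IntermediateField.adjoin_simple_toSubalgebra_of_isAlgebraic hθint.isAlgebraic]
    exact hz
  rw [Algebra.adjoin_singleton_eq_range_aeval] at hzA
  obtain ⟨P, hP⟩ := hzA
  obtain ⟨M, hM⟩ := exists_clear W π hπ hF P
  obtain ⟨P', hP'⟩ := hlift _ (hM M le_rfl)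
  set y := algebraMap F L π ^ M * z with hydef
  have hy0 : y ≠ 0 := mul_ne_zero (pow_ne_zero _ hπL0) hz0
  have hyP : y = eval₂ i θ P' := by
    rw [hev, hP', map_mul, aeval_C, map_pow]
    change _ = _ * (aeval θ) P
    rw [show (aeval θ) P = z from hP]
  have hyW : y ∈ W := by rw [hyP, ← W.valuation_le_one_iff]; exact hevle _
  -- lower bound
  have hyalg : IsAlgebraic F y := by
    have hyF : y ∈ F⟮θ⟯ := by
      rw [hydef, ← map_pow]
      exact mul_mem (IntermediateField.algebraMap_mem _ _) hz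
    have : FiniteDimensional F F⟮θ⟯ := IntermediateField.adjoin.finiteDimensional hθint
    have := Algebra.IsAlgebraic.isAlgebraic (R := F) (⟨y, hyF⟩ : F⟮θ⟯)
    exact (isAlgebraic_algebraMap_iff (algebraMap F⟮θ⟯ L).injective).2 this
  have hlow : ∃ N : ℕ, W.valuation (algebraMap F L π) ^ N < W.valuation y := by
    set p := minpoly F y with hp
    have hp0 : p.coeff 0 ≠ 0 := minpoly.coeff_zero_ne_zero hyalg.isIntegral hy0
    obtain ⟨M₂, hM₂⟩ := exists_clear W π hπ hF p
    have hq := hM₂ M₂ le_rfl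
    set q := C (π ^ M₂) * p with hqdef
    have hq0 : q.coeff 0 ≠ 0 := by
      rw [hqdef, coeff_C_mul]; exact mul_ne_zero (pow_ne_zero _ hπ0) hp0
    have hqy : aeval y q = 0 := by rw [hqdef, map_mul, hp, minpoly.aeval, mul_zero]
    have h1 : algebraMap F L (q.coeff 0) = - (y * aeval y q.divX) := by
      have h2 : aeval y (q.divX * X + C (q.coeff 0)) = 0 := by rw [divX_mul_X_add, hqy]
      rw [map_add, map_mul, aeval_X, aeval_C] at h2
      rw [eq_neg_iff_add_eq_zero, ← h2]; ring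
    have h3 : W.valuation (algebraMap F L (q.coeff 0)) ≤ W.valuation y := by
      rw [h1, Valuation.map_neg, map_mul]
      refine mul_le_of_le_one_right' ?_
      rw [W.valuation_le_one_iff]
      refine aeval_mem hyW ?_
      intro j
      rw [coeff_divX]; exact hq _
    obtain ⟨n, hn⟩ := hF _ hq0
    refine ⟨(-n).toNat + 1, lt_of_lt_of_le ?_ h3⟩
    rw [map_mul, map_mul, map_zpow₀, map_zpow₀] at hn
    have h4 : W.valuation (algebraMap F L (q.coeff 0)) =
        (W.valuation (algebraMap F L π) ^ n)⁻¹ := eq_inv_of_mul_eq_one_left hn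
    rw [h4, ← zpow_neg, ← zpow_natCast]
    refine zpow_lt_zpow_right_of_lt_one₀ hWπpos hπ ?_
    push_cast
    omega
  obtain ⟨N, hN⟩ := hlow
  obtain ⟨n, G, H, hH, hG, hyGH⟩ := hiter N y ⟨P', 1, by rw [eval₂_one, map_one], by
    rw [eval₂_one, mul_one, hyP]⟩ hN
  refine ⟨(M : ℤ) - n, G.map R.subtype, H.map R.subtype, hunlift _, hunlift _, ?_, ?_, ?_⟩
  · rw [← hev]; exact hH
  · rw [← hev]; exact hG
  · rw [← hev, ← hev, zpow_sub₀ hπL0, zpow_natCast, zpow_natCast]
    have hpn : algebraMap F L π ^ n ≠ 0 := pow_ne_zero _ hπL0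
    field_simp
    rw [hydef] at hyGH
    linear_combination hyGH

theorem unr (W : ValuationSubring L) (π : F)
    (hπ0 : π ≠ 0) (hπ : W.valuation (algebraMap F L π) < 1)
    (hF : ∀ z : F, z ≠ 0 → ∃ n : ℤ, W.valuation (algebraMap F L (z * π ^ n)) = 1)
    (θ : L) (Φ : F[X]) (hmon : Φ.Monic) (hint : IntCoeff W Φ)
    (hroot : aeval θ Φ = 0) (hder : W.valuation (aeval θ (derivative Φ)) = 1) :
    ∀ z ∈ F⟮θ⟯, z ≠ 0 → ∃ n : ℤ, W.valuation (z * algebraMap F L π ^ n) = 1 := by
  intro z hz hz0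
  obtain ⟨n, G, H, -, -, hH, hG, h⟩ := unr_core W π hπ0 hπ hF θ Φ hmon hint hroot hder z hz hz0
  refine ⟨n, ?_⟩
  have := congrArg W.valuation h
  rwa [map_mul, hH, hG, mul_one] at this

end Unr

end Vale.Agent.P019
end
end

section

section

namespace Vale.Agent.P019

open Polynomial

variable {K : Type*} [Field K]

/-- the valuation subring `W` is trivial on the subfield `F`. -/
def TrivOn (W : ValuationSubring K) (F : Subfield K) : Prop := ∀ c ∈ F, c ∈ W

theorem TrivOn.mono {W : ValuationSubring K} {F F' : Subfield K} (h : TrivOn W F)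
    (hF : F' ≤ F) : TrivOn W F' := fun c hc => h c (hF hc)

theorem TrivOn.le_one {W : ValuationSubring K} {F : Subfield K} (h : TrivOn W F) {c : K}
    (hc : c ∈ F) : W.valuation c ≤ 1 := (W.valuation_le_one_iff _).2 (h c hc)

theorem TrivOn.eq_one {W : ValuationSubring K} {F : Subfield K} (h : TrivOn W F) {c : K}
    (hc : c ∈ F) (hc0 : c ≠ 0) : W.valuation c = 1 := by
  refine le_antisymm (h.le_one hc) ?_
  have h1 := h.le_one (F.inv_mem hc)
  rw [map_inv₀] at h1
  have h0 : 0 < W.valuation c := zero_lt_iff.2 ((Valuation.ne_zero_iff _).2 hc0)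
  exact (inv_le_one₀ h0).1 h1

theorem TrivOn.eq_zero {W : ValuationSubring K} {F : Subfield K} (h : TrivOn W F) {c : K}
    (hc : c ∈ F) (hlt : W.valuation c < 1) : c = 0 := by
  by_contra h0
  rw [h.eq_one hc h0] at hlt
  exact lt_irrefl _ hlt

/-- elements algebraic over a trivially valued subfield are integral. -/
theorem TrivOn.mem_of_isAlgebraic {W : ValuationSubring K} {F : Subfield K} (h : TrivOn W F)
    {z : K} (hz : IsAlgebraic F z) : z ∈ W := by
  have hint := hz.isIntegral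
  refine mem_of_root (F := F) (θ := z) (Φ := minpoly F z) (minpoly.monic hint) ?_
    (minpoly.aeval F z)
  intro i
  exact h _ ((minpoly F z).coeff i).2

theorem TrivOn.eq_one_of_isAlgebraic {W : ValuationSubring K} {F : Subfield K}
    (h : TrivOn W F) {z : K} (hz : IsAlgebraic F z) (h0 : z ≠ 0) : W.valuation z = 1 := by
  refine le_antisymm ((W.valuation_le_one_iff _).2 (h.mem_of_isAlgebraic hz)) ?_
  have h1 := (W.valuation_le_one_iff _).2 (h.mem_of_isAlgebraic hz.inv)
  rw [map_inv₀] at h1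
  have h0 : 0 < W.valuation z := zero_lt_iff.2 ((Valuation.ne_zero_iff _).2 h0)
  exact (inv_le_one₀ h0).1 h1

/-- existence of valuation rings centred at a proper ideal. -/
theorem exists_val_of_proper (A : Subring K) (I : Ideal A) (hI : I ≠ ⊤) :
    ∃ W : ValuationSubring K, (∀ a ∈ A, a ∈ W) ∧
      ∀ a : A, a ∈ I → W.valuation (a : K) < 1 := by
  obtain ⟨B, hB1, hB2⟩ := Ideal.image_subset_nonunits_valuationSubring I hI
  refine ⟨B, fun a ha => hB1 ha, fun a ha => ?_⟩
  have := hB2 ⟨a, ha, rfl⟩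
  exact (ValuationSubring.mem_nonunits_iff B).1 this

theorem exists_triv (F : Subfield K) (X : K) (hX : Transcendental F X) :
    ∃ W : ValuationSubring K, TrivOn W F ∧ W.valuation X < 1 := by
  let A : Subring K := (Algebra.adjoin F {X}).toSubring
  have hXA : X ∈ A := Algebra.self_mem_adjoin_singleton F X
  have hprop : (Ideal.span {(⟨X, hXA⟩ : A)}) ≠ ⊤ := by
    intro h
    rw [Ideal.eq_top_iff_one, Ideal.mem_span_singleton'] at h
    obtain ⟨⟨a, ha⟩, h⟩ := h
    have h1 : a * X = 1 := congrArg Subtype.val h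
    have ha' : a ∈ Algebra.adjoin F {X} := ha
    rw [Algebra.adjoin_singleton_eq_range_aeval] at ha'
    obtain ⟨P, hP⟩ := ha'
    have hP' : aeval X P = a := hP
    have h2 : aeval X (P * Polynomial.X - 1 : F[X]) = 0 := by
      rw [map_sub, map_mul, aeval_X, map_one, hP', h1, sub_self]
    have h3 : (P * Polynomial.X - 1 : F[X]) = 0 := by
      by_contra hne
      exact hX ⟨_, hne, h2⟩
    have h4 := congrArg (fun q => Polynomial.coeff q 0) h3
    simp at h4
  obtain ⟨W, hW1, hW2⟩ := exists_val_of_proper A _ hprop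
  refine ⟨W, fun c hc => hW1 c ?_, hW2 ⟨X, hXA⟩ (Ideal.mem_span_singleton_self _)⟩
  exact Subalgebra.algebraMap_mem _ (⟨c, hc⟩ : F)

section gauss

variable {F : Subfield K} {X : K} {W : ValuationSubring K}

theorem val_of_sub {W : ValuationSubring K} {z c : K} (hc : W.valuation c = 1)
    (h : W.valuation (z - c) < 1) : W.valuation z = 1 := by
  have : z = c + (z - c) := by ring
  rw [this, Valuation.map_add_eq_of_lt_left, hc]
  rwa [hc]

theorem aeval_sub_coeff (hWF : TrivOn W F) (hWX : W.valuation X < 1) (P : F[X]) :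
    W.valuation (aeval X P - (P.coeff 0 : K)) < 1 := by
  have h1 : aeval X P - (P.coeff 0 : K) = X * aeval X P.divX := by
    have h2 := congrArg (aeval X) (divX_mul_X_add P)
    rw [map_add, map_mul, aeval_X, aeval_C] at h2
    rw [← h2]
    change _ + (P.coeff 0 : K) - (P.coeff 0 : K) = _
    ring
  rw [h1, map_mul]
  refine lt_of_le_of_lt (mul_le_of_le_one_right' ?_) hWX
  rw [W.valuation_le_one_iff]
  exact aeval_mem ((W.valuation_le_one_iff _).1 hWX.le) (fun i => hWF _ (P.divX.coeff i).2)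

/-- nonzero elements of `F(X)` are `X^n` times a unit with residue in `F`. -/
theorem exists_residue (hWF : TrivOn W F) (hWX : W.valuation X < 1) (hX0 : X ≠ 0) {z : K}
    (hz : z ∈ IntermediateField.adjoin F {X}) (hz0 : z ≠ 0) :
    ∃ (n : ℤ) (c : K), c ∈ F ∧ c ≠ 0 ∧ W.valuation (z * X ^ n - c) < 1 := by
  have hpoly : ∀ P : F[X], aeval X P ≠ 0 → ∃ (n : ℕ) (c u : K), c ∈ F ∧ c ≠ 0 ∧
      aeval X P = X ^ n * u ∧ W.valuation (u - c) < 1 := by
    intro P hP
    have hP0 : P ≠ 0 := by rintro rfl; exact hP (map_zero _)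
    obtain ⟨Q, hQ, hQ2⟩ := exists_eq_pow_rootMultiplicity_mul_and_not_dvd P hP0 0
    rw [C_0, sub_zero] at hQ hQ2
    refine ⟨P.rootMultiplicity 0, Q.coeff 0, aeval X Q, (Q.coeff 0).2, ?_, ?_,
      aeval_sub_coeff hWF hWX Q⟩
    · intro h
      apply hQ2
      rw [X_dvd_iff]
      exact Subtype.ext h
    · conv_lhs => rw [hQ]
      rw [map_mul, map_pow, aeval_X]
  rw [IntermediateField.mem_adjoin_simple_iff] at hz
  obtain ⟨P, Q, rfl⟩ := hz
  have hP : aeval X P ≠ 0 := fun h => hz0 (by rw [h, zero_div])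
  have hQ : aeval X Q ≠ 0 := fun h => hz0 (by rw [h, div_zero])
  obtain ⟨n, c, u, hc, hc0, h1, h2⟩ := hpoly P hP
  obtain ⟨m, d, v, hd, hd0, h3, h4⟩ := hpoly Q hQ
  have hu : W.valuation u = 1 := val_of_sub (hWF.eq_one hc hc0) h2
  have hv : W.valuation v = 1 := val_of_sub (hWF.eq_one hd hd0) h4
  have hv0 : v ≠ 0 := by rintro rfl; rw [map_zero] at hv; exact zero_ne_one hv
  refine ⟨(m : ℤ) - n, c / d, F.div_mem hc hd, div_ne_zero hc0 hd0, ?_⟩
  have e1 : aeval X P / aeval X Q * X ^ ((m : ℤ) - n) = u / v := by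
    rw [h1, h3, zpow_sub₀ hX0, zpow_natCast, zpow_natCast]
    have : X ^ n ≠ 0 := pow_ne_zero _ hX0
    have : X ^ m ≠ 0 := pow_ne_zero _ hX0
    field_simp
  rw [e1]
  have e2 : u / v - c / d = ((u - c) * d - c * (v - d)) / (v * d) := by
    field_simp; ring
  rw [e2, map_div₀, map_mul, hv, hWF.eq_one hd hd0, mul_one, div_one]
  refine Valuation.map_sub_lt _ ?_ ?_
  · rw [map_mul, hWF.eq_one hd hd0, mul_one]; exact h2
  · rw [map_mul, hWF.eq_one hc hc0, one_mul]; exact h4

theorem isAlgebraic_aeval {F : Subfield K} {θ : K} (hθ : IsAlgebraic F θ) (P : F[X]) :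
    IsAlgebraic F (aeval θ P) := by
  have h : aeval θ P ∈ algebraicClosure F K := by
    rw [aeval_eq_sum_range]
    refine sum_mem fun i _ => ?_
    rw [Algebra.smul_def]
    exact mul_mem (IntermediateField.algebraMap_mem _ _)
      (pow_mem ((mem_algebraicClosure_iff).2 hθ) i)
  exact mem_algebraicClosure_iff.1 h

/-- integral elements of `F(X)` are congruent to elements of `F`. -/
theorem exists_residue_of_le (hWF : TrivOn W F) (hWX : W.valuation X < 1) (hX0 : X ≠ 0) {z : K}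
    (hz : z ∈ IntermediateField.adjoin F {X}) (hz1 : W.valuation z ≤ 1) :
    ∃ c : F, W.valuation (z - c) < 1 := by
  by_cases hz0 : z = 0
  · exact ⟨0, by simp [hz0]⟩
  rcases hz1.lt_or_eq with hlt | heq
  · exact ⟨0, by simpa using hlt⟩
  obtain ⟨n, c, hc, hc0, h⟩ := exists_residue hWF hWX hX0 hz hz0
  have h1 := val_of_sub (hWF.eq_one hc hc0) h
  rw [map_mul, heq, one_mul, map_zpow₀] at h1
  have hn : n = 0 := by
    by_contra hn
    have hpos : 0 < W.valuation X := zero_lt_iff.2 ((Valuation.ne_zero_iff _).2 hX0)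
    rcases lt_or_gt_of_ne hn with hn | hn
    · have := zpow_lt_zpow_right_of_lt_one₀ hpos hWX hn
      rw [h1, zpow_zero] at this; exact lt_irrefl _ this
    · have := zpow_lt_zpow_right_of_lt_one₀ hpos hWX hn
      rw [h1, zpow_zero] at this; exact lt_irrefl _ this
  rw [hn, zpow_zero, mul_one] at h
  exact ⟨⟨c, hc⟩, h⟩

end gauss

end Vale.Agent.P019
end
end

section

section

/-!
# Extension of homomorphisms to places with values in an algebraically closed field
-/

namespace Vale.Agent.P019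

set_option linter.style.haveILetI false

/-- A finite type algebra over a field has a point in any algebraically closed extension. -/
theorem exists_algHom_of_finiteType (Q T C : Type*) [Field Q] [CommRing T] [Nontrivial T]
    [Algebra Q T] [Algebra.FiniteType Q T] [Field C] [Algebra Q C] [IsAlgClosed C] :
    Nonempty (T →ₐ[Q] C) := by
  obtain ⟨M, hM⟩ := Ideal.exists_maximal T
  letI : Field (T ⧸ M) := Ideal.Quotient.field M
  haveI : Algebra.FiniteType Q (T ⧸ M) :=
    Algebra.FiniteType.of_surjective (Ideal.Quotient.mkₐ Q M) (Ideal.Quotient.mkₐ_surjective Q M)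
  haveI : Module.Finite Q (T ⧸ M) := finite_of_finite_type_of_isJacobsonRing Q (T ⧸ M)
  haveI : Algebra.IsAlgebraic Q (T ⧸ M) := Algebra.IsAlgebraic.of_finite Q (T ⧸ M)
  exact ⟨(IsAlgClosed.lift : (T ⧸ M) →ₐ[Q] C).comp (Ideal.Quotient.mkₐ Q M)⟩

section

variable {F C : Type*} [Field F] [Field C]

/-- graphs of partially defined homomorphisms. -/
def IsGr (G : Subring (F × C)) : Prop := ∀ c : C, ((0 : F), c) ∈ G → c = 0

theorem IsGr.unique {G : Subring (F × C)} (hG : IsGr G) {x : F} {c d : C}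
    (hc : (x, c) ∈ G) (hd : (x, d) ∈ G) : c = d := by
  have h := G.sub_mem hc hd
  rw [Prod.mk_sub_mk, sub_self] at h
  exact sub_eq_zero.1 (hG _ h)

/-- localization step. -/
theorem isGr_inv {G : Subring (F × C)} (hG : Maximal (fun G : Subring (F × C) => IsGr G) G)
    {y : F} {c : C} (hy : (y, c) ∈ G) (hc : c ≠ 0) : (y⁻¹, c⁻¹) ∈ G := by
  have hy0 : y ≠ 0 := by
    rintro rfl
    exact hc (hG.1 _ hy)
  have hpow : ∀ n : ℕ, (y ^ n, c ^ n) ∈ G := fun n => by
    have := G.pow_mem hy n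
    rwa [Prod.pow_mk] at this
  let G' : Subring (F × C) :=
    { carrier := {p | ∃ (n : ℕ) (a : F) (d : C), (a, d) ∈ G ∧ p = (a / y ^ n, d / c ^ n)}
      mul_mem' := by
        rintro _ _ ⟨n, a, d, h, rfl⟩ ⟨m, b, e, h', rfl⟩
        refine ⟨n + m, a * b, d * e, by simpa using G.mul_mem h h', ?_⟩
        rw [Prod.mk_mul_mk, pow_add, pow_add, div_mul_div_comm, div_mul_div_comm]
      one_mem' := ⟨0, 1, 1, G.one_mem, by simp; rfl⟩
      add_mem' := by
        rintro _ _ ⟨n, a, d, h, rfl⟩ ⟨m, b, e, h', rfl⟩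
        refine ⟨n + m, a * y ^ m + y ^ n * b, d * c ^ m + c ^ n * e, ?_, ?_⟩
        · simpa using G.add_mem (G.mul_mem h (hpow m)) (G.mul_mem (hpow n) h')
        · rw [Prod.mk_add_mk, pow_add, pow_add, div_add_div _ _ (pow_ne_zero n hy0)
            (pow_ne_zero m hy0), div_add_div _ _ (pow_ne_zero n hc) (pow_ne_zero m hc)]
      zero_mem' := ⟨0, 0, 0, G.zero_mem, by simp; rfl⟩
      neg_mem' := by
        rintro _ ⟨n, a, d, h, rfl⟩
        exact ⟨n, -a, -d, by simpa using G.neg_mem h, by simp [neg_div]⟩ }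
  have hle : G ≤ G' := by
    rintro ⟨a, d⟩ h
    exact ⟨0, a, d, h, by simp⟩
  have hG' : IsGr G' := by
    rintro e ⟨n, a, d, h, he⟩
    rw [Prod.mk.injEq] at he
    have ha : a = 0 := by
      have := he.1.symm
      rw [div_eq_zero_iff] at this
      exact this.resolve_right (pow_ne_zero n hy0)
    subst ha
    rw [he.2, hG.1 _ h, zero_div]
  have := hG.2 hG' hle
  exact this ⟨1, 1, 1, G.one_mem, by simp⟩

/-- **Extension theorem for places.** -/
theorem exists_place [IsAlgClosed C] (A : Subring F) (φ : A →+* C) :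
    ∃ (O : ValuationSubring F) (ψ : O →+* C),
      (∀ (a : F) (h : a ∈ A), ∃ h' : a ∈ O, ψ ⟨a, h'⟩ = φ ⟨a, h⟩) ∧
      (∀ x : O, ψ x = 0 ↔ O.valuation (x : F) < 1) := by
  classical
  -- the initial graph
  let G₀ : Subring (F × C) := (RingHom.prod A.subtype φ).range
  have hG₀ : IsGr G₀ := by
    rintro c ⟨a, ha⟩
    rw [RingHom.prod_apply, Prod.mk.injEq] at ha
    have : a = 0 := Subtype.ext ha.1
    rw [← ha.2, this, map_zero]
  obtain ⟨G, hle, hG⟩ : ∃ G, G₀ ≤ G ∧ Maximal (fun G : Subring (F × C) => IsGr G) G := by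
    refine zorn_le_nonempty₀ {G : Subring (F × C) | IsGr G} ?_ G₀ hG₀
    intro c hc hch y hy
    refine ⟨sSup c, ?_, fun z hz => le_sSup hz⟩
    intro d hd
    rw [Subring.mem_sSup_of_directedOn ⟨y, hy⟩ hch.directedOn] at hd
    obtain ⟨s, hs, hd⟩ := hd
    exact hc hs _ hd
  -- the domain
  let p : G →+* F := (RingHom.fst F C).comp G.subtype
  have hp : Function.Injective p := by
    intro ⟨⟨x, c⟩, hx⟩ ⟨⟨y, d⟩, hy⟩ hxy
    have hxy' : x = y := hxy
    subst hxy'
    exact Subtype.ext (Prod.ext rfl (hG.1.unique hx hy))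
  let R : Subring F := p.range
  let e : G ≃+* R := RingEquiv.ofBijective p.rangeRestrict
    ⟨fun a b h => hp (congrArg Subtype.val h), p.rangeRestrict_surjective⟩
  let ψ : R →+* C := ((RingHom.snd F C).comp G.subtype).comp e.symm.toRingHom
  have hψ : ∀ (x : F) (hx : x ∈ R), (x, ψ ⟨x, hx⟩) ∈ G := by
    intro x hx
    have h1 : p (e.symm ⟨x, hx⟩) = x := by
      have := congrArg Subtype.val (e.apply_symm_apply ⟨x, hx⟩)
      exact this
    have h2 : ((e.symm ⟨x, hx⟩ : G) : F × C) = (x, ψ ⟨x, hx⟩) := Prod.ext h1 rfl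
    rw [← h2]
    exact (e.symm ⟨x, hx⟩).2
  have hψ' : ∀ (x : F) (c : C) (h : (x, c) ∈ G), ∃ hx : x ∈ R, ψ ⟨x, hx⟩ = c := by
    intro x c h
    have hx : x ∈ R := ⟨⟨(x, c), h⟩, rfl⟩
    exact ⟨hx, hG.1.unique (hψ x hx) h⟩
  -- inverses
  have hinv : ∀ (x : F) (hx : x ∈ R), ψ ⟨x, hx⟩ ≠ 0 → x⁻¹ ∈ R := by
    intro x hx h
    obtain ⟨h', -⟩ := hψ' _ _ (isGr_inv hG (hψ x hx) h)
    exact h'
  -- a dominating valuation ring
  have hI : RingHom.ker ψ ≠ ⊤ := RingHom.ker_ne_top ψ
  obtain ⟨B, hRB, hIB⟩ := Ideal.image_subset_nonunits_valuationSubring (RingHom.ker ψ) hI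
  let j : R →+* IsLocalRing.ResidueField B :=
    (IsLocalRing.residue B).comp (Subring.inclusion hRB)
  have hj : ∀ x : R, j x = 0 ↔ ψ x = 0 := by
    intro x
    change IsLocalRing.residue B (Subring.inclusion hRB x) = 0 ↔ _
    rw [IsLocalRing.residue_eq_zero_iff]
    constructor
    · intro h
      by_contra hne
      have hx0 : (x : F) ≠ 0 := by
        intro h0
        have : x = 0 := Subtype.ext h0
        rw [this, map_zero] at hne
        exact hne rfl
      have h1 := hinv x x.2 hne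
      rw [IsLocalRing.mem_maximalIdeal, mem_nonunits_iff] at h
      apply h
      refine IsUnit.of_mul_eq_one (⟨(x : F)⁻¹, hRB h1⟩ : B) ?_
      exact Subtype.ext (mul_inv_cancel₀ hx0)
    · intro h
      have h1 : (x : F) ∈ B.nonunits := hIB ⟨x, h, rfl⟩
      have h2 := ValuationSubring.mem_nonunits_iff_exists_mem_maximalIdeal.1 h1
      obtain ⟨h3, h4⟩ := h2
      exact h4
  let Q := R ⧸ RingHom.ker ψ
  haveI hmax : (RingHom.ker ψ).IsMaximal := by
    rw [Ideal.isMaximal_iff]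
    refine ⟨?_, ?_⟩
    · rw [RingHom.mem_ker, map_one]; exact one_ne_zero
    · intro J x hJ hx hxJ
      rw [RingHom.mem_ker] at hx
      have hx0 : (x : F) ≠ 0 := by
        intro h0
        have : x = 0 := Subtype.ext h0
        rw [this, map_zero] at hx
        exact hx rfl
      have h1 := hinv x x.2 hx
      have : (1 : R) = (⟨(x : F)⁻¹, h1⟩ : R) * x := Subtype.ext (inv_mul_cancel₀ hx0).symm
      rw [this]
      exact J.mul_mem_left _ hxJ
  letI : Field Q := Ideal.Quotient.field _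
  let iC : Q →+* C := Ideal.Quotient.lift _ ψ (fun a ha => ha)
  let iB : Q →+* IsLocalRing.ResidueField B :=
    Ideal.Quotient.lift _ j (fun a ha => (hj a).2 ha)
  letI : Algebra Q C := iC.toAlgebra
  letI : Algebra Q (IsLocalRing.ResidueField B) := iB.toAlgebra
  -- show `B ≤ R`
  have hBR : B.toSubring ≤ R := by
    intro x hx
    let T : Subalgebra Q (IsLocalRing.ResidueField B) :=
      Algebra.adjoin Q {IsLocalRing.residue B ⟨x, hx⟩}
    haveI : Algebra.FiniteType Q T :=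
      (Subalgebra.fg_iff_finiteType T).1
        ⟨{IsLocalRing.residue B ⟨x, hx⟩}, by rw [Finset.coe_singleton]⟩
    obtain ⟨τ⟩ := exists_algHom_of_finiteType Q T C
    let U : Subring B := T.toSubring.comap (IsLocalRing.residue B)
    let r : U →+* T :=
      RingHom.codRestrict ((IsLocalRing.residue B).comp U.subtype) T.toSubring (fun u => u.2)
    let q : U →+* F × C := RingHom.prod (B.subtype.comp U.subtype) (τ.toRingHom.comp r)
    have hq : IsGr q.range := by
      rintro c ⟨u, hu⟩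
      rw [RingHom.prod_apply, Prod.mk.injEq] at hu
      have : u = 0 := Subtype.ext (Subtype.ext hu.1)
      rw [← hu.2, this, map_zero]
    have hGq : G ≤ q.range := by
      rintro ⟨a, c⟩ hac
      obtain ⟨haR, hc⟩ := hψ' a c hac
      have haU : (⟨a, hRB haR⟩ : B) ∈ U := by
        change IsLocalRing.residue B ⟨a, hRB haR⟩ ∈ T
        have : IsLocalRing.residue B ⟨a, hRB haR⟩ = algebraMap Q _ (Ideal.Quotient.mk _ ⟨a, haR⟩) :=
          rfl
        rw [this]
        exact T.algebraMap_mem _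
      refine ⟨⟨⟨a, hRB haR⟩, haU⟩, ?_⟩
      rw [RingHom.prod_apply]
      refine Prod.ext rfl ?_
      have h1 : r ⟨⟨a, hRB haR⟩, haU⟩ = algebraMap Q T (Ideal.Quotient.mk _ ⟨a, haR⟩) :=
        Subtype.ext rfl
      change τ (r ⟨⟨a, hRB haR⟩, haU⟩) = c
      rw [h1, AlgHom.commutes]
      exact hc
    have hle' := hG.2 hq hGq
    have hxU : (⟨x, hx⟩ : B) ∈ U := by
      change IsLocalRing.residue B ⟨x, hx⟩ ∈ T
      exact Algebra.subset_adjoin (Set.mem_singleton _)
    have hmem : q ⟨⟨x, hx⟩, hxU⟩ ∈ G := hle' ⟨_, rfl⟩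
    obtain ⟨h1, -⟩ := hψ' x _ hmem
    exact h1
  refine ⟨B, ψ.comp (Subring.inclusion hBR), ?_, ?_⟩
  · intro a ha
    have hmem : (a, φ ⟨a, ha⟩) ∈ G := hle ⟨⟨a, ha⟩, rfl⟩
    obtain ⟨haR, hval⟩ := hψ' _ _ hmem
    exact ⟨hRB haR, hval⟩
  · intro x
    have h1 : j (Subring.inclusion hBR x) = IsLocalRing.residue B x := rfl
    change ψ (Subring.inclusion hBR x) = 0 ↔ _
    rw [← hj, h1, IsLocalRing.residue_eq_zero_iff, ValuationSubring.valuation_lt_one_iff]

end

end Vale.Agent.P019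
end
end

section

section

/-!
# Places: basic facts
-/

namespace Vale.Agent.P019

set_option linter.style.haveILetI false

open Polynomial

section places

variable {K Ω : Type*} [Field K] [Field Ω]

/-- S01 residues of algebraic elements are algebraic. -/
theorem Pl.isAlgebraic_ev (P : Pl K Ω) (F : Subfield K) (κ : Subfield Ω)
    (hκ : ∀ x ∈ F, x ∈ P.O → P.ev x ∈ κ) {z : K} (hz : IsAlgebraic F z) (hzO : z ∈ P.O) :
    IsAlgebraic κ (P.ev z) := by
  classical
  obtain ⟨Q, hQ0, hQ⟩ := hz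
  obtain ⟨j, hj, hjmax⟩ := Q.support.exists_max_image
    (fun i => P.O.valuation ((Q.coeff i : F) : K)) (Polynomial.nonempty_support_iff.2 hQ0)
  have hj0 : Q.coeff j ≠ 0 := mem_support_iff.1 hj
  have hj0' : ((Q.coeff j : F) : K) ≠ 0 := fun h => hj0 (Subtype.ext h)
  have hvj : P.O.valuation ((Q.coeff j : F) : K) ≠ 0 := (Valuation.ne_zero_iff _).2 hj0'
  set c : F := (Q.coeff j)⁻¹ with hc
  have hcoef : ∀ i, (((C c * Q).coeff i : F) : K) ∈ P.O := by
    intro i
    rw [coeff_C_mul]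
    by_cases hi : Q.coeff i = 0
    · rw [hi, mul_zero]; exact P.O.zero_mem
    · have h1 := hjmax i (mem_support_iff.2 hi)
      rw [← P.O.valuation_le_one_iff]
      change P.O.valuation (((Q.coeff j : F) : K)⁻¹ * ((Q.coeff i : F) : K)) ≤ 1
      rw [map_mul, map_inv₀, mul_comm, ← div_eq_mul_inv]
      exact div_le_one_of_le₀ h1 zero_le
  have hlift : C c * Q ∈ Polynomial.lifts (RF P F).subtype := by
    rw [Polynomial.lifts_iff_coeff_lifts]
    intro n
    exact ⟨⟨(C c * Q).coeff n, hcoef n⟩, rfl⟩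
  obtain ⟨G, hG⟩ := (Polynomial.mem_lifts _).1 hlift
  have hGeval : evθ P F z G = 0 := by
    have h1 : evθ P F z G = aeval z (G.map (RF P F).subtype) := by
      rw [aeval_def, eval₂_map]
      rfl
    rw [h1, hG, map_mul, hQ, mul_zero]
  have hev := ev_evθ (P := P) (F := F) hzO G
  rw [hGeval, P.ev_zero] at hev
  -- restrict the codomain
  let f : RF P F →+* κ := (evF P F).codRestrict κ.toSubring (fun a => by
    rw [evF_apply]; exact hκ _ (a : F).2 (mem_RF.1 a.2))
  have hf : ∀ a, ((f a : κ) : Ω) = evF P F a := fun a => rfl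
  refine ⟨G.map f, ?_, ?_⟩
  · intro h0
    have h1 := congrArg (fun p => ((p.coeff j : κ) : Ω)) h0
    simp only [coeff_map, coeff_zero, hf] at h1
    rw [evF_apply] at h1
    have h2 : ((G.coeff j : F) : K) = 1 := by
      have h3 := congrArg (fun p => ((p.coeff j : F) : K)) hG
      simp only [coeff_map] at h3
      change ((G.coeff j : F) : K) = _ at h3
      rw [h3, coeff_C_mul, hc, inv_mul_cancel₀ hj0]
      rfl
    rw [h2, P.ev_one] at h1
    exact one_ne_zero h1
  · rw [aeval_def, eval₂_map]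
    rw [eval_map] at hev
    rw [hev]
    rfl

/-- S02 valuation rings are integrally closed. -/
theorem Pl.mem_of_isAlgebraic (P : Pl K Ω) (E : Subfield K) (hE : ∀ x ∈ E, x ∈ P.O) {z : K}
    (hz : IsAlgebraic E z) : z ∈ P.O :=
  TrivOn.mem_of_isAlgebraic (W := P.O) (F := E) hE hz

/-- nonzero elements algebraic over a field inside the valuation ring are units. -/
theorem Pl.U_of_isAlgebraic (P : Pl K Ω) (E : Subfield K) (hE : ∀ x ∈ E, x ∈ P.O) {z : K}
    (hz : IsAlgebraic E z) (hz0 : z ≠ 0) : P.U z :=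
  P.U_iff.2 (TrivOn.eq_one_of_isAlgebraic (W := P.O) (F := E) hE hz hz0)

theorem Pl.ev_sum (P : Pl K Ω) {ι : Type*} (s : Finset ι) (f : ι → K) (hf : ∀ i ∈ s, f i ∈ P.O) :
    P.ev (∑ i ∈ s, f i) = ∑ i ∈ s, P.ev (f i) := by
  classical
  induction s using Finset.induction_on with
  | empty => rw [Finset.sum_empty, Finset.sum_empty, P.ev_zero]
  | insert a s ha ih =>
    rw [Finset.sum_insert ha, Finset.sum_insert ha,
      P.ev_add (hf a (Finset.mem_insert_self a s))
        (P.O.toSubring.sum_mem fun i hi => hf i (Finset.mem_insert_of_mem hi)),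
      ih fun i hi => hf i (Finset.mem_insert_of_mem hi)]

theorem exists_polys_of_mem_adj {l : Subfield K} {y x : K} (hx : x ∈ adj l y) (hx0 : x ≠ 0) :
    ∃ r s : l[X], IsCoprime r s ∧ aeval y s ≠ 0 ∧ x * aeval y s = aeval y r := by
  classical
  have h1 : adj l y ≤ (IntermediateField.adjoin l {y}).toSubfield := by
    refine adj_le ?_ ?_
    · intro c hc
      exact (IntermediateField.adjoin l {y}).algebraMap_mem ⟨c, hc⟩
    · exact IntermediateField.mem_adjoin_simple_self l y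
  have h2 : x ∈ IntermediateField.adjoin l {y} := h1 hx
  rw [IntermediateField.mem_adjoin_simple_iff] at h2
  obtain ⟨r, s, hrs⟩ := h2
  have hs0 : aeval y s ≠ 0 := by
    intro h
    rw [h, div_zero] at hrs
    exact hx0 hrs
  have hsne : s ≠ 0 := by
    rintro rfl
    exact hs0 (map_zero _)
  letI := EuclideanDomain.gcdMonoid l[X]
  have hg : GCDMonoid.gcd r s ≠ 0 := gcd_ne_zero_of_right hsne
  set g := GCDMonoid.gcd r s with hgdef
  have hr : g * (r / g) = r := EuclideanDomain.mul_div_cancel' hg (gcd_dvd_left r s)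
  have hs : g * (s / g) = s := EuclideanDomain.mul_div_cancel' hg (gcd_dvd_right r s)
  have hgy : aeval y g ≠ 0 := by
    intro h
    rw [← hs, map_mul, h, zero_mul] at hs0
    exact hs0 rfl
  refine ⟨r / g, s / g, isCoprime_div_gcd_div_gcd hsne, ?_, ?_⟩
  · intro h
    rw [← hs, map_mul, h, mul_zero] at hs0
    exact hs0 rfl
  · have h3 : x * aeval y s = aeval y r := by
      rw [hrs]; field_simp
    rw [← hs, ← hr, map_mul, map_mul] at h3
    apply mul_left_cancel₀ hgy
    linear_combination h3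

/-- S03 one variable places. -/
theorem exists_one [Algebra K Ω] [IsAlgClosed Ω] {l A : Subfield K} (hl : IsAlgClosed l)
    (hlA : l ≤ A) {y : K} (hy : ¬ IsAlgebraic A y) {c : K} (hc : c ∈ l) :
    ∃ P : Pl K Ω, (∀ a ∈ A, a ∈ P.O ∧ P.ev a = algebraMap K Ω a) ∧ y ∈ P.O ∧
      P.ev y = algebraMap K Ω c ∧
      (∀ b ∈ P.O, IsAlgebraic (adj l y) b → ∃ d ∈ l, P.ev b = algebraMap K Ω d) := by
  classical
  have hy' : Transcendental A y := hy
  let e := algEquivOfTranscendental A y hy'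
  let φ0 : A[X] →+* Ω := eval₂RingHom ((algebraMap K Ω).comp A.subtype) (algebraMap K Ω c)
  let φ : (Algebra.adjoin A {y}).toSubring →+* Ω := φ0.comp (e.symm : Algebra.adjoin A {y} →+* A[X])
  obtain ⟨O, ψ, h1, h2⟩ := exists_place (F := K) (C := Ω) (Algebra.adjoin A {y}).toSubring φ
  let P : Pl K Ω := ⟨O, ψ, h2⟩
  have hA : ∀ a ∈ A, a ∈ P.O ∧ P.ev a = algebraMap K Ω a := by
    intro a ha
    have hmem : a ∈ (Algebra.adjoin A {y}).toSubring :=
      (Algebra.adjoin A {y}).algebraMap_mem ⟨a, ha⟩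
    obtain ⟨h', h3⟩ := h1 a hmem
    refine ⟨h', ?_⟩
    rw [P.ev_of_mem h']
    change ψ ⟨a, h'⟩ = _
    rw [h3]
    change φ0 (e.symm ⟨a, hmem⟩) = _
    have h4 : (⟨a, hmem⟩ : Algebra.adjoin A {y}) = e (C ⟨a, ha⟩) := by
      apply Subtype.ext
      simp only [e, algEquivOfTranscendental_apply, aeval_C]
      rfl
    rw [h4, AlgEquiv.symm_apply_apply]
    simp [φ0]
  have hyO : y ∈ P.O ∧ P.ev y = algebraMap K Ω c := by
    have hmem : y ∈ (Algebra.adjoin A {y}).toSubring := Algebra.self_mem_adjoin_singleton A y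
    obtain ⟨h', h3⟩ := h1 y hmem
    refine ⟨h', ?_⟩
    rw [P.ev_of_mem h']
    change ψ ⟨y, h'⟩ = _
    rw [h3]
    change φ0 (e.symm ⟨y, hmem⟩) = _
    have h4 : (⟨y, hmem⟩ : Algebra.adjoin A {y}) = e X := by
      apply Subtype.ext
      simp [e]
    rw [h4, AlgEquiv.symm_apply_apply]
    simp [φ0]
  refine ⟨P, hA, hyO.1, hyO.2, ?_⟩
  -- the image of l
  set κ : Subfield Ω := l.map (algebraMap K Ω) with hκ
  have hpolyO : ∀ q : l[X], aeval y q ∈ P.O ∧ P.ev (aeval y q) =
      algebraMap K Ω (aeval c q) := by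
    intro q
    induction q using Polynomial.induction_on' with
    | add p q hp hq =>
      refine ⟨?_, ?_⟩
      · rw [map_add]; exact P.O.add_mem _ _ hp.1 hq.1
      · rw [map_add, P.ev_add hp.1 hq.1, hp.2, hq.2, map_add, map_add]
    | monomial n a =>
      have ha := hA (a : K) (hlA a.2)
      have h5 : aeval y (monomial n a) = (a : K) * y ^ n := by
        rw [aeval_monomial]; rfl
      have h6 : aeval c (monomial n a) = (a : K) * c ^ n := by
        rw [aeval_monomial]; rfl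
      rw [h5, h6]
      refine ⟨P.O.mul_mem _ _ ha.1 (pow_mem hyO.1 n), ?_⟩
      rw [P.ev_mul ha.1 (pow_mem hyO.1 n), P.ev_pow hyO.1, ha.2, hyO.2, map_mul, map_pow]
  have hlc : ∀ q : l[X], aeval c q ∈ l := by
    intro q
    have : aeval c q = ((q.eval ⟨c, hc⟩ : l) : K) := by
      change aeval (algebraMap l K ⟨c, hc⟩) q = _
      rw [aeval_algebraMap_apply, coe_aeval_eq_eval]
      rfl
    rw [this]
    exact Subtype.mem _
  have hadj : ∀ x ∈ adj l y, x ∈ P.O → P.ev x ∈ κ := by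
    intro x hx hxO
    by_cases hx0 : x = 0
    · rw [hx0, P.ev_zero]; exact κ.zero_mem
    obtain ⟨r, s, hco, hs0, hxs⟩ := exists_polys_of_mem_adj hx hx0
    have h8 := congrArg P.ev hxs
    rw [P.ev_mul hxO (hpolyO s).1, (hpolyO s).2, (hpolyO r).2] at h8
    have h9 : aeval c s ≠ 0 := by
      intro h
      rw [h, map_zero, mul_zero] at h8
      have hr0 : aeval c r = 0 := by
        have := h8.symm
        rwa [map_eq_zero] at this
      obtain ⟨u, v, huv⟩ := hco
      have h10 := congrArg (aeval c) huv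
      rw [map_add, map_mul, map_mul, h, hr0, mul_zero, mul_zero, add_zero, map_one] at h10
      exact zero_ne_one h10
    have h11 : P.ev x = algebraMap K Ω (aeval c r / aeval c s) := by
      rw [map_div₀, eq_div_iff (by rwa [Ne, map_eq_zero])]
      exact h8
    rw [h11]
    exact ⟨_, l.div_mem (hlc r) (hlc s), rfl⟩
  have hκac : IsAlgClosed κ := by
    have hinj : Function.Injective ((algebraMap K Ω).comp l.subtype) := RingHom.injective _
    apply IsAlgClosed.of_exists_root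
    intro p hp hirr
    have hsurj : ∀ x : κ, ∃ d : l, algebraMap K Ω d = (x : Ω) := by
      rintro ⟨x, d, hd, rfl⟩
      exact ⟨⟨d, hd⟩, rfl⟩
    -- pull back the polynomial
    let g : l →+* κ := ((algebraMap K Ω).comp l.subtype).codRestrict κ.toSubring
      (fun a => ⟨a, a.2, rfl⟩)
    have hg : Function.Surjective g := by
      intro x
      obtain ⟨d, hd⟩ := hsurj x
      exact ⟨d, Subtype.ext hd⟩
    obtain ⟨q, hq⟩ := Polynomial.map_surjective g hg p
    have hdeg : q.degree ≠ 0 := by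
      rw [← degree_map_eq_of_injective g.injective q, hq]
      exact (degree_pos_of_irreducible hirr).ne'
    obtain ⟨a, ha⟩ := IsAlgClosed.exists_root q hdeg
    refine ⟨g a, ?_⟩
    rw [← hq, eval_map, eval₂_hom, ha, map_zero]
  intro b hb hbalg
  have h12 := P.isAlgebraic_ev (adj l y) κ hadj hbalg hb
  obtain ⟨d, hd, h13⟩ := RAC_of_isAlgClosed κ hκac _ h12
  exact ⟨d, hd, h13.symm⟩

/-- existence of good residues for finite sums. -/
theorem Pl.gauss_sum (P : Pl K Ω) {l A B : Subfield K} (hlA : l ≤ A) (hlB : l ≤ B)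
    (hA : ∀ a ∈ A, a ∈ P.O) (hB : ∀ b ∈ B, b ∈ P.O → ∃ d ∈ l, P.ev b = P.ev d)
    {ι : Type*} (n : ℕ) : ∀ (s : Finset ι) (a b : ι → K), s.card = n → (∀ i ∈ s, a i ∈ A) →
      (∀ i ∈ s, b i ∈ B) → ∑ i ∈ s, a i * b i ≠ 0 →
    ∃ β ∈ B, β ≠ 0 ∧ P.U (β * ∑ i ∈ s, a i * b i) ∧
      ∃ α ∈ A, P.ev (β * ∑ i ∈ s, a i * b i) = P.ev α := by
  classical
  have hUA : ∀ a ∈ A, a ≠ 0 → P.U a := fun a ha h0 =>
    P.U_of_isAlgebraic A hA (isAlgebraic_of_mem ha) h0
  induction n with
  | zero =>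
    intro s a b hs ha hb hne
    rw [Finset.card_eq_zero.1 hs, Finset.sum_empty] at hne
    exact absurd rfl hne
  | succ n ih =>
    intro s a b hs ha hb hne
    have hsne : s.Nonempty := by
      rw [← Finset.card_pos, hs]; exact Nat.succ_pos n
    obtain ⟨j, hj, hjmax⟩ := s.exists_max_image (fun i => P.O.valuation (b i)) hsne
    have hbj : b j ≠ 0 := by
      intro h
      apply hne
      refine Finset.sum_eq_zero fun i hi => ?_
      have h1 := hjmax i hi
      rw [h, map_zero, le_zero_iff, Valuation.zero_iff] at h1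
      rw [h1, mul_zero]
    have hvj : P.O.valuation (b j) ≠ 0 := (Valuation.ne_zero_iff _).2 hbj
    set b' : ι → K := fun i => (b j)⁻¹ * b i with hb'
    have hb'B : ∀ i ∈ s, b' i ∈ B := fun i hi => B.mul_mem (B.inv_mem (hb j hj)) (hb i hi)
    have hb'O : ∀ i ∈ s, b' i ∈ P.O := by
      intro i hi
      rw [← P.O.valuation_le_one_iff, hb']
      simp only
      rw [map_mul, map_inv₀, mul_comm, ← div_eq_mul_inv]
      exact div_le_one_of_le₀ (hjmax i hi) zero_le
    have hb'j : b' j = 1 := inv_mul_cancel₀ hbj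
    have hdex : ∀ i, ∃ d, i ∈ s → (d ∈ l ∧ P.ev (b' i) = P.ev d) := by
      intro i
      by_cases hi : i ∈ s
      · obtain ⟨d, hd, h⟩ := hB _ (hb'B i hi) (hb'O i hi)
        exact ⟨d, fun _ => ⟨hd, h⟩⟩
      · exact ⟨0, fun h => absurd h hi⟩
    choose d0 hd0 using hdex
    set d : ι → K := fun i => if i = j then 1 else d0 i with hd
    have hdl : ∀ i ∈ s, d i ∈ l := by
      intro i hi
      rw [hd]
      simp only
      split_ifs with h
      · exact l.one_mem
      · exact (hd0 i hi).1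
    have hdev : ∀ i ∈ s, P.ev (b' i) = P.ev (d i) := by
      intro i hi
      rw [hd]
      simp only
      split_ifs with h
      · rw [h, hb'j]
      · exact (hd0 i hi).2
    have hdj : d j = 1 := by rw [hd]; simp
    have hdO : ∀ i ∈ s, d i ∈ P.O := fun i hi => hA _ (hlA (hdl i hi))
    have hx' : (b j)⁻¹ * ∑ i ∈ s, a i * b i = ∑ i ∈ s, a i * b' i := by
      rw [Finset.mul_sum]
      refine Finset.sum_congr rfl fun i _ => ?_
      rw [hb']; ring
    have hx'0 : ∑ i ∈ s, a i * b' i ≠ 0 := by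
      rw [← hx']; exact mul_ne_zero (inv_ne_zero hbj) hne
    set s0 : K := ∑ i ∈ s, a i * d i with hs0
    have hs0A : s0 ∈ A := A.sum_mem fun i hi => A.mul_mem (ha i hi) (hlA (hdl i hi))
    by_cases hs00 : s0 = 0
    · -- reduce
      have hj' : a j = - ∑ i ∈ s.erase j, a i * d i := by
        have h1 := Finset.add_sum_erase s (fun i => a i * d i) hj
        simp only [hdj, mul_one] at h1
        rw [← hs0, hs00] at h1
        exact eq_neg_of_add_eq_zero_left h1
      have hx'' : ∑ i ∈ s, a i * b' i = ∑ i ∈ s.erase j, a i * (b' i - d i) := by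
        rw [← Finset.add_sum_erase s (fun i => a i * b' i) hj]
        simp only [hb'j, mul_one]
        rw [hj', neg_add_eq_sub, ← Finset.sum_sub_distrib]
        exact Finset.sum_congr rfl fun i _ => by ring
      obtain ⟨β, hβ, hβ0, hU, α, hα, hev⟩ := ih (s.erase j) a (fun i => b' i - d i)
        (by rw [Finset.card_erase_of_mem hj, hs]; rfl)
        (fun i hi => ha i (Finset.mem_of_mem_erase hi))
        (fun i hi => B.sub_mem (hb'B i (Finset.mem_of_mem_erase hi))
          (hlB (hdl i (Finset.mem_of_mem_erase hi))))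
        (by rw [← hx'']; exact hx'0)
      refine ⟨β * (b j)⁻¹, B.mul_mem hβ (B.inv_mem (hb j hj)),
        mul_ne_zero hβ0 (inv_ne_zero hbj), ?_, α, hα, ?_⟩
      · rw [mul_assoc, hx', hx'']; exact hU
      · rw [mul_assoc, hx', hx'']; exact hev
    · have hev : P.ev (∑ i ∈ s, a i * b' i) = P.ev s0 := by
        rw [P.ev_sum s _ fun i hi => P.O.mul_mem _ _ (hA _ (ha i hi)) (hb'O i hi), hs0,
          P.ev_sum s _ fun i hi => P.O.mul_mem _ _ (hA _ (ha i hi)) (hdO i hi)]
        refine Finset.sum_congr rfl fun i hi => ?_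
        rw [P.ev_mul (hA _ (ha i hi)) (hb'O i hi), P.ev_mul (hA _ (ha i hi)) (hdO i hi),
          hdev i hi]
      have hUs : P.U s0 := hUA s0 hs0A hs00
      refine ⟨(b j)⁻¹, B.inv_mem (hb j hj), inv_ne_zero hbj, ?_, s0, hs0A, ?_⟩
      · rw [hx']
        refine ⟨P.O.toSubring.sum_mem fun i hi =>
          P.O.mul_mem _ _ (hA _ (ha i hi)) (hb'O i hi), ?_⟩
        rw [hev]; exact hUs.2
      · rw [hx']; exact hev

/-- elements of a compositum are quotients of finite sums. -/
theorem exists_sum_of_mem_sup {A B : Subfield K} {z : K}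
    (hz : z ∈ Subring.closure ((A : Set K) ∪ B)) :
    ∃ (n : ℕ) (a b : Fin n → K), (∀ i, a i ∈ A) ∧ (∀ i, b i ∈ B) ∧ z = ∑ i, a i * b i := by
  rw [Subring.mem_closure_iff] at hz
  have hmul : ∀ w ∈ Submonoid.closure ((A : Set K) ∪ B), ∃ a ∈ A, ∃ b ∈ B, w = a * b := by
    intro w hw
    induction hw using Submonoid.closure_induction with
    | mem x hx =>
      rcases hx with hx | hx
      · exact ⟨x, hx, 1, B.one_mem, (mul_one x).symm⟩
      · exact ⟨1, A.one_mem, x, hx, (one_mul x).symm⟩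
    | one => exact ⟨1, A.one_mem, 1, B.one_mem, (one_mul 1).symm⟩
    | mul x y hx hy ihx ihy =>
      obtain ⟨a, ha, b, hb, rfl⟩ := ihx
      obtain ⟨a', ha', b', hb', rfl⟩ := ihy
      exact ⟨a * a', A.mul_mem ha ha', b * b', B.mul_mem hb hb', by ring⟩
  induction hz using AddSubgroup.closure_induction with
  | mem x hx =>
    obtain ⟨a, ha, b, hb, rfl⟩ := hmul x hx
    exact ⟨1, fun _ => a, fun _ => b, fun _ => ha, fun _ => hb, by simp⟩
  | zero => exact ⟨0, Fin.elim0, Fin.elim0, fun i => i.elim0, fun i => i.elim0, by simp⟩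
  | add x y hx hy ihx ihy =>
    obtain ⟨n, a, b, ha, hb, rfl⟩ := ihx
    obtain ⟨m, a', b', ha', hb', rfl⟩ := ihy
    refine ⟨n + m, Fin.append a a', Fin.append b b', ?_, ?_, ?_⟩
    · intro i
      refine Fin.addCases (fun i => ?_) (fun i => ?_) i
      · rw [Fin.append_left]; exact ha i
      · rw [Fin.append_right]; exact ha' i
    · intro i
      refine Fin.addCases (fun i => ?_) (fun i => ?_) i
      · rw [Fin.append_left]; exact hb i
      · rw [Fin.append_right]; exact hb' i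
    · rw [Fin.sum_univ_add]
      simp only [Fin.append_left, Fin.append_right]
  | neg x hx ih =>
    obtain ⟨n, a, b, ha, hb, rfl⟩ := ih
    refine ⟨n, fun i => - a i, b, fun i => A.neg_mem (ha i), hb, ?_⟩
    rw [← Finset.sum_neg_distrib]
    exact Finset.sum_congr rfl fun i _ => by ring

/-- S04 Gauss lemma. -/
theorem Pl.gauss (P : Pl K Ω) {l A B : Subfield K} (hlA : l ≤ A) (hlB : l ≤ B)
    (hA : ∀ a ∈ A, a ∈ P.O) (hB : ∀ b ∈ B, b ∈ P.O → ∃ d ∈ l, P.ev b = P.ev d)
    {z : K} (hz : z ∈ A ⊔ B) (hz0 : z ≠ 0) :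
    ∃ b ∈ B, b ≠ 0 ∧ P.U (b * z) ∧ ∃ a ∈ A, P.ev (b * z) = P.ev a := by
  have h1 : A ⊔ B = Subfield.closure ((A : Set K) ∪ B) := by
    rw [Subfield.closure_union, Subfield.closure_eq, Subfield.closure_eq]
  rw [h1, Subfield.mem_closure_iff] at hz
  obtain ⟨y, hy, w, hw, rfl⟩ := hz
  have hy0 : y ≠ 0 := by rintro rfl; exact hz0 (zero_div _)
  have hw0 : w ≠ 0 := by rintro rfl; exact hz0 (div_zero _)
  obtain ⟨n, a, b, ha, hb, rfl⟩ := exists_sum_of_mem_sup hy
  obtain ⟨m, a', b', ha', hb', rfl⟩ := exists_sum_of_mem_sup hw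
  obtain ⟨β, hβ, hβ0, hU, α, hα, hev⟩ := P.gauss_sum hlA hlB hA hB _ Finset.univ a b rfl
    (fun i _ => ha i) (fun i _ => hb i) hy0
  obtain ⟨β', hβ', hβ'0, hU', α', hα', hev'⟩ := P.gauss_sum hlA hlB hA hB _ Finset.univ a' b' rfl
    (fun i _ => ha' i) (fun i _ => hb' i) hw0
  set y := ∑ i, a i * b i
  set w := ∑ i, a' i * b' i
  have he : β / β' * (y / w) = (β * y) / (β' * w) := by field_simp
  refine ⟨β / β', B.div_mem hβ hβ', div_ne_zero hβ0 hβ'0, ?_, α / α', A.div_mem hα hα', ?_⟩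
  · rw [he]; exact hU.div hU'
  · have hα'U : P.U α' := ⟨hA _ hα', by rw [← hev']; exact hU'.2⟩
    rw [he, P.ev_div hU.1 hU', P.ev_div (hA _ hα) hα'U, hev, hev']

theorem adj_eq (E : Subfield K) (b : K) :
    adj E b = (IntermediateField.adjoin E {b}).toSubfield := by
  apply le_antisymm
  · refine adj_le ?_ ?_
    · intro c hc
      exact (IntermediateField.adjoin E {b}).algebraMap_mem ⟨c, hc⟩
    · exact IntermediateField.mem_adjoin_simple_self E b
  · intro x hx
    let M : IntermediateField E K := (adj E b).toIntermediateField (fun c => le_adj E b c.2)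
    have h1 : IntermediateField.adjoin E {b} ≤ M := by
      rw [IntermediateField.adjoin_le_iff, Set.singleton_subset_iff]
      exact mem_adj E b
    exact h1 hx

attribute [-instance] AFastfced9ax7a.a0 AFastfced9ax7a.a1 AFastfced9ax7a.a2 AFastfced9ax7a.a3 AFastfced9ax7a.a4 AFastfced9ax7a.a5 AFastfced9ax7a.a6 AFastfced9ax7a.a7 AFastfced9ax7a.a8 AFastfced9ax7a.a9 AFastfced9ax7a.a10 AFastfced9ax7a.a11 AFastfced9ax7a.a12 AFastfced9ax7a.a13 AFastfced9ax7a.a14 AFastfced9ax7a.a15 AFastfced9ax7a.a16 AFastfced9ax7a.a17 AFastfced9ax7a.a18 AFastfced9ax7a.a19 AFastfced9ax7a.a20 AFastfced9ax7a.a21 AFastfced9ax7a.a22 AFastfced9ax7a.a23 AFastfced9ax7a.a24 AFastfced9ax7a.a25 AFastfced9ax7a.a26 AFastfced9ax7a.a27 AFastfced9ax7a.a28 AFastfced9ax7a.a29 AFastfced9ax7a.a30 AFastfced9ax7a.a31 AFastfced9ax7a.a32 AFastfced9ax7a.a33 AFastfced9ax7a.a34 AFastfced9ax7a.a35 AFastfced9ax7a.a36 AFastfced9ax7a.a37 AFastfced9ax7a.a38 AFastfced9ax7a.a39 AFastfced9ax7a.a40 AFastfced9ax7a.a41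 AFastfced9ax7a.a42 AFastfced9ax7a.a43 AFastfced9ax7a.a44 AFastfced9ax7a.a45 AFastfced9ax7a.a46 AFastfced9ax7a.a47 AFastfced9ax7a.a48 AFastfced9ax7a.a49 AFastfced9ax7a.a50 AFastfced9ax7a.a51 AFastfced9ax7a.a52 AFastfced9ax7a.a53 AFastfced9ax7a.a54 AFastfced9ax7a.a55 AFastfced9ax7a.a56 AFastfced9ax7a.a57 AFastfced9ax7a.a58 AFastfced9ax7a.a59 AFastfced9ax7a.a60 AFastfced9ax7a.a61 AFastfced9ax7a.a62 AFastfced9ax7a.a63 AFastfced9ax7a.a64 AFastfced9ax7a.a65 AFastfced9ax7a.a66 AFastfced9ax7a.a67 AFastfced9ax7a.a68 AFastfced9ax7a.a69 AFastfced9ax7a.a70 AFastfced9ax7a.a71 AFastfced9ax7a.a72 AFastfced9ax7a.a73 AFastfced9ax7a.a74 AFastfced9ax7b.a0 AFastfced9ax7b.a1 AFastfced9ax7b.a2 AFastfced9ax7b.a3 AFastfced9ax7b.a4 AFastfced9ax7b.a5 AFastfced9ax7b.a6 AFastfced9ax7b.a7 AFastfced9ax7b.a8 AFastfced9ax7b.a9 AFastfced9ax975a.a0 AFastfced9ax975a.a1 AFastfced9ax975a.a2 AFastfced9ax975a.a3 AFastfced9ax975b.a0 AFastfced9ax975b.a1 AFastfced9ax1417a.a0 in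
/-- S07 exchange property of algebraic dependence. -/
theorem exchange {E : Subfield K} {a b : K} (ha : ¬ IsAlgebraic E a)
    (h : IsAlgebraic (adj E b) a) : IsAlgebraic (adj E a) b := by
  by_cases hb : IsAlgebraic E b
  · exact isAlgebraic_mono (le_adj E a) hb
  · rw [adj_eq] at h ⊢
    have h1 : IsAlgebraic (IntermediateField.adjoin E {b}) a := h
    rw [IntermediateField.isAlgebraic_adjoin_iff] at h1
    have h2 := IsAlgebraic.adjoin_singleton (R := E) (A := K) (B := K) (x := b) (y := a) hb ha h1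
    have h3 : IsAlgebraic (Algebra.adjoin E {a}) b := h2
    rw [← IntermediateField.isAlgebraic_adjoin_iff] at h3
    exact h3

end places

end Vale.Agent.P019
end
end

section

section

/-!
# Finiteness of intersections
-/

namespace Vale.Agent.P019

set_option linter.style.haveILetI false

open Polynomial

section aux

variable {Ω : Type*} [Field Ω]

/-- `F ⊔ closure S` as an intermediate field. -/
theorem finK_sup_eq (F : Subfield Ω) (S : Set Ω) :
    (IntermediateField.adjoin F S).toSubfield = F ⊔ Subfield.closure S := by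
  rw [IntermediateField.adjoin_toSubfield]
  apply le_antisymm
  · rw [Subfield.closure_le]
    rintro z (⟨w, rfl⟩ | hz)
    · exact (le_sup_left : F ≤ F ⊔ Subfield.closure S) w.2
    · exact (le_sup_right : Subfield.closure S ≤ F ⊔ Subfield.closure S)
        (Subfield.subset_closure hz)
  · refine sup_le ?_ (Subfield.closure_mono Set.subset_union_right)
    intro z hz
    exact Subfield.subset_closure (Or.inl ⟨⟨z, hz⟩, rfl⟩)

theorem finK_mem_adj {E : Subfield Ω} {t z : Ω} :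
    z ∈ adj E t ↔ ∃ p q : E[X], z = aeval t p / aeval t q := by
  rw [← IntermediateField.mem_adjoin_simple_iff, adj, ← finK_sup_eq]
  rfl

/-- a primitive root of unity in an algebraically closed subfield. -/
theorem finK_prim [CharZero Ω] {l : Subfield Ω} (hl : IsAlgClosed l) (ℓ : ℕ) [Fact ℓ.Prime] :
    ∃ ζ ∈ l, IsPrimitiveRoot ζ ℓ := by
  haveI : NeZero ℓ := ⟨(Fact.out : ℓ.Prime).ne_zero⟩
  haveI : NeZero (ℓ : l) := ⟨by
    have : ((ℓ : ℕ) : l) ≠ 0 := Nat.cast_ne_zero.2 (NeZero.ne ℓ)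
    exact this⟩
  obtain ⟨ζ, hζ⟩ := HasEnoughRootsOfUnity.exists_primitiveRoot l ℓ
  exact ⟨ζ, ζ.2, hζ.map_of_injective (f := algebraMap l Ω) (algebraMap l Ω).injective⟩

theorem FG.mono {E F Λ : Subfield Ω} (h : FG E Λ) (hEF : E ≤ F) (hF : F ≤ Λ) : FG F Λ := by
  obtain ⟨S, hS⟩ := h
  refine ⟨S, le_antisymm ?_ ?_⟩
  · rw [hS]
    exact sup_le_sup_right hEF _
  · refine sup_le hF ?_
    rw [hS]
    exact le_sup_right

end aux

section finite

variable {Ω : Type*} [Field Ω] [CharZero Ω] (ℓ : ℕ) [Fact ℓ.Prime]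

/-- S11 finite kernel, ambient version. -/
theorem fk {F Λ : Subfield Ω} (h : FG F Λ) {ζ : Ω} (hζF : ζ ∈ F) (hζ : IsPrimitiveRoot ζ ℓ) :
    ∃ N : ℕ, ∀ x : Fin (N + 1) → Ω, (∀ i, x i ∈ F ∧ x i ≠ 0 ∧ ∃ w ∈ Λ, w ^ ℓ = x i) →
      ∃ i j, i ≠ j ∧ ∃ y ∈ F, y ≠ 0 ∧ x i = x j * y ^ ℓ := by
  obtain ⟨S, hS⟩ := h
  haveI : CharZero F := inferInstance
  haveI : Algebra.EssFiniteType F (IntermediateField.adjoin F (S : Set Ω)) :=
    IntermediateField.essFiniteType_iff.2 ⟨S, rfl⟩
  have hζ' : IsPrimitiveRoot (⟨ζ, hζF⟩ : F) ℓ :=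
    IsPrimitiveRoot.of_map_of_injective (f := algebraMap F Ω) hζ (algebraMap F Ω).injective
  obtain ⟨N, hN⟩ := finite_kernel (F := F) (L := IntermediateField.adjoin F (S : Set Ω)) ℓ
    ⟨ζ, hζF⟩ hζ'
  refine ⟨N, fun x hx => ?_⟩
  obtain ⟨i, j, hij, y, hy0, hy⟩ := hN (fun i => ⟨x i, (hx i).1⟩) (by
    intro i
    obtain ⟨h1, h2, w, hw, hwx⟩ := hx i
    refine ⟨fun h => h2 (congrArg Subtype.val h), ?_⟩
    have hw' : w ∈ IntermediateField.adjoin F (S : Set Ω) := by
      have h3 : w ∈ (IntermediateField.adjoin F (S : Set Ω)).toSubfield := by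
        rw [finK_sup_eq, ← hS]; exact hw
      exact h3
    refine ⟨⟨w, hw'⟩, Subtype.ext ?_⟩
    exact hwx)
  refine ⟨i, j, hij, y, y.2, fun h => hy0 (Subtype.ext h), ?_⟩
  exact congrArg Subtype.val hy

end finite

section finiteK

variable {K : Type*} [Field K] [CharZero K] (ℓ : ℕ) [Fact ℓ.Prime]

end finiteK

end Vale.Agent.P019
end
end

section

section

/-!
# Valuations over the generic fibres of a rational function field
-/

namespace Vale.Agent.P019

open Polynomial Filter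

variable {N : Type*} [Field N]

/-- `W` is trivial on `G` and `σ` specializes to `b`. -/
structure Over (W : ValuationSubring N) (G : Subfield N) (σ b : N) : Prop where
  triv : TrivOn W G
  lt : W.valuation (σ - b) < 1

theorem Over.mem {W : ValuationSubring N} {G : Subfield N} {σ b : N} (h : Over W G σ b)
    (hb : b ∈ G) : σ ∈ W := by
  have : σ = (σ - b) + b := by ring
  rw [this]
  exact add_mem ((W.valuation_le_one_iff _).1 h.lt.le) (h.triv _ hb)

theorem aeval_sub_eval {W : ValuationSubring N} {G : Subfield N} {σ : N} {b : G}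
    (h : Over W G σ b) (P : G[X]) : W.valuation (aeval σ P - (P.eval b : G)) < 1 := by
  obtain ⟨R, hR⟩ := X_sub_C_dvd_sub_C_eval (a := b) (p := P)
  have h1 := congrArg (aeval σ) hR
  rw [map_sub, aeval_C, map_mul, map_sub, aeval_X, aeval_C] at h1
  change aeval σ P - ((P.eval b : G) : N) = (σ - (b : N)) * aeval σ R at h1
  rw [h1, map_mul]
  refine lt_of_le_of_lt (mul_le_of_le_one_right' ?_) h.lt
  rw [W.valuation_le_one_iff]
  exact aeval_mem (h.mem b.2) (fun i => h.triv _ (R.coeff i).2)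

theorem eval_ne_zero_ae {G : Subfield N} {P : G[X]} (hP : P ≠ 0) :
    ∀ᶠ b : G in cofinite, P.eval b ≠ 0 := by
  rw [eventually_cofinite]
  refine (P.rootSet_finite G).subset ?_
  intro b hb
  rw [Set.mem_ofPred_eq, not_not] at hb
  rw [mem_rootSet]
  exact ⟨hP, by simpa using hb⟩

theorem unit_ae_of_mem {G : Subfield N} {σ h : N}
    (hh : h ∈ IntermediateField.adjoin G {σ}) (h0 : h ≠ 0) :
    ∀ᶠ b : G in cofinite, ∀ W : ValuationSubring N, Over W G σ b → W.valuation h = 1 := by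
  rw [IntermediateField.mem_adjoin_simple_iff] at hh
  obtain ⟨P, Q, rfl⟩ := hh
  have hP : P ≠ 0 := by rintro rfl; simp at h0
  have hQ : Q ≠ 0 := by rintro rfl; simp at h0
  filter_upwards [eval_ne_zero_ae hP, eval_ne_zero_ae hQ] with b hbP hbQ W hW
  have key : ∀ R : G[X], R.eval b ≠ 0 → W.valuation (aeval σ R) = 1 := by
    intro R hR
    refine val_of_sub (hW.triv.eq_one (R.eval b : G).2 ?_) (aeval_sub_eval hW R)
    intro h; exact hR (Subtype.ext h)
  rw [map_div₀, key P hbP, key Q hbQ, div_one]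

theorem int_ae {G : Subfield N} {σ h : N}
    (_hh : IsAlgebraic (IntermediateField.adjoin G {σ}) h) :
    ∀ᶠ b : G in cofinite, ∀ W : ValuationSubring N, Over W G σ b →
      IntCoeff W (minpoly (IntermediateField.adjoin G {σ}) h) := by
  set p := minpoly (IntermediateField.adjoin G {σ}) h with hp
  have h1 : ∀ᶠ b : G in cofinite, ∀ i ∈ p.support, ∀ W : ValuationSubring N, Over W G σ b →
      W.valuation (p.coeff i : N) = 1 := by
    rw [Filter.eventually_all_finset]
    intro i hi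
    refine unit_ae_of_mem (p.coeff i).2 ?_
    intro h; exact (mem_support_iff.1 hi) (Subtype.ext h)
  filter_upwards [h1] with b hb W hW i
  by_cases hi : i ∈ p.support
  · change (p.coeff i : N) ∈ W
    rw [← W.valuation_le_one_iff]; exact (hb i hi W hW).le
  · rw [notMem_support_iff.1 hi, map_zero]; exact zero_mem _

theorem mem_ae {G : Subfield N} {σ h : N}
    (hh : IsAlgebraic (IntermediateField.adjoin G {σ}) h) :
    ∀ᶠ b : G in cofinite, ∀ W : ValuationSubring N, Over W G σ b → h ∈ W := by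
  filter_upwards [int_ae hh] with b hb W hW
  exact mem_of_root (minpoly.monic hh.isIntegral) (hb W hW) (minpoly.aeval _ _)

theorem unit_ae {G : Subfield N} {σ h : N}
    (hh : IsAlgebraic (IntermediateField.adjoin G {σ}) h) (h0 : h ≠ 0) :
    ∀ᶠ b : G in cofinite, ∀ W : ValuationSubring N, Over W G σ b → W.valuation h = 1 := by
  filter_upwards [mem_ae hh, mem_ae hh.inv] with b hb hb' W hW
  refine le_antisymm ((W.valuation_le_one_iff _).2 (hb W hW)) ?_
  have h1 := (W.valuation_le_one_iff _).2 (hb' W hW)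
  rw [map_inv₀] at h1
  have h2 : 0 < W.valuation h := zero_lt_iff.2 ((Valuation.ne_zero_iff _).2 h0)
  exact (inv_le_one₀ h2).1 h1

theorem adjoin_sub (G : Subfield N) (σ : N) (b : G) :
    IntermediateField.adjoin G {σ - (b : N)} = IntermediateField.adjoin G {σ} := by
  apply le_antisymm
  · rw [IntermediateField.adjoin_simple_le_iff]
    exact sub_mem (IntermediateField.mem_adjoin_simple_self G σ)
      (IntermediateField.algebraMap_mem _ b)
  · rw [IntermediateField.adjoin_simple_le_iff]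
    have : σ = (σ - (b : N)) + algebraMap G N b := by
      change σ = (σ - (b : N)) + (b : N)
      ring
    rw [this]
    exact add_mem (by
      have e : σ - (b : N) + algebraMap G N b - (b : N) = σ - (b : N) := by
        change σ - (b : N) + (b : N) - (b : N) = σ - (b : N)
        ring
      rw [e]
      exact IntermediateField.mem_adjoin_simple_self G _) (IntermediateField.algebraMap_mem _ b)

end Vale.Agent.P019
end
end

section

section

/-!
# Definitions for the reconstruction of the field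
-/

namespace Vale.Agent.P019

open Polynomial Filter

section ae

variable {K : Type*} [Field K]

/-- the filter of cofinite subsets of a subfield. -/
def ae (k : Subfield K) : Filter K := cofinite ⊓ 𝓟 (k : Set K)

theorem ae_iff {k : Subfield K} {P : K → Prop} :
    (∀ᶠ a in ae k, P a) ↔ {a : K | a ∈ k ∧ ¬ P a}.Finite := by
  unfold ae
  rw [eventually_inf_principal, eventually_cofinite]
  have : {x : K | ¬ (x ∈ (k : Set K) → P x)} = {a : K | a ∈ k ∧ ¬ P a} := by
    ext x
    simp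
  rw [this]

theorem ae_mem (k : Subfield K) : ∀ᶠ a in ae k, a ∈ k := by
  rw [ae_iff]
  convert Set.finite_empty
  ext x
  simp

theorem ae_mono {k F : Subfield K} (h : k ≤ F) : ae k ≤ ae F :=
  inf_le_inf_left _ (principal_mono.2 h)

end ae

section crv

variable {K : Type*} [Field K]

/-- relatively algebraically closed subfields of transcendence degree one. -/
structure Crv (k E : Subfield K) : Prop where
  le : k ≤ E
  rac : RAC E
  ex : ∃ y ∈ E, y ∉ k ∧ ∀ z ∈ E, IsAlgebraic (adj k y) z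

/-- `G` is a field of transcendence degree two below the whole field, with transcendence basis
`t, s` of the whole field over `G`. -/
structure Frame (k G : Subfield K) (t s : K) : Prop where
  le : k ≤ G
  fg : FG k G
  tt : ¬ IsAlgebraic (adj G s) t
  ss : ¬ IsAlgebraic G s
  alg : ∀ z : K, IsAlgebraic (adj (adj G s) t) z

/-- a discrete valuation, trivial on `F`, with residue field finite over `F`, generated by `θ`. -/
structure Nice (W : ValuationSubring K) (F : Subfield K) (π θ : K) : Prop where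
  unif : IsUnif W π
  triv : TrivOn W F
  mem : θ ∈ W
  res : ∀ z : K, W.valuation z ≤ 1 → ∃ P Q : F[X], W.valuation (aeval θ Q) = 1 ∧
    W.valuation (z * aeval θ Q - aeval θ P) < 1
  alg : ∃ P : F[X], P.Monic ∧ W.valuation (aeval θ P) < 1

end crv

section rk

variable {ℓ : ℕ} {K L : Type*} [Field K] [Field L]

/-- `A` has rank at least two modulo `U`. -/
def Rk2 (A U : Submodule (ZMod ℓ) (V ℓ K)) : Prop :=
  ∃ u ∈ A, ∃ v ∈ A, ∀ i j : ZMod ℓ, i • u + j • v ∈ U → i = 0 ∧ j = 0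

/-- the hypotheses provided by the local theory and the theory of good elements. -/
structure Hyp (ℓ : ℕ) {K L : Type*} [Field K] [Field L] (k : Subfield K) (l : Subfield L)
    (Θ : V ℓ K ≃ₗ[ZMod ℓ] V ℓ L) : Prop where
  ack : IsAlgClosed k
  acl : IsAlgClosed l
  fgk : FG k (⊤ : Subfield K)
  fgl : FG l (⊤ : Subfield L)
  uk : ¬ (k : Set K).Countable
  ul : ¬ (l : Set L).Countable
  trk : ∃ x y : K, x ∉ k ∧ ¬ IsAlgebraic (adj k x) y
  trl : ∃ x y : L, x ∉ l ∧ ¬ IsAlgebraic (adj l x) y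
  comp : Compatible Θ
  stepA : ∀ t, Good k t → ∃ E : Subfield L, Crv l E ∧
    ∀ v, Θ v ∈ VS ℓ E ↔ v ∈ VS ℓ (adj k t)
  stepA' : ∀ t, Good l t → ∃ E : Subfield K, Crv k E ∧
    ∀ v, Θ.symm v ∈ VS ℓ E ↔ v ∈ VS ℓ (adj l t)
  ltr : ∀ (U : Submodule (ZMod ℓ) (V ℓ K)) (x : K), Good k x →
    ((U ⊓ VS ℓ (adj k x) : Submodule (ZMod ℓ) (V ℓ K)) : Set (V ℓ K)).Finite →
    ∀ O : ValuationSubring L, (∀ z, O.valuation z < 1 → Θ.symm (cl ℓ (1 + z)) ∈ U) → TrivOn O l
  ltr' : ∀ (U : Submodule (ZMod ℓ) (V ℓ L)) (x : L), Good l x →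
    ((U ⊓ VS ℓ (adj l x) : Submodule (ZMod ℓ) (V ℓ L)) : Set (V ℓ L)).Finite →
    ∀ O : ValuationSubring K, (∀ z, O.valuation z < 1 → Θ (cl ℓ (1 + z)) ∈ U) → TrivOn O k
  bert : ∀ x y : K, x ∉ k → ¬ IsAlgebraic (adj k x) y → ∀ᶠ c in ae k, Good k (x + c * y)
  bert' : ∀ x y : L, x ∉ l → ¬ IsAlgebraic (adj l x) y → ∀ᶠ c in ae l, Good l (x + c * y)

end rk

section div

variable {ℓ : ℕ} {K L : Type*} [Field K] [Field L]

variable (ℓ) in
open Classical in
/-- the order functional at `s = b` on the classes of `k(s)`. -/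
noncomputable def del (k : Subfield K) (s b : K) : V ℓ K →ₗ[ZMod ℓ] ZMod ℓ :=
  if h : ∃ f : V ℓ K →ₗ[ZMod ℓ] ZMod ℓ, f (cl ℓ (s - b)) = 1 ∧
      ∀ c ∈ k, c ≠ b → f (cl ℓ (s - c)) = 0 then h.choose else 0

/-- `Θ` maps the classes of `k(s)` onto those of `l(s')`. -/
structure Rt (k : Subfield K) (l : Subfield L) (Θ : V ℓ K ≃ₗ[ZMod ℓ] V ℓ L) (s : K) (s' : L) :
    Prop where
  good : Good k s
  good' : Good l s'
  map : ∀ v, Θ v ∈ VS ℓ (adj l s') ↔ v ∈ VS ℓ (adj k s)

/-- the points `s = b` and `s' = β` correspond. -/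
def Cor (k : Subfield K) (l : Subfield L) (Θ : V ℓ K ≃ₗ[ZMod ℓ] V ℓ L) (s : K) (s' : L)
    (e : ZMod ℓ) (b : K) (β : L) : Prop :=
  ∀ v ∈ VS ℓ (adj k s), del ℓ k s b v = e * del ℓ l s' β (Θ v)

end div

end Vale.Agent.P019
end
end

section

section

/-!
# Residue fields of valuation subrings and images of trivially valued subfields
-/

namespace Vale.Agent.P019

open Polynomial Filter

variable {K : Type*} [Field K]

open Classical in
/-- residue of an element (zero for non-integral elements). -/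
noncomputable def rs (W : ValuationSubring K) (z : K) : IsLocalRing.ResidueField W :=
  if h : z ∈ W then IsLocalRing.residue W ⟨z, h⟩ else 0

section

variable {W : ValuationSubring K}

theorem rs_of_mem {z : K} (h : z ∈ W) : rs W z = IsLocalRing.residue W ⟨z, h⟩ := by
  simp [rs, h]

theorem rs_add {x y : K} (hx : x ∈ W) (hy : y ∈ W) : rs W (x + y) = rs W x + rs W y := by
  rw [rs_of_mem hx, rs_of_mem hy, rs_of_mem (add_mem hx hy), ← map_add]
  rfl

theorem rs_mul {x y : K} (hx : x ∈ W) (hy : y ∈ W) : rs W (x * y) = rs W x * rs W y := by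
  rw [rs_of_mem hx, rs_of_mem hy, rs_of_mem (mul_mem hx hy), ← map_mul]
  rfl

theorem rs_neg {x : K} (hx : x ∈ W) : rs W (-x) = -rs W x := by
  rw [rs_of_mem hx, rs_of_mem (neg_mem hx), ← map_neg]
  rfl

theorem rs_sub {x y : K} (hx : x ∈ W) (hy : y ∈ W) : rs W (x - y) = rs W x - rs W y := by
  rw [rs_of_mem hx, rs_of_mem hy, rs_of_mem (sub_mem hx hy), ← map_sub]
  rfl

theorem rs_one : rs W (1 : K) = 1 := by
  rw [rs_of_mem (one_mem W)]
  exact map_one _

theorem rs_zero : rs W (0 : K) = 0 := by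
  rw [rs_of_mem (zero_mem W)]
  exact map_zero _

theorem rs_pow {x : K} (hx : x ∈ W) (n : ℕ) : rs W (x ^ n) = rs W x ^ n := by
  induction n with
  | zero => rw [pow_zero, pow_zero, rs_one]
  | succ n ih => rw [pow_succ, pow_succ, rs_mul (pow_mem hx n) hx, ih]

theorem rs_eq_zero {x : K} (hx : x ∈ W) : rs W x = 0 ↔ W.valuation x < 1 := by
  rw [rs_of_mem hx, IsLocalRing.residue_eq_zero_iff, ValuationSubring.valuation_lt_one_iff]

theorem rs_eq {x y : K} (hx : x ∈ W) (hy : y ∈ W) :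
    rs W x = rs W y ↔ W.valuation (x - y) < 1 := by
  rw [← sub_eq_zero, ← rs_sub hx hy, rs_eq_zero (sub_mem hx hy)]

theorem rs_ne_zero {x : K} (hx : x ∈ W) : rs W x ≠ 0 ↔ W.valuation x = 1 := by
  rw [Ne, rs_eq_zero hx]
  have h := (W.valuation_le_one_iff x).2 hx
  constructor
  · intro h'; exact le_antisymm h (not_lt.1 h')
  · intro h' h''; rw [h'] at h''; exact lt_irrefl _ h''

theorem rs_surj (c : IsLocalRing.ResidueField W) : ∃ z ∈ W, rs W z = c := by
  obtain ⟨z, hz⟩ := IsLocalRing.residue_surjective c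
  refine ⟨z, z.2, ?_⟩
  rw [rs_of_mem z.2, ← hz]

theorem mem_of_val {z : K} (h : W.valuation z = 1) : z ∈ W :=
  (W.valuation_le_one_iff z).1 h.le

theorem rs_inv {z : K} (h : W.valuation z = 1) : rs W z⁻¹ = (rs W z)⁻¹ := by
  have h' : W.valuation z⁻¹ = 1 := by rw [map_inv₀, h, inv_one]
  have hz0 : z ≠ 0 := by rintro rfl; rw [map_zero] at h; exact zero_ne_one h
  apply eq_inv_of_mul_eq_one_left
  rw [← rs_mul (mem_of_val h') (mem_of_val h), inv_mul_cancel₀ hz0, rs_one]

end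

section bar

variable {W : ValuationSubring K} {E : Subfield K}

/-- the residue map on a trivially valued subfield. -/
noncomputable def barHom (h : TrivOn W E) : E →+* IsLocalRing.ResidueField W where
  toFun e := rs W e
  map_one' := rs_one
  map_zero' := rs_zero
  map_add' x y := rs_add (h _ x.2) (h _ y.2)
  map_mul' x y := rs_mul (h _ x.2) (h _ y.2)

/-- the image of a trivially valued subfield in the residue field. -/
noncomputable def bar (h : TrivOn W E) : Subfield (IsLocalRing.ResidueField W) :=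
  (barHom h).fieldRange

theorem mem_bar (h : TrivOn W E) {c : IsLocalRing.ResidueField W} :
    c ∈ bar h ↔ ∃ e ∈ E, rs W e = c := by
  constructor
  · rintro ⟨e, rfl⟩; exact ⟨e, e.2, rfl⟩
  · rintro ⟨e, he, rfl⟩; exact ⟨⟨e, he⟩, rfl⟩

theorem rs_mem_bar (h : TrivOn W E) {e : K} (he : e ∈ E) : rs W e ∈ bar h :=
  (mem_bar h).2 ⟨e, he, rfl⟩

theorem rs_injOn (h : TrivOn W E) {e e' : K} (he : e ∈ E) (he' : e' ∈ E)
    (heq : rs W e = rs W e') : e = e' := by
  rw [rs_eq (h _ he) (h _ he')] at heq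
  exact sub_eq_zero.1 (h.eq_zero (E.sub_mem he he') heq)

/-- the residue map on a trivially valued subfield as an isomorphism onto its image. -/
noncomputable def barEquiv (h : TrivOn W E) : E ≃+* bar h :=
  RingEquiv.ofBijective (barHom h).rangeRestrictField
    ⟨(barHom h).rangeRestrictField.injective, by
      rintro ⟨c, e, he⟩
      exact ⟨e, Subtype.ext he⟩⟩

theorem bar_mono {E' : Subfield K} (h : TrivOn W E) (h' : TrivOn W E') (hE : E ≤ E') :
    bar h ≤ bar h' := by
  intro c hc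
  obtain ⟨e, he, rfl⟩ := (mem_bar h).1 hc
  exact rs_mem_bar h' (hE he)

theorem bar_isAlgClosed (h : TrivOn W E) (hE : IsAlgClosed E) : IsAlgClosed (bar h) :=
  IsAlgClosed.of_ringEquiv _ _ (barEquiv h)

theorem bar_adj (h : TrivOn W E) {x : K} (hx : TrivOn W (adj E x)) :
    bar hx = adj (bar h) (rs W x) := by
  apply le_antisymm
  · have key : ∀ e ∈ adj E x, rs W e ∈ adj (bar h) (rs W x) := by
      intro e he
      have h1 : adj E x ≤ ((adj (bar h) (rs W x)).comap (barHom hx)).map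
          (adj E x).subtype := by
        refine adj_le ?_ ?_
        · intro c hc
          exact ⟨⟨c, le_adj E x hc⟩, le_adj _ _ (rs_mem_bar h hc), rfl⟩
        · exact ⟨⟨x, mem_adj E x⟩, mem_adj _ _, rfl⟩
      obtain ⟨⟨c, hc⟩, hc', rfl⟩ := h1 he
      exact hc'
    intro c hc
    obtain ⟨e, he, rfl⟩ := (mem_bar hx).1 hc
    exact key e he
  · refine adj_le (bar_mono h hx (le_adj E x)) (rs_mem_bar hx (mem_adj E x))

/-- reduction of a polynomial with coefficients in a trivially valued subfield. -/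
theorem rs_aeval (h : TrivOn W E) {z : K} (hz : z ∈ W) (P : E[X]) :
    rs W (aeval z P) = aeval (rs W z) (P.map (barEquiv h).toRingHom) := by
  have hz' : ∀ Q : E[X], aeval z Q ∈ W := fun Q => aeval_mem hz (fun i => h _ (Q.coeff i).2)
  induction P using Polynomial.induction_on' with
  | add p q hp hq =>
    rw [map_add, rs_add (hz' p) (hz' q), hp, hq, Polynomial.map_add, map_add]
  | monomial n a =>
    rw [← C_mul_X_pow_eq_monomial, map_mul, aeval_C, map_pow, aeval_X, Polynomial.map_mul,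
      map_C, Polynomial.map_pow, map_X, map_mul, aeval_C, map_pow, aeval_X]
    change rs W ((a : K) * z ^ n) = _
    rw [rs_mul (h _ a.2) (pow_mem hz n), rs_pow hz]
    rfl

theorem isAlgebraic_bar (h : TrivOn W E) {z : K} (hz : z ∈ W) (halg : IsAlgebraic E z) :
    IsAlgebraic (bar h) (rs W z) := by
  refine ⟨(minpoly E z).map (barEquiv h).toRingHom, ?_, ?_⟩
  · exact (Monic.map _ (minpoly.monic halg.isIntegral)).ne_zero
  · rw [← rs_aeval h hz, minpoly.aeval, rs_zero]

theorem isAlgebraic_of_bar (h : TrivOn W E) {z : K} (hz : TrivOn W (adj E z))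
    (halg : IsAlgebraic (bar h) (rs W z)) : IsAlgebraic E z := by
  obtain ⟨P, hP0, hP⟩ := halg
  refine ⟨P.map (barEquiv h).symm.toRingHom, ?_, ?_⟩
  · rw [Ne, Polynomial.map_eq_zero_iff (RingEquiv.injective _)]
    exact hP0
  · have hzW : z ∈ W := hz _ (mem_adj E z)
    set Q := P.map (barEquiv h).symm.toRingHom with hQ
    have h1 : rs W (aeval z Q) = 0 := by
      rw [rs_aeval h hzW, hQ, Polynomial.map_map]
      have : (barEquiv h).toRingHom.comp (barEquiv h).symm.toRingHom = RingHom.id _ := by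
        ext x; simp
      rw [this, Polynomial.map_id]
      exact hP
    have h2 : aeval z Q ∈ adj E z := by
      rw [aeval_eq_sum_range]
      refine sum_mem fun i _ => ?_
      rw [Algebra.smul_def]
      exact mul_mem (le_adj E z (Q.coeff i).2) (pow_mem (mem_adj E z) i)
    refine hz.eq_zero h2 ?_
    exact (rs_eq_zero (hz _ h2)).1 h1

theorem rs_charZero [CharZero K] (h : TrivOn W E) : CharZero (IsLocalRing.ResidueField W) := by
  have : CharZero E := inferInstance
  exact charZero_of_injective_ringHom (barHom h).injective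

end bar

end Vale.Agent.P019
end
end
namespace AFastfced9ax3308b
@[reducible] noncomputable def a0.{u1} {x1 : Type u1} [x2 : Field x1] {x3 : ValuationSubring x1} {x4 : Subfield x1} {x5 : Vale.Agent.P019.TrivOn x3 x4} : Module (↥(Vale.Agent.P019.bar x5)) (Polynomial ↥(Vale.Agent.P019.bar x5)) := inferInstance
end AFastfced9ax3308b
attribute [local instance] AFastfced9ax3308b.a0

section

section

/-!
# Frames and generic valuations
-/

namespace Vale.Agent.P019

open Polynomial Filter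

variable {K : Type*} [Field K]

theorem mem_adjoin_simple {F : Subfield K} {x z : K} :
    z ∈ IntermediateField.adjoin F {x} ↔ z ∈ adj F x := by
  rw [adj_eq]
  exact Iff.rfl

attribute [-instance] AFastfced9ax7a.a0 AFastfced9ax7a.a1 AFastfced9ax7a.a2 AFastfced9ax7a.a3 AFastfced9ax7a.a4 AFastfced9ax7a.a5 AFastfced9ax7a.a6 AFastfced9ax7a.a7 AFastfced9ax7a.a8 AFastfced9ax7a.a9 AFastfced9ax7a.a10 AFastfced9ax7a.a11 AFastfced9ax7a.a12 AFastfced9ax7a.a13 AFastfced9ax7a.a14 AFastfced9ax7a.a15 AFastfced9ax7a.a16 AFastfced9ax7a.a17 AFastfced9ax7a.a18 AFastfced9ax7a.a19 AFastfced9ax7a.a20 AFastfced9ax7a.a21 AFastfced9ax7a.a22 AFastfced9ax7a.a23 AFastfced9ax7a.a24 AFastfced9ax7a.a25 AFastfced9ax7a.a26 AFastfced9ax7a.a27 AFastfced9ax7a.a28 AFastfced9ax7a.a29 AFastfced9ax7a.a30 AFastfced9ax7a.a31 AFastfced9ax7a.a32 AFastfced9ax7a.a33 AFastfced9ax7a.a34 AFastfced9ax7a.a35 AFastfced9ax7a.a36 AFastfced9ax7a.a37 AFastfced9ax7a.a38 AFastfced9ax7a.a39 AFastfced9ax7a.a40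 AFastfced9ax7a.a41 AFastfced9ax7a.a42 AFastfced9ax7a.a43 AFastfced9ax7a.a44 AFastfced9ax7a.a45 AFastfced9ax7a.a46 AFastfced9ax7a.a47 AFastfced9ax7a.a48 AFastfced9ax7a.a49 AFastfced9ax7a.a50 AFastfced9ax7a.a51 AFastfced9ax7a.a52 AFastfced9ax7a.a53 AFastfced9ax7a.a54 AFastfced9ax7a.a55 AFastfced9ax7a.a56 AFastfced9ax7a.a57 AFastfced9ax7a.a58 AFastfced9ax7a.a59 AFastfced9ax7a.a60 AFastfced9ax7a.a61 AFastfced9ax7a.a62 AFastfced9ax7a.a63 AFastfced9ax7a.a64 AFastfced9ax7a.a65 AFastfced9ax7a.a66 AFastfced9ax7a.a67 AFastfced9ax7a.a68 AFastfced9ax7a.a69 AFastfced9ax7a.a70 AFastfced9ax7a.a71 AFastfced9ax7a.a72 AFastfced9ax7a.a73 AFastfced9ax7a.a74 AFastfced9ax7b.a0 AFastfced9ax7b.a1 AFastfced9ax7b.a2 AFastfced9ax7b.a3 AFastfced9ax7b.a4 AFastfced9ax7b.a5 AFastfced9ax7b.a6 AFastfced9ax7b.a7 AFastfced9ax7b.a8 AFastfced9ax7b.a9 AFastfced9ax975a.a0 AFastfced9ax975a.a1 AFastfced9ax975a.a2 AFastfced9ax975a.a3 AFastfced9ax975b.a0 AFastfced9ax975b.a1 AFastfced9ax1417a.a0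 AFastfced9ax3308b.a0 in
theorem isAlgebraic_adjoin_simple {F : Subfield K} {x z : K} :
    IsAlgebraic (IntermediateField.adjoin F {x}) z ↔ IsAlgebraic (adj F x) z := by
  rw [adj_eq]
  exact Iff.rfl

theorem frb_ae {k : Subfield K} {P : K → Prop} (h : ∀ᶠ b : k in cofinite, P b) :
    ∀ᶠ a in ae k, P a := by
  rw [ae_iff]
  rw [eventually_cofinite] at h
  refine (h.image Subtype.val).subset ?_
  rintro a ⟨ha, hPa⟩
  exact ⟨⟨a, ha⟩, hPa, rfl⟩

theorem exists_over {F : Subfield K} {t : K} (ht : ¬ IsAlgebraic F t) {a : K} (ha : a ∈ F) :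
    ∃ W : ValuationSubring K, Over W F t a := by
  have h1 : Transcendental F (t - a) := by
    intro h
    apply ht
    have h2 : t - a ∈ rac F := mem_rac.2 h
    have h3 : t ∈ rac F := by
      have h4 := (rac F).add_mem h2 (le_rac F ha)
      rwa [sub_add_cancel] at h4
    exact mem_rac.1 h3
  obtain ⟨W, hW1, hW2⟩ := exists_triv F (t - a) h1
  exact ⟨W, hW1, hW2⟩

end Vale.Agent.P019
end
end

section

section

/-!
# Generic places
-/

namespace Vale.Agent.P019

set_option linter.style.haveILetI false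

open Polynomial

namespace Gn

variable {K : Type*} [Field K]

theorem isAlgebraic_of_coeff {E : Subfield K} {a : K} (Q : K[X]) (hQ : Q ≠ 0)
    (hcoef : ∀ i, Q.coeff i ∈ E) (h : Q.eval a = 0) : IsAlgebraic E a := by
  have hl : Q ∈ Polynomial.lifts E.subtype := by
    rw [Polynomial.lifts_iff_coeff_lifts]
    intro n
    exact ⟨⟨Q.coeff n, hcoef n⟩, rfl⟩
  obtain ⟨Q', hQ'⟩ := hl
  refine ⟨Q', ?_, ?_⟩
  · rintro rfl
    apply hQ
    rw [← hQ']
    exact Polynomial.map_zero _
  · rw [← h, ← hQ']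
    change _ = eval a (Q'.map E.subtype)
    rw [eval_map]
    rfl

theorem exists_finset_le {S : Set (Subfield K)} (Sne : S.Nonempty) (hS : DirectedOn (· ≤ ·) S)
    (s : Finset K) (hs : ∀ x ∈ s, x ∈ sSup S) : ∃ E ∈ S, ∀ x ∈ s, x ∈ E := by
  classical
  induction s using Finset.induction_on with
  | empty =>
    obtain ⟨E, hE⟩ := Sne
    exact ⟨E, hE, by simp⟩
  | insert b s hb ih =>
    obtain ⟨E, hE, hE'⟩ := ih (fun x hx => hs x (Finset.mem_insert_of_mem hx))
    obtain ⟨E₂, hE₂, hb'⟩ := (Subfield.mem_sSup_of_directedOn Sne hS).1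
      (hs b (Finset.mem_insert_self _ _))
    obtain ⟨E₃, hE₃, h1, h2⟩ := hS E hE E₂ hE₂
    refine ⟨E₃, hE₃, fun x hx => ?_⟩
    rcases Finset.mem_insert.1 hx with rfl | hx
    · exact h2 hb'
    · exact h1 (hE' x hx)

theorem isAlgebraic_sSup {S : Set (Subfield K)} (Sne : S.Nonempty) (hS : DirectedOn (· ≤ ·) S)
    {a : K} (h : IsAlgebraic (sSup S : Subfield K) a) : ∃ E ∈ S, IsAlgebraic E a := by
  classical
  obtain ⟨Q, hQ0, hQ⟩ := h
  set R : K[X] := Q.map (sSup S : Subfield K).subtype with hR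
  have hR0 : R ≠ 0 := by
    rw [hR, Ne, Polynomial.map_eq_zero_iff (RingHom.injective _)]; exact hQ0
  have hRa : R.eval a = 0 := by
    rw [hR, eval_map]; exact hQ
  have hmem : ∀ i, R.coeff i ∈ sSup S := by
    intro i
    rw [hR, coeff_map]
    exact (Q.coeff i).2
  obtain ⟨E, hE, hE'⟩ := exists_finset_le Sne hS (R.support.image R.coeff) (by
    intro x hx
    obtain ⟨i, -, rfl⟩ := Finset.mem_image.1 hx
    exact hmem i)
  refine ⟨E, hE, isAlgebraic_of_coeff R hR0 (fun i => ?_) hRa⟩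
  by_cases hi : R.coeff i = 0
  · rw [hi]; exact E.zero_mem
  · exact hE' _ (Finset.mem_image_of_mem _ (mem_support_iff.2 hi))

theorem isAlgebraic_of_map {Ω : Type*} [Field Ω] [Algebra K Ω] {E : Subfield K} {z : K}
    (h : IsAlgebraic (E.map (algebraMap K Ω)) (algebraMap K Ω z)) : IsAlgebraic E z := by
  obtain ⟨Q, hQ0, hQ⟩ := h
  have hl : Q.map (E.map (algebraMap K Ω)).subtype ∈ Polynomial.lifts ((algebraMap K Ω).comp E.subtype) := by
    rw [Polynomial.lifts_iff_coeff_lifts]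
    intro n
    rw [coeff_map]
    obtain ⟨x, hx, hx'⟩ := (Q.coeff n).2
    exact ⟨⟨x, hx⟩, hx'⟩
  obtain ⟨Q', hQ'⟩ := hl
  have hQ'' : Q'.map ((algebraMap K Ω).comp E.subtype) = Q.map (E.map (algebraMap K Ω)).subtype := hQ'
  refine ⟨Q', ?_, ?_⟩
  · rintro rfl
    rw [Polynomial.map_zero] at hQ''
    exact hQ0 ((Polynomial.map_eq_zero_iff (RingHom.injective _)).1 hQ''.symm)
  · apply (algebraMap K Ω).injective
    rw [map_zero, aeval_def, hom_eval₂]
    have h1 : eval (algebraMap K Ω z) (Q.map (E.map (algebraMap K Ω)).subtype) = 0 := by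
      rw [eval_map]
      exact hQ
    rw [← hQ'', eval_map] at h1
    exact h1

theorem mem_adj_frac {E : Subfield K} {a z : K} (hz : z ∈ adj E a) :
    ∃ r s : E[X], z = aeval a r / aeval a s := by
  have h1 : adj E a ≤ (IntermediateField.adjoin E {a}).toSubfield := by
    refine adj_le ?_ ?_
    · intro x hx
      exact (IntermediateField.adjoin E {a}).algebraMap_mem ⟨x, hx⟩
    · exact IntermediateField.mem_adjoin_simple_self E a
  exact (IntermediateField.mem_adjoin_simple_iff E z).1 (h1 hz)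

theorem aeval_mem_adj {E : Subfield K} (a : K) (r : E[X]) : aeval a r ∈ adj E a := by
  rw [aeval_eq_sum_range]
  refine Subfield.sum_mem _ (fun i _ => ?_)
  rw [Algebra.smul_def]
  exact Subfield.mul_mem _ (le_adj E a (SetLike.coe_mem _)) (pow_mem (mem_adj E a) i)

/-- complement of `a` in `k` over `N`. -/
theorem exists_compl {N k : Subfield K} (hk : RAC k) (hNk : N ≤ k) (hN : RAC N) {a : K}
    (haN : a ∉ N) :
    ∃ k₁ : Subfield K, N ≤ k₁ ∧ k₁ ≤ k ∧ RAC k₁ ∧ a ∉ k₁ ∧
      ∀ b ∈ k, IsAlgebraic (adj k₁ a) b := by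
  let S : Set (Subfield K) := {E | N ≤ E ∧ E ≤ k ∧ ¬ IsAlgebraic E a}
  have hNS : N ∈ S := ⟨le_rfl, hNk, fun h => haN (hN _ h)⟩
  obtain ⟨E, hNE, hE⟩ := zorn_le_nonempty₀ S (by
    intro c hcS hc y hy
    have hd : DirectedOn (· ≤ ·) c := hc.directedOn
    refine ⟨sSup c, ⟨?_, ?_, ?_⟩, fun z hz => le_sSup hz⟩
    · exact (hcS hy).1.trans (le_sSup hy)
    · exact sSup_le (fun z hz => (hcS hz).2.1)
    · intro h
      obtain ⟨E, hE, hE'⟩ := isAlgebraic_sSup ⟨y, hy⟩ hd h
      exact (hcS hE).2.2 hE') N hNS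
  obtain ⟨⟨-, hEk, hEa⟩, hmax⟩ := hE
  have hrac : RAC E := by
    have h1 : rac E ∈ S := ⟨hNE.trans (le_rac E), hk.le hEk, fun h => hEa (isAlgebraic_rac h)⟩
    have h2 : rac E ≤ E := hmax h1 (le_rac E)
    intro z hz
    exact h2 (mem_rac.2 hz)
  refine ⟨E, hNE, hEk, hrac, fun h => hEa (isAlgebraic_of_mem h), ?_⟩
  intro b hb
  by_contra hcon
  have h1 : ¬ IsAlgebraic (adj E b) a := fun h => hcon (exchange hEa h)
  have h2 : adj E b ∈ S := ⟨hNE.trans (le_adj E b), adj_le hEk hb, h1⟩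
  have h3 : adj E b ≤ E := hmax h2 (le_adj E b)
  exact hcon (isAlgebraic_of_mem (le_adj E a (h3 (mem_adj E b))))

variable {Ω : Type*} [Field Ω]

section

variable {P : Pl K Ω}

theorem Gd_mono {π : K} {κ : Subfield Ω} {F F' : Subfield K} (h : F' ≤ F) (hF : Gd P π κ F) :
    Gd P π κ F' := fun z hz hz0 => hF z (h hz) hz0

/-- nonzero elements of a field inside the valuation ring are units. -/
theorem U_of_field {k : Subfield K} (hk : ∀ x ∈ k, x ∈ P.O) {c : K} (hc : c ∈ k) (hc0 : c ≠ 0) :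
    P.U c := by
  refine ⟨hk c hc, fun h => ?_⟩
  have h1 := P.ev_mul (hk c hc) (hk _ (k.inv_mem hc))
  rw [mul_inv_cancel₀ hc0, P.ev_one, h, zero_mul] at h1
  exact one_ne_zero h1

/-- adjoining finitely many constants. -/
theorem gd_finset [CharZero K] {π : K} {κ : Subfield Ω} {F E k : Subfield K}
    (hπ : π ≠ 0) (hπO : π ∈ P.O) (hπ0 : P.ev π = 0) (hπF : π ∈ F) (hF : Gd P π κ F)
    (hEF : E ≤ F) (hEk : E ≤ k) (hk : ∀ x ∈ k, x ∈ P.O) (hκ : ∀ x ∈ k, P.ev x ∈ κ)
    (halg : ∀ x ∈ k, IsAlgebraic E x) (T : Finset K) (hT : (T : Set K) ⊆ k) :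
    Gd P π κ (F ⊔ Subfield.closure (T : Set K)) := by
  classical
  induction T using Finset.induction_on with
  | empty => simpa using hF
  | insert c T hc ih =>
    have hck : c ∈ k := hT (by simp)
    have ih' := ih (fun x hx => hT (by simp only [Finset.coe_insert]; exact Set.mem_insert_of_mem _ hx))
    set F' : Subfield K := F ⊔ Subfield.closure (T : Set K) with hF'
    have hEF' : E ≤ F' := hEF.trans le_sup_left
    have hint : IsIntegral E c := (halg c hck).isIntegral
    have hae : ∀ Q : E[X], aeval c (Q.map (Subfield.inclusion hEF')) = aeval c Q := by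
      intro Q
      rw [aeval_def, eval₂_map]
      rfl
    have h1 : Gd P π κ (Subfield.closure (F' ∪ {c})) := by
      refine ih'.adjoin hπ hπO hπ0 ?_ (hk c hck) (hκ c hck)
        ((minpoly E c).map (Subfield.inclusion hEF')) ((minpoly.monic hint).map _) ?_ ?_ ?_
      · exact (le_sup_left : F ≤ F') hπF
      · intro i
        rw [coeff_map]
        exact hk _ (hEk (SetLike.coe_mem _))
      · rw [hae, minpoly.aeval]
      · rw [derivative_map, hae]
        refine U_of_field hk ?_ ?_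
        · exact adj_le hEk hck (aeval_mem_adj c _)
        · have hsep : (minpoly E c).Separable :=
            (minpoly.irreducible hint).separable
          exact hsep.aeval_derivative_ne_zero (minpoly.aeval E c)
    refine Gd_mono ?_ h1
    rw [sup_le_iff, Subfield.closure_le]
    refine ⟨?_, ?_⟩
    · intro x hx
      exact Subfield.subset_closure (Or.inl ((le_sup_left : F ≤ F') hx))
    · intro x hx
      simp only [Finset.coe_insert] at hx
      rcases hx with rfl | hx
      · exact Subfield.subset_closure (Or.inr rfl)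
      · exact Subfield.subset_closure (Or.inl ((le_sup_right : _ ≤ F')
          (Subfield.subset_closure hx)))

theorem exists_finset_sup {F k : Subfield K} {z : K} (hz : z ∈ F ⊔ k) :
    ∃ T : Finset K, (T : Set K) ⊆ k ∧ z ∈ F ⊔ Subfield.closure (T : Set K) := by
  classical
  have hz' : z ∈ Subfield.closure ((F : Set K) ∪ k) := by
    have : F ⊔ k ≤ Subfield.closure ((F : Set K) ∪ k) := by
      rw [sup_le_iff]
      exact ⟨fun x hx => Subfield.subset_closure (Or.inl hx),
        fun x hx => Subfield.subset_closure (Or.inr hx)⟩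
    exact this hz
  have hmono : ∀ S T : Finset K, S ⊆ T → F ⊔ Subfield.closure (S : Set K) ≤
      F ⊔ Subfield.closure (T : Set K) := fun S T h =>
    sup_le_sup_left (Subfield.closure_mono (by exact_mod_cast h)) _
  clear hz
  induction hz' using Subfield.closure_induction with
  | mem x hx =>
    rcases hx with hx | hx
    · exact ⟨∅, by simp, (le_sup_left : F ≤ _) hx⟩
    · refine ⟨{x}, by simpa using hx, ?_⟩
      exact (le_sup_right : Subfield.closure _ ≤ _) (Subfield.subset_closure (by simp))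
  | one => exact ⟨∅, by simp, Subfield.one_mem _⟩
  | add x y _ _ hx hy =>
    obtain ⟨S, hS, hS'⟩ := hx
    obtain ⟨T, hT, hT'⟩ := hy
    exact ⟨S ∪ T, by simpa using ⟨hS, hT⟩, Subfield.add_mem _
      (hmono _ _ Finset.subset_union_left hS') (hmono _ _ Finset.subset_union_right hT')⟩
  | neg x _ hx =>
    obtain ⟨S, hS, hS'⟩ := hx
    exact ⟨S, hS, Subfield.neg_mem _ hS'⟩
  | inv x _ hx =>
    obtain ⟨S, hS, hS'⟩ := hx
    exact ⟨S, hS, Subfield.inv_mem _ hS'⟩
  | mul x y _ _ hx hy =>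
    obtain ⟨S, hS, hS'⟩ := hx
    obtain ⟨T, hT, hT'⟩ := hy
    exact ⟨S ∪ T, by simpa using ⟨hS, hT⟩, Subfield.mul_mem _
      (hmono _ _ Finset.subset_union_left hS') (hmono _ _ Finset.subset_union_right hT')⟩

end

end Gn

namespace Mdl

variable {K : Type*} [Field K] [CharZero K] (M : Mdl K) (ℓ : ℕ) [Fact ℓ.Prime]

end Mdl

end Vale.Agent.P019
end
end

section

section

/-!
# Rational functions with many values in a smaller field
-/

namespace Vale.Agent.P019

open Polynomial Filter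

variable {N : Type*} [Field N]

/-- a linear functional applied to the coefficients of a polynomial. -/
noncomputable def ratDescPl {k G : Type*} [Field k] [Field G] [Algebra k G] (f : G →ₗ[k] k)
    (P : G[X]) : k[X] := ∑ i ∈ P.support, monomial i (f (P.coeff i))

theorem ratDescPl_coeff {k G : Type*} [Field k] [Field G] [Algebra k G] (f : G →ₗ[k] k)
    (P : G[X]) (i : ℕ) : (ratDescPl f P).coeff i = f (P.coeff i) := by
  unfold ratDescPl
  rw [finsetSum_coeff]
  simp only [coeff_monomial]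
  rw [Finset.sum_ite_eq' P.support i (fun j => f (P.coeff j))]
  split_ifs with h
  · rfl
  · rw [notMem_support_iff.1 h, map_zero]

theorem ratDescPl_eval {k G : Type*} [Field k] [Field G] [Algebra k G] (f : G →ₗ[k] k)
    (P : G[X]) (b : k) : (ratDescPl f P).eval b = f (P.eval (algebraMap k G b)) := by
  unfold ratDescPl
  rw [eval_finsetSum, eval_eq_sum, Polynomial.sum_def, map_sum]
  refine Finset.sum_congr rfl fun i _ => ?_
  rw [eval_monomial, ← map_pow, mul_comm (P.coeff i), ← Algebra.smul_def, map_smul,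
    smul_eq_mul, mul_comm]

theorem rat_descent {k G : Subfield N} (hkG : k ≤ G) {σ h : N} (hσ : ¬ IsAlgebraic G σ)
    (hh : h ∈ adj G σ)
    (hinf : {b : N | b ∈ k ∧ ∃ c ∈ k, ∀ W : ValuationSubring N, Over W G σ b →
      W.valuation (h - c) < 1}.Infinite) : h ∈ adj k σ := by
  classical
  obtain ⟨P, Q, hPQ⟩ := Gn.mem_adj_frac hh
  by_cases hQ0 : Q = 0
  · rw [hPQ, hQ0, map_zero, div_zero]
    exact zero_mem _
  have hQσ : aeval σ Q ≠ 0 := fun h0 => hσ ⟨Q, hQ0, h0⟩
  let _ : Algebra k G := (Subfield.inclusion hkG).toAlgebra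
  have hval : ∀ b : G, (b : N) ∈ {b : N | b ∈ k ∧ ∃ c ∈ k, ∀ W : ValuationSubring N,
      Over W G σ b → W.valuation (h - c) < 1} →
      ∃ c : k, P.eval b = algebraMap k G c * Q.eval b := by
    rintro b ⟨hb, c, hc, hW⟩
    obtain ⟨W, hover⟩ := exists_over hσ b.2
    refine ⟨⟨c, hc⟩, ?_⟩
    have e1 := aeval_sub_eval hover P
    have e2 := aeval_sub_eval hover Q
    have e3 := hW W hover
    have e4 : h * aeval σ Q = aeval σ P := by
      rw [hPQ, div_mul_cancel₀ _ hQσ]
    have hQW : W.valuation (aeval σ Q) ≤ 1 := by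
      rw [W.valuation_le_one_iff]
      exact aeval_mem (hover.mem b.2) (fun i => hover.triv _ (Q.coeff i).2)
    have hcW : W.valuation c ≤ 1 := by
      rw [W.valuation_le_one_iff]
      exact hover.triv _ (hkG hc)
    have e5 : W.valuation (((P.eval b : G) : N) - c * (Q.eval b : G)) < 1 := by
      have e6 : ((P.eval b : G) : N) - c * (Q.eval b : G) =
          -(aeval σ P - (P.eval b : G)) + (h - c) * aeval σ Q +
            c * (aeval σ Q - (Q.eval b : G)) := by
        rw [← e4]; ring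
      rw [e6]
      refine W.valuation.map_add_lt (W.valuation.map_add_lt ?_ ?_) ?_
      · rw [Valuation.map_neg]; exact e1
      · rw [map_mul]
        exact lt_of_le_of_lt (mul_le_of_le_one_right' hQW) e3
      · rw [map_mul]
        exact lt_of_le_of_lt (mul_le_of_le_one_left' hcW) e2
    have e7 : ((P.eval b : G) : N) - c * (Q.eval b : G) = 0 := by
      by_contra hne
      have hmem : ((P.eval b : G) : N) - c * (Q.eval b : G) ∈ G :=
        sub_mem (P.eval b : G).2 (mul_mem (hkG hc) (Q.eval b : G).2)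
      rw [hover.triv.eq_one hmem hne] at e5
      exact lt_irrefl _ e5
    apply Subtype.ext
    exact sub_eq_zero.1 e7
  -- a functional
  obtain ⟨i, hi⟩ : ∃ i, Q.coeff i ≠ 0 := by
    by_contra hcon
    push Not at hcon
    exact hQ0 (Polynomial.ext (by simpa using hcon))
  obtain ⟨f, hf⟩ : ∃ f : G →ₗ[k] k, f (Q.coeff i) ≠ 0 := by
    by_contra hcon
    push Not at hcon
    exact hi ((Module.forall_dual_apply_eq_zero_iff k (Q.coeff i)).1 hcon)
  have hpoly : P * (ratDescPl f Q).map (algebraMap k G) =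
      Q * (ratDescPl f P).map (algebraMap k G) := by
    refine Polynomial.eq_of_infinite_eval_eq _ _ (Set.Infinite.mono ?_
      (Set.Infinite.preimage (f := ((↑) : G → N)) hinf ?_))
    · intro b hb
      obtain ⟨c, hc⟩ := hval b hb
      have hbk : algebraMap k G ⟨(b : N), hb.1⟩ = b := Subtype.ext rfl
      have h1 : (ratDescPl f P).eval ⟨(b : N), hb.1⟩ =
          c * (ratDescPl f Q).eval ⟨(b : N), hb.1⟩ := by
        rw [ratDescPl_eval, ratDescPl_eval, hbk, hc, ← Algebra.smul_def, map_smul, smul_eq_mul]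
      show (P * (ratDescPl f Q).map (algebraMap k G)).eval b =
        (Q * (ratDescPl f P).map (algebraMap k G)).eval b
      rw [eval_mul, eval_mul]
      have h2 : ∀ R : k[X], (R.map (algebraMap k G)).eval b =
          algebraMap k G (R.eval ⟨(b : N), hb.1⟩) := by
        intro R
        conv_lhs => rw [← hbk]
        rw [eval_map_algebraMap, aeval_algebraMap_apply, coe_aeval_eq_eval]
      rw [h2, h2, h1, hc, map_mul]
      ring
    · rintro b ⟨hb, -⟩
      exact ⟨⟨b, hkG hb⟩, rfl⟩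
  have hmap : ∀ R : k[X], aeval σ (R.map (algebraMap k G)) = aeval σ R := by
    intro R
    rw [aeval_def, eval₂_map]
    rfl
  have h3 := congrArg (aeval σ) hpoly
  rw [map_mul, map_mul, hmap, hmap] at h3
  have hQl : aeval σ (ratDescPl f Q) ≠ 0 := by
    intro h0
    have hne : ratDescPl f Q ≠ 0 := by
      intro h0'
      have := ratDescPl_coeff f Q i
      rw [h0', coeff_zero] at this
      exact hf this.symm
    exact hσ (isAlgebraic_mono hkG ⟨_, hne, h0⟩)
  have h4 : h = aeval σ (ratDescPl f P) / aeval σ (ratDescPl f Q) := by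
    rw [hPQ, div_eq_div_iff hQσ hQl, h3, mul_comm]
  rw [h4]
  exact (adj k σ).div_mem (Gn.aeval_mem_adj _ _) (Gn.aeval_mem_adj _ _)

end Vale.Agent.P019
end
end

section

section

/-!
# The core rationality lemma
-/

namespace Vale.Agent.P019

open Polynomial Filter

variable {K : Type*} [Field K]

/-- classes of units modulo `U1` are classes in the residue field. -/
theorem cl_mem_U1_iff {ℓ : ℕ} [Fact ℓ.Prime] {W : ValuationSubring K} {z : K}
    (hz : W.valuation z = 1) : cl ℓ z ∈ U1 ℓ W ↔ cl ℓ (rs W z) = 0 := by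
  have hℓ : ℓ ≠ 0 := (Fact.out : ℓ.Prime).ne_zero
  have hz0 : z ≠ 0 := by rintro rfl; rw [map_zero] at hz; exact zero_ne_one hz
  constructor
  · rintro ⟨m, hm, h⟩
    obtain ⟨w, hw0, hw⟩ := (cl_eq_iff ℓ hz0 (one_add_ne_zero hm)).1 h
    have h1 : W.valuation w = 1 := by
      have h2 := congrArg W.valuation hw
      rw [hz, map_mul, val_one_add hm, one_mul, map_pow] at h2
      exact (pow_eq_one_iff_of_nonneg zero_le hℓ).1 h2.symm
    have hmW : m ∈ W := (W.valuation_le_one_iff _).1 hm.le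
    have h3 : rs W z = rs W w ^ ℓ := by
      rw [hw, rs_mul (add_mem (one_mem W) hmW) (pow_mem (mem_of_val h1) ℓ),
        rs_pow (mem_of_val h1), rs_add (one_mem W) hmW, rs_one, (rs_eq_zero hmW).2 hm,
        add_zero, one_mul]
    rw [h3, cl_pow_self]
  · intro h
    have h1 : rs W z ≠ 0 := (rs_ne_zero (mem_of_val hz)).2 hz
    obtain ⟨c, hc0, hc⟩ := (cl_eq_zero_iff ℓ h1).1 h
    obtain ⟨w, hwW, rfl⟩ := rs_surj c
    have hw1 : W.valuation w = 1 := (rs_ne_zero hwW).1 hc0
    have h2 : W.valuation (z - w ^ ℓ) < 1 := by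
      rw [← rs_eq (mem_of_val hz) (pow_mem hwW ℓ), rs_pow hwW, hc]
    have h3 := cl_sub_cl_mem_U1 (ℓ := ℓ) (by rw [map_pow, hw1, one_pow]) h2
    rwa [cl_pow_self, sub_zero] at h3

/-- residues of values of polynomials -/
theorem rs_aeval_mem {F : Subfield K} {W : ValuationSubring K} (h : TrivOn W F) {θ : K}
    (hθ : θ ∈ W) {R : Subfield (IsLocalRing.ResidueField W)} (hR : bar h ≤ R)
    (hθR : rs W θ ∈ R) (P : F[X]) : rs W (aeval θ P) ∈ R := by
  rw [rs_aeval h hθ, aeval_eq_sum_range]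
  refine sum_mem fun i _ => ?_
  rw [Algebra.smul_def]
  exact mul_mem (hR ((P.map (barEquiv h).toRingHom).coeff i).2) (pow_mem hθR i)

theorem aeval_mem_W {F : Subfield K} {W : ValuationSubring K} (h : TrivOn W F) {θ : K}
    (hθ : θ ∈ W) (P : F[X]) : aeval θ P ∈ W :=
  aeval_mem hθ (fun i => h _ (P.coeff i).2)

/-- residues are quotients of values of polynomials at the residue of `θ`. -/
theorem Nice.rs_eq_div {F : Subfield K} {W : ValuationSubring K} {π θ : K}
    (hW : Nice W F π θ) (c : IsLocalRing.ResidueField W) :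
    ∃ P Q : F[X], rs W (aeval θ Q) ≠ 0 ∧ c = rs W (aeval θ P) / rs W (aeval θ Q) := by
  obtain ⟨z, hz, rfl⟩ := rs_surj c
  obtain ⟨P, Q, hQ, hPQ⟩ := hW.res z ((W.valuation_le_one_iff _).2 hz)
  have hP' := aeval_mem_W hW.triv hW.mem P
  have hQ' := aeval_mem_W hW.triv hW.mem Q
  have hQ0 : rs W (aeval θ Q) ≠ 0 := (rs_ne_zero hQ').2 hQ
  refine ⟨P, Q, hQ0, ?_⟩
  rw [eq_div_iff hQ0, ← rs_mul hz hQ']
  exact (rs_eq (mul_mem hz hQ') hP').2 hPQ

/-- finite generation of the residue field. -/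
theorem Nice.fg {k F : Subfield K} (hkF : k ≤ F) (hfg : FG k F) {W : ValuationSubring K}
    {π θ : K} (hW : Nice W F π θ) (hk : TrivOn W k) :
    FG (bar hk) (⊤ : Subfield (IsLocalRing.ResidueField W)) := by
  classical
  obtain ⟨S, hS⟩ := hfg
  refine ⟨(insert θ S).image (rs W), ?_⟩
  set R := bar hk ⊔ Subfield.closure (((insert θ S).image (rs W) : Finset _) : Set _) with hR
  have hSR : ∀ z ∈ insert θ S, rs W z ∈ R := by
    intro z hz
    refine (le_sup_right : Subfield.closure _ ≤ R) (Subfield.subset_closure ?_)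
    exact Finset.mem_coe.2 (Finset.mem_image_of_mem _ hz)
  have h1 : bar hW.triv ≤ R := by
    intro c hc
    obtain ⟨e, he, rfl⟩ := (mem_bar hW.triv).1 hc
    have h2 : F ≤ (R.comap (barHom hW.triv)).map F.subtype := by
      have h3 : k ⊔ Subfield.closure (S : Set K) ≤
          (R.comap (barHom hW.triv)).map F.subtype := by
        refine sup_le ?_ (Subfield.closure_le.2 ?_)
        · intro c hc
          exact ⟨⟨c, hkF hc⟩, (le_sup_left : bar hk ≤ R) (rs_mem_bar hk hc), rfl⟩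
        · intro c hc
          have hcF : c ∈ F := by
            rw [hS]
            exact (le_sup_right : Subfield.closure _ ≤ k ⊔ Subfield.closure (S : Set K))
              (Subfield.subset_closure hc)
          exact ⟨⟨c, hcF⟩, hSR c (Finset.mem_insert_of_mem hc), rfl⟩
      rw [← hS] at h3
      exact h3
    obtain ⟨⟨c, hc'⟩, hc'', rfl⟩ := h2 he
    exact hc''
  have hθ : rs W θ ∈ R := hSR θ (Finset.mem_insert_self _ _)
  symm
  rw [eq_top_iff]
  intro c _
  obtain ⟨P, Q, -, rfl⟩ := hW.rs_eq_div c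
  exact div_mem (rs_aeval_mem hW.triv hW.mem h1 hθ P) (rs_aeval_mem hW.triv hW.mem h1 hθ Q)

end Vale.Agent.P019
end
end

section

section

/-!
# Perfect subfields of a perfect field
-/

namespace Vale.Agent.P019P

open Vale.Agent.P019

set_option linter.style.haveILetI false

open Polynomial

section pf

variable {K : Type*} [Field K]

instance expChar_sub (E : Subfield K) : ExpChar E (ringExpChar K) :=
  (algebraMap E K).expChar (algebraMap E K).injective _

/-- perfect closure of a subfield in the ambient field. -/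
noncomputable def pf (E : Subfield K) : Subfield K := (perfectClosure E K).toSubfield

theorem mem_pf {E : Subfield K} {z : K} : z ∈ pf E ↔ ∃ n : ℕ, z ^ ringExpChar K ^ n ∈ E := by
  change z ∈ perfectClosure E K ↔ _
  rw [mem_perfectClosure_iff_pow_mem (ringExpChar K)]
  constructor
  · rintro ⟨n, y, hy⟩
    refine ⟨n, ?_⟩
    rw [← hy]
    exact y.2
  · rintro ⟨n, hn⟩
    exact ⟨n, ⟨_, hn⟩, rfl⟩

theorem le_pf (E : Subfield K) : E ≤ pf E := fun z hz => mem_pf.2 ⟨0, by simpa using hz⟩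

theorem pf_mono {E F : Subfield K} (h : E ≤ F) : pf E ≤ pf F := fun z hz => by
  obtain ⟨n, hn⟩ := mem_pf.1 hz
  exact mem_pf.2 ⟨n, h hn⟩

theorem pf_pf (E : Subfield K) : pf (pf E) = pf E := by
  apply le_antisymm _ (le_pf _)
  intro z hz
  obtain ⟨n, hn⟩ := mem_pf.1 hz
  obtain ⟨m, hm⟩ := mem_pf.1 hn
  refine mem_pf.2 ⟨n + m, ?_⟩
  rw [pow_add, pow_mul]
  exact hm

instance pf_perfect [PerfectField K] (E : Subfield K) : PerfectField (pf E) :=
  inferInstanceAs (PerfectField (perfectClosure E K))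

theorem pow_q_injective (n : ℕ) : Function.Injective fun z : K => z ^ ringExpChar K ^ n := by
  have h2 := (iterateFrobenius K (ringExpChar K) n).injective
  intro x y hxy
  exact h2 (by simpa [iterateFrobenius_def] using hxy)

/-- roots in perfect subfields. -/
theorem exists_root_q (E : Subfield K) [PerfectField E] {z : K} (hz : z ∈ E) (n : ℕ) :
    ∃ y ∈ E, y ^ ringExpChar K ^ n = z := by
  haveI : PerfectRing E (ringExpChar K) := PerfectField.toPerfectRing _
  have h2 := (bijective_iterateFrobenius E (ringExpChar K) (n := n)).2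
  obtain ⟨y, hy⟩ := h2 ⟨z, hz⟩
  refine ⟨y, y.2, ?_⟩
  rw [iterateFrobenius_def] at hy
  exact congrArg Subtype.val hy

theorem pf_le {E F : Subfield K} [PerfectField F] (h : E ≤ F) : pf E ≤ F := by
  intro z hz
  obtain ⟨n, hn⟩ := mem_pf.1 hz
  obtain ⟨y, hy, hyz⟩ := exists_root_q F (h hn) n
  rw [← pow_q_injective n hyz]
  exact hy

theorem pf_eq (E : Subfield K) [PerfectField E] : pf E = E := le_antisymm (pf_le le_rfl) (le_pf E)

theorem mem_of_pow_q {E : Subfield K} [PerfectField E] {z : K} {n : ℕ}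
    (h : z ^ ringExpChar K ^ n ∈ E) : z ∈ E := by
  rw [← pf_eq E]
  exact mem_pf.2 ⟨n, h⟩

theorem perfect_of_root {E : Subfield K} (h : ∀ z ∈ E, ∃ y ∈ E, y ^ ringExpChar K = z) :
    PerfectField E := by
  haveI : PerfectRing E (ringExpChar K) := PerfectRing.ofSurjective _ _ fun z => by
    obtain ⟨y, hy, hyz⟩ := h z z.2
    exact ⟨⟨y, hy⟩, Subtype.ext hyz⟩
  exact PerfectRing.toPerfectField E (ringExpChar K)

theorem perfect_of_pf_le [PerfectField K] {E : Subfield K} (h : pf E ≤ E) : PerfectField E := by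
  have h1 : pf E = E := le_antisymm h (le_pf E)
  rw [← h1]
  infer_instance

instance perfect_sup {E F : Subfield K} [PerfectField E] [PerfectField F] :
    PerfectField (E ⊔ F : Subfield K) := by
  let φ := frobenius K (ringExpChar K)
  have key : ∀ G : Subfield K, PerfectField G → G ≤ G.map φ := by
    intro G hG z hz
    obtain ⟨y, hy, hyz⟩ := exists_root_q G hz 1
    refine ⟨y, hy, ?_⟩
    rw [pow_one] at hyz
    exact hyz
  have h1 : E ⊔ F ≤ (E ⊔ F).map φ := by
    rw [Subfield.map_sup]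
    exact sup_le_sup (key E inferInstance) (key F inferInstance)
  refine perfect_of_root ?_
  intro z hz
  obtain ⟨y, hy, hyz⟩ := h1 hz
  exact ⟨y, hy, hyz⟩

instance perfect_inf {E F : Subfield K} [PerfectField E] [PerfectField F] :
    PerfectField (E ⊓ F : Subfield K) := by
  refine perfect_of_root ?_
  intro z hz
  obtain ⟨y, hy, hyz⟩ := exists_root_q E (Subfield.mem_inf.1 hz).1 1
  obtain ⟨y', hy', hyz'⟩ := exists_root_q F (Subfield.mem_inf.1 hz).2 1
  have h1 : y = y' := pow_q_injective 1 (hyz.trans hyz'.symm)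
  rw [pow_one] at hyz
  exact ⟨y, Subfield.mem_inf.2 ⟨hy, by rw [h1]; exact hy'⟩, hyz⟩

instance perfect_top [PerfectField K] : PerfectField (⊤ : Subfield K) :=
  perfect_of_pf_le le_top

theorem perfect_of_RAC [PerfectField K] {E : Subfield K} (h : RAC E) : PerfectField E := by
  refine perfect_of_pf_le ?_
  intro z hz
  obtain ⟨n, hn⟩ := mem_pf.1 hz
  refine h z (IsAlgebraic.of_pow (n := ringExpChar K ^ n) ?_ (isAlgebraic_of_mem hn))
  exact pow_pos (expChar_pos K _) n

instance perfect_rac [PerfectField K] (E : Subfield K) : PerfectField (rac E) :=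
  perfect_of_RAC (RAC_rac E)

theorem isAlgebraic_pf {E : Subfield K} {z : K} : IsAlgebraic (pf E) z ↔ IsAlgebraic E z := by
  constructor
  · intro h
    refine isAlgebraic_trans (le_pf E) ?_ h
    intro y hy
    obtain ⟨n, hn⟩ := mem_pf.1 hy
    refine IsAlgebraic.of_pow (n := ringExpChar K ^ n) ?_ (isAlgebraic_of_mem hn)
    exact pow_pos (expChar_pos K _) n
  · exact isAlgebraic_mono (le_pf E)

theorem pf_le_rac (E : Subfield K) : pf E ≤ rac E := by
  intro z hz
  rw [mem_rac]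
  exact isAlgebraic_pf.1 (isAlgebraic_of_mem hz)

theorem rac_pf (E : Subfield K) : rac (pf E) = rac E := by
  ext z
  rw [mem_rac, mem_rac]
  exact isAlgebraic_pf

end pf

section adj

variable {K : Type*} [Field K]

/-- the perfect closure of the subfield `E(t)`. -/
noncomputable def adj (E : Subfield K) (t : K) : Subfield K := pf (Vale.Agent.P019.adj E t)

theorem adj0_le_adj (E : Subfield K) (t : K) : Vale.Agent.P019.adj E t ≤ adj E t := le_pf _

theorem le_adj (E : Subfield K) (t : K) : E ≤ adj E t :=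
  (Vale.Agent.P019.le_adj E t).trans (le_pf _)

theorem mem_adj (E : Subfield K) (t : K) : t ∈ adj E t :=
  le_pf _ (Vale.Agent.P019.mem_adj E t)

instance perfect_adj [PerfectField K] (E : Subfield K) (t : K) : PerfectField (adj E t) :=
  pf_perfect _

theorem adj_le {E F : Subfield K} [PerfectField F] {t : K} (h : E ≤ F) (ht : t ∈ F) :
    adj E t ≤ F :=
  pf_le (Vale.Agent.P019.adj_le h ht)

theorem adj_mono {E F : Subfield K} (h : E ≤ F) (t : K) : adj E t ≤ adj F t :=
  pf_mono (Vale.Agent.P019.adj_mono h t)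

theorem isAlgebraic_adj {E : Subfield K} {t z : K} :
    IsAlgebraic (adj E t) z ↔ IsAlgebraic (Vale.Agent.P019.adj E t) z := isAlgebraic_pf

theorem rac_adj (E : Subfield K) (t : K) : rac (adj E t) = rac (Vale.Agent.P019.adj E t) :=
  rac_pf _

theorem exchange {E : Subfield K} {a b : K} (ha : ¬ IsAlgebraic E a)
    (h : IsAlgebraic (adj E b) a) : IsAlgebraic (adj E a) b :=
  isAlgebraic_adj.2 (Vale.Agent.P019.exchange ha (isAlgebraic_adj.1 h))

/-- elements of the perfect closure of `E(t)`. -/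
theorem mem_adj_iff {E : Subfield K} {t z : K} :
    z ∈ adj E t ↔ ∃ n : ℕ, z ^ ringExpChar K ^ n ∈ Vale.Agent.P019.adj E t := mem_pf

end adj

section VS

variable {ℓ : ℕ} {K : Type*} [Field K]

/-- the exponential characteristic is invertible modulo `ℓ`. -/
theorem q_ne_zero (ℓ : ℕ) [hl : Fact ℓ.Prime] (K : Type*) [Field K] [NeZero (ℓ : K)] :
    ((ringExpChar K : ℕ) : ZMod ℓ) ≠ 0 := by
  intro h
  rw [ZMod.natCast_eq_zero_iff] at h
  rcases CharP.exists K with ⟨p, hp⟩
  have h1 : ringExpChar K = max p 1 := by rw [ringExpChar, ringChar.eq K p]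
  rcases CharP.char_is_prime_or_zero K p with h2 | h2
  · have h3 : ringExpChar K = p := by
      rw [h1]
      exact max_eq_left h2.one_lt.le
    rw [h3, Nat.prime_dvd_prime_iff_eq hl.out h2] at h
    subst h
    exact NeZero.ne ((ℓ : ℕ) : K) (CharP.cast_eq_zero K ℓ)
  · subst h2
    rw [h1] at h
    exact hl.out.one_lt.ne' (Nat.dvd_one.1 (by simpa using h))

theorem q_pow_ne_zero (ℓ : ℕ) [Fact ℓ.Prime] (K : Type*) [Field K] [NeZero (ℓ : K)] (n : ℕ) :
    ((ringExpChar K ^ n : ℕ) : ZMod ℓ) ≠ 0 := by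
  rw [Nat.cast_pow]
  exact pow_ne_zero _ (q_ne_zero ℓ K)

theorem VS_pf [Fact ℓ.Prime] [NeZero (ℓ : K)] (E : Subfield K) : VS ℓ (pf E) = VS ℓ E := by
  apply le_antisymm _ (VS_mono (le_pf E))
  rintro v ⟨x, hx, hx0, rfl⟩
  obtain ⟨n, hn⟩ := mem_pf.1 hx
  have h1 : cl ℓ (x ^ ringExpChar K ^ n) ∈ VS ℓ E := cl_mem_VS hn
  rw [cl_pow] at h1
  have hu := q_pow_ne_zero ℓ K n
  have h2 := Submodule.smul_mem (VS ℓ E) ((ringExpChar K ^ n : ℕ) : ZMod ℓ)⁻¹ h1
  rw [← Nat.cast_smul_eq_nsmul (ZMod ℓ), smul_smul, inv_mul_cancel₀ hu, one_smul] at h2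
  exact h2

end VS

section FG

variable {K : Type*} [Field K]

/-- `Λ` is the perfect closure of a finitely generated field extension of `E`. -/
def FG (E Λ : Subfield K) : Prop := ∃ S : Finset K, Λ = pf (E ⊔ Subfield.closure (S : Set K))

/-- `t` is a non-constant with `k(t)` relatively algebraically closed, up to perfect closure. -/
def Good (k : Subfield K) (t : K) : Prop := t ∉ k ∧ RAC (adj k t)

end FG

/-- A model of a function field of transcendence degree at least two over an algebraically closed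
field of constants. -/
structure Mdl (K : Type*) [Field K] where
  k : Subfield K
  k0 : Subfield K
  K0 : Subfield K
  le_k : k0 ≤ k
  le_K0 : k0 ≤ K0
  ack : IsAlgClosed k
  ack0 : IsAlgClosed k0
  pfK0 : PerfectField K0
  sup : K0 ⊔ k = ⊤
  ctb : (K0 : Set K).Countable
  fg : FG k0 K0
  free : ∀ N : Subfield K, RAC N → k0 ≤ N → N ≤ k →
    ∀ a ∈ k, IsAlgebraic (K0 ⊔ N : Subfield K) a → a ∈ N
  x : K
  y : K
  hx : x ∈ K0
  hy : y ∈ K0
  hxk : x ∉ k
  hyx : ¬ IsAlgebraic (adj k x) y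

namespace Mdl

variable {K : Type*} [Field K] (M : Mdl K)

instance instPerfectK0 (M : Mdl K) : PerfectField M.K0 := M.pfK0

instance instPerfectk (M : Mdl K) : PerfectField M.k :=
  haveI := M.ack
  inferInstance

/-- the function field over smaller constants. -/
def F (N : Subfield K) : Subfield K := M.K0 ⊔ N

instance instPerfectF (N : Subfield K) [PerfectField N] : PerfectField (M.F N) :=
  inferInstanceAs (PerfectField (M.K0 ⊔ N : Subfield K))

/-- algebraically closed subfields of the constants. -/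
structure Sub (N : Subfield K) : Prop where
  rac : RAC N
  ge : M.k0 ≤ N
  le : N ≤ M.k

variable {M}

theorem Sub.isAlgClosed {N : Subfield K} (h : M.Sub N) : IsAlgClosed N :=
  isAlgClosed_of_RAC M.ack h.rac h.le

theorem Sub.perfect {N : Subfield K} (h : M.Sub N) : PerfectField N :=
  haveI := h.isAlgClosed
  inferInstance

theorem Sub.le_F (N : Subfield K) : N ≤ M.F N := le_sup_right

theorem K0_le (N : Subfield K) : M.K0 ≤ M.F N := le_sup_left

theorem F_mono {N N' : Subfield K} (h : N ≤ N') : M.F N ≤ M.F N' := sup_le_sup_left h _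

theorem RAC_k (M : Mdl K) : RAC M.k := RAC_of_isAlgClosed _ M.ack

theorem sub_rac {N : Subfield K} (h0 : M.k0 ≤ N) (h : N ≤ M.k) : M.Sub (rac N) :=
  ⟨RAC_rac N, h0.trans (le_rac N), M.RAC_k.le h⟩

end Mdl

end Vale.Agent.P019P
end
end

section

section

/-!
# Valuations of rank one of perfect fields: uniformizers up to roots
-/

namespace Vale.Agent.P019P

open Vale.Agent.P019

variable {K : Type*} [Field K]

/-- `π` is a uniformizer of `O` up to `q`-power roots, `q` the exponential characteristic. -/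
structure IsUnif (O : ValuationSubring K) (π : K) : Prop where
  ne : π ≠ 0
  lt : O.valuation π < 1
  rep : ∀ z : K, z ≠ 0 → ∃ (m : ℕ) (n : ℤ), O.valuation (z ^ ringExpChar K ^ m * π ^ n) = 1

theorem qpos (K : Type*) [Field K] : 0 < ringExpChar K := expChar_pos K _

theorem qpow_pos (K : Type*) [Field K] (n : ℕ) : 0 < ringExpChar K ^ n := pow_pos (qpos K) n

theorem IsUnif.zpow_eq_one {O : ValuationSubring K} {π : K} (h : IsUnif O π) {n : ℤ}
    (hn : O.valuation (π ^ n) = 1) : n = 0 := by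
  rw [map_zpow₀] at hn
  have h0 : O.valuation π ≠ 0 := by rw [Valuation.ne_zero_iff]; exact h.ne
  rcases lt_trichotomy n 0 with h1 | h1 | h1
  · exfalso
    have : O.valuation π ^ (-n) = 1 := by rw [zpow_neg, hn, inv_one]
    have h2 : O.valuation π ^ (-n) < 1 := by
      obtain ⟨m, hm⟩ := Int.eq_ofNat_of_zero_le (a := -n) (by omega)
      rw [hm, zpow_natCast]
      exact pow_lt_one₀ zero_le h.lt (by omega)
    exact h2.ne this
  · exact h1
  · exfalso
    have h2 : O.valuation π ^ n < 1 := by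
      obtain ⟨m, hm⟩ := Int.eq_ofNat_of_zero_le (a := n) (by omega)
      rw [hm, zpow_natCast]
      exact pow_lt_one₀ zero_le h.lt (by omega)
    exact h2.ne hn

/-- two representations of the same element are proportional. -/
theorem IsUnif.rep_unique {O : ValuationSubring K} {π : K} (h : IsUnif O π) {z : K}
    {m m' : ℕ} {n n' : ℤ} (h1 : O.valuation (z ^ ringExpChar K ^ m * π ^ n) = 1)
    (h2 : O.valuation (z ^ ringExpChar K ^ m' * π ^ n') = 1) :
    n * (ringExpChar K ^ m' : ℕ) = n' * (ringExpChar K ^ m : ℕ) := by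
  have hz : z ≠ 0 := by
    rintro rfl
    rw [zero_pow (qpow_pos K m).ne', zero_mul, map_zero] at h1
    exact zero_ne_one h1
  have h3 : O.valuation ((z ^ ringExpChar K ^ m * π ^ n) ^ (ringExpChar K ^ m')) = 1 := by
    rw [map_pow, h1, one_pow]
  have h4 : O.valuation ((z ^ ringExpChar K ^ m' * π ^ n') ^ (ringExpChar K ^ m)) = 1 := by
    rw [map_pow, h2, one_pow]
  have hπ := h.ne
  have h5 : O.valuation (π ^ (n * (ringExpChar K ^ m' : ℕ) - n' * (ringExpChar K ^ m : ℕ))) = 1 := by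
    have e : π ^ (n * (ringExpChar K ^ m' : ℕ) - n' * (ringExpChar K ^ m : ℕ)) =
        (z ^ ringExpChar K ^ m * π ^ n) ^ (ringExpChar K ^ m') /
        (z ^ ringExpChar K ^ m' * π ^ n') ^ (ringExpChar K ^ m) := by
      rw [mul_pow, mul_pow, ← pow_mul, ← pow_mul, mul_comm (ringExpChar K ^ m'),
        mul_div_mul_left _ _ (pow_ne_zero _ hz), zpow_sub₀ hπ, zpow_mul, zpow_mul, zpow_natCast,
        zpow_natCast]
    rw [e, map_div₀, h3, h4, div_one]
  have := h.zpow_eq_one h5
  omega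

section fn

variable (ℓ : ℕ) [Fact ℓ.Prime] [NeZero (ℓ : K)]

/-- the order of `z` modulo `ℓ`. -/
noncomputable def IsUnif.val {O : ValuationSubring K} {π : K} (h : IsUnif O π) (z : K) :
    ZMod ℓ := by
  classical exact if hz : z = 0 then 0 else
    -(((h.rep z hz).choose_spec.choose : ℤ) : ZMod ℓ) *
      ((ringExpChar K ^ (h.rep z hz).choose : ℕ) : ZMod ℓ)⁻¹

theorem IsUnif.val_eq {O : ValuationSubring K} {π : K} (h : IsUnif O π) {z : K} {m : ℕ} {n : ℤ}
    (hmn : O.valuation (z ^ ringExpChar K ^ m * π ^ n) = 1) :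
    h.val ℓ z = -(n : ZMod ℓ) * ((ringExpChar K ^ m : ℕ) : ZMod ℓ)⁻¹ := by
  have hz : z ≠ 0 := by
    rintro rfl
    rw [zero_pow (qpow_pos K m).ne', zero_mul, map_zero] at hmn
    exact zero_ne_one hmn
  have h1 := h.rep_unique (h.rep z hz).choose_spec.choose_spec hmn
  unfold IsUnif.val
  rw [dif_neg hz]
  have h2 := q_pow_ne_zero ℓ K m
  have h3 := q_pow_ne_zero ℓ K (h.rep z hz).choose
  have h4 := congrArg (Int.cast : ℤ → ZMod ℓ) h1
  rw [Int.cast_mul, Int.cast_mul, Int.cast_natCast, Int.cast_natCast] at h4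
  field_simp
  rw [h4, mul_comm]

/-- the functional `V → ZMod ℓ` given by the order modulo `ℓ`. -/
noncomputable def IsUnif.fn {O : ValuationSubring K} {π : K} (h : IsUnif O π) :
    V ℓ K →ₗ[ZMod ℓ] ZMod ℓ :=
  V.lift
    { toFun := fun x => Multiplicative.ofAdd (h.val ℓ (x : K))
      map_one' := by
        have : h.val ℓ (1 : K) = 0 := by
          rw [h.val_eq ℓ (m := 0) (n := 0) (by simp)]
          simp
        simp [this]
      map_mul' := by
        intro x y
        obtain ⟨m, n, h1⟩ := h.rep x x.ne_zero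
        obtain ⟨m', n', h2⟩ := h.rep y y.ne_zero
        have h3 : O.valuation (((x : K) * y) ^ ringExpChar K ^ (m + m') *
            π ^ (n * (ringExpChar K ^ m' : ℕ) + n' * (ringExpChar K ^ m : ℕ))) = 1 := by
          have e : ((x : K) * y) ^ ringExpChar K ^ (m + m') *
              π ^ (n * (ringExpChar K ^ m' : ℕ) + n' * (ringExpChar K ^ m : ℕ)) =
              ((x : K) ^ ringExpChar K ^ m * π ^ n) ^ ringExpChar K ^ m' *
              ((y : K) ^ ringExpChar K ^ m' * π ^ n') ^ ringExpChar K ^ m := by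
            rw [zpow_add₀ h.ne, zpow_mul, zpow_mul, zpow_natCast, zpow_natCast, mul_pow, mul_pow,
              mul_pow, pow_add, pow_mul, ← pow_mul (y : K) (ringExpChar K ^ m'),
              mul_comm (ringExpChar K ^ m'), pow_mul (y : K)]
            ring
          rw [e, map_mul, map_pow, map_pow, h1, h2, one_pow, one_pow, one_mul]
        have h4 := q_pow_ne_zero ℓ K m
        have h5 := q_pow_ne_zero ℓ K m'
        rw [Units.val_mul, h.val_eq ℓ h3, h.val_eq ℓ h1, h.val_eq ℓ h2, ← ofAdd_add]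
        congr 1
        rw [pow_add]
        push_cast
        push_cast at h4 h5
        field_simp
        ring }

theorem IsUnif.fn_cl' {O : ValuationSubring K} {π : K} (h : IsUnif O π) {z : K}
    (hz : z ≠ 0) : h.fn ℓ (cl ℓ z) = h.val ℓ z := by
  rw [cl_of_ne ℓ hz]
  rfl

theorem IsUnif.fn_eq {O : ValuationSubring K} {π : K} (h : IsUnif O π) {z : K} {m : ℕ} {n : ℤ}
    (hmn : O.valuation (z ^ ringExpChar K ^ m * π ^ n) = 1) :
    h.fn ℓ (cl ℓ z) = -(n : ZMod ℓ) * ((ringExpChar K ^ m : ℕ) : ZMod ℓ)⁻¹ := by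
  have hz : z ≠ 0 := by
    rintro rfl
    rw [zero_pow (qpow_pos K m).ne', zero_mul, map_zero] at hmn
    exact zero_ne_one hmn
  rw [h.fn_cl' ℓ hz, h.val_eq ℓ hmn]

theorem IsUnif.fn_unit {O : ValuationSubring K} {π : K} (h : IsUnif O π) (z : K)
    (hz : O.valuation z = 1) : h.fn ℓ (cl ℓ z) = 0 := by
  rw [h.fn_eq ℓ (m := 0) (n := 0) (by simpa using hz)]
  simp

theorem IsUnif.fn_self {O : ValuationSubring K} {π : K} (h : IsUnif O π) :
    h.fn ℓ (cl ℓ π) = 1 := by
  rw [h.fn_eq ℓ (m := 0) (n := -1) (by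
    rw [pow_zero, pow_one, zpow_neg, zpow_one, mul_inv_cancel₀ h.ne, map_one])]
  simp

/-- the class of an element with trivial functional is the class of a unit. -/
theorem IsUnif.exists_unit_of_fn {O : ValuationSubring K} {π : K} (h : IsUnif O π) (v : V ℓ K)
    (hv : h.fn ℓ v = 0) : ∃ u : K, O.valuation u = 1 ∧ v = cl ℓ u := by
  obtain ⟨z, hz, rfl⟩ := cl_surj ℓ v
  obtain ⟨m, n, hmn⟩ := h.rep z hz
  have h1 := h.fn_eq ℓ hmn
  rw [hv] at h1
  have h2 := q_pow_ne_zero ℓ K m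
  have h3 : (n : ZMod ℓ) = 0 := by
    by_contra hn
    exact mul_ne_zero (neg_ne_zero.2 hn) (inv_ne_zero h2) h1.symm
  rw [ZMod.intCast_zmod_eq_zero_iff_dvd] at h3
  obtain ⟨j, hj⟩ := h3
  have hu : cl ℓ (z ^ ringExpChar K ^ m * π ^ n) = ((ringExpChar K ^ m : ℕ) : ZMod ℓ) • cl ℓ z := by
    rw [cl_mul ℓ (pow_ne_zero _ hz) (zpow_ne_zero _ h.ne), cl_pow, hj, zpow_mul, zpow_natCast,
      ← zpow_natCast, zpow_natCast, Nat.cast_smul_eq_nsmul]
    rw [← zpow_natCast, ← zpow_mul, mul_comm, zpow_mul, zpow_natCast, cl_pow_self, add_zero]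
  have hcop : ∃ a b : ℤ, a * (ringExpChar K ^ m : ℕ) + b * ℓ = 1 := by
    have h4 : IsCoprime ((ringExpChar K ^ m : ℕ) : ℤ) (ℓ : ℤ) := by
      rw [Nat.isCoprime_iff_coprime, Nat.coprime_comm, Nat.Prime.coprime_iff_not_dvd Fact.out]
      intro h5
      exact h2 ((ZMod.natCast_eq_zero_iff _ _).2 h5)
    obtain ⟨a, b, hab⟩ := h4
    exact ⟨a, b, hab⟩
  obtain ⟨a, b, hab⟩ := hcop
  refine ⟨(z ^ ringExpChar K ^ m * π ^ n) ^ a, by rw [map_zpow₀, hmn, one_zpow], ?_⟩
  rw [cl_zpow, hu, ← Int.cast_smul_eq_zsmul (ZMod ℓ), smul_smul]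
  have h5 := congrArg (Int.cast : ℤ → ZMod ℓ) hab
  push_cast at h5
  rw [ZMod.natCast_self, mul_zero, add_zero] at h5
  push_cast
  rw [h5, one_smul]

/-- every functional trivial on units is a multiple of `fn`. -/
theorem IsUnif.eq_smul_fn {O : ValuationSubring K} {π : K} (h : IsUnif O π)
    (f : V ℓ K →ₗ[ZMod ℓ] ZMod ℓ) (hf : ∀ z, O.valuation z = 1 → f (cl ℓ z) = 0) (v : V ℓ K) :
    f v = f (cl ℓ π) * h.fn ℓ v := by
  have h1 : h.fn ℓ (v - h.fn ℓ v • cl ℓ π) = 0 := by
    rw [map_sub, map_smul, h.fn_self ℓ, smul_eq_mul, mul_one, sub_self]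
  obtain ⟨u, hu, hv⟩ := h.exists_unit_of_fn ℓ _ h1
  have h2 := hf u hu
  rw [← hv, map_sub, map_smul, smul_eq_mul, sub_eq_zero] at h2
  rw [h2, mul_comm]

end fn

end Vale.Agent.P019P
end
end

section

section

/-!
# Valuations which are discrete up to roots of order `q`: more lemmas
-/

namespace Vale.Agent.P019P

open Vale.Agent.P019

set_option linter.style.haveILetI false
set_option linter.unusedSectionVars false

variable {K : Type*} [Field K]

theorem qn_ne_zero (K : Type*) [Field K] (n : ℕ) : (ringExpChar K) ^ n ≠ 0 :=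
  pow_ne_zero _ (expChar_ne_zero K (ringExpChar K))

theorem cl_pow_q {ℓ : ℕ} (z : K) (n : ℕ) :
    cl ℓ (z ^ (ringExpChar K) ^ n) = (((ringExpChar K) ^ n : ℕ) : ZMod ℓ) • cl ℓ z := by
  rw [cl_pow, Nat.cast_smul_eq_nsmul]

/-- roots in a perfect field. -/
theorem exists_root [PerfectField K] (z : K) (n : ℕ) : ∃ y : K, y ^ (ringExpChar K) ^ n = z := by
  obtain ⟨y, hy⟩ := (bijective_iterateFrobenius K (ringExpChar K) (n := n)).2 z
  exact ⟨y, by rw [← hy, iterateFrobenius_def]⟩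

section fn

variable {ℓ : ℕ} [Fact ℓ.Prime] [NeZero (ℓ : K)]

end fn

end Vale.Agent.P019P
end
end

section

section

/-!
# Places: basic facts
-/

namespace Vale.Agent.P019P

open Vale.Agent.P019

set_option linter.style.haveILetI false

open Polynomial

section places

variable {K Ω : Type*} [Field K] [Field Ω]

/-- S03 one variable places. -/
theorem exists_one [Algebra K Ω] [IsAlgClosed Ω] {l A : Subfield K} (hl : IsAlgClosed l)
    (hlA : l ≤ A) {y : K} (hy : ¬ IsAlgebraic A y) {c : K} (hc : c ∈ l) :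
    ∃ P : Pl K Ω, (∀ a ∈ A, a ∈ P.O ∧ P.ev a = algebraMap K Ω a) ∧ y ∈ P.O ∧
      P.ev y = algebraMap K Ω c ∧
      (∀ b ∈ P.O, IsAlgebraic (adj l y) b → ∃ d ∈ l, P.ev b = algebraMap K Ω d) := by
  obtain ⟨P, h1, h2, h3, h4⟩ := Vale.Agent.P019.exists_one (Ω := Ω) hl hlA hy hc
  exact ⟨P, h1, h2, h3, fun b hb h => h4 b hb (isAlgebraic_adj.1 h)⟩


/-- S05 -/
theorem rac_sup {l A B : Subfield K} (hl : IsAlgClosed l) (hlA : l ≤ A) (hlB : l ≤ B) {y : K}
    (hyB : y ∈ B) (hyA : ¬ IsAlgebraic A y) (hB : ∀ b ∈ B, IsAlgebraic (adj l y) b) {h : K}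
    (hh : h ∈ A ⊔ B) (hha : IsAlgebraic A h) : h ∈ A := by
  by_cases hh0 : h = 0
  · rw [hh0]; exact A.zero_mem
  obtain ⟨P, hPA, -, -, hPB⟩ := exists_one (Ω := AlgebraicClosure K) hl hlA hyA l.zero_mem
  have hAO : ∀ a ∈ A, a ∈ P.O := fun a ha => (hPA a ha).1
  have hBd : ∀ b ∈ B, b ∈ P.O → ∃ d ∈ l, P.ev b = P.ev d := by
    intro b hb hbO
    obtain ⟨d, hd, he⟩ := hPB b hbO (hB b hb)
    exact ⟨d, hd, by rw [he, (hPA d (hlA hd)).2]⟩
  obtain ⟨b, hb, hb0, hU, a, ha, hev⟩ := P.gauss hlA hlB hAO hBd hh hh0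
  have hUh : P.U h := P.U_of_isAlgebraic A hAO hha hh0
  have hUb : P.U b := by
    have h1 : b = (b * h) / h := by field_simp
    rw [h1]; exact hU.div hUh
  obtain ⟨d, hd, hbd⟩ := hBd b hb hUb.1
  have hUd : P.U d := ⟨hAO _ (hlA hd), by rw [← hbd]; exact hUb.2⟩
  have hdA : a / d ∈ A := A.div_mem ha (hlA hd)
  have hevh : P.ev h = P.ev (a / d) := by
    have h1 : h = (b * h) / b := by field_simp
    rw [P.ev_div (hAO _ ha) hUd, ← hev, ← hbd, ← P.ev_div hU.1 hUb, ← h1]
  by_contra hcon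
  have hne : h - a / d ≠ 0 := by
    intro h0
    rw [sub_eq_zero] at h0
    exact hcon (h0 ▸ hdA)
  have hsub : IsAlgebraic A (h - a / d) := hha.sub (isAlgebraic_of_mem hdA)
  have hU' := P.U_of_isAlgebraic A hAO hsub hne
  apply hU'.2
  rw [P.ev_sub hUh.1 (hAO _ hdA), hevh, sub_self]

/-- S06 -/
theorem pow_descent {l A B : Subfield K} (hl : IsAlgClosed l) (hlA : l ≤ A) (hlB : l ≤ B) {y : K}
    (hyB : y ∈ B) (hyA : ¬ IsAlgebraic A y) (hB : ∀ b ∈ B, IsAlgebraic (adj l y) b) {ℓ : ℕ}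
    (hℓ : 0 < ℓ) {a b g : K} (ha : a ∈ A) (hb : b ∈ B) (hg : g ∈ A ⊔ B) (h : a = b * g ^ ℓ) :
    ∃ w ∈ A, a = w ^ ℓ := by
  by_cases ha0 : a = 0
  · exact ⟨0, A.zero_mem, by rw [ha0, zero_pow hℓ.ne']⟩
  have hg0 : g ≠ 0 := by
    rintro rfl
    rw [zero_pow hℓ.ne', mul_zero] at h
    exact ha0 h
  obtain ⟨P, hPA, -, -, hPB⟩ := exists_one (Ω := AlgebraicClosure K) hl hlA hyA l.zero_mem
  have hAO : ∀ a ∈ A, a ∈ P.O := fun a ha => (hPA a ha).1
  have hBd : ∀ b ∈ B, b ∈ P.O → ∃ d ∈ l, P.ev b = P.ev d := by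
    intro b hb hbO
    obtain ⟨d, hd, he⟩ := hPB b hbO (hB b hb)
    exact ⟨d, hd, by rw [he, (hPA d (hlA hd)).2]⟩
  obtain ⟨b', hb', hb'0, hU, a', ha', hev⟩ := P.gauss hlA hlB hAO hBd hg hg0
  have hUa : P.U a := P.U_of_isAlgebraic A hAO (isAlgebraic_of_mem ha) ha0
  have hb''B : b / b' ^ ℓ ∈ B := B.div_mem hb (pow_mem hb' ℓ)
  have he1 : b / b' ^ ℓ = a / (b' * g) ^ ℓ := by
    rw [h, mul_pow]
    field_simp
  have hUb'' : P.U (b / b' ^ ℓ) := by
    rw [he1]; exact hUa.div (hU.pow ℓ)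
  obtain ⟨d, hd, hbd⟩ := hBd _ hb''B hUb''.1
  obtain ⟨d', hd'⟩ := IsAlgClosed.exists_pow_nat_eq (⟨d, hd⟩ : l) hℓ
  have hd'' : (d' : K) ^ ℓ = d := congrArg Subtype.val hd'
  have hwA : (d' : K) * a' ∈ A := A.mul_mem (hlA d'.2) ha'
  refine ⟨(d' : K) * a', hwA, ?_⟩
  apply (algebraMap K (AlgebraicClosure K)).injective
  rw [← (hPA a ha).2, ← (hPA _ (pow_mem hwA ℓ)).2]
  have he2 : a = (b / b' ^ ℓ) * (b' * g) ^ ℓ := by
    rw [he1]
    have := (hU.pow ℓ).ne_zero
    field_simp
  rw [mul_pow, hd'', P.ev_mul (hAO _ (hlA hd)) (pow_mem (hAO _ ha') ℓ), P.ev_pow (hAO _ ha'),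
    ← hbd, ← hev]
  conv_lhs => rw [he2]
  rw [P.ev_mul hUb''.1 (pow_mem hU.1 ℓ), P.ev_pow hU.1]

end places

end Vale.Agent.P019P
end
end

section

section
/-!
# Finiteness of the kernel of `V_F → V_L` for finitely generated extensions
-/

namespace Vale.Agent.P019P

open Vale.Agent.P019

set_option linter.style.haveILetI false

open IntermediateField

section

variable {F L : Type*} [Field F] [Field L] [Algebra F L]

/-- `ℓ`-th roots of pairwise inequivalent elements are linearly independent. -/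
theorem linearIndependent_roots [PerfectField F] (ℓ : ℕ) [Fact ℓ.Prime] (ζ : F)
    (hζ : IsPrimitiveRoot ζ ℓ) {n : ℕ} {w : Fin n → L} (hw0 : ∀ i, w i ≠ 0)
    (hw : ∀ i, ∃ a : F, w i ^ ℓ = algebraMap F L a)
    (hne : ∀ i j, i ≠ j → ¬ ∃ y : F, w i = w j * algebraMap F L y) :
    LinearIndependent F w := by
  classical
  haveI : NeZero ℓ := ⟨(Fact.out : ℓ.Prime).ne_zero⟩
  have halg : ∀ i, IsAlgebraic F (w i) := by
    intro i
    obtain ⟨a, ha⟩ := hw i
    refine (IsAlgebraic.of_pow (Fact.out : ℓ.Prime).pos ?_)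
    rw [ha]
    exact isAlgebraic_algebraMap a
  let E := algebraicClosure F L
  let Ω := AlgebraicClosure F
  haveI : Algebra.IsAlgebraic F E := algebraicClosure.isAlgebraic F L
  let j : E →ₐ[F] Ω := IsAlgClosed.lift
  haveI : IsGalois F Ω := ⟨⟩
  let wE : Fin n → E := fun i => ⟨w i, mem_algebraicClosure_iff.2 (halg i)⟩
  let v : Fin n → Ω := fun i => j (wE i)
  have hv0 : ∀ i, v i ≠ 0 := by
    intro i h
    have : wE i = 0 := (map_eq_zero j).1 h
    exact hw0 i (congrArg Subtype.val this)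
  have hvl : ∀ i, ∃ a : F, v i ^ ℓ = algebraMap F Ω a := by
    intro i
    obtain ⟨a, ha⟩ := hw i
    refine ⟨a, ?_⟩
    have h1 : wE i ^ ℓ = algebraMap F E a := Subtype.ext ha
    change j (wE i) ^ ℓ = _
    rw [← map_pow, h1, AlgHom.commutes]
  have hchar : ∀ (i : Fin n) (σ : Ω ≃ₐ[F] Ω), ∃ c : F, σ (v i) = algebraMap F Ω c * v i := by
    intro i σ
    obtain ⟨a, ha⟩ := hvl i
    have h1 : (σ (v i) / v i) ^ ℓ = 1 := by
      rw [div_pow, ← map_pow, ha, AlgEquiv.commutes]
      refine div_self ?_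
      rw [← ha]; exact pow_ne_zero _ (hv0 i)
    have hζ' : IsPrimitiveRoot (algebraMap F Ω ζ) ℓ :=
      hζ.map_of_injective (algebraMap F Ω).injective
    obtain ⟨m, -, hm⟩ := hζ'.eq_pow_of_pow_eq_one h1
    refine ⟨ζ ^ m, ?_⟩
    rw [map_pow, hm, div_mul_cancel₀ _ (hv0 i)]
  let χ : Fin n → ((Ω ≃ₐ[F] Ω) →* Ω) := fun i =>
    { toFun := fun σ => σ (v i) / v i
      map_one' := by rw [AlgEquiv.one_apply, div_self (hv0 i)]
      map_mul' := by
        intro σ τ
        obtain ⟨c, hc⟩ := hchar i τ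
        rw [AlgEquiv.mul_apply, hc, map_mul, AlgEquiv.commutes, mul_div_assoc, mul_comm,
          mul_div_assoc, div_self (hv0 i), mul_one] }
  have hχ : Function.Injective χ := by
    intro i i' h
    by_contra hii
    have h1 : ∀ σ : Ω ≃ₐ[F] Ω, σ (v i / v i') = v i / v i' := by
      intro σ
      have h2 : σ (v i) / v i = σ (v i') / v i' := DFunLike.congr_fun h σ
      have h3 := hv0 i
      have h4 := hv0 i'
      have h5 : σ (v i') ≠ 0 := (map_ne_zero σ).2 h4
      rw [map_div₀, div_eq_div_iff h5 h4]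
      rw [div_eq_div_iff h3 h4] at h2
      rw [h2]; ring
    obtain ⟨y, hy⟩ := (InfiniteGalois.mem_range_algebraMap_iff_fixed _).2 h1
    apply hne i i' hii
    refine ⟨y, ?_⟩
    have h6 : j (wE i) = j (wE i' * algebraMap F E y) := by
      rw [map_mul, AlgHom.commutes, hy]
      have h4 := hv0 i'
      change v i = v i' * (v i / v i')
      rw [mul_div_cancel₀ _ h4]
    have h7 := j.injective h6
    exact congrArg Subtype.val h7
  have hli := (linearIndependent_monoidHom (Ω ≃ₐ[F] Ω) Ω).comp χ hχ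
  rw [Fintype.linearIndependent_iff] at hli ⊢
  intro c hc i
  have h1 : ∑ i, (algebraMap F Ω (c i) * v i) • (fun f : (Ω ≃ₐ[F] Ω) →* Ω => (f : (Ω ≃ₐ[F] Ω) → Ω))
      (χ i) = 0 := by
    funext σ
    rw [Finset.sum_apply, Pi.zero_apply]
    have h2 : ∑ i, c i • w i = 0 := hc
    have h3 : ∑ i, algebraMap F Ω (c i) * v i = 0 := by
      have h4 : ∑ i, c i • wE i = 0 := by
        apply Subtype.ext
        rw [AddSubmonoidClass.coe_finsetSum]
        exact h2
      have h5 := congrArg j h4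
      rw [map_sum, map_zero] at h5
      rw [← h5]
      refine Finset.sum_congr rfl (fun i _ => ?_)
      rw [Algebra.smul_def, map_mul, AlgHom.commutes]
    have h6 := congrArg σ h3
    rw [map_sum, map_zero] at h6
    rw [← h6]
    refine Finset.sum_congr rfl (fun i _ => ?_)
    rw [map_mul, AlgEquiv.commutes]
    change (algebraMap F Ω (c i) * v i) * (σ (v i) / v i) = _
    rw [mul_assoc, mul_div_cancel₀ _ (hv0 i)]
  have h7 := hli (fun i => algebraMap F Ω (c i) * v i) h1 i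
  have h8 : algebraMap F Ω (c i) = 0 := (mul_eq_zero.1 h7).resolve_right (hv0 i)
  exact (map_eq_zero _).1 h8

/-- **Finite kernel.** -/
theorem finite_kernel [PerfectField F] [Algebra.EssFiniteType F L] (ℓ : ℕ) [Fact ℓ.Prime] (ζ : F)
    (hζ : IsPrimitiveRoot ζ ℓ) :
    ∃ N : ℕ, ∀ x : Fin (N + 1) → F, (∀ i, x i ≠ 0 ∧ ∃ w : L, w ^ ℓ = algebraMap F L (x i)) →
      ∃ i j, i ≠ j ∧ ∃ y : F, y ≠ 0 ∧ x i = x j * y ^ ℓ := by
  classical
  obtain ⟨S, hS⟩ := exists_isTranscendenceBasis F L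
  haveI : Algebra.IsAlgebraic (adjoin F (Set.range ((↑) : S → L))) L := hS.isAlgebraic_field
  haveI : Algebra.EssFiniteType (adjoin F (Set.range ((↑) : S → L))) L :=
    Algebra.EssFiniteType.of_comp F _ L
  haveI : Module.Finite (adjoin F (Set.range ((↑) : S → L))) L :=
    Algebra.finite_of_essFiniteType_of_isAlgebraic
  refine ⟨Module.finrank (adjoin F (Set.range ((↑) : S → L))) L, ?_⟩
  intro x hx
  by_contra hcon
  push Not at hcon
  choose hx0 w hw using hx
  have hℓ : ℓ ≠ 0 := (Fact.out : ℓ.Prime).ne_zero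
  have hw0 : ∀ i, w i ≠ 0 := by
    intro i h
    have := hw i
    rw [h, zero_pow hℓ] at this
    exact hx0 i ((map_eq_zero _).1 this.symm)
  have h1 : LinearIndependent F w := by
    refine linearIndependent_roots ℓ ζ hζ hw0 (fun i => ⟨x i, hw i⟩) ?_
    rintro i j hij ⟨y, hy⟩
    have hy0 : y ≠ 0 := by
      rintro rfl
      rw [map_zero, mul_zero] at hy
      exact hw0 i hy
    refine hcon i j hij y hy0 ?_
    apply (algebraMap F L).injective
    rw [← hw i, hy, mul_pow, hw j, map_mul, map_pow]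
  have h2 := linearIndependent_adjoin hS.1 (fun i => by
    refine (IsAlgebraic.of_pow (Fact.out : ℓ.Prime).pos ?_)
    rw [hw i]
    exact isAlgebraic_algebraMap (x i)) h1
  have h3 := h2.fintype_card_le_finrank
  rw [Fintype.card_fin] at h3
  omega

end

end Vale.Agent.P019P
end
end

section

section

/-!
# Finiteness of intersections
-/

namespace Vale.Agent.P019P

open Vale.Agent.P019

set_option linter.style.haveILetI false

open Polynomial

section aux

variable {Ω : Type*} [Field Ω]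

/-- a primitive root of unity in an algebraically closed subfield. -/
theorem finK_prim {l : Subfield Ω} (hl : IsAlgClosed l) (ℓ : ℕ) [Fact ℓ.Prime]
    [hℓ : NeZero (ℓ : Ω)] :
    ∃ ζ ∈ l, IsPrimitiveRoot ζ ℓ := by
  haveI : NeZero ℓ := ⟨(Fact.out : ℓ.Prime).ne_zero⟩
  haveI : NeZero (ℓ : l) := ⟨by
    intro h
    apply hℓ.out
    have h2 := congrArg (Subtype.val : l → Ω) h
    simpa using h2⟩
  obtain ⟨ζ, hζ⟩ := HasEnoughRootsOfUnity.exists_primitiveRoot l ℓ
  exact ⟨ζ, ζ.2, hζ.map_of_injective (f := algebraMap l Ω) (algebraMap l Ω).injective⟩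

theorem FG.perfect [PerfectField Ω] {E Λ : Subfield Ω} (h : FG E Λ) : PerfectField Λ := by
  obtain ⟨S, hS⟩ := h
  rw [hS]
  infer_instance

theorem FG.le {E Λ : Subfield Ω} (h : FG E Λ) : E ≤ Λ := by
  obtain ⟨S, hS⟩ := h
  rw [hS]
  exact le_sup_left.trans (le_pf _)

theorem FG.mono {E F Λ : Subfield Ω} (h : FG E Λ) (hEF : E ≤ F) (hF : F ≤ Λ) : FG F Λ := by
  obtain ⟨S, hS⟩ := h
  refine ⟨S, le_antisymm ?_ ?_⟩
  · rw [hS]
    exact pf_mono (sup_le_sup_right hEF _)
  · rw [hS, ← pf_pf (E ⊔ Subfield.closure (S : Set Ω))]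
    apply pf_mono
    rw [← hS]
    refine sup_le hF ?_
    rw [hS]
    exact le_sup_right.trans (le_pf _)

theorem FG.trans {E F Λ : Subfield Ω} (h : FG E F) (h' : FG F Λ) : FG E Λ := by
  classical
  obtain ⟨S, hS⟩ := h
  obtain ⟨T, hT⟩ := h'
  refine ⟨S ∪ T, ?_⟩
  rw [hT, hS]
  apply le_antisymm
  · rw [← pf_pf (E ⊔ Subfield.closure ((S ∪ T : Finset Ω) : Set Ω))]
    apply pf_mono
    refine sup_le ?_ ?_
    · apply pf_mono
      refine sup_le_sup_left (Subfield.closure_mono ?_) _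
      rw [Finset.coe_union]
      exact Set.subset_union_left
    · refine le_trans ?_ (le_pf _)
      refine le_trans (Subfield.closure_mono ?_) le_sup_right
      rw [Finset.coe_union]
      exact Set.subset_union_right
  · apply pf_mono
    rw [Finset.coe_union, Subfield.closure_union, ← sup_assoc]
    exact sup_le_sup_right (le_pf _) _

/-- `ℓ`-th roots in the perfect closure. -/
theorem pf_root (ℓ : ℕ) [Fact ℓ.Prime] [NeZero (ℓ : Ω)] {E : Subfield Ω} {z y : Ω} (hz : z ∈ E)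
    (hz0 : z ≠ 0) (hy : y ∈ pf E) (h : y ^ ℓ = z) : ∃ y' ∈ E, y' ^ ℓ = z := by
  obtain ⟨n, hn⟩ := mem_pf.1 hy
  have h2 := q_pow_ne_zero ℓ Ω n
  have h4 : IsCoprime ((ringExpChar Ω ^ n : ℕ) : ℤ) (ℓ : ℤ) := by
    rw [Nat.isCoprime_iff_coprime, Nat.coprime_comm, Nat.Prime.coprime_iff_not_dvd Fact.out]
    intro h5
    exact h2 ((ZMod.natCast_eq_zero_iff _ _).2 h5)
  obtain ⟨a, b, hab⟩ := h4
  refine ⟨(y ^ ringExpChar Ω ^ n) ^ a * z ^ b, E.mul_mem (zpow_mem hn a) (zpow_mem hz b), ?_⟩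
  have e1 : ((y ^ ringExpChar Ω ^ n) ^ a) ^ ℓ = z ^ (a * (ringExpChar Ω ^ n : ℕ)) := by
    have e2 : (y ^ ringExpChar Ω ^ n) ^ ℓ = z ^ ringExpChar Ω ^ n := by
      rw [← h, ← pow_mul, ← pow_mul, mul_comm]
    rw [← zpow_natCast, ← zpow_mul, mul_comm a, zpow_mul, zpow_natCast, e2, mul_comm a,
      zpow_mul, zpow_natCast]
  rw [mul_pow, e1, ← zpow_natCast (z ^ b), ← zpow_mul, ← zpow_add₀ hz0, hab, zpow_one]

end aux

section finite

variable {Ω : Type*} [Field Ω] [PerfectField Ω] (ℓ : ℕ) [Fact ℓ.Prime] [NeZero (ℓ : Ω)]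

/-- S11 finite kernel, ambient version. -/
theorem fk {F Λ : Subfield Ω} (h : FG F Λ) {ζ : Ω} (hζF : ζ ∈ F) (hζ : IsPrimitiveRoot ζ ℓ) :
    ∃ N : ℕ, ∀ x : Fin (N + 1) → Ω, (∀ i, x i ∈ F ∧ x i ≠ 0 ∧ ∃ w ∈ Λ, w ^ ℓ = x i) →
      ∃ i j, i ≠ j ∧ ∃ y ∈ F, y ≠ 0 ∧ x i = x j * y ^ ℓ := by
  classical
  have hℓ : ℓ ≠ 0 := (Fact.out : ℓ.Prime).ne_zero
  haveI : PerfectField Λ := h.perfect
  obtain ⟨S, hS⟩ := h.mono (le_pf F) (pf_le h.le)
  set F' := pf F with hF'
  haveI : Algebra.EssFiniteType F' (IntermediateField.adjoin F' (S : Set Ω)) :=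
    IntermediateField.essFiniteType_iff.2 ⟨S, rfl⟩
  have hζ' : IsPrimitiveRoot (⟨ζ, le_pf F hζF⟩ : F') ℓ :=
    IsPrimitiveRoot.of_map_of_injective (f := algebraMap F' Ω) hζ (algebraMap F' Ω).injective
  obtain ⟨N, hN⟩ := finite_kernel (F := F') (L := IntermediateField.adjoin F' (S : Set Ω)) ℓ
    ⟨ζ, le_pf F hζF⟩ hζ'
  refine ⟨N, fun x hx => ?_⟩
  choose hxF hx0 w hw hwx using hx
  have h1 : ∀ i, ∃ n : ℕ, w i ^ ringExpChar Ω ^ n ∈ F' ⊔ Subfield.closure (S : Set Ω) := by
    intro i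
    have h2 := hw i
    rw [hS] at h2
    exact mem_pf.1 h2
  choose n hn using h1
  obtain ⟨m, hm⟩ : ∃ m, ∀ i, n i ≤ m := ⟨Finset.univ.sup n, fun i => Finset.le_sup (Finset.mem_univ i)⟩
  set Q := ringExpChar Ω ^ m with hQ
  have hQ0 : Q ≠ 0 := (qpow_pos Ω m).ne'
  have hn' : ∀ i, w i ^ Q ∈ F' ⊔ Subfield.closure (S : Set Ω) := by
    intro i
    obtain ⟨j, hj⟩ := Nat.exists_eq_add_of_le (hm i)
    rw [hQ, hj, pow_add, pow_mul]
    exact pow_mem (hn i) _
  obtain ⟨i, j, hij, y, hy0, hy⟩ := hN (fun i => ⟨x i ^ Q, pow_mem (le_pf F (hxF i)) _⟩) (by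
    intro i
    refine ⟨fun h => pow_ne_zero Q (hx0 i) (congrArg Subtype.val h), ?_⟩
    have hw' : w i ^ Q ∈ IntermediateField.adjoin F' (S : Set Ω) := by
      have h3 : w i ^ Q ∈ (IntermediateField.adjoin F' (S : Set Ω)).toSubfield := by
        rw [finK_sup_eq]; exact hn' i
      exact h3
    refine ⟨⟨w i ^ Q, hw'⟩, Subtype.ext ?_⟩
    change (w i ^ Q) ^ ℓ = x i ^ Q
    rw [← hwx i, ← pow_mul, ← pow_mul, mul_comm])
  have hy' : x i ^ Q = x j ^ Q * (y : Ω) ^ ℓ := congrArg Subtype.val hy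
  obtain ⟨y', hy', hyy⟩ := exists_root_q F' y.2 m
  have h4 : x i = x j * y' ^ ℓ := by
    apply pow_q_injective m
    change x i ^ Q = (x j * y' ^ ℓ) ^ Q
    rw [mul_pow, ← pow_mul, mul_comm ℓ, pow_mul, hyy]
    assumption
  have h5 : y' ^ ℓ = x i / x j := by
    rw [h4, mul_div_cancel_left₀ _ (hx0 j)]
  obtain ⟨y'', hy'', hyy'⟩ := pf_root ℓ (Subfield.div_mem _ (hxF i) (hxF j))
    (div_ne_zero (hx0 i) (hx0 j)) hy' h5
  refine ⟨i, j, hij, y'', hy'', ?_, ?_⟩
  · rintro rfl
    rw [zero_pow hℓ] at hyy'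
    exact div_ne_zero (hx0 i) (hx0 j) hyy'.symm
  · rw [hyy', mul_div_cancel₀ _ (hx0 j)]

/-- S12 -/
theorem int_fin {l E₁ E₂ Λ : Subfield Ω} (hl : IsAlgClosed l) (hfg : FG l Λ) (h1 : l ≤ E₁)
    (h2 : l ≤ E₂) (h1' : E₁ ≤ Λ) (h2' : E₂ ≤ Λ) {y : Ω} (hy : y ∈ E₂) (hy1 : ¬ IsAlgebraic E₁ y)
    (halg : ∀ z ∈ E₂, IsAlgebraic (adj l y) z) :
    ∃ N : ℕ, ∀ x : Fin (N + 1) → Ω,
      (∀ i, x i ∈ E₁ ∧ x i ≠ 0 ∧ ∃ e ∈ E₂, ∃ w ∈ Λ, x i = e * w ^ ℓ) →
      ∃ i j, i ≠ j ∧ ∃ w ∈ E₁, w ≠ 0 ∧ x i = x j * w ^ ℓ := by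
  have hℓ : ℓ ≠ 0 := (Fact.out : ℓ.Prime).ne_zero
  obtain ⟨ζ, hζl, hζ⟩ := finK_prim hl ℓ
  have hlF : l ≤ E₁ ⊔ E₂ := h1.trans le_sup_left
  have hFG : FG (E₁ ⊔ E₂) Λ := hfg.mono hlF (sup_le h1' h2')
  obtain ⟨N, hN⟩ := fk ℓ hFG (hlF hζl) hζ
  refine ⟨N, fun x hx => ?_⟩
  choose hxE hx0 e he w hw hxe using hx
  have he0 : ∀ i, e i ≠ 0 := by
    intro i h
    apply hx0 i
    rw [hxe i, h, zero_mul]
  obtain ⟨i, j, hij, y', hy', hy0, hyy⟩ := hN (fun i => x i / e i) (by
    intro i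
    refine ⟨Subfield.div_mem _ ((le_sup_left : E₁ ≤ E₁ ⊔ E₂) (hxE i))
      ((le_sup_right : E₂ ≤ E₁ ⊔ E₂) (he i)), div_ne_zero (hx0 i) (he0 i), w i, hw i, ?_⟩
    rw [eq_div_iff (he0 i), hxe i, mul_comm])
  change x i / e i = x j / e j * y' ^ ℓ at hyy
  have hd : x i / x j = (e i / e j) * y' ^ ℓ := by
    have h3 := he0 i
    have h4 := he0 j
    have h5 := hx0 j
    rw [div_eq_iff h3] at hyy
    rw [hyy]
    field_simp
  obtain ⟨v, hv, hvx⟩ := pow_descent hl h1 h2 hy hy1 halg (Nat.pos_of_ne_zero hℓ)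
    (Subfield.div_mem _ (hxE i) (hxE j)) (Subfield.div_mem _ (he i) (he j)) hy' hd
  refine ⟨i, j, hij, v, hv, ?_, ?_⟩
  · rintro rfl
    rw [zero_pow hℓ] at hvx
    exact div_ne_zero (hx0 i) (hx0 j) hvx
  · rw [← hvx, mul_div_cancel₀ _ (hx0 j)]

/-- no two of the `x - c` are equivalent in `l(x)`. -/
theorem finK_line0 {Ω : Type*} [Field Ω] (ℓ : ℕ) [Fact ℓ.Prime] {l : Subfield Ω}
    (hl : IsAlgClosed l) {x : Ω} (hxl : x ∉ l) {c c' : Ω}
    (hc : c ∈ l) (hc' : c' ∈ l) (hcc : c ≠ c') {y : Ω} (hy : y ∈ Vale.Agent.P019.adj l x)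
    (h : x - c = (x - c') * y ^ ℓ) : False := by
  have hℓ : ℓ ≠ 0 := (Fact.out : ℓ.Prime).ne_zero
  have hℓ1 : ℓ ≠ 1 := (Fact.out : ℓ.Prime).one_lt.ne'
  have htr : ¬ IsAlgebraic l x := fun h' => hxl (RAC_of_isAlgClosed l hl x h')
  have hinj : ∀ p : l[X], aeval x p = 0 → p = 0 := by
    intro p hp
    by_contra hp0
    exact htr ⟨p, hp0, hp⟩
  obtain ⟨p, q, hpq⟩ := finK_mem_adj.1 hy
  have hx0 : ∀ d ∈ l, x - d ≠ 0 := by
    intro d hd h0
    apply hxl
    rw [sub_eq_zero.1 h0]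
    exact hd
  have hy0 : y ≠ 0 := by
    rintro rfl
    rw [zero_pow hℓ, mul_zero] at h
    exact hx0 c hc h
  have hq0 : aeval x q ≠ 0 := by
    intro h0
    rw [h0, div_zero] at hpq
    exact hy0 hpq
  have hp0 : aeval x p ≠ 0 := by
    intro h0
    rw [h0, zero_div] at hpq
    exact hy0 hpq
  have hq : q ≠ 0 := fun h0 => hq0 (by rw [h0, map_zero])
  have hp : p ≠ 0 := fun h0 => hp0 (by rw [h0, map_zero])
  have hpoly : (X - C (⟨c, hc⟩ : l)) * q ^ ℓ = (X - C (⟨c', hc'⟩ : l)) * p ^ ℓ := by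
    rw [← sub_eq_zero]
    apply hinj
    rw [map_sub, map_mul, map_mul, map_pow, map_pow, map_sub, map_sub, aeval_X, aeval_C, aeval_C]
    change (x - c) * _ - (x - c') * _ = 0
    rw [h, hpq, div_pow, mul_assoc, div_mul_cancel₀ _ (pow_ne_zero _ hq0), sub_self]
  have hm := congrArg (rootMultiplicity (⟨c, hc⟩ : l)) hpoly
  rw [rootMultiplicity_mul (mul_ne_zero (X_sub_C_ne_zero _) (pow_ne_zero _ hq)),
    rootMultiplicity_mul (mul_ne_zero (X_sub_C_ne_zero _) (pow_ne_zero _ hp)),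
    rootMultiplicity_X_sub_C_self] at hm
  have h3 : rootMultiplicity (⟨c, hc⟩ : l) (X - C (⟨c', hc'⟩ : l)) = 0 := by
    apply rootMultiplicity_eq_zero
    rw [IsRoot.def, eval_sub, eval_X, eval_C, sub_eq_zero]
    intro h4
    exact hcc (congrArg Subtype.val h4)
  rw [h3, zero_add] at hm
  have h5 : ∀ r : l[X], r ≠ 0 → ∀ n : ℕ, rootMultiplicity (⟨c, hc⟩ : l) (r ^ n) =
      n * rootMultiplicity (⟨c, hc⟩ : l) r := by
    intro r hr n
    induction n with
    | zero => simp
    | succ n ih =>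
      rw [pow_succ, rootMultiplicity_mul (mul_ne_zero (pow_ne_zero _ hr) hr), ih]
      ring
  rw [h5 q hq, h5 p hp] at hm
  have h6 : ℓ ∣ 1 := by
    have h7 : ℓ ∣ 1 + ℓ * rootMultiplicity (⟨c, hc⟩ : l) q := by
      rw [hm]; exact dvd_mul_right _ _
    exact (Nat.dvd_add_left (dvd_mul_right _ _)).1 h7
  exact hℓ1 (Nat.dvd_one.1 h6)

/-- no two of the `x - c` are equivalent in `l(x)`. -/
theorem finK_line {l : Subfield Ω} (hl : IsAlgClosed l) {x : Ω} (hxl : x ∉ l) {c c' : Ω}
    (hc : c ∈ l) (hc' : c' ∈ l) (hcc : c ≠ c') {y : Ω} (hy : y ∈ adj l x)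
    (h : x - c = (x - c') * y ^ ℓ) : False := by
  have hx0 : ∀ d ∈ l, x - d ≠ 0 := by
    intro d hd h0
    apply hxl
    rw [sub_eq_zero.1 h0]
    exact hd
  have h1 : y ^ ℓ = (x - c) / (x - c') := by
    rw [h, mul_div_cancel_left₀ _ (hx0 c' hc')]
  have hmem : ∀ d ∈ l, x - d ∈ Vale.Agent.P019.adj l x := fun d hd =>
    Subfield.sub_mem _ (Vale.Agent.P019.mem_adj l x) (Vale.Agent.P019.le_adj l x hd)
  obtain ⟨y', hy', hyy⟩ := pf_root ℓ (Subfield.div_mem _ (hmem c hc) (hmem c' hc'))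
    (div_ne_zero (hx0 c hc) (hx0 c' hc')) hy h1
  refine finK_line0 ℓ hl hxl hc hc' hcc hy' ?_
  rw [hyy, mul_div_cancel₀ _ (hx0 c' hc')]

/-- S13 classes of `x - c` for distinct constants are distinct up to finitely many. -/
theorem dist_fin {l Λ : Subfield Ω} (hl : IsAlgClosed l) (hfg : FG l Λ) {x : Ω} (hx : x ∈ Λ)
    (hxl : x ∉ l) :
    ∃ N : ℕ, ∀ c : Fin (N + 1) → Ω, Function.Injective c → (∀ i, c i ∈ l) →
      ∃ i j, i ≠ j ∧ ¬ ∃ w ∈ Λ, x - c i = (x - c j) * w ^ ℓ := by
  have hℓ : ℓ ≠ 0 := (Fact.out : ℓ.Prime).ne_zero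
  have hlΛ : l ≤ Λ := hfg.le
  haveI : PerfectField Λ := hfg.perfect
  obtain ⟨ζ, hζl, hζ⟩ := finK_prim hl ℓ
  obtain ⟨N, hN⟩ := fk ℓ (hfg.mono (le_adj l x) (adj_le hlΛ hx)) ((le_adj l x) hζl) hζ
  refine ⟨N + 1, fun c hc hcl => ?_⟩
  by_contra hcon
  push Not at hcon
  have hx0 : ∀ d ∈ l, x - d ≠ 0 := by
    intro d hd h0
    apply hxl
    rw [sub_eq_zero.1 h0]
    exact hd
  have hmem : ∀ d ∈ l, x - d ∈ adj l x := fun d hd =>
    Subfield.sub_mem _ (mem_adj l x) (le_adj l x hd)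
  obtain ⟨i, j, hij, y, hy, -, hyy⟩ := hN (fun i => (x - c i.succ) / (x - c 0)) (by
    intro i
    refine ⟨Subfield.div_mem _ (hmem _ (hcl _)) (hmem _ (hcl _)),
      div_ne_zero (hx0 _ (hcl _)) (hx0 _ (hcl _)), ?_⟩
    obtain ⟨w, hw, hww⟩ := hcon i.succ 0 (Fin.succ_ne_zero i)
    refine ⟨w, hw, ?_⟩
    rw [hww, mul_div_cancel_left₀ _ (hx0 _ (hcl _))])
  change (x - c i.succ) / (x - c 0) = (x - c j.succ) / (x - c 0) * y ^ ℓ at hyy
  refine finK_line ℓ hl hxl (hcl i.succ) (hcl j.succ) ?_ hy ?_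
  · intro h
    exact hij (Fin.succ_injective _ (hc h))
  · have h0 := hx0 _ (hcl 0)
    rw [div_mul_eq_mul_div, div_left_inj' h0] at hyy
    exact hyy

end finite

section finiteK

variable {K : Type*} [Field K] [PerfectField K] (ℓ : ℕ) [Fact ℓ.Prime] [NeZero (ℓ : K)]

/-- S15 -/
theorem int_top {l E₁ E₂ : Subfield K} (hl : IsAlgClosed l) (hfg : FG l (⊤ : Subfield K))
    (h1 : l ≤ E₁) (h2 : l ≤ E₂) {y : K} (hy : y ∈ E₂) (hy1 : ¬ IsAlgebraic E₁ y)
    (halg : ∀ z ∈ E₂, IsAlgebraic (adj l y) z) :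
    ((VS ℓ E₁ ⊓ VS ℓ E₂ : Submodule (ZMod ℓ) (V ℓ K)) : Set (V ℓ K)).Finite := by
  by_contra hinf
  have hinf' : ((VS ℓ E₁ ⊓ VS ℓ E₂ : Submodule (ZMod ℓ) (V ℓ K)) : Set (V ℓ K)).Infinite := hinf
  obtain ⟨N, hN⟩ := int_fin ℓ hl hfg h1 h2 le_top le_top hy hy1 halg
  let f := hinf'.natEmbedding
  have hf : ∀ i, ((f i : V ℓ K) ∈ VS ℓ E₁) ∧ ((f i : V ℓ K) ∈ VS ℓ E₂) := fun i =>
    Submodule.mem_inf.1 (f i).2
  have h3 : ∀ i : ℕ, ∃ x ∈ E₁, x ≠ 0 ∧ (f i : V ℓ K) = cl ℓ x := fun i => mem_VS.1 (hf i).1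
  have h4 : ∀ i : ℕ, ∃ x ∈ E₂, x ≠ 0 ∧ (f i : V ℓ K) = cl ℓ x := fun i => mem_VS.1 (hf i).2
  choose x hx hx0 hxf using h3
  choose e he he0 hef using h4
  obtain ⟨i, j, hij, w, hw, hw0, hww⟩ := hN (fun i => x i.1) (by
    intro i
    have h5 : cl ℓ (x i.1) = cl ℓ (e i.1) := by rw [← hxf, ← hef]
    obtain ⟨w, hw, hww⟩ := (cl_eq_iff ℓ (hx0 _) (he0 _)).1 h5
    exact ⟨hx _, hx0 _, e i.1, he _, w, Subfield.mem_top _, hww⟩)
  apply hij
  have h6 : (f i.1 : V ℓ K) = f j.1 := by
    rw [hxf, hxf]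
    exact (cl_eq_iff ℓ (hx0 _) (hx0 _)).2 ⟨w, hw0, hww⟩
  exact Fin.ext (f.injective (Subtype.ext h6))

/-- S16 -/
theorem dist_top {l : Subfield K} (hl : IsAlgClosed l) (hfg : FG l (⊤ : Subfield K)) {x : K}
    (hxl : x ∉ l) (v : V ℓ K) : {c : K | c ∈ l ∧ cl ℓ (x - c) = v}.Finite := by
  by_contra hinf
  have hinf' : {c : K | c ∈ l ∧ cl ℓ (x - c) = v}.Infinite := hinf
  obtain ⟨N, hN⟩ := dist_fin ℓ hl hfg (Subfield.mem_top x) hxl
  let f := hinf'.natEmbedding
  obtain ⟨i, j, hij, hne⟩ := hN (fun i => (f i.1 : K)) (by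
    intro i j h
    exact Fin.ext (f.injective (Subtype.ext h))) (fun i => (f i.1).2.1)
  apply hne
  have hx0 : ∀ d ∈ l, x - d ≠ 0 := by
    intro d hd h0
    apply hxl
    rw [sub_eq_zero.1 h0]
    exact hd
  have h1 := (f i.1).2.2
  have h2 := (f j.1).2.2
  obtain ⟨w, -, hw⟩ := (cl_eq_iff ℓ (hx0 _ (f i.1).2.1) (hx0 _ (f j.1).2.1)).1 (h1.trans h2.symm)
  exact ⟨w, Subfield.mem_top _, hw⟩

end finiteK

end Vale.Agent.P019P
end
end

section

section

/-!
# Adjoining an element and all its roots of order `q^n`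
-/

namespace Vale.Agent.P019P

open Vale.Agent.P019

set_option linter.style.haveILetI false

variable {K : Type*} [Field K]

theorem pow_q_inj {x y : K} {n : ℕ} (h : x ^ (ringExpChar K) ^ n = y ^ (ringExpChar K) ^ n) :
    x = y := pow_q_injective n h

theorem add_pow_q (x y : K) (n : ℕ) :
    (x + y) ^ (ringExpChar K) ^ n = x ^ (ringExpChar K) ^ n + y ^ (ringExpChar K) ^ n :=
  add_pow_expChar_pow x y (ringExpChar K) n

theorem sub_pow_q (x y : K) (n : ℕ) :
    (x - y) ^ (ringExpChar K) ^ n = x ^ (ringExpChar K) ^ n - y ^ (ringExpChar K) ^ n :=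
  sub_pow_expChar_pow x y n

theorem adj_pow [PerfectField K] (E : Subfield K) (t : K) (n : ℕ) :
    adj E (t ^ (ringExpChar K) ^ n) = adj E t := by
  apply le_antisymm
  · exact adj_le (le_adj E t) ((adj E t).pow_mem (mem_adj E t) _)
  · exact adj_le (le_adj E _) (mem_of_pow_q (n := n) (mem_adj E _))

/-- the main device: `adj E t` is the union of the plain fields `E(t ^ (1/q^n))`. -/
theorem mem_adj_root [PerfectField K] {E : Subfield K} [PerfectField E] {t z : K} :
    z ∈ adj E t ↔ ∃ (n : ℕ) (y : K), y ^ (ringExpChar K) ^ n = t ∧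
      z ∈ Vale.Agent.P019.adj E y := by
  constructor
  · intro hz
    obtain ⟨n, hn⟩ := mem_adj_iff.1 hz
    obtain ⟨y, hy⟩ := exists_root t n
    refine ⟨n, y, hy, ?_⟩
    -- Frobenius^n maps `E(y)` onto a field containing `E(t)`
    have h1 : Vale.Agent.P019.adj E t ≤
        (Vale.Agent.P019.adj E y).map (iterateFrobenius K (ringExpChar K) n) := by
      refine Vale.Agent.P019.adj_le ?_ ?_
      · intro x hx
        obtain ⟨w, hw, h⟩ := exists_root_q E hx n
        exact ⟨w, Vale.Agent.P019.le_adj _ _ hw, by rw [iterateFrobenius_def, h]⟩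
      · exact ⟨y, Vale.Agent.P019.mem_adj _ _, by rw [iterateFrobenius_def, hy]⟩
    obtain ⟨w, hw, h⟩ := h1 hn
    have h2 : w = z := by
      apply pow_q_inj (n := n)
      rw [← h, iterateFrobenius_def]
    rwa [← h2]
  · rintro ⟨n, y, rfl, hz⟩
    rw [adj_pow]
    exact adj0_le_adj E y hz

/-- a common level for two roots. -/
theorem adj0_root_mono {E : Subfield K} {y w : K} {n : ℕ} (h : w ^ (ringExpChar K) ^ n = y) :
    Vale.Agent.P019.adj E y ≤ Vale.Agent.P019.adj E w :=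
  Vale.Agent.P019.adj_le (Vale.Agent.P019.le_adj _ _)
    (by rw [← h]; exact Subfield.pow_mem _ (Vale.Agent.P019.mem_adj _ _) _)

/-- finitely many elements of `adj E t` lie in one plain field `E(y)`, `y ^ (q^n) = t`. -/
theorem exists_common_root [PerfectField K] {E : Subfield K} [PerfectField E] {t : K}
    (s : Finset K) (hs : ∀ z ∈ s, z ∈ adj E t) :
    ∃ (n : ℕ) (y : K), y ^ (ringExpChar K) ^ n = t ∧
      ∀ z ∈ s, z ∈ Vale.Agent.P019.adj E y := by
  classical
  induction s using Finset.induction_on with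
  | empty => exact ⟨0, t, by simp, fun z hz => absurd hz (Finset.notMem_empty _)⟩
  | insert a s _ ih =>
    obtain ⟨n, y, hy, h⟩ := ih (fun z hz => hs z (Finset.mem_insert_of_mem hz))
    obtain ⟨m, w, hw, h'⟩ := mem_adj_root.1 (hs a (Finset.mem_insert_self _ _))
    obtain ⟨u, hu⟩ := exists_root y m
    have hu' : u ^ (ringExpChar K) ^ n = w := by
      apply pow_q_inj (n := m)
      rw [hw, ← hy, ← hu, ← pow_mul, ← pow_mul, mul_comm]
    refine ⟨m + n, u, ?_, ?_⟩
    · rw [pow_add, pow_mul, hu, hy]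
    · intro z hz
      rcases Finset.mem_insert.1 hz with rfl | hz
      · exact adj0_root_mono hu' h'
      · exact adj0_root_mono hu (h z hz)

theorem adj_comm [PerfectField K] (E : Subfield K) (x y : K) :
    adj (adj E x) y = adj (adj E y) x := by
  apply le_antisymm
  · refine adj_le (adj_le ((le_adj E y).trans (le_adj _ x)) (mem_adj _ _)) ?_
    exact le_adj _ _ (mem_adj _ _)
  · refine adj_le (adj_le ((le_adj E x).trans (le_adj _ y)) (mem_adj _ _)) ?_
    exact le_adj _ _ (mem_adj _ _)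

/-- an element is not in a perfect subfield if its power is not. -/
theorem pow_mem_iff {E : Subfield K} [PerfectField E] {z : K} {n : ℕ} :
    z ^ (ringExpChar K) ^ n ∈ E ↔ z ∈ E :=
  ⟨mem_of_pow_q, fun h => E.pow_mem h _⟩

theorem isAlgebraic_pow_iff {E : Subfield K} {z : K} {n : ℕ} :
    IsAlgebraic E (z ^ (ringExpChar K) ^ n) ↔ IsAlgebraic E z :=
  ⟨fun h => h.of_pow (Nat.pos_of_ne_zero (qn_ne_zero K n)), fun h => h.pow _⟩

theorem good_pow [PerfectField K] {k : Subfield K} [PerfectField k] {t : K} {n : ℕ} :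
    Good k (t ^ (ringExpChar K) ^ n) ↔ Good k t := by
  unfold Good
  rw [adj_pow, pow_mem_iff]

end Vale.Agent.P019P
end
end

section

section

/-!
# Definitions for the reconstruction of the field (perfect version)

The filter `ae k`, the predicate `Rk2` and the structure `Over` are those of the old files.
-/

namespace Vale.Agent.P019P

open Vale.Agent.P019

set_option linter.style.haveILetI false
set_option linter.unusedSectionVars false

open Polynomial Filter

section ae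

variable {K : Type*} [Field K]

theorem ae_neBot {k : Subfield K} (hk : (k : Set K).Infinite) : (ae k).NeBot := by
  rw [neBot_iff]
  intro h
  have h1 : ∀ᶠ a in ae k, False := by rw [h]; exact eventually_bot
  rw [ae_iff] at h1
  apply hk
  convert h1 using 1
  ext x
  simp

theorem infinite_of_isAlgClosed {k : Subfield K} (hk : IsAlgClosed k) :
    (k : Set K).Infinite := by
  have h1 : Infinite k := inferInstance
  exact Set.infinite_coe_iff.1 h1

theorem ae_neBot_of_isAlgClosed {k : Subfield K} (hk : IsAlgClosed k) : (ae k).NeBot :=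
  ae_neBot (infinite_of_isAlgClosed hk)

end ae

section crv

variable {K : Type*} [Field K]

/-- relatively algebraically closed subfields of transcendence degree one. -/
structure Crv (k E : Subfield K) : Prop where
  le : k ≤ E
  rac : RAC E
  ex : ∃ y ∈ E, y ∉ k ∧ ∀ z ∈ E, IsAlgebraic (adj k y) z

/-- `G` is a field of transcendence degree two below the whole field, with transcendence basis
`t, s` of the whole field over `G`. -/
structure Frame (k G : Subfield K) (t s : K) : Prop where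
  le : k ≤ G
  fg : FG k G
  tt : ¬ IsAlgebraic (adj G s) t
  ss : ¬ IsAlgebraic G s
  alg : ∀ z : K, IsAlgebraic (adj (adj G s) t) z

/-- a discrete valuation (up to `q`-powers), trivial on `F`, with residue field finite over `F`,
generated by `θ`. -/
structure Nice (W : ValuationSubring K) (F : Subfield K) (π θ : K) : Prop where
  pf : PerfectField F
  unif : IsUnif W π
  triv : TrivOn W F
  mem : θ ∈ W
  res : ∀ z : K, W.valuation z ≤ 1 → ∃ P Q : F[X], W.valuation (aeval θ Q) = 1 ∧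
    W.valuation (z * aeval θ Q - aeval θ P) < 1
  alg : ∃ P : F[X], P.Monic ∧ W.valuation (aeval θ P) < 1

end crv

section rk

variable {ℓ : ℕ} {K L : Type*} [Field K] [Field L]

/-- the valuation subring `O` corresponds to the discrete valuation subring `W`. -/
structure Tr [Fact ℓ.Prime] [NeZero (ℓ : K)] (Θ : V ℓ K ≃ₗ[ZMod ℓ] V ℓ L) (W : ValuationSubring K) (π : K)
    (O : ValuationSubring L) : Prop where
  unit : ∀ (hW : IsUnif W π) (z : L), O.valuation z = 1 → hW.fn ℓ (Θ.symm (cl ℓ z)) = 0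
  iff : ∀ v, Θ v ∈ U1 ℓ O ↔ v ∈ U1 ℓ W

/-- the hypotheses provided by the local theory and the theory of good elements. -/
structure Hyp (ℓ : ℕ) {K L : Type*} [Field K] [Field L] (k : Subfield K) (l : Subfield L)
    (Θ : V ℓ K ≃ₗ[ZMod ℓ] V ℓ L) : Prop where
  ack : IsAlgClosed k
  acl : IsAlgClosed l
  fgk : FG k (⊤ : Subfield K)
  fgl : FG l (⊤ : Subfield L)
  trk : ∃ x y : K, x ∉ k ∧ ¬ IsAlgebraic (adj k x) y
  trl : ∃ x y : L, x ∉ l ∧ ¬ IsAlgebraic (adj l x) y
  comp : Compatible Θ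
  stepA : ∀ t, Good k t → ∃ E : Subfield L, Crv l E ∧
    ∀ v, Θ v ∈ VS ℓ E ↔ v ∈ VS ℓ (adj k t)
  stepA' : ∀ t, Good l t → ∃ E : Subfield K, Crv k E ∧
    ∀ v, Θ.symm v ∈ VS ℓ E ↔ v ∈ VS ℓ (adj l t)
  ltr : ∀ (U : Submodule (ZMod ℓ) (V ℓ K)) (x : K), Good k x →
    ((U ⊓ VS ℓ (adj k x) : Submodule (ZMod ℓ) (V ℓ K)) : Set (V ℓ K)).Finite →
    ∀ O : ValuationSubring L, (∀ z, O.valuation z < 1 → Θ.symm (cl ℓ (1 + z)) ∈ U) → TrivOn O l
  ltr' : ∀ (U : Submodule (ZMod ℓ) (V ℓ L)) (x : L), Good l x →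
    ((U ⊓ VS ℓ (adj l x) : Submodule (ZMod ℓ) (V ℓ L)) : Set (V ℓ L)).Finite →
    ∀ O : ValuationSubring K, (∀ z, O.valuation z < 1 → Θ (cl ℓ (1 + z)) ∈ U) → TrivOn O k
  bert : ∀ x y : K, x ∉ k → ¬ IsAlgebraic (adj k x) y → ∀ᶠ c in ae k, Good k (x + c * y)
  bert' : ∀ x y : L, x ∉ l → ¬ IsAlgebraic (adj l x) y → ∀ᶠ c in ae l, Good l (x + c * y)

theorem Hyp.symm {k : Subfield K} {l : Subfield L} {Θ : V ℓ K ≃ₗ[ZMod ℓ] V ℓ L}
    [Fact ℓ.Prime] (h : Hyp ℓ k l Θ) : Hyp ℓ l k Θ.symm where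
  ack := h.acl
  acl := h.ack
  fgk := h.fgl
  fgl := h.fgk
  trk := h.trl
  trl := h.trk
  comp := h.comp.symm
  stepA := h.stepA'
  stepA' := h.stepA
  ltr := h.ltr'
  ltr' := h.ltr
  bert := h.bert'
  bert' := h.bert

end rk

section div

variable {ℓ : ℕ} {K L : Type*} [Field K] [Field L]

variable (ℓ) in
open Classical in
/-- the order functional at `s = b` on the classes of `k(s)`. -/
noncomputable def del (k : Subfield K) (s b : K) : V ℓ K →ₗ[ZMod ℓ] ZMod ℓ :=
  if h : ∃ f : V ℓ K →ₗ[ZMod ℓ] ZMod ℓ, f (cl ℓ (s - b)) = 1 ∧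
      ∀ c ∈ k, c ≠ b → f (cl ℓ (s - c)) = 0 then h.choose else 0

/-- `Θ` maps the classes of `k(s)` onto those of `l(s')`. -/
structure Rt (k : Subfield K) (l : Subfield L) (Θ : V ℓ K ≃ₗ[ZMod ℓ] V ℓ L) (s : K) (s' : L) :
    Prop where
  good : Good k s
  good' : Good l s'
  map : ∀ v, Θ v ∈ VS ℓ (adj l s') ↔ v ∈ VS ℓ (adj k s)

/-- the points `s = b` and `s' = β` correspond. -/
def Cor (k : Subfield K) (l : Subfield L) (Θ : V ℓ K ≃ₗ[ZMod ℓ] V ℓ L) (s : K) (s' : L)
    (e : ZMod ℓ) (b : K) (β : L) : Prop :=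
  ∀ v ∈ VS ℓ (adj k s), del ℓ k s b v = e * del ℓ l s' β (Θ v)

end div

end Vale.Agent.P019P
end
end

section

section

/-!
# Places of perfect fields: weak discreteness and the unramified lemma
-/

namespace Vale.Agent.P019P

open Vale.Agent.P019

set_option linter.style.haveILetI false

open Polynomial

section perf

variable {K L : Type*} [Field K] [Field L]

theorem ringExpChar_eq_of_hom (f : K →+* L) : ringExpChar K = ringExpChar L := by
  haveI : ExpChar K (ringExpChar L) := f.expChar f.injective _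
  exact ringExpChar.eq K (ringExpChar L)

instance perfect_map (f : K →+* L) (E : Subfield K) [PerfectField E] :
    PerfectField (E.map f) := by
  refine perfect_of_root ?_
  rintro _ ⟨z, hz, rfl⟩
  obtain ⟨y, hy, hyz⟩ := exists_root_q E hz 1
  refine ⟨f y, ⟨y, hy, rfl⟩, ?_⟩
  rw [← ringExpChar_eq_of_hom f, ← map_pow, ← hyz, pow_one]

instance perfect_fieldRange (f : K →+* L) [PerfectField K] : PerfectField f.fieldRange := by
  haveI : PerfectRing K (ringExpChar K) := PerfectField.toPerfectRing _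
  refine perfect_of_root ?_
  rintro _ ⟨z, rfl⟩
  obtain ⟨y, hy⟩ := (bijective_frobenius K (ringExpChar K)).2 z
  refine ⟨f y, ⟨y, rfl⟩, ?_⟩
  rw [← ringExpChar_eq_of_hom f, ← map_pow, ← frobenius_def, hy]

/-- some `q`-power of an algebraic element is separable. -/
theorem exists_sep_pow {E : Subfield K} {x : K} (hx : IsAlgebraic E x) :
    ∃ n : ℕ, IsSeparable E (x ^ ringExpChar K ^ n) := by
  obtain ⟨g, hg, n, hn⟩ :=
    (minpoly.irreducible hx.isIntegral).hasSeparableContraction (ringExpChar K)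
  refine ⟨n, ?_⟩
  have h1 : aeval (x ^ ringExpChar K ^ n) g = 0 := by
    rw [← expand_aeval, hn, minpoly.aeval]
  exact hg.of_dvd (minpoly.dvd E _ h1)

end perf

section gd

variable {K Ω : Type*} [Field K] [Field Ω]

/-- `P` is discrete on `F` up to `q`-power roots, with uniformizer `π` and residues in `κ`. -/
def Gd (P : Pl K Ω) (π : K) (κ : Subfield Ω) (F : Subfield K) : Prop :=
  ∀ z ∈ F, z ≠ 0 → ∃ (m : ℕ) (n : ℤ), P.U (z ^ ringExpChar K ^ m * π ^ n) ∧
    P.ev (z ^ ringExpChar K ^ m * π ^ n) ∈ κ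

variable {P : Pl K Ω} {π : K} {κ : Subfield Ω} {F : Subfield K}

theorem Gd.of_strong (h : Vale.Agent.P019.Gd P π κ F) : Gd P π κ F := by
  intro z hz hz0
  obtain ⟨n, h1, h2⟩ := h z hz hz0
  exact ⟨0, n, by simpa using h1, by simpa using h2⟩

theorem Gd.mono {F' : Subfield K} (h : F' ≤ F) (hF : Gd P π κ F) : Gd P π κ F' :=
  fun z hz hz0 => hF z (h hz) hz0

theorem Gd.pf (hF : Gd P π κ F) : Gd P π κ (pf F) := by
  intro z hz hz0
  obtain ⟨j, hj⟩ := mem_pf.1 hz
  obtain ⟨m, n, h1, h2⟩ := hF _ hj (pow_ne_zero _ hz0)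
  refine ⟨j + m, n, ?_, ?_⟩
  · rwa [pow_add, pow_mul]
  · rwa [pow_add, pow_mul]

theorem mem_of_pow_qK (P : Pl K Ω) {κ : Subfield Ω} [PerfectField κ] {y : Ω} {m : ℕ}
    (h : y ^ ringExpChar K ^ m ∈ κ) : y ∈ κ := by
  by_cases h1 : ringExpChar K = 1
  · rw [h1, one_pow, pow_one] at h
    exact h
  · have key : ∀ q : ℕ, ExpChar P.O q → q ≠ 1 → ExpChar Ω q := by
      intro q hq hq1
      rcases hq with _ | hprime
      · exact absurd rfl hq1
      · haveI : CharP Ω q := by
          have h3 : ((q : ℕ) : Ω) = 0 := by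
            rw [← map_natCast P.ψ, CharP.cast_eq_zero, map_zero]
          haveI : Fact q.Prime := ⟨hprime⟩
          rw [CharP.charP_iff_prime_eq_zero hprime]
          exact h3
        exact ExpChar.prime hprime
    have h2 : ringExpChar K = ringExpChar Ω := by
      haveI := key (ringExpChar K) ((P.O.subtype).expChar Subtype.val_injective _) h1
      exact (ringExpChar.eq Ω (ringExpChar K)).symm
    rw [h2] at h
    exact mem_of_pow_q h

theorem Gd.ev_mem [PerfectField κ] (hπO : π ∈ P.O) (hπ0 : P.ev π = 0)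
    (hF : Gd P π κ F) {z : K} (hz : z ∈ F) (hzO : z ∈ P.O) : P.ev z ∈ κ := by
  by_cases hz0 : z = 0
  · rw [hz0, P.ev_zero]; exact κ.zero_mem
  obtain ⟨m, n, hn, hn'⟩ := hF z hz hz0
  have hzm : z ^ ringExpChar K ^ m ∈ P.O := pow_mem hzO _
  rcases lt_trichotomy n 0 with h | h | h
  · -- then `ev z = 0`
    have h1 : P.ev (z ^ ringExpChar K ^ m) = 0 := by
      obtain ⟨j, hj⟩ := Int.eq_ofNat_of_zero_le (a := -n) (by omega)
      by_cases hπ : π = 0
      · rw [hπ, zero_zpow n h.ne, mul_zero] at hn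
        exact absurd rfl hn.ne_zero
      have e : z ^ ringExpChar K ^ m = (z ^ ringExpChar K ^ m * π ^ n) * π ^ j := by
        have : n = -(j : ℤ) := by omega
        rw [this, zpow_neg, zpow_natCast]
        field_simp
      rw [e, P.ev_mul hn.1 (pow_mem hπO _), P.ev_pow hπO, hπ0, zero_pow (by omega), mul_zero]
    apply mem_of_pow_qK P (m := m)
    rw [← P.ev_pow hzO, h1]
    exact κ.zero_mem
  · rw [h, zpow_zero, mul_one] at hn'
    apply mem_of_pow_qK P (m := m)
    rw [← P.ev_pow hzO]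
    exact hn'
  · exfalso
    obtain ⟨j, hj⟩ := Int.eq_ofNat_of_zero_le (a := n) (by omega)
    rw [hj, zpow_natCast] at hn
    have h3 := hn.2
    rw [P.ev_mul hzm (pow_mem hπO j), P.ev_pow hπO, hπ0, zero_pow (by omega), mul_zero] at h3
    exact h3 rfl

/-- adjoining finitely many separable constants. -/
theorem gd_finset_sep {E k : Subfield K}
    (hπ : π ≠ 0) (hπO : π ∈ P.O) (hπ0 : P.ev π = 0) (hπF : π ∈ F)
    (hF : Vale.Agent.P019.Gd P π κ F)
    (hEF : E ≤ F) (hk : ∀ x ∈ k, x ∈ P.O) (hκ : ∀ x ∈ k, P.ev x ∈ κ) (hEk : E ≤ k)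
    (T : Finset K) (hT : (T : Set K) ⊆ k) (halg : ∀ x ∈ T, IsSeparable E x) :
    Vale.Agent.P019.Gd P π κ (F ⊔ Subfield.closure (T : Set K)) := by
  classical
  induction T using Finset.induction_on with
  | empty => simpa using hF
  | insert c T hc ih =>
    have hck : c ∈ k := hT (by simp)
    have ih' := ih (fun x hx => hT (by
      simp only [Finset.coe_insert]; exact Set.mem_insert_of_mem _ hx))
      (fun x hx => halg x (Finset.mem_insert_of_mem hx))
    set F' : Subfield K := F ⊔ Subfield.closure (T : Set K) with hF'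
    have hEF' : E ≤ F' := hEF.trans le_sup_left
    have hsep := halg c (Finset.mem_insert_self c T)
    have hint : IsIntegral E c := hsep.isIntegral
    have hae : ∀ Q : E[X], aeval c (Q.map (Subfield.inclusion hEF')) = aeval c Q := by
      intro Q
      rw [aeval_def, eval₂_map]
      rfl
    have h1 : Vale.Agent.P019.Gd P π κ (Subfield.closure (F' ∪ {c})) := by
      refine ih'.adjoin hπ hπO hπ0 ?_ (hk c hck) (hκ c hck)
        ((minpoly E c).map (Subfield.inclusion hEF')) ((minpoly.monic hint).map _) ?_ ?_ ?_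
      · exact (le_sup_left : F ≤ F') hπF
      · intro i
        rw [coeff_map]
        exact hk _ (hEk (SetLike.coe_mem _))
      · rw [hae, minpoly.aeval]
      · rw [derivative_map, hae]
        refine Gn.U_of_field hk ?_ ?_
        · exact Vale.Agent.P019.adj_le hEk hck (Gn.aeval_mem_adj c _)
        · exact Separable.aeval_derivative_ne_zero hsep (minpoly.aeval E c)
    refine Gn.Gd_mono ?_ h1
    rw [sup_le_iff, Subfield.closure_le]
    refine ⟨?_, ?_⟩
    · intro x hx
      exact Subfield.subset_closure (Or.inl ((le_sup_left : F ≤ F') hx))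
    · intro x hx
      simp only [Finset.coe_insert] at hx
      rcases hx with rfl | hx
      · exact Subfield.subset_closure (Or.inr rfl)
      · exact Subfield.subset_closure (Or.inl ((le_sup_right : _ ≤ F')
          (Subfield.subset_closure hx)))

/-- **Unramified lemma** for perfect fields. -/
theorem Gd.sup {E B : Subfield K} [PerfectField B]
    (hπ : π ≠ 0) (hπO : π ∈ P.O) (hπ0 : P.ev π = 0) (hπF : π ∈ F)
    (hF : Vale.Agent.P019.Gd P π κ F)
    (hEF : E ≤ F) (hEB : E ≤ B) (hB : ∀ x ∈ B, x ∈ P.O) (hκ : ∀ x ∈ B, P.ev x ∈ κ)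
    (halg : ∀ x ∈ B, IsAlgebraic E x) : Gd P π κ (Vale.Agent.P019P.pf F ⊔ B) := by
  classical
  let Bs : Subfield K := B ⊓ (separableClosure E K).toSubfield
  have hBs : B ≤ Vale.Agent.P019P.pf Bs := by
    intro x hx
    obtain ⟨n, hn⟩ := exists_sep_pow (halg x hx)
    exact mem_pf.2 ⟨n, Subfield.mem_inf.2 ⟨pow_mem hx _, mem_separableClosure_iff.2 hn⟩⟩
  have h1 : Vale.Agent.P019P.pf F ⊔ B ≤ Vale.Agent.P019P.pf (F ⊔ Bs) :=
    sup_le (pf_mono le_sup_left) (hBs.trans (pf_mono le_sup_right))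
  refine Gd.mono h1 (Gd.pf (Gd.of_strong ?_))
  intro z hz hz0
  obtain ⟨T, hT, hzT⟩ := Gn.exists_finset_sup hz
  refine gd_finset_sep hπ hπO hπ0 hπF hF hEF hB hκ hEB T ?_ ?_ z hzT hz0
  · exact fun x hx => (Subfield.mem_inf.1 (hT hx)).1
  · exact fun x hx => mem_separableClosure_iff.1 (Subfield.mem_inf.1 (hT hx)).2

end gd

end Vale.Agent.P019P
end
end

section

section

/-!
# Unit classes, places and the data of a curve
-/

namespace Vale.Agent.P019P

open Vale.Agent.P019

set_option linter.style.haveILetI false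
set_option linter.unusedSectionVars false

open Polynomial Filter

section

variable {F : Type*} [Field F]

/-- the classes of the units of a valuation subring. -/
noncomputable def UC (ℓ : ℕ) (O : ValuationSubring F) : Submodule (ZMod ℓ) (V ℓ F) :=
  AddSubgroup.toZModSubmodule ℓ
  { carrier := {v | ∃ z : F, O.valuation z = 1 ∧ v = cl ℓ z}
    zero_mem' := ⟨1, map_one _, (cl_one ℓ).symm⟩
    add_mem' := by
      rintro _ _ ⟨x, hx, rfl⟩ ⟨y, hy, rfl⟩
      have hx0 : x ≠ 0 := by rintro rfl; rw [map_zero] at hx; exact zero_ne_one hx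
      have hy0 : y ≠ 0 := by rintro rfl; rw [map_zero] at hy; exact zero_ne_one hy
      exact ⟨x * y, by rw [map_mul, hx, hy, one_mul], (cl_mul ℓ hx0 hy0).symm⟩
    neg_mem' := by
      rintro _ ⟨x, hx, rfl⟩
      exact ⟨x⁻¹, by rw [map_inv₀, hx, inv_one], (cl_inv ℓ x).symm⟩ }

theorem mem_UC {ℓ : ℕ} {O : ValuationSubring F} {v : V ℓ F} :
    v ∈ UC ℓ O ↔ ∃ z : F, O.valuation z = 1 ∧ v = cl ℓ z := Iff.rfl

/-- the places of `F` over `k`. -/
def Plc (k : Subfield F) : Set (ValuationSubring F) := {O | TrivOn O k ∧ O ≠ ⊤}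

/-- `F` is (the perfect closure of) a function field of transcendence degree one over `k`. -/
structure Cv (k : Subfield F) : Prop where
  ac : IsAlgClosed k
  fg : FG k (⊤ : Subfield F)
  ex : ∃ x : F, x ∉ k ∧ ∀ z : F, IsAlgebraic (adj k x) z

/-- the Riemann-Hurwitz inequality (for five points whose fibres consist, up to `N` points, of
points with ramification index divisible by `ℓ`) and the bound of the genus by the bidegree of a
plane model. -/
structure CurveRH (ℓ : ℕ) (k : Subfield F) (g : ℕ) : Prop where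
  rh : ∀ x : F, x ∉ k → ∀ (N : ℕ) (s : Finset F), (∀ c ∈ s, c ∈ k) → s.card = 5 →
    (∀ c ∈ s, {O : ValuationSubring F | O ∈ Plc k ∧ O.valuation (x - c) < 1 ∧
      cl ℓ (x - c) ∉ UC ℓ O}.encard ≤ N) →
    Module.finrank (adj k x) F ≤ 4 * g + 5 * N
  gb : ∀ x y : F, x ∉ k → adj (adj k x) y = ⊤ → ∀ (m n : ℕ) (a : ℕ → ℕ → F),
    (∀ i j, a i j ∈ k) → (∃ i ∈ Finset.range (m + 1), ∃ j ∈ Finset.range (n + 1), a i j ≠ 0) →
    ∑ i ∈ Finset.range (m + 1), ∑ j ∈ Finset.range (n + 1), a i j * x ^ i * y ^ j = 0 →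
    g ≤ m * n

/-- the number of classes unramified outside `T` is `ℓ ^ (2 g + |T| - 1)`. -/
def CurveCard (ℓ : ℕ) (k : Subfield F) (g : ℕ) : Prop :=
  ∀ T : Finset (ValuationSubring F), (∀ O ∈ T, O ∈ Plc k) →
    Nat.card {v : V ℓ F // ∀ O ∈ Plc k, O ∉ T → v ∈ UC ℓ O} = ℓ ^ (2 * g + (T.card - 1))

/-- every element of `k` is zero or a root of unity. -/
def Fin' (k : Subfield F) : Prop := ∀ a ∈ k, a ≠ 0 → ∃ n : ℕ, 0 < n ∧ a ^ n = 1

/-- the center of `V` with respect to the pairing is trivial. -/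
def NoCtr (ℓ : ℕ) (F : Type*) [Field F] : Prop :=
  ∀ h : V ℓ F →ₗ[ZMod ℓ] ZMod ℓ, (∀ x : F, x ≠ 0 → x ≠ 1 → h (cl ℓ x) ≠ 0 →
    ∃ a : ZMod ℓ, cl ℓ (1 - x) = a • cl ℓ x) → h = 0

end

theorem Fin'.triv {F : Type*} [Field F] {k : Subfield F} (h : Fin' k) (O : ValuationSubring F) :
    TrivOn O k := by
  intro a ha
  by_cases h0 : a = 0
  · rw [h0]; exact O.zero_mem
  obtain ⟨n, hn, h1⟩ := h a ha h0
  rw [← O.valuation_le_one_iff]
  by_contra hcon
  push Not at hcon
  have h2 := one_lt_pow₀ hcon hn.ne'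
  rw [← map_pow, h1, map_one] at h2
  exact lt_irrefl _ h2

/-- surfaces: `t, s` is a transcendence basis. -/
abbrev Srf {K : Type*} [Field K] (k : Subfield K) (t s : K) : Prop := Frame k k t s

end Vale.Agent.P019P
end
end

section

section

/-!
# Finite families of constants, closures, independence
-/

namespace Vale.Agent.P019

set_option linter.style.haveILetI false

open Polynomial

section indep

variable {L : Type*} [Field L]

/-- closure of a subfield together with a family. -/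
def clx {ι : Type*} (N : Subfield L) (y : ι → L) : Subfield L :=
  rac (N ⊔ Subfield.closure (Set.range y))

theorem adjoin_toSubfield' (N : Subfield L) (S : Set L) :
    (IntermediateField.adjoin N S).toSubfield = N ⊔ Subfield.closure S := by
  apply le_antisymm
  · change Subfield.closure (Set.range (algebraMap N L) ∪ S) ≤ _
    rw [Subfield.closure_le]
    rintro z (⟨a, rfl⟩ | hz)
    · exact (le_sup_left : N ≤ N ⊔ Subfield.closure S) a.2
    · exact (le_sup_right : Subfield.closure S ≤ N ⊔ Subfield.closure S)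
        (Subfield.subset_closure hz)
  · refine sup_le ?_ ?_
    · intro z hz
      exact (IntermediateField.adjoin N S).algebraMap_mem ⟨z, hz⟩
    · rw [Subfield.closure_le]
      exact IntermediateField.subset_adjoin N S

attribute [-instance] AFastfced9ax7a.a0 AFastfced9ax7a.a1 AFastfced9ax7a.a2 AFastfced9ax7a.a3 AFastfced9ax7a.a4 AFastfced9ax7a.a5 AFastfced9ax7a.a6 AFastfced9ax7a.a7 AFastfced9ax7a.a8 AFastfced9ax7a.a9 AFastfced9ax7a.a10 AFastfced9ax7a.a11 AFastfced9ax7a.a12 AFastfced9ax7a.a13 AFastfced9ax7a.a14 AFastfced9ax7a.a15 AFastfced9ax7a.a16 AFastfced9ax7a.a17 AFastfced9ax7a.a18 AFastfced9ax7a.a19 AFastfced9ax7a.a20 AFastfced9ax7a.a21 AFastfced9ax7a.a22 AFastfced9ax7a.a23 AFastfced9ax7a.a24 AFastfced9ax7a.a25 AFastfced9ax7a.a26 AFastfced9ax7a.a27 AFastfced9ax7a.a28 AFastfced9ax7a.a29 AFastfced9ax7a.a30 AFastfced9ax7a.a31 AFastfced9ax7a.a32 AFastfced9ax7a.a33 AFastfced9ax7a.a34 AFastfced9ax7a.a35 AFastfced9ax7a.a36 AFastfced9ax7a.a37 AFastfced9ax7a.a38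 AFastfced9ax7a.a39 AFastfced9ax7a.a40 AFastfced9ax7a.a41 AFastfced9ax7a.a42 AFastfced9ax7a.a43 AFastfced9ax7a.a44 AFastfced9ax7a.a45 AFastfced9ax7a.a46 AFastfced9ax7a.a47 AFastfced9ax7a.a48 AFastfced9ax7a.a49 AFastfced9ax7a.a50 AFastfced9ax7a.a51 AFastfced9ax7a.a52 AFastfced9ax7a.a53 AFastfced9ax7a.a54 AFastfced9ax7a.a55 AFastfced9ax7a.a56 AFastfced9ax7a.a57 AFastfced9ax7a.a58 AFastfced9ax7a.a59 AFastfced9ax7a.a60 AFastfced9ax7a.a61 AFastfced9ax7a.a62 AFastfced9ax7a.a63 AFastfced9ax7a.a64 AFastfced9ax7a.a65 AFastfced9ax7a.a66 AFastfced9ax7a.a67 AFastfced9ax7a.a68 AFastfced9ax7a.a69 AFastfced9ax7a.a70 AFastfced9ax7a.a71 AFastfced9ax7a.a72 AFastfced9ax7a.a73 AFastfced9ax7a.a74 AFastfced9ax7b.a0 AFastfced9ax7b.a1 AFastfced9ax7b.a2 AFastfced9ax7b.a3 AFastfced9ax7b.a4 AFastfced9ax7b.a5 AFastfced9ax7b.a6 AFastfced9ax7b.a7 AFastfced9ax7b.a8 AFastfced9ax7b.a9 AFastfced9ax975a.a0 AFastfced9ax975a.a1 AFastfced9ax975a.a2 AFastfced9ax975a.a3 AFastfced9ax975b.a0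 AFastfced9ax975b.a1 AFastfced9ax1417a.a0 AFastfced9ax3308b.a0 in
/-- S91 -/
theorem isAlgebraic_adjoin_iff' (N : Subfield L) (S : Set L) (z : L) :
    IsAlgebraic (Algebra.adjoin N S) z ↔ IsAlgebraic (N ⊔ Subfield.closure S : Subfield L) z := by
  rw [← IntermediateField.isAlgebraic_adjoin_iff, ← adjoin_toSubfield' N S]
  exact Iff.rfl

theorem clx_le {ι : Type*} {N E : Subfield L} {y : ι → L} (hE : RAC E) (h : N ≤ E)
    (hy : ∀ i, y i ∈ E) : clx N y ≤ E := by
  refine hE.le (sup_le h ?_)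
  rw [Subfield.closure_le]
  rintro _ ⟨i, rfl⟩
  exact hy i

theorem le_clx {ι : Type*} (N : Subfield L) (y : ι → L) : N ≤ clx N y :=
  le_sup_left.trans (le_rac _)

theorem mem_clx {ι : Type*} (N : Subfield L) (y : ι → L) (i : ι) : y i ∈ clx N y :=
  le_rac _ ((le_sup_right : _ ≤ N ⊔ Subfield.closure (Set.range y))
    (Subfield.subset_closure ⟨i, rfl⟩))

/-- S94 -/
theorem indep_snoc {r : ℕ} {N : Subfield L} {y : Fin r → L} (hy : AlgebraicIndependent N y) {z : L}
    (hz : z ∉ clx N y) : AlgebraicIndependent N (Fin.snoc y z : Fin (r + 1) → L) := by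
  have h1 : AlgebraicIndependent N (fun o : Option (Fin r) => o.elim z y) := by
    rw [AlgebraicIndependent.option_iff]
    refine ⟨hy, fun h => hz (mem_rac.2 ?_)⟩
    exact (isAlgebraic_adjoin_iff' N (Set.range y) z).1 h
  rw [algebraicIndependent_equiv' finSuccEquivLast
    (f := fun o : Option (Fin r) => o.elim z y)
    (g := (Fin.snoc y z : Fin (r + 1) → L)) ?_]
  · exact h1
  · funext i
    refine Fin.lastCases ?_ (fun j => ?_) i
    · simp
    · simp

end indep

end Vale.Agent.P019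
end
end

section

section

/-!
# Ultraproducts of families of fields
-/

namespace Vale.Agent.P019P

open Vale.Agent.P019

set_option linter.style.haveILetI false
set_option linter.unusedSectionVars false

open Polynomial Filter

section dg

variable {I : Type*} (U : Ultrafilter I) (κ : I → Type*) [∀ i, Field (κ i)]

/-- families vanishing almost everywhere. -/
def dgI : Ideal (∀ i, κ i) where
  carrier := {f | ∀ᶠ i in U, f i = 0}
  zero_mem' := Eventually.of_forall fun _ => rfl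
  add_mem' := fun {f g} (hf : ∀ᶠ i in U, f i = 0) (hg : ∀ᶠ i in U, g i = 0) =>
    (hf.and hg).mono fun i hi => by
      change f i + g i = 0
      rw [hi.1, hi.2, add_zero]
  smul_mem' := fun c f (hf : ∀ᶠ i in U, f i = 0) => hf.mono fun i hi => by
    change c i * f i = 0
    rw [hi, mul_zero]

theorem mem_dgI {f : ∀ i, κ i} : f ∈ dgI U κ ↔ ∀ᶠ i in U, f i = 0 := Iff.rfl

instance dgI_max : (dgI U κ).IsMaximal := by
  rw [Ideal.isMaximal_iff]
  refine ⟨fun h => ?_, fun J f hJ hf hfJ => ?_⟩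
  · rw [mem_dgI] at h
    obtain ⟨i, hi⟩ := h.exists
    exact one_ne_zero hi
  · rw [mem_dgI, ← Ultrafilter.eventually_not] at hf
    have h1 : (1 - f * fun i => (f i)⁻¹) ∈ dgI U κ := by
      rw [mem_dgI]
      refine hf.mono fun i hi => ?_
      change 1 - f i * (f i)⁻¹ = 0
      rw [mul_inv_cancel₀ hi, sub_self]
    have h2 := J.add_mem (hJ h1) (J.mul_mem_right (fun i => (f i)⁻¹) hfJ)
    rwa [sub_add_cancel] at h2

/-- the ultraproduct. -/
def DGm : Type _ := (∀ i, κ i) ⧸ dgI U κ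

noncomputable instance DGm.field : Field (DGm U κ) := Ideal.Quotient.field (dgI U κ)

/-- the class of a family. -/
noncomputable def dgm : (∀ i, κ i) →+* DGm U κ := Ideal.Quotient.mk (dgI U κ)

theorem dgm_surj (z : DGm U κ) : ∃ f : ∀ i, κ i, dgm U κ f = z := Ideal.Quotient.mk_surjective z

variable {U κ}

theorem dgm_eq_zero {f : ∀ i, κ i} : dgm U κ f = 0 ↔ ∀ᶠ i in U, f i = 0 :=
  Ideal.Quotient.eq_zero_iff_mem

theorem dgm_eq {f g : ∀ i, κ i} : dgm U κ f = dgm U κ g ↔ ∀ᶠ i in U, f i = g i := by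
  rw [← sub_eq_zero, ← map_sub, dgm_eq_zero]
  simp only [Pi.sub_apply, sub_eq_zero]

theorem dgm_ne {f g : ∀ i, κ i} : dgm U κ f ≠ dgm U κ g ↔ ∀ᶠ i in U, f i ≠ g i := by
  rw [Ne, dgm_eq, Ultrafilter.eventually_not]

theorem dgm_ne_zero {f : ∀ i, κ i} : dgm U κ f ≠ 0 ↔ ∀ᶠ i in U, f i ≠ 0 := by
  rw [Ne, dgm_eq_zero, Ultrafilter.eventually_not]

theorem dgm_mul (f g : ∀ i, κ i) : dgm U κ (fun i => f i * g i) = dgm U κ f * dgm U κ g :=
  map_mul (dgm U κ) f g

theorem dgm_add (f g : ∀ i, κ i) : dgm U κ (fun i => f i + g i) = dgm U κ f + dgm U κ g :=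
  map_add (dgm U κ) f g

theorem dgm_neg (f : ∀ i, κ i) : dgm U κ (fun i => - f i) = - dgm U κ f :=
  map_neg (dgm U κ) f

theorem dgm_pow (f : ∀ i, κ i) (n : ℕ) : dgm U κ (fun i => f i ^ n) = dgm U κ f ^ n :=
  map_pow (dgm U κ) f n

theorem dgm_inv (f : ∀ i, κ i) : dgm U κ (fun i => (f i)⁻¹) = (dgm U κ f)⁻¹ := by
  by_cases h : dgm U κ f = 0
  · rw [h, inv_zero, dgm_eq_zero]
    exact (dgm_eq_zero.1 h).mono fun i hi => by rw [hi, inv_zero]
  · refine eq_inv_of_mul_eq_one_left ?_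
    rw [← dgm_mul, ← map_one (dgm U κ), dgm_eq]
    refine (dgm_ne_zero.1 h).mono fun i hi => ?_
    exact inv_mul_cancel₀ hi

theorem dgm_sum {ι : Type*} (s : Finset ι) (f : ι → ∀ i, κ i) :
    dgm U κ (fun i => ∑ j ∈ s, f j i) = ∑ j ∈ s, dgm U κ (f j) := by
  rw [← map_sum]
  congr 1
  ext i
  rw [Finset.sum_apply]

theorem dgm_natCast (n : ℕ) : dgm U κ (fun _ => (n : _)) = (n : DGm U κ) :=
  map_natCast (dgm U κ) n

/-- the characteristic of almost all factors if the ultraproduct has positive characteristic. -/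
theorem dgm_char {p : ℕ} [Fact p.Prime] [CharP (DGm U κ) p] :
    ∀ᶠ i in U, CharP (κ i) p := by
  have h1 : ((p : ℕ) : DGm U κ) = 0 := CharP.cast_eq_zero _ p
  rw [← dgm_natCast, dgm_eq_zero] at h1
  refine h1.mono fun i hi => ?_
  exact (CharP.charP_iff_prime_eq_zero (Fact.out : p.Prime)).2 hi

instance perfect_dgm [∀ i, PerfectField (κ i)] : PerfectField (DGm U κ) := by
  obtain ⟨p, hp⟩ := ExpChar.exists (DGm U κ)
  haveI : PerfectRing (DGm U κ) p := by
    cases hp with
    | zero => infer_instance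
    | prime hp' =>
      haveI : Fact p.Prime := ⟨hp'⟩
      refine PerfectRing.ofSurjective _ _ fun z => ?_
      obtain ⟨f, rfl⟩ := dgm_surj U κ z
      have h : ∀ i, ∃ y : κ i, CharP (κ i) p → y ^ p = f i := by
        intro i
        by_cases hi : CharP (κ i) p
        · haveI := hi
          haveI : ExpChar (κ i) p := ExpChar.prime hp'
          obtain ⟨y, hy⟩ := (PerfectField.toPerfectRing (K := κ i) p).bijective_frobenius.2 (f i)
          exact ⟨y, fun _ => hy⟩
        · exact ⟨0, fun h => absurd h hi⟩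
      choose y hy using h
      refine ⟨dgm U κ y, ?_⟩
      rw [frobenius_def, ← dgm_pow, dgm_eq]
      exact dgm_char.mono fun i hi => hy i hi
  exact PerfectRing.toPerfectField (DGm U κ) p

/-- ultraproducts of subfields. -/
def dSub (U : Ultrafilter I) (E : ∀ i, Subfield (κ i)) : Subfield (DGm U κ) where
  carrier := {z | ∃ f : ∀ i, κ i, dgm U κ f = z ∧ ∀ i, f i ∈ E i}
  mul_mem' := by
    rintro _ _ ⟨f, rfl, hf⟩ ⟨g, rfl, hg⟩
    exact ⟨fun i => f i * g i, dgm_mul f g, fun i => (E i).mul_mem (hf i) (hg i)⟩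
  one_mem' := ⟨1, map_one _, fun i => (E i).one_mem⟩
  add_mem' := by
    rintro _ _ ⟨f, rfl, hf⟩ ⟨g, rfl, hg⟩
    exact ⟨fun i => f i + g i, dgm_add f g, fun i => (E i).add_mem (hf i) (hg i)⟩
  zero_mem' := ⟨0, map_zero _, fun i => (E i).zero_mem⟩
  neg_mem' := by
    rintro _ ⟨f, rfl, hf⟩
    exact ⟨fun i => - f i, dgm_neg f, fun i => (E i).neg_mem (hf i)⟩
  inv_mem' := by
    rintro _ ⟨f, rfl, hf⟩
    exact ⟨fun i => (f i)⁻¹, dgm_inv f, fun i => (E i).inv_mem (hf i)⟩

theorem dgm_mem_dSub {E : ∀ i, Subfield (κ i)} {f : ∀ i, κ i} :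
    dgm U κ f ∈ dSub U E ↔ ∀ᶠ i in U, f i ∈ E i := by
  classical
  constructor
  · rintro ⟨g, hg, hgE⟩
    exact (dgm_eq.1 hg).mono fun i hi => hi ▸ hgE i
  · intro h
    refine ⟨fun i => if f i ∈ E i then f i else 0, ?_, fun i => ?_⟩
    · exact dgm_eq.2 (h.mono fun i hi => if_pos hi)
    · dsimp only
      split_ifs with hi
      · exact hi
      · exact (E i).zero_mem

theorem dSub_mono {E F : ∀ i, Subfield (κ i)} (h : ∀ i, E i ≤ F i) : dSub U E ≤ dSub U F := by
  rintro _ ⟨f, rfl, hf⟩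
  exact ⟨f, rfl, fun i => h i (hf i)⟩

theorem isAlgClosed_dSub {E : ∀ i, Subfield (κ i)} (h : ∀ i, IsAlgClosed (E i)) :
    IsAlgClosed (dSub U E) := by
  refine IsAlgClosed.of_exists_root _ ?_
  intro p hmon hirr
  -- lifts of the coefficients
  have h1 : ∀ j, ∃ f : ∀ i, κ i, dgm U κ f = ((p.coeff j : dSub U E) : DGm U κ) ∧
      ∀ i, f i ∈ E i := fun j => (p.coeff j).2
  choose f hf hfE using h1
  set n := p.natDegree with hn
  have hn0 : 0 < n := hirr.natDegree_pos
  have h2 : ∀ i, ∃ x : E i, ((x : κ i)) ^ n + ∑ j ∈ Finset.range n, f j i * (x : κ i) ^ j = 0 := by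
    intro i
    haveI := h i
    let P : (E i)[X] := X ^ n + ∑ j ∈ Finset.range n, C ⟨f j i, hfE j i⟩ * X ^ j
    have hdeg : P.degree = (n : WithBot ℕ) := by
      have h3 : (∑ j ∈ Finset.range n, C (⟨f j i, hfE j i⟩ : E i) * X ^ j).degree <
          (n : WithBot ℕ) := by
        refine (degree_sum_le _ _).trans_lt ?_
        rw [Finset.sup_lt_iff (by exact_mod_cast WithBot.bot_lt_coe n)]
        intro j hj
        refine (degree_C_mul_X_pow_le _ _).trans_lt ?_
        exact_mod_cast Finset.mem_range.1 hj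
      change (X ^ n + ∑ j ∈ Finset.range n, C (⟨f j i, hfE j i⟩ : E i) * X ^ j).degree =
        (n : WithBot ℕ)
      rw [degree_add_eq_left_of_degree_lt]
      · rw [degree_X_pow]
      · rw [degree_X_pow]; exact h3
    obtain ⟨x, hx⟩ := IsAlgClosed.exists_root P (by
      rw [hdeg]; exact_mod_cast hn0.ne')
    refine ⟨x, ?_⟩
    have h4 : eval x P = 0 := hx
    have h5 := congrArg (Subfield.subtype (E i)) h4
    simp only [P, eval_add, eval_pow, eval_X, eval_finsetSum, eval_mul, eval_C, map_add, map_pow,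
      map_sum, map_mul, map_zero, Subfield.subtype_apply] at h5
    exact h5
  choose x hx using h2
  refine ⟨⟨dgm U κ (fun i => (x i : κ i)), ⟨_, rfl, fun i => (x i).2⟩⟩, ?_⟩
  apply Subtype.ext
  have h6 : ((eval (⟨dgm U κ (fun i => (x i : κ i)), ⟨_, rfl, fun i => (x i).2⟩⟩ : dSub U E) p :
      dSub U E) : DGm U κ) =
      dgm U κ (fun i => ((x i : κ i)) ^ n + ∑ j ∈ Finset.range n, f j i * (x i : κ i) ^ j) := by
    rw [dgm_add, dgm_pow, dgm_sum]
    conv_lhs => rw [hmon.as_sum]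
    rw [eval_add, eval_pow, eval_X, eval_finsetSum]
    simp only [eval_mul, eval_C, eval_pow, eval_X, Subfield.coe_add, SubmonoidClass.coe_pow,
      AddSubmonoidClass.coe_finsetSum, Subfield.coe_mul, dgm_mul, dgm_pow, hf]
    rfl
  change ((eval (⟨dgm U κ (fun i => (x i : κ i)), ⟨_, rfl, fun i => (x i).2⟩⟩ : dSub U E) p :
      dSub U E) : DGm U κ) = 0
  rw [h6]
  refine (congrArg (dgm U κ) (funext hx)).trans ?_
  exact map_zero (dgm U κ)

end dg

end Vale.Agent.P019P
end
end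
namespace AFastfced9ax5961b
theorem a0.{u1, u2} {x1 : Type u1} {x2 : x1 → Type u2} {x3 : Ultrafilter x1} [x4 : (i : x1) → Field (x2 i)] : AddMonoidHomClass (((i : x1) → x2 i) →+* Vale.Agent.P019P.DGm x3 x2) ((i : x1) → x2 i) (Vale.Agent.P019P.DGm x3 x2) := inferInstance
end AFastfced9ax5961b
attribute [local instance] AFastfced9ax5961b.a0

section

section

/-!
# Lang's lemma: a nonzero fixed vector of a semilinear map
-/

namespace Vale.Agent.P019P

namespace AuxFLang1

open Polynomial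

variable {k : Type*} [Field k]

/-- The coefficient polynomials: `f 0 = c 0 X^Q`, `f (i+1) = (f i)^Q + c (i+1) X^Q`. -/
noncomputable def f (Q : ℕ) (c : ℕ → k) : ℕ → k[X]
  | 0 => C (c 0) * X ^ Q
  | i + 1 => f Q c i ^ Q + C (c (i + 1)) * X ^ Q

theorem dvd_f {Q : ℕ} (hQ : 2 ≤ Q) (c : ℕ → k) (i : ℕ) : (X : k[X]) ^ 2 ∣ f Q c i := by
  have h2 : (X : k[X]) ^ 2 ∣ X ^ Q := pow_dvd_pow _ hQ
  induction i with
  | zero => exact Dvd.dvd.mul_left h2 _
  | succ i ih => exact dvd_add (dvd_pow ih (by omega)) (Dvd.dvd.mul_left h2 _)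

theorem natDegree_f {Q : ℕ} (hQ : 2 ≤ Q) {c : ℕ → k} (hc : c 0 ≠ 0) (i : ℕ) :
    2 ≤ (f Q c i).natDegree := by
  induction i with
  | zero =>
    rw [f, natDegree_C_mul_X_pow _ _ hc]
    exact hQ
  | succ i ih =>
    have h1 : (C (c (i + 1)) * X ^ Q : k[X]).natDegree < (f Q c i ^ Q).natDegree := by
      refine lt_of_le_of_lt (natDegree_C_mul_X_pow_le _ _) ?_
      rw [natDegree_pow]
      nlinarith
    rw [f, natDegree_add_eq_left_of_natDegree_lt h1, natDegree_pow]
    nlinarith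

theorem exists_fix [IsAlgClosed k] {Q : ℕ} (hQ : 2 ≤ Q) {c : ℕ → k} (hc : c 0 ≠ 0) (i : ℕ) :
    ∃ x : k, x ≠ 0 ∧ (f Q c i).eval x = x := by
  obtain ⟨h, hh⟩ := dvd_f hQ c i
  have hh0 : h ≠ 0 := by
    rintro rfl
    have := natDegree_f hQ hc i
    rw [hh, mul_zero, natDegree_zero] at this
    omega
  have hd : (X * h - 1 : k[X]).degree ≠ 0 := by
    have h1 : (1 : k[X]).degree < (X * h).degree := by
      rw [degree_one, degree_mul, degree_X, degree_eq_natDegree hh0]
      exact_mod_cast (by omega : 0 < 1 + h.natDegree)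
    rw [degree_sub_eq_left_of_degree_lt h1]
    rw [degree_one] at h1
    exact h1.ne'
  obtain ⟨x, hx⟩ := IsAlgClosed.exists_root _ hd
  rw [IsRoot.def, eval_sub, eval_mul, eval_X, eval_one, sub_eq_zero] at hx
  refine ⟨x, ?_, ?_⟩
  · rintro rfl
    simp at hx
  · rw [hh, eval_mul, eval_pow, eval_X, sq, mul_assoc, hx, mul_one]

end AuxFLang1

section lang

variable {k V : Type*} [Field k] [IsAlgClosed k] [AddCommGroup V] [Module k V]

open AuxFLang1 in
/-- a nonzero fixed vector. -/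
theorem lang_exists {p n : ℕ} [Fact p.Prime] [CharP k p] (hn : 0 < n) [FiniteDimensional k V]
    (φ : V →+ V) (hinj : Function.Injective φ)
    (hφ : ∀ (a : k) (v : V), φ (a • v) = a ^ (p ^ n) • φ v) [Nontrivial V] :
    ∃ v : V, v ≠ 0 ∧ φ v = v := by
  classical
  set Q := p ^ n with hQdef
  have hQ : 2 ≤ Q := le_trans (Fact.out : p.Prime).two_le (Nat.le_self_pow (by omega) p)
  obtain ⟨v, hv⟩ := exists_ne (0 : V)
  set e : ℕ → V := fun i => φ^[i] v with he
  have hs : ∀ i, φ (e i) = e (i + 1) := fun i => (Function.iterate_succ_apply' φ i v).symm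
  have hex : ∃ r : ℕ, ¬ LinearIndependent k (fun i : Fin r => e i) := by
    refine ⟨Module.finrank k V + 1, fun h => ?_⟩
    have := h.fintype_card_le_finrank
    simp at this
  have hr := Nat.find_spec hex
  have hmin := fun m => Nat.find_min hex (m := m)
  set r := Nat.find hex with hrdef
  obtain ⟨s, hs1⟩ : ∃ s, r = s + 1 := by
    refine ⟨r - 1, ?_⟩
    have : r ≠ 0 := by
      intro h0
      rw [h0] at hr
      exact hr linearIndependent_empty_type
    omega
  have hLI : LinearIndependent k (fun i : Fin s => e i) := not_not.1 (hmin s (by omega))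
  have hspan : e s ∈ Submodule.span k (Set.range fun i : Fin s => e i) := by
    by_contra hcon
    rw [hs1] at hr
    apply hr
    rw [linearIndependent_finSucc']
    refine ⟨?_, ?_⟩
    · exact hLI
    · have e1 : (Fin.init fun i : Fin (s + 1) => e i) = fun i : Fin s => e i := by
        funext i
        simp [Fin.init]
      rw [e1]
      simpa using hcon
  obtain ⟨m, rfl⟩ : ∃ m, s = m + 1 := by
    refine ⟨s - 1, ?_⟩
    have : s ≠ 0 := by
      rintro rfl
      have h1 : (Set.range fun i : Fin 0 => e i) = ∅ := Set.range_eq_empty _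
      rw [h1, Submodule.span_empty, Submodule.mem_bot] at hspan
      exact hv hspan
    omega
  obtain ⟨c₀, hc₀⟩ := (Submodule.mem_span_range_iff_exists_fun k).1 hspan
  set c : ℕ → k := fun i => if h : i < m + 1 then c₀ ⟨i, h⟩ else 0 with hcdef
  have hc : e (m + 1) = ∑ i ∈ Finset.range (m + 1), c i • e i := by
    rw [← hc₀, ← Fin.sum_univ_eq_sum_range (fun i => c i • e i) (m + 1)]
    refine Finset.sum_congr rfl fun i _ => ?_
    simp only [hcdef, i.2, dif_pos]
  -- the powers of `φ` on combinations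
  have hsum : ∀ (x : ℕ → k) (N : ℕ), φ (∑ i ∈ Finset.range N, x i • e i) =
      ∑ i ∈ Finset.range N, x i ^ Q • e (i + 1) := by
    intro x N
    rw [map_sum]
    exact Finset.sum_congr rfl fun i _ => by rw [hφ, hs]
  have hc0 : c 0 ≠ 0 := by
    intro h0
    have hroot : ∀ a : k, ∃ d : k, d ^ Q = a := fun a =>
      IsAlgClosed.exists_pow_nat_eq a (by omega)
    choose ρ hρ using hroot
    have h1 : φ (e m) = φ (∑ i ∈ Finset.range m, ρ (c (i + 1)) • e i) := by
      rw [hs, hc, Finset.sum_range_succ', h0, zero_smul, add_zero,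
        hsum (fun i => ρ (c (i + 1)))]
      exact Finset.sum_congr rfl fun i _ => by rw [hρ]
    have h2 := hinj h1
    have h3 := (linearIndependent_finSucc'.1 hLI).2
    apply h3
    have e1 : (Fin.init fun i : Fin (m + 1) => e i) = fun i : Fin m => e i := by
      funext i
      simp [Fin.init]
    rw [e1, Fin.val_last, h2]
    refine Submodule.sum_mem _ fun i hi => Submodule.smul_mem _ _ (Submodule.subset_span ?_)
    exact ⟨⟨i, Finset.mem_range.1 hi⟩, rfl⟩
  obtain ⟨x₀, hx₀, hfix⟩ := exists_fix hQ hc0 m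
  set x : ℕ → k := fun i => (f Q c i).eval x₀ with hx
  have hxm : x m = x₀ := hfix
  have hx0 : x 0 = c 0 * x₀ ^ Q := by simp [hx, f]
  have hxs : ∀ i, x (i + 1) = x i ^ Q + c (i + 1) * x₀ ^ Q := by
    intro i
    simp [hx, f]
  refine ⟨∑ i ∈ Finset.range (m + 1), x i • e i, ?_, ?_⟩
  · intro h0
    rw [← Fin.sum_univ_eq_sum_range (fun i => x i • e i) (m + 1)] at h0
    have h1 := Fintype.linearIndependent_iff.1 hLI (fun i => x i) h0 (Fin.last m)
    simp only [Fin.val_last] at h1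
    exact hx₀ (hxm ▸ h1)
  · rw [hsum, Finset.sum_range_succ, hxm, hc, Finset.smul_sum, Finset.sum_range_succ',
      Finset.sum_range_succ' (fun i => x i • e i), hx0]
    simp only [hxs, smul_smul]
    rw [← add_assoc, ← Finset.sum_add_distrib]
    congr 1
    · refine Finset.sum_congr rfl fun i _ => ?_
      rw [add_smul, mul_comm (c (i + 1))]
    · rw [mul_comm]

end lang

end Vale.Agent.P019P
end
end

section

section

/-!
# Lang's lemma: fixed vectors of semilinear maps
-/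

namespace Vale.Agent.P019P

namespace AuxFLang

open Polynomial

/-- the fixed field has `p ^ n` elements. -/
theorem card_fixed {k : Type*} [Field k] [IsAlgClosed k] {p n : ℕ} [Fact p.Prime] [CharP k p]
    (hn : 0 < n) : Nat.card {a : k // a ^ (p ^ n) = a} = p ^ n := by
  classical
  have hp : 1 < p := (Fact.out : p.Prime).one_lt
  have hdeg : (X ^ (p ^ n) - X : k[X]).natDegree = p ^ n :=
    FiniteField.X_pow_card_pow_sub_X_natDegree_eq k hn.ne' hp
  have hne : (X ^ (p ^ n) - X : k[X]) ≠ 0 :=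
    FiniteField.X_pow_card_pow_sub_X_ne_zero k hn.ne' hp
  have hsep : (X ^ (p ^ n) - X : k[X]).Separable :=
    galois_poly_separable p (p ^ n) (dvd_pow_self p hn.ne')
  have h1 := card_rootSet_eq_natDegree (K := k) hsep (IsAlgClosed.splits _)
  rw [hdeg, ← Nat.card_eq_fintype_card] at h1
  refine (Nat.card_congr (Equiv.subtypeEquivRight fun a => ?_)).trans h1
  rw [mem_rootSet_of_ne hne]
  simp [sub_eq_zero]

theorem exists_pow_sub {k : Type*} [Field k] [IsAlgClosed k] {Q : ℕ} (hQ : 1 < Q) (b : k) :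
    ∃ a : k, a ^ Q - a = b := by
  have hdeg : (X ^ Q - X - C b : k[X]).degree ≠ 0 := by
    have h1 : (X ^ Q - X - C b : k[X]).natDegree = Q := by
      have h2 : (X ^ Q - X - C b : k[X]) = X ^ Q - (X + C b) := by ring
      rw [h2, natDegree_sub_eq_left_of_natDegree_lt]
      · simp
      · rw [natDegree_X_add_C, natDegree_X_pow]; exact hQ
    intro h
    have h3 : (X ^ Q - X - C b : k[X]).natDegree = 0 :=
      natDegree_eq_zero_iff_degree_le_zero.2 h.le
    omega
  obtain ⟨a, ha⟩ := IsAlgClosed.exists_root _ hdeg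
  refine ⟨a, ?_⟩
  simp only [IsRoot.def, eval_sub, eval_pow, eval_X, eval_C] at ha
  exact sub_eq_zero.1 ha

end AuxFLang

section lang

variable {k V : Type*} [Field k] [IsAlgClosed k] [AddCommGroup V] [Module k V]

/-- the number of fixed vectors. -/
theorem lang_card {p n : ℕ} [Fact p.Prime] [CharP k p] (hn : 0 < n) [FiniteDimensional k V]
    (φ : V →+ V) (hinj : Function.Injective φ)
    (hφ : ∀ (a : k) (v : V), φ (a • v) = a ^ (p ^ n) • φ v) :
    Nat.card {v : V // φ v = v} = (p ^ n) ^ Module.finrank k V := by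
  obtain ⟨d, hd⟩ : ∃ d, d = Module.finrank k V := ⟨_, rfl⟩
  induction d generalizing V with
  | zero =>
    have hsub : Subsingleton V := Module.finrank_zero_iff.1 hd.symm
    rw [← hd, pow_zero, Nat.card_eq_one_iff_unique]
    exact ⟨inferInstance, ⟨⟨0, map_zero φ⟩⟩⟩
  | succ d ih =>
    have hQ : 1 < p ^ n := Nat.one_lt_pow hn.ne' (Fact.out : p.Prime).one_lt
    have hnt : Nontrivial V := Module.nontrivial_of_finrank_pos (R := k) (by omega)
    obtain ⟨v, hv0, hv⟩ := lang_exists hn φ hinj hφ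
    set S : Submodule k V := Submodule.span k {v} with hS
    have hφS : ∀ w ∈ S, φ w ∈ S := by
      intro w hw
      obtain ⟨a, rfl⟩ := Submodule.mem_span_singleton.1 hw
      rw [hφ, hv]
      exact Submodule.smul_mem _ _ (Submodule.mem_span_singleton_self v)
    let ψ : (V ⧸ S) →+ (V ⧸ S) := QuotientAddGroup.lift S.toAddSubgroup
      ((S.mkQ.toAddMonoidHom).comp φ) (by
        intro w hw
        have h1 : φ w ∈ S := hφS w hw
        change S.mkQ (φ w) = 0
        rw [Submodule.mkQ_apply, Submodule.Quotient.mk_eq_zero]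
        exact h1)
    have hψ : ∀ w, ψ (S.mkQ w) = S.mkQ (φ w) := fun w => rfl
    have hψs : ∀ (a : k) (x : V ⧸ S), ψ (a • x) = a ^ (p ^ n) • ψ x := by
      intro a x
      obtain ⟨w, rfl⟩ := S.mkQ_surjective x
      rw [← map_smul, hψ, hψ, hφ, map_smul]
    have hψi : Function.Injective ψ := by
      rw [injective_iff_map_eq_zero]
      intro x hx
      obtain ⟨w, rfl⟩ := S.mkQ_surjective x
      rw [hψ, Submodule.mkQ_apply, Submodule.Quotient.mk_eq_zero] at hx
      rw [Submodule.mkQ_apply, Submodule.Quotient.mk_eq_zero]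
      obtain ⟨a, ha⟩ := Submodule.mem_span_singleton.1 hx
      obtain ⟨b, hb⟩ := IsAlgClosed.exists_pow_nat_eq a (n := p ^ n) (by omega)
      have h1 : φ (b • v) = φ w := by rw [hφ, hv, hb, ha]
      rw [← hinj h1]
      exact Submodule.smul_mem _ _ (Submodule.mem_span_singleton_self v)
    have hfr : Module.finrank k (V ⧸ S) = d := by
      have h1 := S.finrank_quotient_add_finrank
      have h2 : Module.finrank k S = 1 := finrank_span_singleton hv0
      omega
    have key := ih ψ hψi hψs hfr.symm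
    rw [hfr] at key
    -- surjectivity on fixed vectors
    have hsurj : ∀ x : {x : V ⧸ S // ψ x = x}, ∃ w : V, φ w = w ∧ S.mkQ w = x.1 := by
      rintro ⟨x, hx⟩
      obtain ⟨w, rfl⟩ := S.mkQ_surjective x
      rw [hψ, ← sub_eq_zero, ← map_sub, Submodule.mkQ_apply, Submodule.Quotient.mk_eq_zero] at hx
      obtain ⟨b, hb⟩ := Submodule.mem_span_singleton.1 hx
      obtain ⟨a, ha⟩ := AuxFLang.exists_pow_sub hQ (-b)
      refine ⟨w + a • v, ?_, ?_⟩
      · have h1 : φ w = w + b • v := by rw [hb]; abel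
        rw [map_add, hφ, hv, h1]
        have h2 : a ^ (p ^ n) = a - b := by linear_combination ha
        rw [h2, sub_smul]
        abel
      · rw [map_add, add_eq_left, Submodule.mkQ_apply, Submodule.Quotient.mk_eq_zero]
        exact Submodule.smul_mem _ _ (Submodule.mem_span_singleton_self v)
    choose s hs1 hs2 using hsurj
    let F : {x : V ⧸ S // ψ x = x} × {a : k // a ^ (p ^ n) = a} → {w : V // φ w = w} :=
      fun y => ⟨s y.1 + y.2.1 • v, by rw [map_add, hs1, hφ, hv, y.2.2]⟩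
    have hmv : ∀ a : k, S.mkQ (a • v) = 0 := fun a => by
      rw [Submodule.mkQ_apply, Submodule.Quotient.mk_eq_zero]
      exact Submodule.smul_mem _ _ (Submodule.mem_span_singleton_self v)
    have hF : Function.Bijective F := by
      constructor
      · rintro ⟨x, a⟩ ⟨y, b⟩ h
        have h1 : s x + a.1 • v = s y + b.1 • v := congrArg Subtype.val h
        have h2 := congrArg S.mkQ h1
        rw [map_add, map_add, hs2, hs2, hmv, hmv, add_zero, add_zero] at h2
        have h3 : x = y := Subtype.ext h2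
        subst h3
        have h4 : a.1 • v = b.1 • v := add_left_cancel h1
        have h5 : a = b := Subtype.ext (smul_left_injective k hv0 h4)
        rw [h5]
      · rintro ⟨w, hw⟩
        have hx : ψ (S.mkQ w) = S.mkQ w := by rw [hψ, hw]
        have h1 : S.mkQ (w - s ⟨S.mkQ w, hx⟩) = 0 := by rw [map_sub, hs2, sub_self]
        rw [Submodule.mkQ_apply, Submodule.Quotient.mk_eq_zero] at h1
        obtain ⟨a, ha⟩ := Submodule.mem_span_singleton.1 h1
        have h2 : a ^ (p ^ n) = a := by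
          have h3 : φ (a • v) = a • v := by rw [ha, map_sub, hw, hs1]
          rw [hφ, hv] at h3
          exact smul_left_injective k hv0 h3
        refine ⟨(⟨S.mkQ w, hx⟩, ⟨a, h2⟩), Subtype.ext ?_⟩
        change s _ + a • v = w
        rw [ha]
        abel
    rw [← Nat.card_eq_of_bijective F hF, Nat.card_prod, key, AuxFLang.card_fixed hn, ← hd, pow_succ]

end lang

end Vale.Agent.P019P
end
end

section

section

/-!
# Assembly 2: the pigeonhole argument
-/

namespace Vale.Agent.P019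

set_option linter.style.haveILetI false

open Polynomial

section pigeon

variable {K L : Type*} [Field K] [Field L] [CharZero K] [CharZero L] {ℓ : ℕ} [Fact ℓ.Prime]

/-- classes of elements defined over `N` and `r` further constants. -/
def Dset (M' : Mdl L) (ℓ : ℕ) (N : Subfield L) (r : ℕ) : Set (V ℓ L) :=
  {u | ∃ y : Fin r → L, (∀ i, y i ∈ M'.k) ∧ u ∈ VS ℓ (M'.F (clx N y))}

/-- the set of constants whose image is defined with `r` further constants. -/
def Sset (M : Mdl K) (M' : Mdl L) (Θ : V ℓ K ≃ₗ[ZMod ℓ] V ℓ L) (t : K) (N' : Subfield L)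
    (r : ℕ) : Set K := {a | a ∈ M.k ∧ Θ (cl ℓ (t - a)) ∈ Dset M' ℓ N' r}

end pigeon

end Vale.Agent.P019
end
end

section

end

section

section

/-!
# Generic places
-/

namespace Vale.Agent.P019P

open Vale.Agent.P019

set_option linter.style.haveILetI false

open Polynomial

namespace Gn

variable {K : Type*} [Field K]

/-- complement of `a` in `k` over `N`. -/
theorem exists_compl {N k : Subfield K} (hk : RAC k) (hNk : N ≤ k) (hN : RAC N) {a : K}
    (haN : a ∉ N) :
    ∃ k₁ : Subfield K, N ≤ k₁ ∧ k₁ ≤ k ∧ RAC k₁ ∧ a ∉ k₁ ∧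
      ∀ b ∈ k, IsAlgebraic (adj k₁ a) b := by
  obtain ⟨k₁, h1, h2, h3, h4, h5⟩ := Vale.Agent.P019.Gn.exists_compl hk hNk hN haN
  exact ⟨k₁, h1, h2, h3, h4, fun b hb => isAlgebraic_adj.2 (h5 b hb)⟩

variable {Ω : Type*} [Field Ω] {P : Pl K Ω}

end Gn

namespace Mdl

variable {K : Type*} [Field K] [PerfectField K] (M : Mdl K) (ℓ : ℕ) [Fact ℓ.Prime]
  [NeZero (ℓ : K)]

end Mdl

end Vale.Agent.P019P
end
end

section

section

/-!
# Transfer of nice valuations
-/

namespace Vale.Agent.P019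

open Polynomial Filter

variable {K L : Type*} [Field K] [Field L] [CharZero K] [CharZero L] {ℓ : ℕ} [Fact ℓ.Prime]
  {k : Subfield K} {l : Subfield L} {Θ : V ℓ K ≃ₗ[ZMod ℓ] V ℓ L}

omit [CharZero K] in
theorem exists_neg (hk : IsAlgClosed k) : ∃ i : K, i ^ ℓ = -1 := by
  obtain ⟨z, hz⟩ := IsAlgClosed.exists_pow_nat_eq (-1 : k) (Fact.out : ℓ.Prime).pos
  refine ⟨z, ?_⟩
  have := congrArg (algebraMap k K) hz
  rw [map_pow, map_neg, map_one] at this
  exact this

theorem FG.adj {K : Type*} [Field K] {k F : Subfield K} (h : FG k F) (s : K) : FG k (adj F s) := by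
  classical
  obtain ⟨S, rfl⟩ := h
  refine ⟨insert s S, ?_⟩
  rw [Finset.coe_insert, Set.insert_eq, Subfield.closure_union]
  unfold Vale.Agent.P019.adj
  rw [sup_comm (Subfield.closure {s}), sup_assoc]

omit [CharZero K] [CharZero L] in
theorem Rk2.map {A U : Submodule (ZMod ℓ) (V ℓ K)} {A' U' : Submodule (ZMod ℓ) (V ℓ L)}
    (h : Rk2 A U) (hA : ∀ v ∈ A, Θ v ∈ A') (hU : ∀ v, Θ v ∈ U' → v ∈ U) : Rk2 A' U' := by
  obtain ⟨u, hu, v, hv, h⟩ := h
  refine ⟨Θ u, hA u hu, Θ v, hA v hv, fun i j hij => h i j (hU _ ?_)⟩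
  rwa [map_add, map_smul, map_smul]

end Vale.Agent.P019
end
end

section

section

/-!
# The correspondence of points on rational curves
-/

set_option linter.unusedSectionVars false
set_option linter.unusedVariables false

namespace Vale.Agent.P019

open Polynomial Filter

variable {K L : Type*} [Field K] [Field L] [CharZero K] [CharZero L] {ℓ : ℕ} [Fact ℓ.Prime]
  {k : Subfield K} {l : Subfield L} {Θ : V ℓ K ≃ₗ[ZMod ℓ] V ℓ L}

/-- the functionals of the points corresponding to a pole. -/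
def PoleAt (k : Subfield K) (l : Subfield L) (Θ : V ℓ K ≃ₗ[ZMod ℓ] V ℓ L) (s : K) (s' : L)
    (b : K) : Prop :=
  ∃ f : V ℓ L →ₗ[ZMod ℓ] ZMod ℓ, (∀ v ∈ VS ℓ (adj k s), del ℓ k s b v = f (Θ v)) ∧
    ∀ c ∈ l, f (cl ℓ (s' - c)) = f (cl ℓ s')

end Vale.Agent.P019
end
end

section

section

/-!
# Incomparable valuation rings
-/

namespace Vale.Agent.P019P

open Vale.Agent.P019

set_option linter.style.haveILetI false
set_option linter.unusedSectionVars false
set_option linter.unusedVariables false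

open Polynomial Filter

/-- a unit `x` of `O` which is large for `O'` is congruent modulo `1 + m_O` to a unit of
`O'` as soon as `O'` is not contained in `O`. -/
theorem r2_key {L : Type*} [Field L] {O O' : ValuationSubring L} (h : ¬ O' ≤ O) {x : L}
    (hx : O.valuation x = 1) (hx' : 1 < O'.valuation x) :
    ∃ y : L, O'.valuation y = 1 ∧ O.valuation (y - x) < 1 := by
  obtain ⟨z, hzO', hzO⟩ := Set.not_subset.1 h
  have hz' : O'.valuation z ≤ 1 := (O'.valuation_le_one_iff z).2 hzO'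
  have hz : 1 < O.valuation z := by
    rw [← not_le]
    exact fun hle => hzO ((O.valuation_le_one_iff z).1 hle)
  have hx0 : x ≠ 0 := by
    rintro rfl
    rw [map_zero] at hx
    exact zero_ne_one hx
  have hu : 1 < O.valuation (z / x) := by
    rw [map_div₀, hx, div_one]; exact hz
  have hu' : O'.valuation (z / x) < 1 := by
    rw [map_div₀]
    have hx0' : 0 < O'.valuation x := lt_trans zero_lt_one hx'
    rw [div_lt_one₀ hx0']
    exact lt_of_le_of_lt hz' hx'
  set u := z / x with hudef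
  have h1u' : O'.valuation (1 + u) = 1 := val_one_add hu'
  have h1u : O.valuation (1 + u) = O.valuation u := by
    rw [add_comm]
    refine Valuation.map_add_eq_of_lt_left _ ?_
    rwa [map_one]
  have h1u0 : (1 + u) ≠ 0 := by
    intro h0
    rw [h0, map_zero] at h1u'
    exact zero_ne_one h1u'
  set a := 1 / (1 + u) with hadef
  have ha : O.valuation a < 1 := by
    rw [hadef, map_div₀, map_one, h1u, one_div]
    exact inv_lt_one_of_one_lt₀ hu
  have ha' : O'.valuation a = 1 := by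
    rw [hadef, map_div₀, map_one, h1u', div_one]
  have h1a : 1 - a = u / (1 + u) := by
    rw [hadef]
    field_simp
    ring
  have h1a' : O'.valuation (1 - a) < 1 := by
    rw [h1a, map_div₀, h1u', div_one]; exact hu'
  have hxa' : O'.valuation (x * (1 - a)) ≤ 1 := by
    rw [h1a]
    have : x * (u / (1 + u)) = z / (1 + u) := by
      rw [hudef]
      field_simp
    rw [this, map_div₀, h1u', div_one]
    exact hz'
  refine ⟨x * (1 - a) ^ 2 + a ^ 2, ?_, ?_⟩
  · have h1 : O'.valuation (a ^ 2) = 1 := by rw [map_pow, ha', one_pow]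
    have h2 : O'.valuation (x * (1 - a) ^ 2) < 1 := by
      have : x * (1 - a) ^ 2 = (x * (1 - a)) * (1 - a) := by ring
      rw [this, map_mul]
      exact mul_lt_one_of_nonneg_of_lt_one_right hxa' zero_le h1a'
    rw [Valuation.map_add_eq_of_lt_right _ (by rw [h1]; exact h2), h1]
  · have : x * (1 - a) ^ 2 + a ^ 2 - x = a * (x * a - 2 * x + a) := by ring
    rw [this, map_mul]
    refine mul_lt_one_of_nonneg_of_lt_one_left zero_le ha ?_
    rw [O.valuation_le_one_iff]
    have hxO : x ∈ O := (O.valuation_le_one_iff x).1 hx.le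
    have haO : a ∈ O := (O.valuation_le_one_iff a).1 ha.le
    have h2O : (2 : L) ∈ O := by
      have := add_mem (one_mem O) (one_mem O)
      rwa [one_add_one_eq_two] at this
    exact add_mem (sub_mem (mul_mem hxO haO) (mul_mem h2O hxO)) haO

/-- a valuation ring killed by a functional killing `U1 ℓ O` and not trivial on the units of
`O` is contained in `O`. -/
theorem cmp_le {L : Type*} [Field L] {ℓ : ℕ} [Fact ℓ.Prime] {O O' : ValuationSubring L}
    (f : V ℓ L →ₗ[ZMod ℓ] ZMod ℓ) (hf : ∀ v ∈ U1 ℓ O, f v = 0)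
    (hf' : ∀ z, O'.valuation z = 1 → f (cl ℓ z) = 0)
    (hne : ∃ z, O.valuation z = 1 ∧ f (cl ℓ z) ≠ 0) : O' < O := by
  obtain ⟨x, hx, hfx⟩ := hne
  have hx' : O'.valuation x ≠ 1 := fun h => hfx (hf' x h)
  refine lt_of_le_of_ne ?_ ?_
  · by_contra hle
    have key : ∀ x : L, O.valuation x = 1 → f (cl ℓ x) ≠ 0 → 1 < O'.valuation x → False := by
      intro x hx hfx hx'
      obtain ⟨y, hy', hyx⟩ := r2_key hle hx hx'
      have h1 := hf _ (cl_sub_cl_mem_U1 hx hyx)
      rw [map_sub, hf' y hy', zero_sub, neg_eq_zero] at h1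
      exact hfx h1
    rcases lt_or_gt_of_ne hx' with h | h
    · refine key x⁻¹ (by rw [map_inv₀, hx, inv_one]) ?_ ?_
      · rw [cl_inv, map_neg]
        exact neg_ne_zero.2 hfx
      · have hx0 : x ≠ 0 := by
          rintro rfl
          rw [map_zero] at hx
          exact zero_ne_one hx
        rw [map_inv₀]
        exact (one_lt_inv₀ (zero_lt_iff.2 ((Valuation.ne_zero_iff _).2 hx0))).2 h
    · exact key x hx hfx h
  · rintro rfl
    exact hx' hx

end Vale.Agent.P019P
end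
end

section

section

/-!
# Assembly 4: lines go to fields of transcendence degree one
-/

namespace Vale.Agent.P019

set_option linter.style.haveILetI false

open Polynomial

section glob

variable {K L : Type*} [Field K] [Field L] [CharZero K] [CharZero L] {ℓ : ℕ} [Fact ℓ.Prime]

/-- the local statement for a pair. -/
structure LF (M : Mdl K) (M' : Mdl L) (Θ : V ℓ K ≃ₗ[ZMod ℓ] V ℓ L) (t : K) (N' E : Subfield L) :
    Prop where
  sub : M'.Sub N'
  le : N' ≤ E
  leF : E ≤ M'.F N'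
  ne : ∃ y0 ∈ E, y0 ∉ N'
  rac : ∀ x ∈ M'.F N', IsAlgebraic E x → x ∈ E
  deg : ∀ y0 ∈ E, y0 ∉ N' → ∀ x ∈ E, IsAlgebraic (adj N' y0) x
  iff : ∀ u ∈ VS ℓ (M'.F N'), Θ.symm u ∈ VS ℓ (adj M.k t) ↔ u ∈ VS ℓ E

variable {M : Mdl K} {M' : Mdl L} {Θ : V ℓ K ≃ₗ[ZMod ℓ] V ℓ L}

end glob

end Vale.Agent.P019
end
end
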