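import Vale.Agent.P019.MathlibFull
import Vale.Agent.P019.MathlibFull2
import Vale.Agent.P019.MathlibUsed
import Vale.Agent.P019.Defs

set_option linter.all false

namespace AFast9853f6x7a
@[reducible] noncomputable def a0.{u1} {x1 : Type u1} : Sub (x1 →₀ ℤ) := inferInstance
theorem a1.{u1} {x1 : Type u1} : IsAddCommutative (x1 →₀ ℤ) := inferInstance
theorem a2.{u1} {x1 : Type u1} [x2 : Field x1] {x3 : Subfield x1} {x4 : IntermediateField (↥x3) x1} : MulHomClass (↥x3 →+* ↥x4) ↥x3 ↥x4 := inferInstance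
theorem a3.{u1, u2} {x1 : Type u1} {x2 : Type u2} [x3 : Field x1] [x4 : Field x2] : MonoidWithZeroHomClass (x1 →+* x2) x1 x2 := inferInstance
@[reducible] noncomputable def a4.{u1} {x1 : Type u1} [x2 : Field x1] {x3 : ValuationSubring x1} : One x3.ValueGroup := inferInstance
@[reducible] noncomputable def a5.{u1} {x1 : Type u1} [x2 : Field x1] {x3 : ValuationSubring x1} : LT x3.ValueGroup := inferInstance
@[reducible] noncomputable def a6.{u1} {x1 : Type u1} [x2 : Field x1] {x3 : ValuationSubring x1} : Preorder x3.ValueGroup := inferInstance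
@[reducible] def a7.{u1} {x1 : Type u1} [x2 : Field x1] {x3 : Subfield x1} : CommSemiring ↥x3 := inferInstance
@[reducible] noncomputable def a8.{u1} {x1 : Type u1} [x2 : Field x1] {x3 : ValuationSubring x1} : PartialOrder x3.ValueGroup := inferInstance
theorem a9.{u1, u2} {x1 : Type u1} {x2 : Type u2} [x3 : CommRing x1] [x4 : Field x2] : MulHomClass (x1 →+* x2) x1 x2 := inferInstance
theorem a10.{u1, u2} {x1 : Type u1} {x2 : Type u2} [x3 : Field x1] [x4 : Field x2] : ZeroHomClass (x1 →+* x2) x1 x2 := inferInstance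
theorem a11 : CovariantClass ℤ ℤ (Function.swap fun x1 x2 => x1 + x2) fun x1 x2 => x1 ≤ x2 := inferInstance
theorem a12.{u1} {x1 : Type u1} [x2 : Field x1] {x3 : Subfield x1} {x4 : IntermediateField (↥x3) x1} : NonUnitalRingHomClass (↥x3 →+* ↥x4) ↥x3 ↥x4 := inferInstance
theorem a13.{u1} {x1 : Type u1} [x2 : Field x1] {x3 : Subfield x1} {x4 : IntermediateField (↥x3) x1} : MonoidWithZeroHomClass Gal(↥x4/↥x3) ↥x4 ↥x4 := inferInstance
theorem a14.{u1, u2} {x1 : Type u1} [x2 : Field x1] {x3 : Type u2} [x4 : Field x3] [x5 : Algebra x1 x3] : MulHomClass (Polynomial x1 →ₐ[x1] x3) (Polynomial x1) x3 := inferInstance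
theorem a15.{u1, u2} {x1 : Type u1} [x2 : Field x1] {x3 : Type u2} [x4 : Field x3] [x5 : Algebra x1 x3] : NonUnitalAlgHomClass (Polynomial x1 →ₐ[x1] x3) x1 (Polynomial x1) x3 := inferInstance
theorem a16.{u1, u2} {x1 : Type u1} {x2 : Type u2} [x3 : Field x1] [x4 : Field x2] [x5 : Algebra x1 x2] : SubsemiringClass (IntermediateField x1 x2) x2 := inferInstance
@[reducible] noncomputable def a17.{u1} {x1 : Type u1} [x2 : Field x1] {x3 : ValuationSubring x1} : SemilatticeInf x3.ValueGroup := inferInstance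
theorem a18 : AddLeftMono ℕ := inferInstance
@[reducible] noncomputable def a19.{u1} {x1 : Type u1} [x2 : Field x1] {x3 : ValuationSubring x1} : Lattice x3.ValueGroup := inferInstance
theorem a20.{u1} {x1 : Type u1} [x2 : Field x1] : SubsemiringClass (Subfield x1) x1 := inferInstance
@[reducible] def a21.{u1} {x1 : Type u1} [x2 : Field x1] {x3 : Subfield x1} {x4 : IntermediateField (↥x3) x1} : Zero ↥x4 := inferInstance
theorem a22.{u1} {x1 : Type u1} [x2 : Field x1] {x3 : Subfield x1} {x4 : IntermediateField (↥x3) x1} : MonoidHomClass Gal(↥x4/↥x3) ↥x4 ↥x4 := inferInstance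
theorem a23.{u1} {x1 : Type u1} [x2 : Field x1] {x3 : Subfield x1} {x4 : IntermediateField (↥x3) x1} : RingHomClass Gal(↥x4/↥x3) ↥x4 ↥x4 := inferInstance
theorem a24 : IsOrderedRing ℤ := inferInstance
theorem a25.{u1, u2} {x1 : Type u1} {x2 : Type u2} [x3 : CommRing x1] [x4 : Field x2] : NonUnitalRingHomClass (x1 →+* x2) x1 x2 := inferInstance
theorem a26.{u1, u2} {x1 : Type u1} [x2 : Field x1] {x3 : Type u2} [x4 : Field x3] [x5 : Algebra x1 x3] : MonoidWithZeroHomClass (Polynomial x1 →ₐ[x1] x3) (Polynomial x1) x3 := inferInstance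
theorem a27.{u1} {x1 : Type u1} [x2 : Field x1] {x3 : Subfield x1} : Nontrivial ↥x3 := inferInstance
theorem a28.{u1} {x1 : Type u1} [x2 : Field x1] {x3 : Subfield x1} {x4 : IntermediateField (↥x3) x1} : OneHomClass (↥x3 →+* ↥x4) ↥x3 ↥x4 := inferInstance
theorem a29.{u1} {x1 : Type u1} [x2 : CommRing x1] : MulHomClass (PowerSeries x1 →+* x1) (PowerSeries x1) x1 := inferInstance
theorem a30 : CovariantClass ℕ ℕ (Function.swap fun x1 x2 => x1 + x2) fun x1 x2 => x1 ≤ x2 := inferInstance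
theorem a31.{u1} {x1 : Type u1} [x2 : Field x1] {x3 : Subfield x1} {x4 : IntermediateField (↥x3) x1} : MonoidHomClass (↥x3 →+* ↥x4) ↥x3 ↥x4 := inferInstance
@[reducible] noncomputable def a32.{u1} {x1 : Type u1} [x2 : Field x1] {x3 : Subfield x1} : Algebra (↥x3) (Polynomial ↥x3) := inferInstance
@[reducible] def a33.{u1} {x1 : Type u1} [x2 : Field x1] {x3 : Subfield x1} : Semiring ↥x3 := inferInstance
theorem a34.{u1} {x1 : Type u1} : ZeroMemClass (AddSubgroup (x1 →₀ ℤ)) (x1 →₀ ℤ) := inferInstance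
theorem a35 : PosMulMono ℤ := inferInstance
theorem a36.{u1} {x1 : Type u1} [x2 : Field x1] {x3 : Subfield x1} {x4 : Subfield x1} : MulHomClass (↥x3 →+* ↥x4) ↥x3 ↥x4 := inferInstance
theorem a37.{u1} {x1 : Type u1} [x2 : Field x1] {x3 : Subfield x1} {x4 : IntermediateField (↥x3) x1} : AlgHomClass Gal(↥x4/↥x3) ↥x3 ↥x4 ↥x4 := inferInstance
theorem a38.{u1, u2} {x1 : Type u1} {x2 : Type u2} [x3 : CommRing x1] [x4 : Field x2] : MonoidHomClass (x1 →+* x2) x1 x2 := inferInstance
@[reducible] noncomputable def a39.{u1} {x1 : Set ℕ} {x2 : Type u1} [x3 : Field x2] : Sub (↑x1 →₀ x2) := inferInstance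
end AFast9853f6x7a
attribute [local instance] AFast9853f6x7a.a0 AFast9853f6x7a.a1 AFast9853f6x7a.a2 AFast9853f6x7a.a3
  AFast9853f6x7a.a4 AFast9853f6x7a.a5 AFast9853f6x7a.a6 AFast9853f6x7a.a7 AFast9853f6x7a.a8
  AFast9853f6x7a.a9 AFast9853f6x7a.a10 AFast9853f6x7a.a11 AFast9853f6x7a.a12 AFast9853f6x7a.a13
  AFast9853f6x7a.a14 AFast9853f6x7a.a15 AFast9853f6x7a.a16 AFast9853f6x7a.a17 AFast9853f6x7a.a18
  AFast9853f6x7a.a19 AFast9853f6x7a.a20 AFast9853f6x7a.a21 AFast9853f6x7a.a22 AFast9853f6x7a.a23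
  AFast9853f6x7a.a24 AFast9853f6x7a.a25 AFast9853f6x7a.a26 AFast9853f6x7a.a27 AFast9853f6x7a.a28
  AFast9853f6x7a.a29 AFast9853f6x7a.a30 AFast9853f6x7a.a31 AFast9853f6x7a.a32 AFast9853f6x7a.a33
  AFast9853f6x7a.a34 AFast9853f6x7a.a35 AFast9853f6x7a.a36 AFast9853f6x7a.a37 AFast9853f6x7a.a38
  AFast9853f6x7a.a39
namespace AFast9853f6x7b
@[reducible] def a0.{u1} {x1 : Type u1} [x2 : Field x1] {x3 : Subfield x1} {x4 : IntermediateField (↥x3) x1} : Module ↥x3 ↥x4 := inferInstance
@[reducible] def a1.{u1} {x1 : Type u1} [x2 : Field x1] {x3 : Subfield x1} {x4 : IntermediateField (↥x3) x1} : SMul (↥x3) (↥x4 →ₗ[↥x3] ↥x4) := inferInstance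
@[reducible] def a2.{u1} {x1 : Type u1} [x2 : Field x1] {x3 : Subfield x1} {x4 : IntermediateField (↥x3) x1} : SMulZeroClass ↥x3 ↥x4 := inferInstance
@[reducible] def a3.{u1} {x1 : Type u1} [x2 : Field x1] {x3 : Subfield x1} {x4 : IntermediateField (↥x3) x1} : DistribSMul ↥x3 ↥x4 := inferInstance
@[reducible] def a4.{u1} {x1 : Type u1} [x2 : Field x1] {x3 : Subfield x1} {x4 : IntermediateField (↥x3) x1} : Algebra ↥x3 ↥x4 := inferInstance
theorem a5.{u1} {x1 : Type u1} [x2 : Field x1] {x3 : Subfield x1} : IsScalarTower (↥x3) (↥x3) x1 := inferInstance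
theorem a6.{u1, u2} {x1 : Type u1} [x2 : Field x1] {x3 : Type u2} {x4 : Set ℕ} [x5 : CommRing x3] [x6 : Algebra x1 x3] : AddMonoidHomClass (x3 ≃ₗ[x1] ↑x4 →₀ x1) x3 (↑x4 →₀ x1) := inferInstance
theorem a7.{u1} {x1 : Type u1} [x2 : Field x1] {x3 : Subfield x1} {x4 : IntermediateField (↥x3) x1} : SMulCommClass ↥x3 ↥x3 ↥x4 := inferInstance
@[reducible] def a8.{u1} {x1 : Type u1} [x2 : Field x1] {x3 : Subfield x1} {x4 : IntermediateField (↥x3) x1} : SMul ↥x3 ↥x4 := inferInstance
theorem a9.{u1, u2} {x1 : Type u1} [x2 : Field x1] {x3 : Type u2} {x4 : Set ℕ} [x5 : CommRing x3] [x6 : Algebra x1 x3] : MulActionSemiHomClass (x3 ≃ₗ[x1] ↑x4 →₀ x1) (⇑(RingHom.id x1)) x3 (↑x4 →₀ x1) := inferInstance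
@[reducible] def a10.{u1} {x1 : Type u1} [x2 : Field x1] {x3 : Subfield x1} {x4 : IntermediateField (↥x3) x1} : MulAction ↥x3 ↥x4 := inferInstance
theorem a11.{u1, u2} {x1 : Type u1} [x2 : Field x1] {x3 : Type u2} {x4 : Set ℕ} [x5 : CommRing x3] [x6 : Algebra x1 x3] : DistribMulActionSemiHomClass (x3 ≃ₗ[x1] ↑x4 →₀ x1) (⇑(RingHom.id x1)) x3 (↑x4 →₀ x1) := inferInstance
@[reducible] def a12.{u1} {x1 : Type u1} [x2 : Field x1] {x3 : Subfield x1} {x4 : IntermediateField (↥x3) x1} : DistribMulAction ↥x3 ↥x4 := inferInstance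
theorem a13.{u1, u2} {x1 : Type u1} [x2 : Field x1] {x3 : Type u2} {x4 : Set ℕ} [x5 : CommRing x3] [x6 : Algebra x1 x3] : SemilinearMapClass (x3 ≃ₗ[x1] ↑x4 →₀ x1) (RingHom.id x1) x3 (↑x4 →₀ x1) := inferInstance
theorem a14.{u1, u2} {x1 : Type u1} [x2 : Field x1] {x3 : Type u2} {x4 : Set ℕ} [x5 : CommRing x3] [x6 : Algebra x1 x3] : ZeroHomClass (x3 ≃ₗ[x1] ↑x4 →₀ x1) x3 (↑x4 →₀ x1) := inferInstance
theorem a15.{u1, u2} {x1 : Type u1} {x2 : Type u2} [x3 : CommRing x1] [x4 : Field x2] : AddMonoidHomClass (x1 →+* x2) x1 x2 := inferInstance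
theorem a16.{u1, u2} {x1 : Type u1} [x2 : CommRing x1] {x3 : Type u2} {x4 : Set ℕ} [x5 : CommRing x3] [x6 : Algebra x1 x3] : DistribMulActionSemiHomClass (x3 ≃ₗ[x1] ↑x4 →₀ x1) (⇑(RingHom.id x1)) x3 (↑x4 →₀ x1) := inferInstance
theorem a17.{u1, u2} {x1 : Type u1} [x2 : Field x1] {x3 : Type u2} [x4 : Field x3] [x5 : Algebra x1 x3] : AddHomClass (Polynomial x1 →ₐ[x1] x3) (Polynomial x1) x3 := inferInstance
theorem a18.{u1, u2} {x1 : Type u1} [x2 : Field x1] {x3 : Type u2} [x4 : Field x3] [x5 : Algebra x1 x3] : LinearMapClass (Polynomial x1 →ₐ[x1] x3) x1 (Polynomial x1) x3 := inferInstance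
theorem a19.{u1, u2} {x1 : Type u1} [x2 : CommRing x1] {x3 : Type u2} {x4 : Set ℕ} [x5 : CommRing x3] [x6 : Algebra x1 x3] : SemilinearMapClass (x3 ≃ₗ[x1] ↑x4 →₀ x1) (RingHom.id x1) x3 (↑x4 →₀ x1) := inferInstance
theorem a20.{u1, u2} {x1 : Type u1} {x2 : Type u2} [x3 : CommRing x1] [x4 : Field x2] : AddHomClass (x1 →+* x2) x1 x2 := inferInstance
theorem a21.{u1, u2} {x1 : Type u1} [x2 : CommRing x1] {x3 : Type u2} {x4 : Set ℕ} [x5 : CommRing x3] [x6 : Algebra x1 x3] : AddHomClass (x3 ≃ₗ[x1] ↑x4 →₀ x1) x3 (↑x4 →₀ x1) := inferInstance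
theorem a22.{u1} {x1 : Type u1} [x2 : Field x1] {x3 : Subfield x1} {x4 : IntermediateField (↥x3) x1} : ZeroHomClass (↥x4 →ₗ[↥x3] ↥x4) ↥x4 ↥x4 := inferInstance
theorem a23.{u1} {x1 : Type u1} [x2 : Field x1] {x3 : Subfield x1} {x4 : IntermediateField (↥x3) x1} : IsReduced ↥x4 := inferInstance
end AFast9853f6x7b
attribute [local instance] AFast9853f6x7b.a0 AFast9853f6x7b.a1 AFast9853f6x7b.a2 AFast9853f6x7b.a3
  AFast9853f6x7b.a4 AFast9853f6x7b.a5 AFast9853f6x7b.a6 AFast9853f6x7b.a7 AFast9853f6x7b.a8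
  AFast9853f6x7b.a9 AFast9853f6x7b.a10 AFast9853f6x7b.a11 AFast9853f6x7b.a12 AFast9853f6x7b.a13
  AFast9853f6x7b.a14 AFast9853f6x7b.a15 AFast9853f6x7b.a16 AFast9853f6x7b.a17 AFast9853f6x7b.a18
  AFast9853f6x7b.a19 AFast9853f6x7b.a20 AFast9853f6x7b.a21 AFast9853f6x7b.a22 AFast9853f6x7b.a23
attribute [local instance] O19.fr O19.tf O19.pj O19.fl

section

section

/-!
# Kummer descent
-/

namespace Vale.Agent.P019

set_option linter.style.haveILetI false

open Polynomial IntermediateField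

section span

variable {Ω : Type*} [Field Ω]

/-- compositum with an algebraic subfield is spanned by it. -/
theorem mem_span_of_mem_sup (K B : Subfield Ω) (hB : ∀ b ∈ B, IsAlgebraic K b) {r : Ω}
    (hr : r ∈ K ⊔ B) : r ∈ Submodule.span K (B : Set Ω) := by
  have h1 : K ⊔ B ≤ (adjoin K (B : Set Ω)).toSubfield := by
    rw [sup_le_iff]
    constructor
    · intro x hx
      exact (adjoin K (B : Set Ω)).algebraMap_mem ⟨x, hx⟩
    · intro x hx
      exact subset_adjoin K _ hx
  have h2 : r ∈ (adjoin K (B : Set Ω)).toSubalgebra := h1 hr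
  rw [adjoin_toSubalgebra_of_isAlgebraic (fun x hx => hB x hx)] at h2
  have h3 : r ∈ Subalgebra.toSubmodule (Algebra.adjoin K (B : Set Ω)) := h2
  rw [Algebra.adjoin_eq_span_of_subset] at h3
  · exact h3
  · have : (Submonoid.closure (B : Set Ω) : Set Ω) ⊆ (B : Set Ω) := by
      intro x hx
      have h4 : Submonoid.closure (B : Set Ω) ≤ B.toSubmonoid :=
        Submonoid.closure_le.2 (fun y hy => hy)
      exact h4 hx
    exact this.trans Submodule.subset_span

/-- a finite Galois extension inside an algebraically closed field containing finitely many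
algebraic elements, any base field. -/
theorem exists_galois_gen {K Ω : Type*} [Field K] [Field Ω] [Algebra K Ω] [IsAlgClosed Ω]
    [CharZero K] (t : Finset Ω) (ht : ∀ b ∈ t, IsAlgebraic K b) :
    ∃ M : IntermediateField K Ω, (∀ b ∈ t, b ∈ M) ∧ FiniteDimensional K M ∧ IsGalois K M := by
  classical
  let p : K[X] := ∏ b ∈ t, minpoly K b
  have hp : p ≠ 0 := Finset.prod_ne_zero_iff.2 (fun b hb => minpoly.ne_zero (ht b hb).isIntegral)
  haveI hsf : p.IsSplittingField K (adjoin K (p.rootSet Ω)) :=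
    adjoin_rootSet_isSplittingField (IsAlgClosed.splits _)
  haveI hfin : FiniteDimensional K (adjoin K (p.rootSet Ω)) :=
    Polynomial.IsSplittingField.finiteDimensional _ p
  refine ⟨adjoin K (p.rootSet Ω), ?_, hfin, ?_⟩
  · intro b hb
    apply subset_adjoin
    rw [mem_rootSet]
    refine ⟨hp, ?_⟩
    rw [map_prod]
    exact Finset.prod_eq_zero hb (minpoly.aeval K b)
  · haveI : Normal K (adjoin K (p.rootSet Ω)) := Normal.of_isSplittingField p
    exact ⟨⟩

/-- a finite Galois extension inside an algebraically closed field containing finitely many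
algebraic elements. -/
theorem exists_galois [IsAlgClosed Ω] (K : Subfield Ω) [CharZero K] (t : Finset Ω)
    (ht : ∀ b ∈ t, IsAlgebraic K b) :
    ∃ M : IntermediateField K Ω, (∀ b ∈ t, b ∈ M) ∧ FiniteDimensional K M ∧ IsGalois K M :=
  exists_galois_gen t ht

end span

section kummer

variable {Ω : Type*} [Field Ω]

/-- algebraicity over a smaller subfield is preserved by automorphisms over a bigger one. -/
theorem isAlgebraic_aut {E K : Subfield Ω} (hEK : E ≤ K) {M : IntermediateField K Ω}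
    (σ : M ≃ₐ[K] M) {e : M} (he : IsAlgebraic E (e : Ω)) : IsAlgebraic E ((σ e : M) : Ω) := by
  obtain ⟨Q, hQ0, hQ⟩ := he
  refine ⟨Q, hQ0, ?_⟩
  let Q' : K[X] := Q.map (Subfield.inclusion hEK)
  have key : ∀ y : M, aeval (y : Ω) Q = ((aeval y Q' : M) : Ω) := by
    intro y
    have h1 : ((aeval y Q' : M) : Ω) = aeval (y : Ω) Q' := by
      change M.val (aeval y Q') = aeval (M.val y) Q'
      rw [aeval_algHom_apply]
    rw [h1, aeval_def, aeval_def, eval₂_map]
    rfl
  rw [key] at hQ ⊢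
  have h2 : aeval (σ e) Q' = σ (aeval e Q') := by
    rw [← AlgEquiv.coe_toAlgHom, aeval_algHom_apply]
  have h3 : aeval e Q' = 0 := Subtype.ext hQ
  rw [h2, h3, map_zero]
  rfl

/-- **Kummer descent.** -/
theorem kummer_descent [IsAlgClosed Ω] [CharZero Ω] (ℓ : ℕ) [Fact ℓ.Prime]
    (E K B : Subfield Ω) (hEK : E ≤ K) (hac : ∀ z ∈ K, IsAlgebraic E z → z ∈ E)
    (hB : ∀ b ∈ B, IsAlgebraic E b) (ζ : Ω) (hζE : ζ ∈ E) (hζ : IsPrimitiveRoot ζ ℓ)
    {h r : Ω} (hh : h ∈ K) (h0 : h ≠ 0) (hr : r ∈ K ⊔ B) (hrl : r ^ ℓ = h) :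
    ∃ e ∈ E, ∃ w ∈ K, h = e * w ^ ℓ := by
  classical
  haveI : NeZero ℓ := ⟨(Fact.out : ℓ.Prime).ne_zero⟩
  have hBK : ∀ b ∈ B, IsAlgebraic K b := by
    intro b hb
    obtain ⟨Q, hQ0, hQ⟩ := hB b hb
    refine ⟨Q.map (Subfield.inclusion hEK), ?_, ?_⟩
    · rw [Ne, Polynomial.map_eq_zero_iff (RingHom.injective _)]; exact hQ0
    · rw [aeval_def, eval₂_map]; exact hQ
  obtain ⟨t, htB, htr⟩ := Submodule.mem_span_finite_of_mem_span (mem_span_of_mem_sup K B hBK hr)
  obtain ⟨M, htM, hfd, hgal⟩ := exists_galois K t (fun b hb => hBK b (htB hb))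
  have hr0 : r ≠ 0 := by
    rintro rfl
    rw [zero_pow (NeZero.ne ℓ)] at hrl
    exact h0 hrl.symm
  -- `r` in `M`
  have hrM : r ∈ M := by
    have : Submodule.span K (t : Set Ω) ≤ Subalgebra.toSubmodule M.toSubalgebra := by
      rw [Submodule.span_le]
      intro b hb
      exact htM b hb
    exact this htr
  set rM : M := ⟨r, hrM⟩ with hrMdef
  have hrM0 : rM ≠ 0 := fun h' => hr0 (congrArg Subtype.val h')
  -- the character
  have hchar : ∀ σ : M ≃ₐ[K] M, ∃ c : E, c ≠ 0 ∧ σ rM = (algebraMap K M (Subfield.inclusion hEK c)) * rM := by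
    intro σ
    have h1 : (σ rM / rM) ^ ℓ = 1 := by
      have h2 : rM ^ ℓ = algebraMap K M ⟨h, hh⟩ := Subtype.ext hrl
      rw [div_pow, ← map_pow, h2, AlgEquiv.commutes]
      refine div_self ?_
      rw [← h2]; exact pow_ne_zero _ hrM0
    have h2 : (((σ rM / rM : M)) : Ω) ^ ℓ = 1 := by
      have := congrArg (fun x : M => (x : Ω)) h1
      simpa using this
    obtain ⟨i, -, hi⟩ := hζ.eq_pow_of_pow_eq_one h2
    refine ⟨⟨ζ ^ i, pow_mem hζE i⟩, ?_, ?_⟩
    · intro h3
      have : ζ ^ i = 0 := congrArg Subtype.val h3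
      rw [this] at hi
      rw [← hi, zero_pow (NeZero.ne ℓ)] at h2
      exact zero_ne_one h2
    · apply Subtype.ext
      have h3 : ((σ rM : M) : Ω) = ζ ^ i * r := by
        rw [hi]
        have : (((σ rM / rM : M)) : Ω) = ((σ rM : M) : Ω) / r := rfl
        rw [this]
        field_simp
      rw [h3]
      rfl
  choose c hc0 hc using hchar
  -- multiplicativity
  have hcmul : ∀ σ τ : M ≃ₐ[K] M, c (τ * σ) = c τ * c σ := by
    intro σ τ
    have h1 := hc (τ * σ)
    rw [AlgEquiv.mul_apply, hc σ, map_mul, AlgEquiv.commutes, hc τ] at h1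
    have h2 : algebraMap K M (Subfield.inclusion hEK (c (τ * σ))) =
        algebraMap K M (Subfield.inclusion hEK (c τ * c σ)) := by
      apply mul_right_cancel₀ hrM0
      rw [← h1, map_mul, map_mul]
      ring
    have h3 := (algebraMap K M).injective h2
    exact (Subfield.inclusion hEK).injective h3
  -- the projection
  let p : M →ₗ[K] M := ∑ σ : M ≃ₐ[K] M, (Subfield.inclusion hEK (c σ))⁻¹ • σ.toLinearMap
  have hp : ∀ y, p y = ∑ σ : M ≃ₐ[K] M, (Subfield.inclusion hEK (c σ))⁻¹ • σ y := by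
    intro y
    simp [p, LinearMap.sum_apply]
  have hpr : p rM ≠ 0 := by
    have h1 : p rM = ∑ σ : M ≃ₐ[K] M, rM := by
      rw [hp]
      refine Finset.sum_congr rfl (fun σ _ => ?_)
      rw [hc σ, Algebra.smul_def, ← mul_assoc, ← map_mul, inv_mul_cancel₀, map_one, one_mul]
      intro h2
      exact hc0 σ ((map_eq_zero _).1 h2)
    rw [h1, Finset.sum_const, nsmul_eq_mul]
    refine mul_ne_zero ?_ hrM0
    haveI : CharZero M := charZero_of_injective_algebraMap (algebraMap K M).injective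
    rw [Nat.cast_ne_zero]
    exact Finset.card_ne_zero_of_mem (Finset.mem_univ (1 : M ≃ₐ[K] M))
  -- find `e`
  have hex : ∃ (b : Ω) (hb : b ∈ t), p ⟨b, htM b hb⟩ ≠ 0 := by
    by_contra hcon
    push Not at hcon
    apply hpr
    -- `r` is in the span
    have : ∀ (x : Ω) (hx : x ∈ Submodule.span K (t : Set Ω)),
        ∃ hxM : x ∈ M, p ⟨x, hxM⟩ = 0 := by
      intro x hx
      induction hx using Submodule.span_induction with
      | mem x hx => exact ⟨htM x hx, hcon x hx⟩
      | zero => exact ⟨M.zero_mem, map_zero p⟩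
      | add x y _ _ hx hy =>
        obtain ⟨hxM, hx⟩ := hx
        obtain ⟨hyM, hy⟩ := hy
        refine ⟨M.add_mem hxM hyM, ?_⟩
        have := map_add p ⟨x, hxM⟩ ⟨y, hyM⟩
        rw [hx, hy, add_zero] at this
        exact this
      | smul a x _ hx =>
        obtain ⟨hxM, hx⟩ := hx
        refine ⟨M.smul_mem hxM, ?_⟩
        have := map_smul p a ⟨x, hxM⟩
        rw [hx, smul_zero] at this
        exact this
    exact (this r htr).2
  obtain ⟨b, hbt, hb⟩ := hex
  set e₀ : M := ⟨b, htM b hbt⟩ with he₀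
  set T : M := p e₀ with hT
  have hTtr : ∀ τ : M ≃ₐ[K] M, τ T = algebraMap K M (Subfield.inclusion hEK (c τ)) * T := by
    intro τ
    rw [hT, hp, map_sum, Finset.mul_sum]
    refine Fintype.sum_bijective (fun σ => τ * σ) (Group.mulLeft_bijective τ) _ _ (fun σ => ?_)
    rw [hcmul, Algebra.smul_def, Algebra.smul_def, map_mul, AlgEquiv.commutes,
      AlgEquiv.mul_apply, map_mul, mul_inv, map_mul, ← mul_assoc, ← mul_assoc, ← map_mul,
      mul_inv_cancel₀, map_one, one_mul]
    intro h2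
    exact hc0 τ ((map_eq_zero _).1 h2)
  -- `r / T` is in `K`
  have hw : ∃ w : K, algebraMap K M w = rM / T := by
    have : rM / T ∈ (⊥ : IntermediateField K M) := by
      rw [IsGalois.mem_bot_iff_fixed]
      intro τ
      rw [map_div₀, hTtr, hc, mul_div_mul_left]
      intro h2
      exact hc0 τ ((map_eq_zero _).1 ((map_eq_zero _).1 h2))
    exact IntermediateField.mem_bot.1 this
  have hTl : ∃ w : K, algebraMap K M w = T ^ ℓ := by
    have : T ^ ℓ ∈ (⊥ : IntermediateField K M) := by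
      rw [IsGalois.mem_bot_iff_fixed]
      intro τ
      have h1 : (algebraMap K M (Subfield.inclusion hEK (c τ))) ^ ℓ = 1 := by
        have h2 : rM ^ ℓ = algebraMap K M ⟨h, hh⟩ := Subtype.ext hrl
        have h3 : τ (rM ^ ℓ) = rM ^ ℓ := by rw [h2, AlgEquiv.commutes]
        rw [map_pow, hc, mul_pow] at h3
        exact mul_right_cancel₀ (pow_ne_zero ℓ hrM0) (h3.trans (one_mul _).symm)
      rw [map_pow, hTtr, mul_pow, h1, one_mul]
    exact IntermediateField.mem_bot.1 this
  obtain ⟨w, hw⟩ := hw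
  obtain ⟨e, he⟩ := hTl
  -- `T` algebraic over `E`
  have hTalg : IsAlgebraic E ((T : M) : Ω) := by
    have h1 : ((T : M) : Ω) = ∑ σ : M ≃ₐ[K] M, (((c σ : E) : Ω))⁻¹ * ((σ e₀ : M) : Ω) := by
      rw [hT, hp, ← IntermediateField.coe_val, map_sum]
      refine Finset.sum_congr rfl (fun σ _ => ?_)
      rfl
    rw [h1]
    have h2 : ∀ σ ∈ (Finset.univ : Finset (M ≃ₐ[K] M)),
        (((c σ : E) : Ω))⁻¹ * ((σ e₀ : M) : Ω) ∈ integralClosure E Ω := by
      intro σ _
      refine Subalgebra.mul_mem _ ?_ ?_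
      · have : (((c σ : E) : Ω))⁻¹ = algebraMap E Ω (c σ)⁻¹ := by simp; rfl
        rw [this]
        exact Subalgebra.algebraMap_mem _ _
      · exact (isAlgebraic_aut hEK σ (hB b (htB hbt))).isIntegral
    have h3 : (∑ σ : M ≃ₐ[K] M, (((c σ : E) : Ω))⁻¹ * ((σ e₀ : M) : Ω)) ∈ integralClosure E Ω :=
      Subalgebra.sum_mem _ h2
    exact IsIntegral.isAlgebraic h3
  refine ⟨(e : Ω), ?_, (w : Ω), w.2, ?_⟩
  · apply hac _ e.2
    have h1 : (e : Ω) = ((T : M) : Ω) ^ ℓ := congrArg (fun x : M => (x : Ω)) he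
    rw [h1]
    exact hTalg.pow ℓ
  · have h1 : (e : Ω) = ((T : M) : Ω) ^ ℓ := congrArg (fun x : M => (x : Ω)) he
    have h2 : (w : Ω) = r / ((T : M) : Ω) := congrArg (fun x : M => (x : Ω)) hw
    have hT0 : ((T : M) : Ω) ≠ 0 := fun h3 => hb (Subtype.ext h3)
    rw [h1, h2, div_pow, hrl]
    field_simp

end kummer

end Vale.Agent.P019
end
end

section

section

/-!
# Galois stability
-/

namespace Vale.Agent.P019

set_option linter.style.haveILetI false

open Polynomial

section galaux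

variable {Ω : Type*} [Field Ω]

/-- images of algebraic elements under a ring homomorphism defined on a subfield. -/
theorem isAlgebraic_image {A E E' : Subfield Ω} (τ : A →+* Ω) (hEA : E ≤ A)
    (hE' : ∀ c (hc : c ∈ E), τ ⟨c, hEA hc⟩ ∈ E') {z : Ω} (hzA : z ∈ A) (hz : IsAlgebraic E z) :
    IsAlgebraic E' (τ ⟨z, hzA⟩) := by
  obtain ⟨Q, hQ0, hQ⟩ := hz
  let j : E →+* E' := RingHom.codRestrict (τ.comp (Subfield.inclusion hEA)) E'
    (fun c => hE' c.1 c.2)
  refine ⟨Q.map j, ?_, ?_⟩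
  · rw [Ne, Polynomial.map_eq_zero_iff j.injective]; exact hQ0
  · rw [aeval_def, eval₂_map]
    have h1 : (algebraMap E' Ω).comp j = τ.comp (Subfield.inclusion hEA) :=
      RingHom.ext fun _ => rfl
    rw [h1, ← hom_eval₂]
    have h2 : eval₂ (Subfield.inclusion hEA) (⟨z, hzA⟩ : A) Q = 0 := by
      apply Subtype.ext
      have h3 := hom_eval₂ Q (Subfield.inclusion hEA) A.subtype (⟨z, hzA⟩ : A)
      change A.subtype (eval₂ (Subfield.inclusion hEA) (⟨z, hzA⟩ : A) Q) = 0
      rw [h3, ← hQ, aeval_def]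
      rfl
    rw [h2, map_zero]

/-- images of a compositum. -/
theorem image_sup {A L B B' : Subfield Ω} (τ : A →+* Ω) (hLA : L ≤ A) (hBA : B ≤ A)
    (hL : ∀ c (hc : c ∈ L), τ ⟨c, hLA hc⟩ = c) (hB : ∀ c (hc : c ∈ B), τ ⟨c, hBA hc⟩ ∈ B')
    {r : Ω} (hr : r ∈ L ⊔ B) (hrA : r ∈ A) : τ ⟨r, hrA⟩ ∈ L ⊔ B' := by
  have h1 : L ⊔ B ≤ (Subfield.comap τ (L ⊔ B')).map A.subtype := by
    rw [sup_le_iff]
    constructor
    · intro c hc
      refine ⟨⟨c, hLA hc⟩, ?_, rfl⟩
      change τ ⟨c, hLA hc⟩ ∈ L ⊔ B'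
      rw [hL c hc]
      exact (le_sup_left : L ≤ L ⊔ B') hc
    · intro c hc
      refine ⟨⟨c, hBA hc⟩, ?_, rfl⟩
      exact (le_sup_right : B' ≤ L ⊔ B') (hB c hc)
  obtain ⟨a, ha, hae⟩ := h1 hr
  have h2 : (⟨r, hrA⟩ : A) = a := Subtype.ext hae.symm
  rw [h2]
  exact ha

end galaux

section pigeon

/-- Pigeonhole for two nested equivalence relations. -/
theorem pigeon {α : Type*} (P : α → Prop) (R S : α → α → Prop)
    (hRs : ∀ x y, P x → P y → R x y → R y x)
    (hRt : ∀ x y z, P x → P y → P z → R x y → R y z → R x z) (hRr : ∀ x, P x → R x x)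
    (N N' : ℕ)
    (h1 : ∀ x : Fin (N + 1) → α, (∀ i, P (x i)) → ∃ i j, i ≠ j ∧ R (x i) (x j))
    (h2 : ∀ x : Fin (N' + 1) → α, (∀ i, P (x i)) → (∀ i j, R (x i) (x j)) →
      ∃ i j, i ≠ j ∧ S (x i) (x j))
    (hinf : ∀ M : ℕ, ∃ x : Fin M → α, (∀ i, P (x i)) ∧ ∀ i j, i ≠ j → ¬ S (x i) (x j)) :
    False := by
  classical
  obtain ⟨x, hxP, hx⟩ := hinf (N * N' + 1)
  let s : Setoid (Fin (N * N' + 1)) :=
    { r := fun i j => R (x i) (x j)
      iseqv := ⟨fun i => hRr _ (hxP i), fun {i j} h => hRs _ _ (hxP i) (hxP j) h,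
        fun {i j k} h h' => hRt _ _ _ (hxP i) (hxP j) (hxP k) h h'⟩ }
  let f : Fin (N * N' + 1) → Quotient s := fun i => Quotient.mk s i
  have hf : ∀ i j, f i = f j ↔ R (x i) (x j) := fun i j => Quotient.eq (r := s)
  have hcard : (Finset.univ.image f).card ≤ N := by
    by_contra hcon
    push Not at hcon
    obtain ⟨t, ht, htc⟩ := Finset.exists_subset_card_eq (Nat.succ_le_of_lt hcon)
    have hpre : ∀ q : t, ∃ i, f i = (q : Quotient s) := by
      intro q
      have := ht q.2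
      rw [Finset.mem_image] at this
      obtain ⟨i, -, hi⟩ := this
      exact ⟨i, hi⟩
    choose g hg using hpre
    let e : Fin (N + 1) ≃ t := (Finset.equivFinOfCardEq htc).symm
    obtain ⟨i, j, hij, hR⟩ := h1 (fun i => x (g (e i))) (fun i => hxP _)
    apply hij
    have h3 := (hf _ _).2 hR
    rw [hg, hg] at h3
    exact e.injective (Subtype.ext h3)
  have hlt : (Finset.univ.image f).card * N' < (Finset.univ : Finset (Fin (N * N' + 1))).card := by
    rw [Finset.card_univ, Fintype.card_fin]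
    exact Nat.lt_succ_of_le (Nat.mul_le_mul_right _ hcard)
  obtain ⟨q, -, hq⟩ := Finset.exists_lt_card_fiber_of_mul_lt_card_of_maps_to
    (fun i hi => Finset.mem_image_of_mem f hi) hlt
  obtain ⟨t, ht, htc⟩ := Finset.exists_subset_card_eq (Nat.succ_le_of_lt hq)
  let e : Fin (N' + 1) ≃ t := (Finset.equivFinOfCardEq htc).symm
  have hfe : ∀ i, f (e i : Fin (N * N' + 1)) = q := by
    intro i
    have := ht (e i).2
    rw [Finset.mem_filter] at this
    exact this.2
  obtain ⟨i, j, hij, hS⟩ := h2 (fun i => x (e i : Fin (N * N' + 1))) (fun i => hxP _)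
    (fun i j => (hf _ _).1 ((hfe i).trans (hfe j).symm))
  refine hx _ _ ?_ hS
  intro h3
  exact hij (e.injective (Subtype.ext h3))

end pigeon

section roots

variable {Ω : Type*} [Field Ω] [IsAlgClosed Ω]

/-- If all roots of a polynomial over `L` are in `B` then the coefficients are in `B`. -/
theorem coeff_mem_of_roots {L B : Subfield Ω} {P : Polynomial L} (hP : P.Monic)
    (hroots : ∀ z : Ω, aeval z P = 0 → z ∈ B) (i : ℕ) : ((P.coeff i : L) : Ω) ∈ B := by
  have hm : (P.map (algebraMap L Ω)).Monic := hP.map _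
  have h1 : P.map (algebraMap L Ω) =
      ((P.map (algebraMap L Ω)).roots.map fun a => X - C a).prod :=
    (IsAlgClosed.splits (P.map (algebraMap L Ω))).eq_prod_roots_of_monic hm
  have h2 : P.map (algebraMap L Ω) ∈ Polynomial.lifts B.subtype := by
    rw [h1]
    refine multiset_prod_mem _ fun q hq => ?_
    rw [Multiset.mem_map] at hq
    obtain ⟨a, ha, rfl⟩ := hq
    have haB : a ∈ B := by
      apply hroots
      rw [mem_roots hm.ne_zero, IsRoot, eval_map] at ha
      rw [aeval_def]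
      exact ha
    refine ⟨X - C ⟨a, haB⟩, ?_⟩
    simp
  obtain ⟨Q, hQ⟩ := h2
  have h3 := congrArg (fun q : Polynomial Ω => q.coeff i) hQ
  simp only [coeff_map, coe_mapRingHom] at h3
  have h4 : ((P.coeff i : L) : Ω) = (Q.coeff i : Ω) := h3.symm
  rw [h4]
  exact (Q.coeff i).2

end roots

end Vale.Agent.P019
end
end

section

section

/-!
# Divisors and their degree
-/

namespace Vale.Agent.P019P

/-- the degree of a divisor. -/
noncomputable def dg {P : Type*} : (P →₀ ℤ) →+ ℤ :=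
  Finsupp.liftAddHom fun _ => AddMonoidHom.id ℤ

end Vale.Agent.P019P
end
end

section

section

/-!
# Function fields of one variable: definitions
-/

namespace Vale.Agent.P019P

open Polynomial IntermediateField

section defs

variable (k F : Type*) [Field k] [Field F] [Algebra k F]

/-- function fields of one variable over an algebraically closed field. -/
class CFF : Prop where
  ac : IsAlgClosed k
  ex : ∃ x : F, Transcendental k x ∧ FiniteDimensional k⟮x⟯ F

/-- the places of `F` over `k`. -/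
def Plk : Type _ :=
  {O : ValuationSubring F // (∀ a : k, algebraMap k F a ∈ O) ∧ O ≠ ⊤}

end defs

/-- `f` is the normalised additive valuation of `O` (with `f 0 = 0`). -/
structure IsOrd {F : Type*} [Field F] (O : ValuationSubring F) (f : F → ℤ) : Prop where
  zero : f 0 = 0
  mul : ∀ x y, x ≠ 0 → y ≠ 0 → f (x * y) = f x + f y
  add : ∀ x y, x ≠ 0 → y ≠ 0 → x + y ≠ 0 → min (f x) (f y) ≤ f (x + y)
  mem : ∀ x, x ∈ O ↔ x = 0 ∨ 0 ≤ f x
  one : ∃ π, f π = 1

end Vale.Agent.P019P
end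
end
namespace AFast9853f6x494b
theorem a0.{u1, u2} {x1 : Type u1} {x2 : Type u2} [x3 : Field x1] [x4 : Field x2] [x5 : Algebra x1 x2] : AddHomClass ((Vale.Agent.P019P.Plk x1 x2 →₀ ℤ) →+ ℤ) (Vale.Agent.P019P.Plk x1 x2 →₀ ℤ) ℤ := inferInstance
end AFast9853f6x494b
attribute [local instance] AFast9853f6x494b.a0

section

section

/-!
# Function fields of one variable: field theory
-/

namespace Vale.Agent.P019P

open Polynomial IntermediateField

section

variable {k F : Type*} [Field k] [Field F] [Algebra k F]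

theorem adjoin_inv_eq (x : F) : k⟮x⁻¹⟯ = k⟮x⟯ := by
  refine le_antisymm ?_ ?_
  · exact adjoin_simple_le_iff.2 (inv_mem (mem_adjoin_simple_self k x))
  · refine adjoin_simple_le_iff.2 ?_
    have h := inv_mem (mem_adjoin_simple_self k x⁻¹)
    rwa [inv_inv] at h

theorem adjoin_sub_eq (x : F) (c : k) : k⟮x - algebraMap k F c⟯ = k⟮x⟯ := by
  refine le_antisymm ?_ ?_
  · exact adjoin_simple_le_iff.2 (sub_mem (mem_adjoin_simple_self k x)
      (IntermediateField.algebraMap_mem _ c))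
  · refine adjoin_simple_le_iff.2 ?_
    have h := add_mem (mem_adjoin_simple_self k (x - algebraMap k F c))
      (IntermediateField.algebraMap_mem k⟮x - algebraMap k F c⟯ c)
    rwa [sub_add_cancel] at h

theorem nc_inv {x : F} (hx : ∀ a : k, x ≠ algebraMap k F a) (a : k) : x⁻¹ ≠ algebraMap k F a := by
  intro h
  apply hx a⁻¹
  rw [map_inv₀, ← h, inv_inv]

theorem nc_sub {x : F} (hx : ∀ a : k, x ≠ algebraMap k F a) (c a : k) :
    x - algebraMap k F c ≠ algebraMap k F a := by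
  intro h
  apply hx (a + c)
  rw [map_add, ← h, sub_add_cancel]

theorem CFld_essFin {t : F} (h : FiniteDimensional k⟮t⟯ F) : Algebra.EssFiniteType k F := by
  have h1 : Algebra.EssFiniteType k k⟮t⟯ :=
    essFiniteType_iff.2 ⟨{t}, by simp⟩
  have h2 : Algebra.EssFiniteType k⟮t⟯ F := inferInstance
  exact Algebra.EssFiniteType.comp k k⟮t⟯ F

theorem CFld_basis {t : F} (ht : Transcendental k t) (h : FiniteDimensional k⟮t⟯ F) :
    IsTranscendenceBasis k (fun _ : Unit => t) := by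
  have hai : AlgebraicIndependent k (fun _ : Unit => t) := algebraicIndependent_unique_type_iff.2 ht
  rw [isTranscendenceBasis_iff_algebraicIndependent_isAlgebraic]
  refine ⟨hai, ?_⟩
  have h3 : Algebra.IsAlgebraic k⟮t⟯ F := inferInstance
  have h4 : Set.range (fun _ : Unit => t) = {t} := by ext; simp [eq_comm]
  rw [h4]
  exact (IntermediateField.isAlgebraic_adjoin_iff_top).1 h3

end

theorem CFld_finite {k F : Type*} [Field k] [Field F] [Algebra k F] [CFF k F] {x : F}
    (hx : Transcendental k x) : FiniteDimensional k⟮x⟯ F := by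
  obtain ⟨t, ht, hfd⟩ := CFF.ex (k := k) (F := F)
  have hb := CFld_basis ht hfd
  have htr : Cardinal.lift (Cardinal.mk Unit) = Cardinal.lift (Algebra.trdeg k F) :=
    hb.lift_cardinalMk_eq_trdeg
  have hai : AlgebraicIndependent k (fun _ : Unit => x) := algebraicIndependent_unique_type_iff.2 hx
  have hbx : IsTranscendenceBasis k (fun _ : Unit => x) :=
    hai.isTranscendenceBasis_of_lift_trdeg_le_of_finite htr.ge
  have h4 : Set.range (fun _ : Unit => x) = {x} := by ext; simp [eq_comm]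
  have h5 := hbx.isAlgebraic_field
  rw [h4] at h5
  have h6 : Algebra.EssFiniteType k F := CFld_essFin hfd
  have h7 : Algebra.EssFiniteType k⟮x⟯ F := Algebra.EssFiniteType.of_comp k k⟮x⟯ F
  exact Algebra.finite_of_essFiniteType_of_isAlgebraic

/-- existence of separating elements. -/
theorem exists_sep (k F : Type*) [Field k] [Field F] [Algebra k F] [CFF k F] :
    ∃ x : F, Transcendental k x ∧ FiniteDimensional k⟮x⟯ F ∧ Algebra.IsSeparable k⟮x⟯ F := by
  obtain ⟨t, ht, hfd⟩ := CFF.ex (k := k) (F := F)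
  have : Algebra.EssFiniteType k F := CFld_essFin hfd
  have : IsAlgClosed k := CFF.ac (k := k) (F := F)
  obtain ⟨s, hs, hsep⟩ := exists_isTranscendenceBasis_and_isSeparable_of_perfectField k F
  have hb := CFld_basis ht hfd
  have hcard : Cardinal.lift (Cardinal.mk Unit) = Cardinal.lift (Cardinal.mk s) :=
    hb.lift_cardinalMk_eq hs
  have h1 : s.card = 1 := by
    simpa using hcard.symm
  obtain ⟨x, rfl⟩ := Finset.card_eq_one.1 h1
  have hx : Transcendental k x := hs.1.transcendental ⟨x, by simp⟩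
  refine ⟨x, hx, CFld_finite hx, ?_⟩
  rw [Finset.coe_singleton] at hsep
  exact hsep

/-- every non-constant element is transcendental with finite degree. -/
theorem finite_of_notMem {k F : Type*} [Field k] [Field F] [Algebra k F] [CFF k F] {x : F}
    (hx : ∀ a : k, x ≠ algebraMap k F a) :
    Transcendental k x ∧ FiniteDimensional k⟮x⟯ F := by
  have : IsAlgClosed k := CFF.ac (k := k) (F := F)
  have htr : Transcendental k x := by
    intro halg
    have hint : IsIntegral k x := halg.isIntegral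
    obtain ⟨a, ha⟩ := minpoly.mem_range_of_degree_eq_one k x
      (IsAlgClosed.degree_eq_one_of_irreducible k (minpoly.irreducible hint))
    exact hx a ha.symm
  exact ⟨htr, CFld_finite htr⟩

end Vale.Agent.P019P
end
end

section

section

/-!
# Linear independence over `k(x)` and polynomial relations
-/

namespace Vale.Agent.P019P

open Polynomial IntermediateField

section

variable {k F : Type*} [Field k] [Field F] [Algebra k F]

private theorem exists_frac {x c : F} (hc : c ∈ k⟮x⟯) :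
    ∃ f g : k[X], aeval x g ≠ 0 ∧ c * aeval x g = aeval x f := by
  obtain ⟨f, g, h⟩ := (mem_adjoin_simple_iff k c).1 hc
  by_cases hg : aeval x g = 0
  · refine ⟨0, 1, by simp, ?_⟩
    rw [h, hg]
    simp
  · exact ⟨f, g, hg, by rw [h, div_mul_cancel₀ _ hg]⟩

private theorem exists_rel' {x : F} {ι : Type*} [Fintype ι] {y : ι → F}
    (h : ¬ LinearIndependent k⟮x⟯ y) :
    ∃ φ : ι → k[X], (∃ i, φ i ≠ 0) ∧ ∑ i, aeval x (φ i) * y i = 0 := by
  classical
  obtain ⟨c, hc, i0, hi0⟩ := Fintype.not_linearIndependent_iff.1 h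
  choose f g hg hfg using fun i => exists_frac (k := k) (x := x) (c i).2
  have key : ∀ i, aeval x (f i * ∏ j ∈ Finset.univ.erase i, g j)
      = (c i : F) * ∏ j, aeval x (g j) := by
    intro i
    rw [map_mul, ← hfg i, map_prod, mul_assoc,
      Finset.mul_prod_erase Finset.univ (fun j => aeval x (g j)) (Finset.mem_univ i)]
  refine ⟨fun i => f i * ∏ j ∈ Finset.univ.erase i, g j, ⟨i0, fun h0 => ?_⟩, ?_⟩
  · have h1 := key i0
    simp only at h0
    rw [h0, map_zero] at h1
    rcases mul_eq_zero.1 h1.symm with h2 | h2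
    · exact hi0 (Subtype.ext h2)
    · exact Finset.prod_ne_zero_iff.2 (fun j _ => hg j) h2
  · have h1 : ∀ i, aeval x (f i * ∏ j ∈ Finset.univ.erase i, g j) * y i
        = (∏ j, aeval x (g j)) * (c i • y i) := by
      intro i
      rw [key i]
      change _ = _ * ((c i : F) * y i)
      ring
    simp only [h1]
    rw [← Finset.mul_sum, hc, mul_zero]

/-- a linear relation over `k(x)` can be normalised. -/
theorem exists_rel {x : F} (hx : Transcendental k x) {ι : Type*} [Fintype ι] {y : ι → F}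
    (h : ¬ LinearIndependent k⟮x⟯ y) :
    ∃ φ : ι → k[X], (∃ i, (φ i).coeff 0 ≠ 0) ∧ ∑ i, aeval x (φ i) * y i = 0 := by
  classical
  have hx0 : x ≠ 0 := fun h0 => by
    rw [h0] at hx
    exact hx (isAlgebraic_zero)
  have hex : ∃ n, ∃ φ : ι → k[X], (∃ i, φ i ≠ 0) ∧ ∑ i, aeval x (φ i) * y i = 0 ∧
      ∑ i, (φ i).natDegree = n := by
    obtain ⟨φ, h1, h2⟩ := exists_rel' h
    exact ⟨_, φ, h1, h2, rfl⟩
  obtain ⟨φ, ⟨i0, hi0⟩, h2, h3⟩ := Nat.find_spec hex
  refine ⟨φ, ?_, h2⟩
  by_contra hcon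
  push Not at hcon
  have e : ∀ i, φ i = (φ i).divX * X := fun i => by
    conv_lhs => rw [← divX_mul_X_add (φ i), hcon i, C_0, add_zero]
  have hne : (φ i0).divX ≠ 0 := fun h0 => hi0 (by rw [e i0, h0, zero_mul])
  have hdeg : (φ i0).natDegree = (φ i0).divX.natDegree + 1 := by
    conv_lhs => rw [e i0]
    exact natDegree_mul_X hne
  have hlt : ∑ i, (φ i).divX.natDegree < Nat.find hex := by
    rw [← h3]
    refine Finset.sum_lt_sum (fun i _ => natDegree_divX_le) ⟨i0, Finset.mem_univ _, ?_⟩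
    omega
  refine Nat.find_min hex hlt ⟨fun i => (φ i).divX, ⟨i0, hne⟩, ?_, rfl⟩
  have h4 : x * ∑ i, aeval x ((φ i).divX) * y i = 0 := by
    rw [← h2, Finset.mul_sum]
    refine Finset.sum_congr rfl fun i _ => ?_
    conv_rhs => rw [e i, map_mul, aeval_X]
    ring
  exact (mul_eq_zero.1 h4).resolve_left hx0

/-- a family independent over `k(x)` gives a family independent over `k`. -/
theorem indep_pow_mul {x : F} (hx : Transcendental k x) {ι : Type*} {y : ι → F}
    (h : LinearIndependent k⟮x⟯ y) :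
    LinearIndependent k (fun p : ι × ℕ => x ^ p.2 * y p.1) := by
  have h1 : LinearIndependent k (fun j : ℕ => (AdjoinSimple.gen k x) ^ j) := by
    have h2 := (Polynomial.basisMonomials k).linearIndependent.map'
      (aeval (AdjoinSimple.gen k x)).toLinearMap (by
        rw [LinearMap.ker_eq_bot]
        intro p q hpq
        have h3 : aeval x p = aeval x q := by
          have h4 := congrArg (algebraMap k⟮x⟯ F) hpq
          simpa only [AlgHom.toLinearMap_apply, ← aeval_algebraMap_apply,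
            AdjoinSimple.algebraMap_gen] using h4
        exact transcendental_iff_injective.1 hx h3)
    have h5 : (fun j : ℕ => (AdjoinSimple.gen k x) ^ j)
        = ⇑(aeval (AdjoinSimple.gen k x)).toLinearMap ∘ ⇑(basisMonomials k) := by
      funext j
      simp [coe_basisMonomials]
    rw [h5]
    exact h2
  have h5 := linearIndependent_smul h1 h
  have h6 := h5.comp Prod.swap Prod.swap_injective
  exact h6

/-- conversely, polynomial independence gives independence over `k(x)`. -/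
theorem indep_of_poly {x : F} (hx : Transcendental k x) {ι : Type*} [Fintype ι] {y : ι → F}
    (h : ∀ φ : ι → k[X], ∑ i, aeval x (φ i) * y i = 0 → ∀ i, φ i = 0) :
    LinearIndependent k⟮x⟯ y := by
  by_contra hn
  obtain ⟨φ, ⟨i, hi⟩, h0⟩ := exists_rel hx hn
  exact hi (by rw [h φ h0 i, coeff_zero])

end

end Vale.Agent.P019P
end
end

section

section

/-!
# The places of a function field are discrete, with residue field `k`
-/

namespace Vale.Agent.P019P

set_option linter.unusedSectionVars false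

open Polynomial IntermediateField

namespace AuxCVal

section

variable {K : Type*} [Field K] {O : ValuationSubring K} {f : K → ℤ}

theorem ord_one (hf : IsOrd O f) : f 1 = 0 := by
  have h := hf.mul 1 1 one_ne_zero one_ne_zero
  rw [mul_one] at h
  omega

theorem ord_inv (hf : IsOrd O f) {x : K} (hx : x ≠ 0) : f x⁻¹ = - f x := by
  have h := hf.mul x x⁻¹ hx (inv_ne_zero hx)
  rw [mul_inv_cancel₀ hx, ord_one hf] at h
  omega

theorem ord_pow (hf : IsOrd O f) {x : K} (hx : x ≠ 0) (n : ℕ) : f (x ^ n) = n * f x := by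
  induction n with
  | zero => rw [pow_zero, ord_one hf]; simp
  | succ n ih =>
    rw [pow_succ, hf.mul _ _ (pow_ne_zero _ hx) hx, ih]
    push_cast
    ring

theorem ord_zpow (hf : IsOrd O f) {x : K} (hx : x ≠ 0) (n : ℤ) : f (x ^ n) = n * f x := by
  cases n with
  | ofNat n =>
    rw [Int.ofNat_eq_natCast, zpow_natCast]; exact ord_pow hf hx n
  | negSucc n =>
    rw [zpow_negSucc, ord_inv hf (pow_ne_zero _ hx), ord_pow hf hx, Int.negSucc_eq]
    push_cast
    ring

end

section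

variable {k F : Type*} [Field k] [Field F] [Algebra k F] [CFF k F]

theorem v_cst (P : Plk k F) {c : k} (hc : c ≠ 0) : P.1.valuation (algebraMap k F c) = 1 := by
  have h1 := (P.1.valuation_le_one_iff _).2 (P.2.1 c)
  have h2 := (P.1.valuation_le_one_iff _).2 (P.2.1 c⁻¹)
  have hc' : algebraMap k F c ≠ 0 := by rwa [Ne, map_eq_zero]
  have hpos : 0 < P.1.valuation (algebraMap k F c) := by
    rw [zero_lt_iff]; exact (Valuation.ne_zero_iff _).2 hc'
  rw [map_inv₀, map_inv₀, inv_le_one₀ hpos] at h2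
  exact le_antisymm h1 h2

theorem nc_of_lt (P : Plk k F) {x : F} (hx0 : x ≠ 0) (hx : P.1.valuation x < 1) (a : k) :
    x ≠ algebraMap k F a := by
  rintro rfl
  have ha : a ≠ 0 := by
    rintro rfl
    exact hx0 (map_zero _)
  rw [v_cst P ha] at hx
  exact lt_irrefl _ hx

theorem v_aeval_le (P : Plk k F) {x : F} (hx : P.1.valuation x ≤ 1) (φ : k[X]) :
    P.1.valuation (aeval x φ) ≤ 1 := by
  have hxm : x ∈ P.1 := (P.1.valuation_le_one_iff _).1 hx
  rw [P.1.valuation_le_one_iff]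
  induction φ using Polynomial.induction_on' with
  | add p q hp hq => rw [map_add]; exact add_mem hp hq
  | monomial n a =>
    rw [aeval_monomial]
    exact mul_mem (P.2.1 a) (pow_mem hxm n)

theorem aeval_eq (x : F) (φ : k[X]) :
    aeval x φ = aeval x φ.divX * x + algebraMap k F (φ.coeff 0) := by
  conv_lhs => rw [← divX_mul_X_add φ]
  rw [map_add, map_mul, aeval_X, aeval_C]

theorem v_aeval_zero (P : Plk k F) {x : F} (hx : P.1.valuation x ≤ 1) {φ : k[X]}
    (h : φ.coeff 0 = 0) : P.1.valuation (aeval x φ) ≤ P.1.valuation x := by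
  rw [aeval_eq, h, map_zero, add_zero, map_mul]
  exact mul_le_of_le_one_left' (v_aeval_le P hx _)

theorem v_aeval_one (P : Plk k F) {x : F} (hx : P.1.valuation x < 1) {φ : k[X]}
    (h : φ.coeff 0 ≠ 0) : P.1.valuation (aeval x φ) = 1 := by
  rw [aeval_eq]
  have h1 : P.1.valuation (aeval x φ.divX * x) < 1 := by
    rw [map_mul]
    exact (mul_le_of_le_one_left' (v_aeval_le P hx.le _)).trans_lt hx
  have h2 := v_cst P h
  rw [Valuation.map_add_eq_of_lt_right _ (by rw [h2]; exact h1), h2]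

/-- the valuation ring is not everything. -/
theorem exists_small (P : Plk k F) : ∃ x : F, x ≠ 0 ∧ P.1.valuation x < 1 := by
  have h1 : ∃ w : F, w ∉ P.1 := by
    by_contra hcon
    push Not at hcon
    exact P.2.2 (eq_top_iff.2 fun w _ => hcon w)
  obtain ⟨w, hw⟩ := h1
  have hw0 : w ≠ 0 := by
    rintro rfl
    exact hw (zero_mem _)
  refine ⟨w⁻¹, inv_ne_zero hw0, ?_⟩
  rw [← P.1.valuation_le_one_iff, not_le] at hw
  rw [map_inv₀]
  exact inv_lt_one_of_one_lt₀ hw

end

end AuxCVal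

open AuxCVal

theorem IsOrd.unique {F : Type*} [Field F] {O : ValuationSubring F} {f g : F → ℤ}
    (hf : IsOrd O f) (hg : IsOrd O g) : f = g := by
  have h0 : ∀ w : F, w ≠ 0 → (0 ≤ f w ↔ 0 ≤ g w) := by
    intro w hw
    have h1 := hf.mem w
    have h2 := hg.mem w
    constructor
    · intro h
      exact (h2.1 (h1.2 (Or.inr h))).resolve_left hw
    · intro h
      exact (h1.1 (h2.2 (Or.inr h))).resolve_left hw
  have h1 : ∀ w : F, w ≠ 0 → f w = 0 → g w = 0 := by
    intro w hw h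
    have h2 := (h0 w hw).1 h.ge
    have h3 := (h0 w⁻¹ (inv_ne_zero hw)).1 (by rw [ord_inv hf hw]; omega)
    rw [ord_inv hg hw] at h3
    omega
  obtain ⟨π, hπ⟩ := hf.one
  obtain ⟨π', hπ'⟩ := hg.one
  have hπ0 : π ≠ 0 := by rintro rfl; rw [hf.zero] at hπ; exact zero_ne_one hπ
  have hπ0' : π' ≠ 0 := by rintro rfl; rw [hg.zero] at hπ'; exact zero_ne_one hπ'
  have h2 : ∀ z : F, z ≠ 0 → g z = f z * g π := by
    intro z hz
    have hp : π ^ f z ≠ 0 := zpow_ne_zero _ hπ0
    have h3 := h1 (z * (π ^ f z)⁻¹) (mul_ne_zero hz (inv_ne_zero hp)) (by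
      rw [hf.mul _ _ hz (inv_ne_zero hp), ord_inv hf hp, ord_zpow hf hπ0, hπ]
      ring)
    rw [hg.mul _ _ hz (inv_ne_zero hp), ord_inv hg hp, ord_zpow hg hπ0] at h3
    linarith
  have h4 : 0 ≤ g π := (h0 π hπ0).1 (by rw [hπ]; exact zero_le_one)
  have h5 := h2 π' hπ0'
  rw [hπ'] at h5
  have h6 : g π = 1 := by
    rcases Int.eq_one_or_neg_one_of_mul_eq_one' h5.symm with h | h
    · exact h.2
    · omega
  funext z
  by_cases hz : z = 0
  · rw [hz, hf.zero, hg.zero]
  · rw [h2 z hz, h6, mul_one]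

section

variable {k F : Type*} [Field k] [Field F] [Algebra k F] [CFF k F]

/-- elements whose values are close to each other are independent over `k(x)`. -/
theorem indep_of_val (P : Plk k F) {x : F} (hx0 : x ≠ 0) (hx : P.1.valuation x < 1)
    {ι : Type*} [Fintype ι] {y : ι → F} (hy : ∀ i, y i ≠ 0)
    (hd : ∀ i j, i ≠ j → P.1.valuation (y i) ≠ P.1.valuation (y j))
    (hlt : ∀ i j, P.1.valuation x * P.1.valuation (y i) < P.1.valuation (y j)) :
    LinearIndependent k⟮x⟯ y := by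
  classical
  by_contra hdep
  obtain ⟨htr, -⟩ := finite_of_notMem (nc_of_lt P hx0 hx)
  obtain ⟨φ, ⟨i0, hi0⟩, hsum⟩ := exists_rel htr hdep
  obtain ⟨j, hj, hmax⟩ := Finset.exists_max_image
    (Finset.univ.filter fun i => (φ i).coeff 0 ≠ 0) (fun i => P.1.valuation (y i))
    ⟨i0, by simpa using hi0⟩
  have hj' : (φ j).coeff 0 ≠ 0 := by simpa using hj
  have hyj : P.1.valuation (y j) ≠ 0 := (Valuation.ne_zero_iff _).2 (hy j)
  have hvj : P.1.valuation (aeval x (φ j) * y j) = P.1.valuation (y j) := by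
    rw [map_mul, v_aeval_one P hx hj', one_mul]
  have hrest : P.1.valuation (∑ i ∈ Finset.univ.erase j, aeval x (φ i) * y i) <
      P.1.valuation (y j) := by
    apply Valuation.map_sum_lt _ hyj
    intro i hi
    have hij : i ≠ j := Finset.ne_of_mem_erase hi
    rw [map_mul]
    by_cases h : (φ i).coeff 0 = 0
    · exact (mul_le_mul_left (v_aeval_zero P hx.le h) _).trans_lt (hlt i j)
    · rw [v_aeval_one P hx h, one_mul]
      exact lt_of_le_of_ne (hmax i (by simpa using h)) (hd i j hij)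
  rw [← Finset.add_sum_erase _ _ (Finset.mem_univ j)] at hsum
  rw [eq_neg_of_add_eq_zero_left hsum, Valuation.map_neg] at hvj
  rw [hvj] at hrest
  exact lt_irrefl _ hrest

theorem AuxCVal.exists_cst_of_poly (P : Plk k F) {z : F} (hz : z ∈ P.1) (n : ℕ) :
    ∀ f : k[X], f.natDegree ≤ n → f ≠ 0 → P.1.valuation (aeval z f) < 1 →
      ∃ c : k, P.1.valuation (z - algebraMap k F c) < 1 := by
  have : IsAlgClosed k := CFF.ac F
  induction n with
  | zero =>
    intro f hd hf hv
    exfalso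
    rw [eq_C_of_natDegree_le_zero hd, aeval_C] at hv
    have h0 : f.coeff 0 ≠ 0 := by
      intro h
      apply hf
      rw [eq_C_of_natDegree_le_zero hd, h, C_0]
    rw [v_cst P h0] at hv
    exact lt_irrefl _ hv
  | succ n ih =>
    intro f hd hf hv
    by_cases h0 : f.natDegree = 0
    · exact ih f (by omega) hf hv
    obtain ⟨c, hc⟩ := IsAlgClosed.exists_root f (by
      intro h
      exact h0 (natDegree_eq_of_degree_eq_some h))
    obtain ⟨g, hg⟩ := dvd_iff_isRoot.2 hc
    have hg0 : g ≠ 0 := by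
      rintro rfl
      exact hf (by rw [hg, mul_zero])
    have hdg : f.natDegree = 1 + g.natDegree := by
      rw [hg, natDegree_mul (X_sub_C_ne_zero c) hg0, natDegree_X_sub_C]
    rw [hg, map_mul, map_sub, aeval_X, aeval_C, map_mul] at hv
    have h1 : P.1.valuation (z - algebraMap k F c) ≤ 1 :=
      (P.1.valuation_le_one_iff _).2 (sub_mem hz (P.2.1 c))
    rcases h1.lt_or_eq with h2 | h2
    · exact ⟨c, h2⟩
    · rw [h2, one_mul] at hv
      exact ih g (by omega) hg0 hv

theorem exists_cst' (P : Plk k F) {z : F} (hz : z ∈ P.1) :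
    ∃ c : k, P.1.valuation (z - algebraMap k F c) < 1 := by
  classical
  obtain ⟨x, hx0, hx⟩ := exists_small P
  obtain ⟨htr, hfd⟩ := finite_of_notMem (nc_of_lt P hx0 hx)
  have hdep : ¬ LinearIndependent k⟮x⟯
      (fun i : Fin (Module.finrank k⟮x⟯ F + 1) => z ^ (i : ℕ)) := by
    intro h
    have h1 := h.fintype_card_le_finrank
    rw [Fintype.card_fin] at h1
    omega
  obtain ⟨φ, ⟨i0, hi0⟩, hsum⟩ := exists_rel htr hdep
  have hz1 : P.1.valuation z ≤ 1 := (P.1.valuation_le_one_iff _).2 hz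
  apply exists_cst_of_poly P hz _ (∑ i, C ((φ i).coeff 0) * X ^ (i : ℕ)) le_rfl
  · intro h
    have h1 := congrArg (fun p : k[X] => p.coeff (i0 : ℕ)) h
    simp only [finsetSum_coeff, coeff_C_mul, coeff_X_pow, coeff_zero] at h1
    rw [Finset.sum_eq_single i0] at h1
    · rw [if_pos rfl, mul_one] at h1
      exact hi0 h1
    · intro j _ hj
      rw [if_neg (fun h' => hj (Fin.ext h'.symm)), mul_zero]
    · intro h'
      exact absurd (Finset.mem_univ _) h'
  · have h1 : aeval z (∑ i, C ((φ i).coeff 0) * X ^ (i : ℕ)) =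
        -∑ i, aeval x (φ i).divX * x * z ^ (i : ℕ) := by
      rw [eq_neg_iff_add_eq_zero, map_sum, ← Finset.sum_add_distrib, ← hsum]
      refine Finset.sum_congr rfl fun i _ => ?_
      rw [map_mul, map_pow, aeval_X, aeval_C, aeval_eq x (φ i)]
      ring
    rw [h1, Valuation.map_neg]
    apply Valuation.map_sum_lt _ one_ne_zero
    intro i _
    rw [map_mul, map_mul, map_pow]
    calc P.1.valuation (aeval x (φ i).divX) * P.1.valuation x * P.1.valuation z ^ (i : ℕ)
        ≤ 1 * P.1.valuation x * 1 :=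
          mul_le_mul' (mul_le_mul' (v_aeval_le P hx.le _) le_rfl) (pow_le_one' hz1 _)
      _ = P.1.valuation x := by rw [one_mul, mul_one]
      _ < 1 := hx

theorem AuxCVal.exists_unif (P : Plk k F) : ∃ t : F, t ≠ 0 ∧ P.1.valuation t < 1 ∧
    ∀ z, P.1.valuation z < 1 → P.1.valuation z ≤ P.1.valuation t := by
  obtain ⟨x, hx0, hx⟩ := exists_small P
  obtain ⟨htr, hfd⟩ := finite_of_notMem (nc_of_lt P hx0 hx)
  by_contra hcon
  push Not at hcon
  have hstep : ∀ t : {t : F // t ≠ 0 ∧ P.1.valuation t < 1},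
      ∃ s : {t : F // t ≠ 0 ∧ P.1.valuation t < 1}, P.1.valuation t.1 < P.1.valuation s.1 := by
    rintro ⟨t, ht0, ht⟩
    obtain ⟨z, hz, hz'⟩ := hcon t ht0 ht
    have hz0 : z ≠ 0 := by
      rintro rfl
      rw [map_zero] at hz'
      exact not_lt_zero hz'
    exact ⟨⟨z, hz0, hz⟩, hz'⟩
  choose nx hnx using hstep
  let y : ℕ → {t : F // t ≠ 0 ∧ P.1.valuation t < 1} := fun n => nx^[n] ⟨x, hx0, hx⟩
  have hy : StrictMono fun n => P.1.valuation (y n).1 := by
    apply strictMono_nat_of_lt_succ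
    intro n
    have h1 : y (n + 1) = nx (y n) := Function.iterate_succ_apply' nx n _
    change P.1.valuation (y n).1 < P.1.valuation (y (n + 1)).1
    rw [h1]
    exact hnx _
  have hvx : 0 < P.1.valuation x := by
    rw [zero_lt_iff]; exact (Valuation.ne_zero_iff _).2 hx0
  have h2 := (indep_of_val P hx0 hx (y := fun i : Fin (Module.finrank k⟮x⟯ F + 1) => (y i).1)
    (fun i => (y i).2.1) (fun i j hij h => hij (Fin.ext (hy.injective h)))
    (fun i j => by
      have h3 : P.1.valuation x ≤ P.1.valuation (y j).1 := hy.monotone (Nat.zero_le _)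
      exact (mul_lt_of_lt_one_right hvx (y i).2.2).trans_le h3)).fintype_card_le_finrank
  rw [Fintype.card_fin] at h2
  omega

theorem AuxCVal.exists_pow (P : Plk k F) {t : F} (ht0 : t ≠ 0) (ht : P.1.valuation t < 1)
    (hmax : ∀ z, P.1.valuation z < 1 → P.1.valuation z ≤ P.1.valuation t) {z : F} (hz0 : z ≠ 0)
    (hz : P.1.valuation z ≤ 1) : ∃ m : ℕ, P.1.valuation z = P.1.valuation t ^ m := by
  classical
  rcases hz.lt_or_eq with hz1 | hz1
  swap
  · exact ⟨0, by rw [hz1, pow_zero]⟩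
  have hvt : 0 < P.1.valuation t := by
    rw [zero_lt_iff]; exact (Valuation.ne_zero_iff _).2 ht0
  have hvz : 0 < P.1.valuation z := by
    rw [zero_lt_iff]; exact (Valuation.ne_zero_iff _).2 hz0
  obtain ⟨htr, hfd⟩ := finite_of_notMem (nc_of_lt P hz0 hz1)
  have hanti : StrictAnti fun n : ℕ => P.1.valuation t ^ n := pow_right_strictAnti₀ hvt ht
  have hex : ∃ M : ℕ, ¬ P.1.valuation z ≤ P.1.valuation t ^ M := by
    refine ⟨Module.finrank k⟮z⟯ F + 1, fun hcon => ?_⟩
    have h2 := (indep_of_val P hz0 hz1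
      (y := fun i : Fin (Module.finrank k⟮z⟯ F + 1) => t ^ ((i : ℕ) + 1))
      (fun i => pow_ne_zero _ ht0)
      (fun i j hij h => hij (by
        rw [map_pow, map_pow] at h
        have h3 := hanti.injective h
        exact Fin.ext (by omega)))
      (fun i j => by
        rw [map_pow, map_pow]
        have h3 : P.1.valuation t ^ ((i : ℕ) + 1) < 1 := by
          have := hanti (Nat.succ_pos (i : ℕ))
          simpa using this
        refine (mul_lt_of_lt_one_right hvz h3).trans_le (hcon.trans ?_)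
        have h4 : (j : ℕ) + 1 ≤ Module.finrank k⟮z⟯ F + 1 := j.2
        exact hanti.antitone h4)).fintype_card_le_finrank
    rw [Fintype.card_fin] at h2
    omega
  have hM := Nat.find_spec hex
  have hM0 : Nat.find hex ≠ 0 := by
    intro h
    rw [h, pow_zero] at hM
    exact hM hz
  obtain ⟨m, hm⟩ := Nat.exists_eq_succ_of_ne_zero hM0
  have hPm : P.1.valuation z ≤ P.1.valuation t ^ m := by
    have := Nat.find_min hex (m := m) (by omega)
    exact not_not.1 this
  rw [hm] at hM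
  refine ⟨m, le_antisymm hPm (not_lt.1 fun hlt => hM ?_)⟩
  have h5 : P.1.valuation (z * (t ^ m)⁻¹) < 1 := by
    rw [map_mul, map_inv₀, map_pow, ← div_eq_mul_inv]
    exact (div_lt_one₀ (pow_pos hvt m)).2 hlt
  have h6 := hmax _ h5
  rw [map_mul, map_inv₀, map_pow, ← div_eq_mul_inv, div_le_iff₀ (pow_pos hvt m)] at h6
  rw [Nat.succ_eq_add_one, pow_succ']
  exact h6

theorem exists_isOrd (P : Plk k F) : ∃ f : F → ℤ, IsOrd P.1 f := by
  classical
  obtain ⟨t, ht0, ht, hmax⟩ := exists_unif P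
  have hvt : 0 < P.1.valuation t := by
    rw [zero_lt_iff]; exact (Valuation.ne_zero_iff _).2 ht0
  have hex : ∀ z : F, z ≠ 0 → ∃ n : ℤ, P.1.valuation z = P.1.valuation t ^ n := by
    intro z hz0
    rcases le_total (P.1.valuation z) 1 with h | h
    · obtain ⟨m, hm⟩ := exists_pow P ht0 ht hmax hz0 h
      exact ⟨m, by rw [hm, zpow_natCast]⟩
    · obtain ⟨m, hm⟩ := exists_pow P ht0 ht hmax (inv_ne_zero hz0) (by
        rw [map_inv₀]
        exact inv_le_one_of_one_le₀ h)
      refine ⟨-m, ?_⟩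
      rw [map_inv₀] at hm
      rw [zpow_neg, zpow_natCast, ← hm, inv_inv]
  have hanti : StrictAnti fun n : ℤ => P.1.valuation t ^ n := zpow_right_strictAnti₀ hvt ht
  choose g hg using hex
  let f : F → ℤ := fun z => if h : z = 0 then 0 else g z h
  have hf0 : f 0 = 0 := dif_pos rfl
  have hf : ∀ z : F, z ≠ 0 → P.1.valuation z = P.1.valuation t ^ f z := by
    intro z hz
    have : f z = g z hz := dif_neg hz
    rw [this]
    exact hg z hz
  have huniq : ∀ z : F, z ≠ 0 → ∀ n : ℤ, P.1.valuation z = P.1.valuation t ^ n → f z = n := by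
    intro z hz n hn
    rw [hf z hz] at hn
    exact hanti.injective hn
  refine ⟨f, ⟨hf0, ?_, ?_, ?_, ?_⟩⟩
  · intro x y hx hy
    apply huniq _ (mul_ne_zero hx hy)
    rw [map_mul, hf x hx, hf y hy, zpow_add₀ hvt.ne']
  · intro x y hx hy hxy
    have h1 := P.1.valuation.map_add x y
    rw [hf x hx, hf y hy, hf _ hxy] at h1
    rcases le_max_iff.1 h1 with h | h
    · exact (min_le_left _ _).trans (hanti.le_iff_ge.1 h)
    · exact (min_le_right _ _).trans (hanti.le_iff_ge.1 h)
  · intro x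
    by_cases hx : x = 0
    · rw [hx]
      exact ⟨fun _ => Or.inl rfl, fun _ => zero_mem _⟩
    · have h1 : P.1.valuation x ≤ 1 ↔ 0 ≤ f x := by
        rw [hf x hx, ← zpow_zero (P.1.valuation t)]
        exact hanti.le_iff_ge
      rw [← P.1.valuation_le_one_iff, h1]
      exact ⟨fun h => Or.inr h, fun h => h.resolve_left hx⟩
  · exact ⟨t, huniq t ht0 1 (by rw [zpow_one])⟩

/-- the order at a place. -/
noncomputable def ord (P : Plk k F) : F → ℤ := (exists_isOrd P).choose

theorem ord_spec (P : Plk k F) : IsOrd P.1 (ord P) := (exists_isOrd P).choose_spec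

/-- places are determined by their orders; the residue field is `k`. -/
theorem exists_cst (P : Plk k F) {z : F} (hz : z ∈ P.1) :
    ∃ c : k, z = algebraMap k F c ∨ 0 < ord P (z - algebraMap k F c) := by
  obtain ⟨c, hc⟩ := exists_cst' P hz
  refine ⟨c, ?_⟩
  by_cases h : z = algebraMap k F c
  · exact Or.inl h
  right
  have hw : z - algebraMap k F c ≠ 0 := sub_ne_zero.2 h
  have hO := ord_spec P
  have h1 : 0 ≤ ord P (z - algebraMap k F c) :=
    ((hO.mem _).1 (sub_mem hz (P.2.1 c))).resolve_left hw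
  by_contra hcon
  have h2 : ord P (z - algebraMap k F c) = 0 := by omega
  have h3 : (z - algebraMap k F c)⁻¹ ∈ P.1 :=
    (hO.mem _).2 (Or.inr (by rw [ord_inv hO hw, h2, neg_zero]))
  rw [← P.1.valuation_le_one_iff, map_inv₀, inv_le_one₀ (by
    rw [zero_lt_iff]; exact (Valuation.ne_zero_iff _).2 hw)] at h3
  exact absurd hc (not_lt.2 h3)

end

end Vale.Agent.P019P
end
end

section

section

/-!
# Rules for the order at a place
-/

namespace Vale.Agent.P019P

open Polynomial IntermediateField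

section

variable {k F : Type*} [Field k] [Field F] [Algebra k F] [CFF k F]

theorem ord_zero (P : Plk k F) : ord P 0 = 0 := (ord_spec P).zero

theorem ord_mul (P : Plk k F) {x y : F} (hx : x ≠ 0) (hy : y ≠ 0) :
    ord P (x * y) = ord P x + ord P y := (ord_spec P).mul x y hx hy

theorem ord_one (P : Plk k F) : ord P 1 = 0 := by
  have h := ord_mul P (one_ne_zero (α := F)) (one_ne_zero (α := F))
  rw [one_mul] at h
  omega

theorem ord_inv (P : Plk k F) (x : F) : ord P x⁻¹ = -ord P x := by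
  by_cases hx : x = 0
  · rw [hx, inv_zero, ord_zero, neg_zero]
  have h := ord_mul P hx (inv_ne_zero hx)
  rw [mul_inv_cancel₀ hx, ord_one] at h
  omega

theorem ord_neg (P : Plk k F) (x : F) : ord P (-x) = ord P x := by
  have h0 : (-1 : F) ≠ 0 := neg_ne_zero.2 one_ne_zero
  have h1 : ord P (-1) = 0 := by
    have h := ord_mul P h0 h0
    rw [neg_mul_neg, one_mul, ord_one] at h
    omega
  by_cases hx : x = 0
  · rw [hx, neg_zero]
  have h := ord_mul P h0 hx
  rw [neg_one_mul, h1, zero_add] at h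
  exact h

theorem ord_pow (P : Plk k F) (x : F) (n : ℕ) : ord P (x ^ n) = n * ord P x := by
  by_cases hx : x = 0
  · rw [hx, ord_zero, mul_zero]
    rcases Nat.eq_zero_or_pos n with rfl | hn
    · rw [pow_zero, ord_one]
    · rw [zero_pow hn.ne', ord_zero]
  induction n with
  | zero => rw [pow_zero, ord_one, Nat.cast_zero, zero_mul]
  | succ n ih => rw [pow_succ, ord_mul P (pow_ne_zero n hx) hx, ih, Nat.cast_succ, add_mul, one_mul]

theorem ord_zpow (P : Plk k F) (x : F) (n : ℤ) : ord P (x ^ n) = n * ord P x := by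
  cases n with
  | ofNat n => rw [Int.ofNat_eq_natCast, zpow_natCast, ord_pow]
  | negSucc n =>
    rw [zpow_negSucc, ord_inv, ord_pow, Int.negSucc_eq, ← neg_mul]
    push_cast
    rfl

theorem ord_const (P : Plk k F) (a : k) : ord P (algebraMap k F a) = 0 := by
  by_cases ha : a = 0
  · rw [ha, map_zero, ord_zero]
  have h1 : algebraMap k F a ≠ 0 := by rwa [Ne, map_eq_zero]
  have h2 := (((ord_spec P).mem _).1 (P.2.1 a)).resolve_left h1
  have h3 := (((ord_spec P).mem _).1 (P.2.1 a⁻¹)).resolve_left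
    (by rw [map_inv₀]; exact inv_ne_zero h1)
  rw [map_inv₀, ord_inv] at h3
  omega

theorem ord_le_add (P : Plk k F) {x y : F} (hx : x ≠ 0) (hy : y ≠ 0) (h : x + y ≠ 0) :
    min (ord P x) (ord P y) ≤ ord P (x + y) := (ord_spec P).add x y hx hy h

theorem mem_iff_ord (P : Plk k F) (x : F) : x ∈ P.1 ↔ x = 0 ∨ 0 ≤ ord P x :=
  (ord_spec P).mem x

theorem exists_unif (P : Plk k F) : ∃ π : F, π ≠ 0 ∧ ord P π = 1 := by
  obtain ⟨π, h⟩ := (ord_spec P).one
  refine ⟨π, ?_, h⟩
  rintro rfl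
  rw [ord_zero] at h
  exact zero_ne_one h

/-- two places one of which contains the other are equal. -/
theorem Plk.eq_of_le {P Q : Plk k F} (h : ∀ z, z ∈ P.1 → z ∈ Q.1) : P = Q := by
  obtain ⟨π, hπ0, hπ⟩ := exists_unif P
  have key : ∀ u : F, u ≠ 0 → ord P u = 0 → ord Q u = 0 := by
    intro u hu hu0
    have h1 : u ∈ Q.1 := h u ((mem_iff_ord P u).2 (Or.inr hu0.ge))
    have h2 : u⁻¹ ∈ Q.1 := h _ ((mem_iff_ord P _).2 (Or.inr (by rw [ord_inv, hu0, neg_zero])))
    have h3 := ((mem_iff_ord Q u).1 h1).resolve_left hu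
    have h4 := ((mem_iff_ord Q _).1 h2).resolve_left (inv_ne_zero hu)
    rw [ord_inv] at h4
    omega
  have key2 : ∀ z : F, z ≠ 0 → ord Q z = ord P z * ord Q π := by
    intro z hz
    have h1 : π ^ (-ord P z) ≠ 0 := zpow_ne_zero _ hπ0
    have h2 := key (z * π ^ (-ord P z)) (mul_ne_zero hz h1)
      (by rw [ord_mul P hz h1, ord_zpow, hπ, mul_one, add_neg_cancel])
    rw [ord_mul Q hz h1, ord_zpow, neg_mul] at h2
    omega
  obtain ⟨w, hw⟩ : ∃ w, w ∉ Q.1 := by
    by_contra hcon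
    push Not at hcon
    exact Q.2.2 (ValuationSubring.ext _ _ fun z => ⟨fun _ => ValuationSubring.mem_top z,
      fun _ => hcon z⟩)
  have hw0 : w ≠ 0 := by
    rintro rfl
    exact hw (zero_mem _)
  have hwP : ord P w < 0 := by
    by_contra hcon
    exact hw (h w ((mem_iff_ord P w).2 (Or.inr (not_lt.1 hcon))))
  have hwQ : ord Q w < 0 := by
    by_contra hcon
    exact hw ((mem_iff_ord Q w).2 (Or.inr (not_lt.1 hcon)))
  have hπQ : 0 < ord Q π := by
    rw [key2 w hw0] at hwQ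
    by_contra hcon
    exact absurd (mul_nonneg_of_nonpos_of_nonpos hwP.le (not_lt.1 hcon)) (not_le.2 hwQ)
  refine Subtype.ext (ValuationSubring.ext _ _ fun z => ⟨h z, fun hz => ?_⟩)
  by_cases hz0 : z = 0
  · rw [hz0]; exact zero_mem _
  have h1 := ((mem_iff_ord Q z).1 hz).resolve_left hz0
  rw [key2 z hz0] at h1
  exact (mem_iff_ord P z).2 (Or.inr (nonneg_of_mul_nonneg_left h1 hπQ))

/-- the elements of order at least `n` at `P`. -/
def Mge (P : Plk k F) (n : ℤ) : Submodule k F where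
  carrier := {z | z = 0 ∨ n ≤ ord P z}
  zero_mem' := Or.inl rfl
  add_mem' := by
    rintro z w hz hw
    by_cases h1 : z = 0
    · rw [h1, zero_add]; exact hw
    by_cases h2 : w = 0
    · rw [h2, add_zero]; exact hz
    by_cases h3 : z + w = 0
    · exact Or.inl h3
    · exact Or.inr ((le_min (hz.resolve_left h1) (hw.resolve_left h2)).trans
        (ord_le_add P h1 h2 h3))
  smul_mem' := by
    rintro a z hz
    by_cases h1 : z = 0
    · left; rw [h1, smul_zero]
    by_cases h2 : a = 0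
    · left; rw [h2, zero_smul]
    right
    have h3 : algebraMap k F a ≠ 0 := by rwa [Ne, map_eq_zero]
    rw [Algebra.smul_def, ord_mul P h3 h1, ord_const, zero_add]
    exact hz.resolve_left h1

theorem mem_Mge {P : Plk k F} {n : ℤ} {z : F} : z ∈ Mge P n ↔ z = 0 ∨ n ≤ ord P z := Iff.rfl

theorem Mge_mono (P : Plk k F) {m n : ℤ} (h : m ≤ n) : Mge P n ≤ Mge P m := by
  intro z hz
  rcases hz with h0 | h1
  · exact Or.inl h0
  · exact Or.inr (h.trans h1)

theorem mul_mem_Mge {P : Plk k F} {m n : ℤ} {z w : F} (hz : z ∈ Mge P m) (hw : w ∈ Mge P n) :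
    z * w ∈ Mge P (m + n) := by
  by_cases h1 : z = 0
  · left; rw [h1, zero_mul]
  by_cases h2 : w = 0
  · left; rw [h2, mul_zero]
  right
  rw [ord_mul P h1 h2]
  exact add_le_add (hz.resolve_left h1) (hw.resolve_left h2)

/-- multiplication by a nonzero element shifts the orders. -/
theorem mul_mem_Mge_iff {P : Plk k F} {n : ℤ} {z w : F} (hz : z ≠ 0) :
    z * w ∈ Mge P n ↔ w ∈ Mge P (n - ord P z) := by
  by_cases h2 : w = 0
  · rw [h2, mul_zero]
    exact ⟨fun _ => Or.inl rfl, fun _ => Or.inl rfl⟩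
  rw [mem_Mge, mem_Mge, ord_mul P hz h2, mul_eq_zero, or_iff_right hz, sub_le_iff_le_add']

theorem ord_add_of_lt {P : Plk k F} {z w : F} (hz : z ≠ 0) (hw : w ∈ Mge P (ord P z + 1)) :
    z + w ≠ 0 ∧ ord P (z + w) = ord P z := by
  by_cases h1 : w = 0
  · rw [h1, add_zero]; exact ⟨hz, rfl⟩
  have h2 := hw.resolve_left h1
  have h3 : z + w ≠ 0 := by
    intro h
    rw [eq_neg_of_add_eq_zero_right h, ord_neg] at h2
    omega
  refine ⟨h3, ?_⟩
  have h4 := ord_le_add P hz h1 h3
  have h5 := ord_le_add P h3 (neg_ne_zero.2 h1) (by rw [add_neg_cancel_right]; exact hz)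
  rw [add_neg_cancel_right, ord_neg] at h5
  omega

/-- a sum with one dominating term. -/
theorem ord_sum_of_lt {P : Plk k F} {ι : Type*} {s : Finset ι} {f : ι → F} {i : ι} (hi : i ∈ s)
    (h0 : f i ≠ 0) (h : ∀ j ∈ s, j ≠ i → f j ∈ Mge P (ord P (f i) + 1)) :
    ∑ j ∈ s, f j ≠ 0 ∧ ord P (∑ j ∈ s, f j) = ord P (f i) := by
  classical
  rw [← Finset.add_sum_erase s f hi]
  exact ord_add_of_lt h0 (Submodule.sum_mem _ fun j hj =>
    h j (Finset.mem_of_mem_erase hj) (Finset.ne_of_mem_erase hj))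

/-- polynomials in an element of nonnegative order. -/
theorem COrd_aeval_mem {P : Plk k F} {x : F} (hx : 0 ≤ ord P x) (φ : k[X]) :
    aeval x φ ∈ Mge P 0 := by
  rw [Polynomial.aeval_eq_sum_range]
  refine Submodule.sum_mem _ fun i _ => Submodule.smul_mem _ _ (Or.inr ?_)
  rw [ord_pow]
  exact mul_nonneg (Int.natCast_nonneg i) hx

theorem COrd_aeval_divX {P : Plk k F} {x : F} (hx : 0 < ord P x) (φ : k[X]) :
    aeval x φ.divX * x ∈ Mge P (ord P x) := by
  have h := mul_mem_Mge (COrd_aeval_mem hx.le φ.divX) (show x ∈ Mge P (ord P x) from Or.inr le_rfl)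
  rwa [zero_add] at h

omit [CFF k F] in
theorem COrd_aeval_eq (x : F) (φ : k[X]) :
    aeval x φ = algebraMap k F (φ.coeff 0) + aeval x φ.divX * x := by
  conv_lhs => rw [← Polynomial.divX_mul_X_add φ]
  rw [map_add, map_mul, aeval_X, aeval_C, add_comm]

/-- the values of a polynomial at an element of positive order. -/
theorem ord_aeval_of_coeff_ne {P : Plk k F} {x : F} (hx : 0 < ord P x) {φ : k[X]}
    (h : φ.coeff 0 ≠ 0) : aeval x φ ≠ 0 ∧ ord P (aeval x φ) = 0 := by
  rw [COrd_aeval_eq]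
  have h1 : algebraMap k F (φ.coeff 0) ≠ 0 := by rwa [Ne, map_eq_zero]
  have h2 := ord_add_of_lt h1 (P := P) (w := aeval x φ.divX * x)
    (Mge_mono P (by rw [ord_const, zero_add]; exact hx) (COrd_aeval_divX hx φ))
  rw [ord_const] at h2
  exact h2

theorem aeval_mem_of_coeff_eq {P : Plk k F} {x : F} (hx : 0 < ord P x) {φ : k[X]}
    (h : φ.coeff 0 = 0) : aeval x φ ∈ Mge P (ord P x) := by
  rw [COrd_aeval_eq, h, map_zero, zero_add]
  exact COrd_aeval_divX hx φ

theorem aeval_mem_zero {P : Plk k F} {x : F} (hx : 0 ≤ ord P x) (φ : k[X]) :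
    aeval x φ ∈ Mge P 0 := by
  exact COrd_aeval_mem hx φ

/-- `Mge P n / Mge P (n + 1)` is at most one-dimensional. -/
theorem exists_sub_mem {P : Plk k F} {n : ℤ} {z w : F} (hz : z ≠ 0) (hz1 : ord P z = n)
    (hw : w ∈ Mge P n) : ∃ a : k, w - a • z ∈ Mge P (n + 1) := by
  have h1 : z⁻¹ ∈ Mge P (-n) := Or.inr (by rw [ord_inv, hz1])
  have h2 : w * z⁻¹ ∈ Mge P 0 := by
    have h := mul_mem_Mge hw h1
    rwa [add_neg_cancel] at h
  obtain ⟨c, hc⟩ := exists_cst P ((mem_iff_ord P _).2 h2)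
  refine ⟨c, ?_⟩
  have h3 : w - c • z = z * (w * z⁻¹ - algebraMap k F c) := by
    rw [Algebra.smul_def, mul_sub, mul_comm z (w * z⁻¹), mul_assoc, inv_mul_cancel₀ hz, mul_one,
      mul_comm z]
  rw [h3]
  refine mul_mem_Mge (Or.inr hz1.ge) ?_
  rcases hc with hc | hc
  · left; rw [hc, sub_self]
  · right; exact hc

end

end Vale.Agent.P019P
end
end

section

section

/-!
# Weak approximation
-/

namespace Vale.Agent.P019P

section

variable {k F : Type*} [Field k] [Field F] [Algebra k F] [CFF k F]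

theorem CAppr_add {P : Plk k F} {x y : F} (hx : x ≠ 0) (hy : y ≠ 0) (h : ord P x ≠ ord P y) :
    x + y ≠ 0 ∧ ord P (x + y) = min (ord P x) (ord P y) := by
  rcases lt_or_gt_of_ne h with h | h
  · have h1 := ord_add_of_lt (P := P) (w := y) hx (mem_Mge.2 (Or.inr (by omega)))
    rw [min_eq_left h.le]
    exact h1
  · have h1 := ord_add_of_lt (P := P) (w := x) hy (mem_Mge.2 (Or.inr (by omega)))
    rw [min_eq_right h.le, add_comm]
    exact h1

theorem CAppr_pair {P Q : Plk k F} (h : P ≠ Q) :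
    ∃ u : F, u ≠ 0 ∧ 0 < ord P u ∧ ord Q u < 0 := by
  have key : ∀ P Q : Plk k F, P ≠ Q → ∃ y : F, y ≠ 0 ∧ 0 ≤ ord P y ∧ ord Q y < 0 := by
    intro P Q h
    by_contra hc
    push Not at hc
    refine h (Plk.eq_of_le fun z hz => ?_)
    rw [mem_iff_ord] at hz ⊢
    by_cases hz0 : z = 0
    · exact Or.inl hz0
    · exact Or.inr (hc z hz0 (hz.resolve_left hz0))
  obtain ⟨y, hy0, hy1, hy2⟩ := key P Q h
  obtain ⟨z, hz0, hz1, hz2⟩ := key Q P h.symm
  refine ⟨y * z⁻¹, mul_ne_zero hy0 (inv_ne_zero hz0), ?_, ?_⟩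
  · rw [ord_mul P hy0 (inv_ne_zero hz0), ord_inv]
    omega
  · rw [ord_mul Q hy0 (inv_ne_zero hz0), ord_inv]
    omega

theorem CAppr_sep (P : Plk k F) (S : Finset (Plk k F)) (hP : P ∉ S) :
    ∃ u : F, u ≠ 0 ∧ 0 < ord P u ∧ ∀ Q ∈ S, ord Q u < 0 := by
  classical
  induction S using Finset.induction_on with
  | empty =>
    obtain ⟨u, hu0, hu1⟩ := exists_unif P
    exact ⟨u, hu0, by omega, fun Q hQ => absurd hQ (Finset.notMem_empty Q)⟩
  | insert Q S hQ ih =>
    rw [Finset.mem_insert, not_or] at hP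
    obtain ⟨y, hy0, hy1, hy2⟩ := ih hP.2
    by_cases hQy : ord Q y < 0
    · refine ⟨y, hy0, hy1, fun R hR => ?_⟩
      rcases Finset.mem_insert.1 hR with rfl | hR
      · exact hQy
      · exact hy2 R hR
    · obtain ⟨z, hz0, hz1, hz2⟩ := CAppr_pair hP.1
      set r : ℕ := 1 + ∑ R ∈ S, (ord R y).natAbs with hr
      have hr1 : 1 ≤ r := Nat.le_add_right _ _
      have hrS : ∀ R ∈ S, (ord R y).natAbs < r := by
        intro R hR
        have := Finset.single_le_sum (f := fun R => (ord R y).natAbs)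
          (fun _ _ => Nat.zero_le _) hR
        omega
      have hzr : z ^ r ≠ 0 := pow_ne_zero r hz0
      have hQ1 : ord Q (z ^ r) < 0 := by
        rw [ord_pow]
        have : (0 : ℤ) < r := by exact_mod_cast hr1
        exact mul_neg_of_pos_of_neg this hz2
      have hQ2 := CAppr_add (P := Q) hy0 hzr (by omega)
      refine ⟨y + z ^ r, hQ2.1, ?_, fun R hR => ?_⟩
      · have h1 := ord_le_add P hy0 hzr hQ2.1
        have h2 : 0 < ord P (z ^ r) := by
          rw [ord_pow]
          have : (0 : ℤ) < r := by exact_mod_cast hr1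
          exact mul_pos this hz1
        exact (lt_min hy1 h2).trans_le h1
      · rcases Finset.mem_insert.1 hR with rfl | hR
        · rw [hQ2.2]
          exact (min_le_right _ _).trans_lt hQ1
        · have h1 : ord R y ≠ ord R (z ^ r) := by
            rw [ord_pow]
            intro h
            have h2 := hrS R hR
            have h3 := hy2 R hR
            rw [h, Int.natAbs_mul, Int.natAbs_natCast] at h2
            have h4 : (ord R z).natAbs = 0 := by
              by_contra h5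
              have : r * 1 ≤ r * (ord R z).natAbs := Nat.mul_le_mul_left r (by omega)
              omega
            rw [Int.natAbs_eq_zero] at h4
            rw [h4, mul_zero] at h
            omega
          rw [(CAppr_add hy0 hzr h1).2]
          exact (min_le_left _ _).trans_lt (hy2 R hR)

theorem CAppr_one (P : Plk k F) (S : Finset (Plk k F)) (hP : P ∉ S) (N : ℤ) :
    ∃ w : F, w - 1 ∈ Mge P N ∧ ∀ Q ∈ S, w ∈ Mge Q N := by
  obtain ⟨u, hu0, hu1, hu2⟩ := CAppr_sep P S hP
  set s : ℕ := 1 + N.toNat with hs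
  have hs1 : (1 : ℤ) ≤ s := by omega
  have hsN : N ≤ s := by omega
  have hv0 : u ^ s ≠ 0 := pow_ne_zero s hu0
  have hPv : (s : ℤ) ≤ ord P (u ^ s) := by
    rw [ord_pow]
    nlinarith
  have hP1 := ord_add_of_lt (P := P) (z := 1) (w := u ^ s) one_ne_zero
    (mem_Mge.2 (Or.inr (by rw [ord_one]; omega)))
  rw [ord_one] at hP1
  refine ⟨(1 + u ^ s)⁻¹, ?_, fun Q hQ => ?_⟩
  · have e : (1 + u ^ s)⁻¹ - 1 = -(u ^ s * (1 + u ^ s)⁻¹) := by
      field_simp [hP1.1]
      ring
    rw [e]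
    have h1 : u ^ s ∈ Mge P (s : ℤ) := mem_Mge.2 (Or.inr hPv)
    have h2 : (1 + u ^ s)⁻¹ ∈ Mge P 0 :=
      mem_Mge.2 (Or.inr (by rw [ord_inv, hP1.2, neg_zero]))
    have h3 := mul_mem_Mge h1 h2
    exact (Mge P N).neg_mem (Mge_mono P (by omega) h3)
  · have hQv : ord Q (u ^ s) ≤ -(s : ℤ) := by
      rw [ord_pow]
      have := hu2 Q hQ
      nlinarith
    have h1 := CAppr_add (P := Q) (x := 1) (y := u ^ s) one_ne_zero hv0
      (by rw [ord_one]; omega)
    refine mem_Mge.2 (Or.inr ?_)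
    rw [ord_inv, h1.2, ord_one, min_eq_right (by omega)]
    omega

theorem weak_appr (S : Finset (Plk k F)) (f : Plk k F → F) (N : ℤ) :
    ∃ z : F, ∀ P ∈ S, z - f P ∈ Mge P N := by
  classical
  set M : ℤ := ∑ P ∈ S, ∑ Q ∈ S, |ord Q (f P)| with hM
  have hMb : ∀ P ∈ S, ∀ Q ∈ S, |ord Q (f P)| ≤ M := by
    intro P hP Q hQ
    have h1 : |ord Q (f P)| ≤ ∑ Q ∈ S, |ord Q (f P)| :=
      Finset.single_le_sum (f := fun Q => |ord Q (f P)|) (fun _ _ => abs_nonneg _) hQ
    have h2 : ∑ Q ∈ S, |ord Q (f P)| ≤ M :=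
      Finset.single_le_sum (f := fun P => ∑ Q ∈ S, |ord Q (f P)|)
        (fun _ _ => Finset.sum_nonneg fun _ _ => abs_nonneg _) hP
    exact h1.trans h2
  have hex : ∀ P : Plk k F, ∃ w : F, w - 1 ∈ Mge P (N + M) ∧
      ∀ Q ∈ S.erase P, w ∈ Mge Q (N + M) := fun P =>
    CAppr_one P (S.erase P) (Finset.notMem_erase P S) (N + M)
  choose w hw1 hw2 using hex
  refine ⟨∑ P ∈ S, f P * w P, fun P hP => ?_⟩
  have hf : ∀ Q ∈ S, f Q ∈ Mge P (-M) := fun Q hQ =>
    mem_Mge.2 (Or.inr (neg_le_of_abs_le (hMb Q hQ P hP)))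
  have e : ∑ Q ∈ S, f Q * w Q - f P = f P * (w P - 1) + ∑ Q ∈ S.erase P, f Q * w Q := by
    rw [← Finset.add_sum_erase S _ hP]
    ring
  rw [e]
  have e2 : -M + (N + M) = N := by ring
  refine (Mge P N).add_mem ?_ ((Mge P N).sum_mem fun Q hQ => ?_)
  · have := mul_mem_Mge (hf P hP) (hw1 P)
    rwa [e2] at this
  · have hQ' := Finset.mem_erase.1 hQ
    have := mul_mem_Mge (hf Q hQ'.2) (hw2 Q P (Finset.mem_erase.2 ⟨hQ'.1.symm, hP⟩))
    rwa [e2] at this

/-- elements with given orders. -/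
theorem exists_ord_eq (S : Finset (Plk k F)) (m : Plk k F → ℤ) :
    ∃ z : F, z ≠ 0 ∧ ∀ P ∈ S, ord P z = m P := by
  rcases S.eq_empty_or_nonempty with rfl | ⟨P0, hP0⟩
  · exact ⟨1, one_ne_zero, fun P hP => absurd hP (Finset.notMem_empty P)⟩
  choose π hπ0 hπ1 using fun P : Plk k F => exists_unif P
  obtain ⟨z, hz⟩ := weak_appr S (fun P => π P ^ m P) (1 + ∑ P ∈ S, |m P|)
  have key : ∀ P ∈ S, z ≠ 0 ∧ ord P z = m P := by
    intro P hP
    have h1 : |m P| ≤ ∑ P ∈ S, |m P| :=
      Finset.single_le_sum (f := fun P => |m P|) (fun _ _ => abs_nonneg _) hP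
    have h2 : ord P (π P ^ m P) = m P := by rw [ord_zpow, hπ1, mul_one]
    have h3 : z - π P ^ m P ∈ Mge P (ord P (π P ^ m P) + 1) := by
      rw [h2]
      exact Mge_mono P (by linarith [le_abs_self (m P)]) (hz P hP)
    have h4 := ord_add_of_lt (zpow_ne_zero (m P) (hπ0 P)) h3
    rw [add_sub_cancel, h2] at h4
    exact h4
  exact ⟨z, (key P0 hP0).1, fun P hP => (key P hP).2⟩

end

end Vale.Agent.P019P
end
end

section

section

/-!
# The zeros of a function
-/

namespace Vale.Agent.P019P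

open Polynomial IntermediateField

section

variable {k F : Type*} [Field k] [Field F] [Algebra k F] [CFF k F]

/-- the number of zeros is bounded by the degree. -/
theorem sum_ord_le {x : F} (hx : ∀ a : k, x ≠ algebraMap k F a) (S : Finset (Plk k F))
    (hS : ∀ P ∈ S, 0 < ord P x) : ∑ P ∈ S, ord P x ≤ Module.finrank k⟮x⟯ F := by
  classical
  obtain ⟨hT, hfd⟩ := finite_of_notMem hx
  choose w hw0 hw using fun i : (P : S) × Fin (ord P.1 x).toNat =>
    exists_ord_eq S (fun Q => if Q = i.1.1 then ((i.2 : ℕ) : ℤ) else ord Q x)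
  have hwP : ∀ i, ord i.1.1 (w i) = ((i.2 : ℕ) : ℤ) := fun i => by
    rw [hw i _ i.1.2, if_pos rfl]
  have hli : LinearIndependent k⟮x⟯ w := by
    by_contra hnot
    obtain ⟨φ, ⟨⟨P, a0⟩, h0⟩, hrel⟩ := exists_rel hT hnot
    obtain ⟨a, ha, hmin⟩ := Finset.exists_min_image
      (Finset.univ.filter fun a : Fin (ord P.1 x).toNat => (φ ⟨P, a⟩).coeff 0 ≠ 0)
      (fun a => (a : ℕ)) ⟨a0, by simp only [Finset.mem_filter, Finset.mem_univ, true_and]; exact h0⟩
    rw [Finset.mem_filter] at ha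
    have hPx : 0 < ord P.1 x := hS P.1 P.2
    have hax : ((a : ℕ) : ℤ) < ord P.1 x := by
      have h1 := a.2
      omega
    obtain ⟨h1, h2⟩ := ord_aeval_of_coeff_ne hPx ha.2
    have h3 : aeval x (φ ⟨P, a⟩) * w ⟨P, a⟩ ≠ 0 := mul_ne_zero h1 (hw0 _)
    have h4 : ord P.1 (aeval x (φ ⟨P, a⟩) * w ⟨P, a⟩) = ((a : ℕ) : ℤ) := by
      rw [ord_mul P.1 h1 (hw0 _), h2, zero_add]
      exact hwP ⟨P, a⟩
    refine (ord_sum_of_lt (P := P.1) (s := Finset.univ)
      (f := fun i => aeval x (φ i) * w i) (i := ⟨P, a⟩) (Finset.mem_univ _) h3 ?_).1 hrel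
    rintro ⟨Q, b⟩ - hne
    rw [h4]
    by_cases hQ : Q = P
    · subst hQ
      have hb : w ⟨Q, b⟩ ∈ Mge Q.1 ((b : ℕ) : ℤ) := Or.inr (hwP ⟨Q, b⟩).ge
      by_cases hc : (φ ⟨Q, b⟩).coeff 0 = 0
      · have h5 := mul_mem_Mge (aeval_mem_of_coeff_eq hPx hc) hb
        exact Mge_mono _ (by omega) h5
      · have h5 := mul_mem_Mge (aeval_mem_zero hPx.le (φ ⟨Q, b⟩)) hb
        have h6 := hmin b (by simp only [Finset.mem_filter, Finset.mem_univ, true_and]; exact hc)
        have h7 : (b : ℕ) ≠ (a : ℕ) := fun h8 => hne (by rw [Fin.ext h8])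
        exact Mge_mono _ (by omega) h5
    · have hb : w ⟨Q, b⟩ ∈ Mge P.1 (ord P.1 x) := by
        refine Or.inr (le_of_eq ?_)
        rw [hw ⟨Q, b⟩ P.1 P.2, if_neg]
        exact fun h5 => hQ (Subtype.ext h5.symm)
      have h5 := mul_mem_Mge (aeval_mem_zero hPx.le (φ ⟨Q, b⟩)) hb
      exact Mge_mono _ (by omega) h5
  have hcard := hli.fintype_card_le_finrank
  have h1 : Fintype.card ((P : S) × Fin (ord P.1 x).toNat) = ∑ P ∈ S, (ord P x).toNat := by
    rw [Fintype.card_sigma, ← Finset.sum_coe_sort S]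
    simp only [Fintype.card_fin]
  have h2 : ∑ P ∈ S, ord P x = ((∑ P ∈ S, (ord P x).toNat : ℕ) : ℤ) := by
    rw [Nat.cast_sum]
    exact Finset.sum_congr rfl fun P hP => (Int.toNat_of_nonneg (hS P hP).le).symm
  rw [h2, ← h1]
  exact_mod_cast hcard

theorem zeros_finite {x : F} (hx : ∀ a : k, x ≠ algebraMap k F a) :
    {P : Plk k F | 0 < ord P x}.Finite := by
  by_contra hinf
  obtain ⟨t, ht, hcard⟩ := Set.Infinite.exists_subset_card_eq hinf (Module.finrank k⟮x⟯ F + 1)
  have h1 := sum_ord_le hx t (fun P hP => ht hP)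
  have h2 : ∑ _P ∈ t, (1 : ℤ) ≤ ∑ P ∈ t, ord P x := Finset.sum_le_sum fun P hP => ht hP
  rw [Finset.sum_const, hcard, nsmul_eq_mul, mul_one] at h2
  push_cast at h2
  omega

theorem dv_finite {z : F} (hz : z ≠ 0) : {P : Plk k F | ord P z ≠ 0}.Finite := by
  by_cases hc : ∃ a : k, z = algebraMap k F a
  · obtain ⟨a, rfl⟩ := hc
    refine Set.finite_empty.subset fun P hP => ?_
    exact hP (ord_const P a)
  · push Not at hc
    refine ((zeros_finite hc).union (zeros_finite (nc_inv hc))).subset fun P hP => ?_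
    rcases lt_trichotomy (ord P z) 0 with h | h | h
    · right
      show 0 < ord P z⁻¹
      rw [ord_inv]
      omega
    · exact absurd h hP
    · left
      exact h

/-- the places over `x = c` are finite in number. -/
theorem fib_finite {x : F} (hx : ∀ a : k, x ≠ algebraMap k F a) (c : k) :
    {P : Plk k F | 0 < ord P (x - algebraMap k F c)}.Finite :=
  zeros_finite (nc_sub hx c)

variable (k) in
open Classical in
/-- the divisor of a function. -/
noncomputable def dv (z : F) : Plk k F →₀ ℤ :=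
  if hz : z ≠ 0 then Finsupp.ofSupportFinite (fun P => ord P z) (dv_finite hz) else 0

theorem dv_apply (z : F) (P : Plk k F) : dv k z P = ord P z := by
  unfold dv
  split_ifs with h
  · rfl
  · push Not at h
    rw [h, (ord_spec P).zero]
    rfl

theorem dv_mul {z w : F} (hz : z ≠ 0) (hw : w ≠ 0) : dv k (z * w) = dv k z + dv k w := by
  ext P
  rw [Finsupp.add_apply, dv_apply, dv_apply, dv_apply, ord_mul P hz hw]

theorem dv_inv (z : F) : dv k z⁻¹ = -dv k z := by
  ext P
  rw [Finsupp.neg_apply, dv_apply, dv_apply, ord_inv]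

theorem dv_const (a : k) : dv k (algebraMap k F a) = 0 := by
  ext P
  rw [dv_apply, ord_const, Finsupp.zero_apply]

end

end Vale.Agent.P019P
end
end

section

section

/-!
# Existence of zeros and poles
-/

namespace Vale.Agent.P019P

open IntermediateField

section

variable {k F : Type*} [Field k] [Field F] [Algebra k F] [CFF k F]

omit [CFF k F] in
/-- the ring `k[z]` is contained in a valuation ring in which `z` is not a unit. -/
theorem CPole_exists_val {z : F} (hz : Transcendental k z) :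
    ∃ B : ValuationSubring F, (∀ a : k, algebraMap k F a ∈ B) ∧ z ∈ B ∧ z⁻¹ ∉ B := by
  have hz0 : z ≠ 0 := fun h => hz (h ▸ isAlgebraic_zero)
  let A : Subring F := (Polynomial.aeval (R := k) z).range.toSubring
  have hmem : z ∈ A := ⟨Polynomial.X, Polynomial.aeval_X z⟩
  have hI : Ideal.span {(⟨z, hmem⟩ : A)} ≠ ⊤ := by
    intro h
    have h1 : (1 : A) ∈ Ideal.span {(⟨z, hmem⟩ : A)} := by rw [h]; exact Submodule.mem_top
    obtain ⟨w, hw⟩ := Ideal.mem_span_singleton'.1 h1
    obtain ⟨p, hp⟩ := w.2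
    have h2 : (w : F) * z = 1 := congrArg Subtype.val hw
    have h3 : Polynomial.aeval z (p * Polynomial.X - 1) = 0 := by
      rw [map_sub, map_mul, Polynomial.aeval_X, map_one, sub_eq_zero, ← h2]
      congr 1
    have h4 := (transcendental_iff.1 hz) _ h3
    have h5 := congrArg (fun q : Polynomial k => q.coeff 0) h4
    simp at h5
  obtain ⟨B, hB, hB2⟩ := Ideal.image_subset_nonunits_valuationSubring _ hI
  have h1 : z ∈ B.nonunits := hB2 ⟨_, Ideal.subset_span rfl, rfl⟩
  rw [ValuationSubring.mem_nonunits_iff] at h1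
  refine ⟨B, fun a => hB ⟨Polynomial.C a, Polynomial.aeval_C z a⟩, hB hmem, fun h2 => ?_⟩
  rw [← ValuationSubring.valuation_le_one_iff, map_inv₀] at h2
  have h3 : B.valuation z ≠ 0 := (Valuation.ne_zero_iff _).2 hz0
  exact absurd h1 (not_lt.2 ((inv_le_one₀ (zero_lt_iff.2 h3)).1 h2))

theorem exists_zero {z : F} (hz : ∀ a : k, z ≠ algebraMap k F a) : ∃ P : Plk k F, 0 < ord P z := by
  have hz0 : z ≠ 0 := fun h => hz 0 (by rw [h, map_zero])
  obtain ⟨B, h1, h2, h3⟩ := CPole_exists_val (finite_of_notMem hz).1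
  let P : Plk k F := ⟨B, h1, fun h => h3 (h ▸ ValuationSubring.mem_top _)⟩
  refine ⟨P, lt_of_not_ge fun h => h3 ?_⟩
  have h4 : 0 ≤ ord P z⁻¹ := by
    rw [ord_inv]
    omega
  exact ((ord_spec P).mem z⁻¹).2 (Or.inr h4)

theorem exists_pole {z : F} (hz : ∀ a : k, z ≠ algebraMap k F a) : ∃ P : Plk k F, ord P z < 0 := by
  obtain ⟨P, hP⟩ := exists_zero (nc_inv hz)
  rw [ord_inv] at hP
  exact ⟨P, by omega⟩

theorem dv_eq_zero_iff {z : F} (hz : z ≠ 0) : dv k z = 0 ↔ ∃ a : k, z = algebraMap k F a := by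
  constructor
  · intro h
    by_contra hc
    push Not at hc
    obtain ⟨P, hP⟩ := exists_zero hc
    rw [← dv_apply, h, Finsupp.coe_zero, Pi.zero_apply] at hP
    exact lt_irrefl _ hP
  · rintro ⟨a, rfl⟩
    exact dv_const a

variable (k F) in
theorem nonempty_Plk : Nonempty (Plk k F) := by
  obtain ⟨x, hx, _⟩ := CFF.ex (k := k) (F := F)
  obtain ⟨P, _⟩ := exists_zero (k := k) (z := x) fun a h => hx (h ▸ isAlgebraic_algebraMap a)
  exact ⟨P⟩

variable (k F) in
/-- principal divisors. -/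
def prn : AddSubgroup (Plk k F →₀ ℤ) where
  carrier := {D | ∃ z : F, z ≠ 0 ∧ D = dv k z}
  zero_mem' := ⟨1, one_ne_zero, ((dv_eq_zero_iff one_ne_zero).2 ⟨1, (map_one _).symm⟩).symm⟩
  add_mem' := by
    rintro _ _ ⟨z, hz, rfl⟩ ⟨w, hw, rfl⟩
    refine ⟨z * w, mul_ne_zero hz hw, ?_⟩
    ext P
    rw [Finsupp.add_apply, dv_apply, dv_apply, dv_apply, (ord_spec P).mul z w hz hw]
  neg_mem' := by
    rintro _ ⟨z, hz, rfl⟩
    refine ⟨z⁻¹, inv_ne_zero hz, ?_⟩
    ext P
    have h1 := (ord_spec P).mul z z⁻¹ hz (inv_ne_zero hz)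
    have h2 := (ord_spec P).mul 1 1 one_ne_zero one_ne_zero
    rw [mul_inv_cancel₀ hz] at h1
    rw [mul_one] at h2
    rw [Finsupp.neg_apply, dv_apply, dv_apply]
    omega

variable (k) in
/-- the Riemann-Roch space. -/
def LL (D : Plk k F →₀ ℤ) : Submodule k F where
  carrier := {z | z = 0 ∨ ∀ P, -D P ≤ ord P z}
  zero_mem' := Or.inl rfl
  add_mem' := by
    rintro z w hz hw
    by_cases h1 : z = 0
    · rw [h1, zero_add]; exact hw
    by_cases h2 : w = 0
    · rw [h2, add_zero]; exact hz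
    by_cases h3 : z + w = 0
    · exact Or.inl h3
    · right
      intro P
      have h4 := (hz.resolve_left h1) P
      have h5 := (hw.resolve_left h2) P
      exact (le_min h4 h5).trans ((ord_spec P).add z w h1 h2 h3)
  smul_mem' := by
    rintro a z hz
    by_cases h1 : z = 0
    · left; rw [h1, smul_zero]
    by_cases h2 : a = 0
    · left; rw [h2, zero_smul]
    right
    intro P
    have h3 : algebraMap k F a ≠ 0 := by rwa [Ne, map_eq_zero]
    have h4 : dv k (algebraMap k F a) = 0 := (dv_eq_zero_iff h3).2 ⟨a, rfl⟩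
    have h5 : ord P (algebraMap k F a) = 0 := by rw [← dv_apply, h4]; rfl
    rw [Algebra.smul_def, (ord_spec P).mul _ _ h3 h1, h5, zero_add]
    exact (hz.resolve_left h1) P

theorem mem_LL {D : Plk k F →₀ ℤ} {z : F} : z ∈ LL k D ↔ z = 0 ∨ ∀ P, -D P ≤ ord P z := Iff.rfl

theorem mem_LL_iff {D : Plk k F →₀ ℤ} {z : F} : z ∈ LL k D ↔ ∀ P, z ∈ Mge P (-D P) := by
  rw [mem_LL]
  exact forall_or_left.symm

end

end Vale.Agent.P019P
end
end

section

section

/-!
# Divisors: degree, induction along points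
-/

namespace Vale.Agent.P019P

variable {P : Type*}

theorem dg_apply (D : P →₀ ℤ) : dg D = D.sum fun _ n => n := by
  unfold dg
  rw [Finsupp.liftAddHom_apply]
  rfl

theorem dg_sgl (p : P) (n : ℤ) : dg (Finsupp.single p n) = n := by
  rw [dg_apply, Finsupp.sum_single_index rfl]

private theorem dg_nonneg {D : P →₀ ℤ} (h : 0 ≤ D) : 0 ≤ dg D := by
  rw [dg_apply]
  exact Finset.sum_nonneg fun p _ => h p

theorem dg_mono {D E : P →₀ ℤ} (h : D ≤ E) : dg D ≤ dg E := by
  have h1 : 0 ≤ dg (E - D) := dg_nonneg (sub_nonneg.2 h)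
  rw [map_sub] at h1
  linarith

theorem eq_of_le_of_dg_le {D E : P →₀ ℤ} (h : D ≤ E) (h1 : dg E ≤ dg D) : D = E := by
  have h2 : dg (E - D) ≤ 0 := by rw [map_sub]; linarith
  rw [dg_apply] at h2
  have hn : ∀ p ∈ (E - D).support, 0 ≤ (E - D) p := fun p _ => by
    rw [Finsupp.sub_apply]
    exact sub_nonneg.2 (h p)
  have h3 : (E - D).sum (fun _ n => n) = 0 := le_antisymm h2 (Finset.sum_nonneg hn)
  have h4 := (Finset.sum_eq_zero_iff_of_nonneg hn).1 h3
  ext p
  by_cases hp : p ∈ (E - D).support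
  · have := h4 p hp
    rw [Finsupp.sub_apply] at this
    linarith
  · rw [Finsupp.notMem_support_iff, Finsupp.sub_apply] at hp
    linarith

theorem dg_eq_sum {D : P →₀ ℤ} {S : Finset P} (h : ∀ p, p ∉ S → D p = 0) :
    dg D = ∑ p ∈ S, D p := by
  rw [dg_apply]
  refine Finsupp.sum_of_support_subset D ?_ _ fun _ _ => rfl
  intro p hp
  by_contra hps
  exact Finsupp.mem_support_iff.1 hp (h p hps)

/-- induction upwards from a divisor, adding one point at a time. -/
theorem dv_induct {motive : (P →₀ ℤ) → Prop} {D : P →₀ ℤ} (h0 : motive D)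
    (hs : ∀ (E : P →₀ ℤ) (p : P), D ≤ E → motive E → motive (E + Finsupp.single p 1))
    {E : P →₀ ℤ} (hE : D ≤ E) : motive E := by
  obtain ⟨n, hn⟩ : ∃ n : ℕ, n = (dg (E - D)).toNat := ⟨_, rfl⟩
  induction n generalizing E with
  | zero =>
    have h1 : dg E ≤ dg D := by
      have : dg (E - D) ≤ 0 := by
        by_contra hc
        push Not at hc
        have := Int.toNat_of_nonneg hc.le
        omega
      rw [map_sub] at this
      linarith
    rw [← eq_of_le_of_dg_le hE h1]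
    exact h0
  | succ n ih =>
    have hne : E ≠ D := by
      rintro rfl
      rw [sub_self, map_zero] at hn
      simp at hn
    obtain ⟨p, hp⟩ : ∃ p, E p ≠ D p := by
      by_contra hc
      push Not at hc
      exact hne (Finsupp.ext hc)
    have hp1 : D p < E p := lt_of_le_of_ne (hE p) (Ne.symm hp)
    have hE' : D ≤ E - Finsupp.single p 1 := by
      intro q
      rw [Finsupp.sub_apply]
      by_cases hq : q = p
      · subst hq
        rw [Finsupp.single_eq_same]
        omega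
      · rw [Finsupp.single_eq_of_ne hq, sub_zero]
        exact hE q
    have h2 : n = (dg (E - Finsupp.single p 1 - D)).toNat := by
      have : dg (E - Finsupp.single p 1 - D) = dg (E - D) - 1 := by
        rw [map_sub, map_sub, map_sub, dg_sgl]
        ring
      rw [this]
      omega
    have h3 := hs _ p hE' (ih hE' h2)
    rwa [sub_add_cancel] at h3

end Vale.Agent.P019P
end
end

section

section

/-!
# Riemann-Roch spaces: finiteness and elementary estimates
-/

namespace Vale.Agent.P019P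

open IntermediateField

section

variable {k F : Type*} [Field k] [Field F] [Algebra k F] [CFF k F]

theorem LL_mono {D E : Plk k F →₀ ℤ} (h : D ≤ E) : LL k D ≤ LL k E := by
  intro z hz
  rcases mem_LL.1 hz with h0 | h1
  · exact mem_LL.2 (Or.inl h0)
  · exact mem_LL.2 (Or.inr fun P => (neg_le_neg (h P)).trans (h1 P))

theorem LL_zero_le {z : F} (hz : z ∈ LL k (0 : Plk k F →₀ ℤ)) : ∃ a : k, z = algebraMap k F a := by
  by_contra hc
  have hc' : ∀ a : k, z ≠ algebraMap k F a := fun a ha => hc ⟨a, ha⟩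
  obtain ⟨P, hP⟩ := exists_pole hc'
  rcases mem_LL.1 hz with h0 | h1
  · exact hc' 0 (by rw [h0, map_zero])
  · have h2 := h1 P
    rw [Finsupp.zero_apply, neg_zero] at h2
    omega

/-- adding a point adds at most one element. -/
theorem LL_step {D : Plk k F →₀ ℤ} {P : Plk k F} {z w : F}
    (hz : z ∈ LL k (D + Finsupp.single P 1)) (hz' : z ∉ LL k D)
    (hw : w ∈ LL k (D + Finsupp.single P 1)) : ∃ a : k, w - a • z ∈ LL k D := by
  classical
  have hz0 : z ≠ 0 := fun h => hz' (by rw [h]; exact Submodule.zero_mem _)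
  have hzo : ∀ Q, -(D + Finsupp.single P (1 : ℤ)) Q ≤ ord Q z := (mem_LL.1 hz).resolve_left hz0
  have hne : ∀ Q, Q ≠ P → (D + Finsupp.single P (1 : ℤ)) Q = D Q := fun Q hQ => by
    rw [Finsupp.add_apply, Finsupp.single_apply, if_neg (Ne.symm hQ), add_zero]
  have hPP : (D + Finsupp.single P (1 : ℤ)) P = D P + 1 := by
    rw [Finsupp.add_apply, Finsupp.single_eq_same]
  have hzP : ord P z = -D P - 1 := by
    have h1 := hzo P
    rw [hPP] at h1
    by_contra hc
    refine hz' (mem_LL.2 (Or.inr fun Q => ?_))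
    by_cases hQ : Q = P
    · rw [hQ]; omega
    · have h2 := hzo Q
      rw [hne Q hQ] at h2
      exact h2
  have hwM := mem_LL_iff.1 hw
  have hzM := mem_LL_iff.1 hz
  have hwP : w ∈ Mge P (-D P - 1) := by
    have h := hwM P
    rw [hPP] at h
    have e : -(D P + 1) = -D P - 1 := by ring
    rwa [e] at h
  obtain ⟨a, ha⟩ := exists_sub_mem hz0 hzP hwP
  refine ⟨a, mem_LL_iff.2 fun Q => ?_⟩
  by_cases hQ : Q = P
  · rw [hQ]
    have e : -D P - 1 + 1 = -D P := by ring
    rwa [e] at ha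
  · have h1 := hwM Q
    have h2 := hzM Q
    rw [hne Q hQ] at h1 h2
    exact Submodule.sub_mem _ h1 (Submodule.smul_mem _ _ h2)

theorem CL_le_sup {D : Plk k F →₀ ℤ} {P : Plk k F} {z : F}
    (hz : z ∈ LL k (D + Finsupp.single P 1)) (hz' : z ∉ LL k D) :
    LL k (D + Finsupp.single P 1) ≤ LL k D ⊔ Submodule.span k {z} := by
  intro w hw
  obtain ⟨a, ha⟩ := LL_step hz hz' hw
  rw [Submodule.mem_sup]
  exact ⟨w - a • z, ha, a • z, Submodule.smul_mem _ _ (Submodule.mem_span_singleton_self z),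
    by rw [sub_add_cancel]⟩

omit [CFF k F] in
theorem CL_le_single (D : Plk k F →₀ ℤ) (P : Plk k F) : D ≤ D + Finsupp.single P 1 := by
  classical
  intro Q
  rw [Finsupp.add_apply, Finsupp.single_apply]
  split_ifs <;> omega

theorem CL_zero_le_span : LL k (0 : Plk k F →₀ ℤ) ≤ Submodule.span k {(1 : F)} := by
  intro z hz
  obtain ⟨a, rfl⟩ := LL_zero_le hz
  rw [Algebra.algebraMap_eq_smul_one]
  exact Submodule.smul_mem _ _ (Submodule.mem_span_singleton_self _)

instance LL_finite (D : Plk k F →₀ ℤ) : FiniteDimensional k (LL k D) := by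
  classical
  have key : ∀ E : Plk k F →₀ ℤ, 0 ≤ E → FiniteDimensional k (LL k E) := by
    intro E hE
    refine dv_induct (motive := fun E => FiniteDimensional k (LL k E)) (D := 0) ?_ ?_ hE
    · exact Submodule.finiteDimensional_of_le CL_zero_le_span
    · intro E P _ ih
      by_cases h : LL k (E + Finsupp.single P 1) ≤ LL k E
      · exact Submodule.finiteDimensional_of_le h
      · obtain ⟨z, hz, hz'⟩ := Set.not_subset.1 h
        exact Submodule.finiteDimensional_of_le (CL_le_sup hz hz')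
  have h1 : D ≤ D ⊔ 0 := le_sup_left
  have h2 : FiniteDimensional k (LL k (D ⊔ 0)) := key _ le_sup_right
  exact Submodule.finiteDimensional_of_le (LL_mono h1)

theorem l_mono {D E : Plk k F →₀ ℤ} (h : D ≤ E) :
    Module.finrank k (LL k D) ≤ Module.finrank k (LL k E) :=
  Submodule.finrank_mono (LL_mono h)

theorem l_zero : Module.finrank k (LL k (0 : Plk k F →₀ ℤ)) = 1 := by
  have h : LL k (0 : Plk k F →₀ ℤ) = Submodule.span k {(1 : F)} := by
    refine le_antisymm CL_zero_le_span ?_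
    rw [Submodule.span_singleton_le_iff_mem]
    refine mem_LL.2 (Or.inr fun P => ?_)
    rw [ord_one, Finsupp.zero_apply, neg_zero]
  rw [h]
  exact finrank_span_singleton one_ne_zero

/-- the dimension of `LL k D` jumps by one if there is a new element, and not otherwise. -/
theorem l_step_of_mem {D : Plk k F →₀ ℤ} {P : Plk k F} {z : F}
    (hz : z ∈ LL k (D + Finsupp.single P 1)) (hz' : z ∉ LL k D) :
    Module.finrank k (LL k (D + Finsupp.single P 1)) = Module.finrank k (LL k D) + 1 := by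
  have hz0 : z ≠ 0 := fun h => hz' (by rw [h]; exact Submodule.zero_mem _)
  have h1 : LL k (D + Finsupp.single P 1) = LL k D ⊔ Submodule.span k {z} := by
    refine le_antisymm (CL_le_sup hz hz') (sup_le (LL_mono (CL_le_single D P)) ?_)
    rw [Submodule.span_singleton_le_iff_mem]
    exact hz
  have h2 : LL k D ⊓ Submodule.span k {z} = ⊥ := by
    rw [Submodule.eq_bot_iff]
    rintro w ⟨hw1, hw2⟩
    obtain ⟨a, rfl⟩ := Submodule.mem_span_singleton.1 hw2
    by_cases ha : a = 0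
    · rw [ha, zero_smul]
    · exfalso
      apply hz'
      have h3 := Submodule.smul_mem (LL k D) a⁻¹ hw1
      rwa [smul_smul, inv_mul_cancel₀ ha, one_smul] at h3
  have h3 := Submodule.finrank_sup_add_finrank_inf_eq (LL k D) (Submodule.span k {z})
  rw [h2, finrank_bot, add_zero, finrank_span_singleton hz0] at h3
  rw [h1]
  exact h3

theorem l_step_of_eq {D : Plk k F →₀ ℤ} {P : Plk k F}
    (h : LL k (D + Finsupp.single P 1) ≤ LL k D) :
    Module.finrank k (LL k (D + Finsupp.single P 1)) = Module.finrank k (LL k D) :=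
  le_antisymm (Submodule.finrank_mono h) (l_mono (CL_le_single D P))

/-- `l(E) - l(D) ≤ deg E - deg D`. -/
theorem l_sub_le {D E : Plk k F →₀ ℤ} (h : D ≤ E) :
    (Module.finrank k (LL k E) : ℤ) - Module.finrank k (LL k D) ≤ dg E - dg D := by
  refine dv_induct (motive := fun E => (Module.finrank k (LL k E) : ℤ) -
    Module.finrank k (LL k D) ≤ dg E - dg D) (D := D) ?_ ?_ h
  · simp
  · intro E P _ ih
    have h1 : dg (E + Finsupp.single P 1) = dg E + 1 := by
      rw [map_add, dg_sgl]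
    rw [h1]
    by_cases h : LL k (E + Finsupp.single P 1) ≤ LL k E
    · rw [l_step_of_eq h]
      omega
    · obtain ⟨z, hz, hz'⟩ := Set.not_subset.1 h
      rw [l_step_of_mem hz hz']
      push_cast
      omega

/-- linear equivalence. -/
theorem mul_mem_LL_iff {D : Plk k F →₀ ℤ} {z w : F} (hz : z ≠ 0) :
    z * w ∈ LL k D ↔ w ∈ LL k (D + dv k z) := by
  rw [mem_LL, mem_LL, mul_eq_zero, or_iff_right_of_imp (a := z = 0) (fun h => absurd h hz)]
  by_cases hw : w = 0
  · simp [hw]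
  · simp only [hw, false_or]
    refine forall_congr' fun P => ?_
    rw [ord_mul P hz hw, Finsupp.add_apply, dv_apply]
    omega

theorem l_add_dv (D : Plk k F →₀ ℤ) {z : F} (hz : z ≠ 0) :
    Module.finrank k (LL k (D + dv k z)) = Module.finrank k (LL k D) := by
  have h1 : (LL k (D + dv k z)).map (LinearMap.mulLeft k z) = LL k D := by
    ext w
    rw [Submodule.mem_map]
    constructor
    · rintro ⟨u, hu, rfl⟩
      rw [LinearMap.mulLeft_apply]
      exact (mul_mem_LL_iff hz).2 hu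
    · intro hw
      refine ⟨z⁻¹ * w, ?_, ?_⟩
      · rw [← mul_mem_LL_iff hz, mul_inv_cancel_left₀ hz]
        exact hw
      · rw [LinearMap.mulLeft_apply, mul_inv_cancel_left₀ hz]
  have hinj : Function.Injective (LinearMap.mulLeft k z) := by
    intro u v huv
    rw [LinearMap.mulLeft_apply, LinearMap.mulLeft_apply] at huv
    exact mul_left_cancel₀ hz huv
  rw [← h1]
  exact (LinearEquiv.finrank_eq (Submodule.equivMapOfInjective _ hinj _))

/-- a nonzero element of `LL k D` gives an effective divisor. -/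
theorem exists_ne_zero_of_l {D : Plk k F →₀ ℤ} (h : 0 < Module.finrank k (LL k D)) :
    ∃ z : F, z ≠ 0 ∧ 0 ≤ D + dv k z := by
  have hne : LL k D ≠ ⊥ := by
    intro hb
    rw [hb, finrank_bot] at h
    exact lt_irrefl _ h
  obtain ⟨z, hz, hz0⟩ := Submodule.exists_mem_ne_zero_of_ne_bot hne
  refine ⟨z, hz0, fun P => ?_⟩
  have h1 := ((mem_LL.1 hz).resolve_left hz0) P
  rw [Finsupp.zero_apply, Finsupp.add_apply, dv_apply]
  omega

end

end Vale.Agent.P019P
end
end

section

section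

/-!
# The degree of a principal divisor is zero
-/

namespace Vale.Agent.P019P

open IntermediateField

section

variable {k F : Type*} [Field k] [Field F] [Algebra k F] [CFF k F]

variable (k) in
/-- the divisor of poles. -/
noncomputable def pol (x : F) : Plk k F →₀ ℤ :=
  (dv k x).mapRange (fun n => max 0 (-n)) (by simp)

theorem pol_apply (x : F) (P : Plk k F) : pol k x P = max 0 (-ord P x) := by
  rw [pol, Finsupp.mapRange_apply, dv_apply]

theorem pol_nonneg (x : F) : 0 ≤ pol k x := by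
  intro P
  rw [pol_apply]
  exact le_max_left _ _

theorem dv_eq_pol_sub (x : F) : dv k x = pol k x⁻¹ - pol k x := by
  ext P
  rw [Finsupp.sub_apply, pol_apply, pol_apply, dv_apply, ord_inv]
  omega

/-- the elements `x ^ j * u i`, for a basis `u` over `k(x)`, lie in the Riemann-Roch space of a
divisor close to `r` times the divisor of poles. -/
theorem cDeg_mem {x : F} (hx : x ≠ 0) {ι : Type*} [Fintype ι] {u : ι → F} (hu : ∀ i, u i ≠ 0)
    {r j : ℕ} (hj : j ≤ r) (i : ι) :
    x ^ j * u i ∈ LL k (r • pol k x + ∑ i, pol k (u i)) := by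
  right
  intro P
  rw [ord_mul P (pow_ne_zero _ hx) (hu i), ord_pow, Finsupp.add_apply, Finsupp.smul_apply,
    pol_apply, Finsupp.finsetSum_apply, nsmul_eq_mul]
  have h1 : pol k (u i) P ≤ ∑ i, pol k (u i) P :=
    Finset.single_le_sum (f := fun i => pol k (u i) P) (fun i _ => pol_nonneg (u i) P)
      (Finset.mem_univ i)
  rw [pol_apply] at h1
  have h2 : (j : ℤ) * -(max 0 (-ord P x)) ≤ j * ord P x :=
    mul_le_mul_of_nonneg_left (by omega) (Int.natCast_nonneg j)
  have h3 : (j : ℤ) * max 0 (-ord P x) ≤ r * max 0 (-ord P x) :=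
    mul_le_mul_of_nonneg_right (by exact_mod_cast hj) (le_max_left _ _)
  rw [mul_neg] at h2
  omega

/-- a lower bound for the dimensions of the Riemann-Roch spaces of the multiples of the divisor of
poles. -/
theorem cDeg_lower {x : F} (hx : ∀ a : k, x ≠ algebraMap k F a) :
    ∃ C : ℤ, ∀ r : ℕ, (r + 1) * (Module.finrank k⟮x⟯ F : ℤ) - C ≤
      Module.finrank k (LL k (r • pol k x)) := by
  obtain ⟨hx1, hx2⟩ := finite_of_notMem hx
  have hx0 : x ≠ 0 := fun h => hx 0 (by rw [h, map_zero])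
  set u := Module.finBasis k⟮x⟯ F with hu
  have hu0 : ∀ i, u i ≠ 0 := fun i => u.ne_zero i
  refine ⟨dg (∑ i, pol k (u i)), fun r => ?_⟩
  have h1 := l_sub_le (k := k) (D := r • pol k x) (E := r • pol k x + ∑ i, pol k (u i))
    (le_add_of_nonneg_right (Finset.sum_nonneg fun i _ => pol_nonneg (u i)))
  rw [map_add] at h1
  have h2 := indep_pow_mul hx1 u.linearIndependent
  let e : Fin (Module.finrank k⟮x⟯ F) × Fin (r + 1) → Fin (Module.finrank k⟮x⟯ F) × ℕ :=
    fun p => (p.1, p.2)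
  have he : Function.Injective e := by
    rintro ⟨a, b⟩ ⟨c, d⟩ h
    rw [Prod.mk.injEq] at h ⊢
    exact ⟨h.1, Fin.ext h.2⟩
  have h3 := h2.comp e he
  have h4 : LinearIndependent k (fun p : Fin (Module.finrank k⟮x⟯ F) × Fin (r + 1) =>
      (⟨x ^ (p.2 : ℕ) * u p.1, cDeg_mem hx0 hu0 (Nat.lt_succ_iff.1 p.2.2) p.1⟩ :
        LL k (r • pol k x + ∑ i, pol k (u i)))) :=
    LinearIndependent.of_comp (LL k (r • pol k x + ∑ i, pol k (u i))).subtype h3
  have h5 := h4.fintype_card_le_finrank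
  rw [Fintype.card_prod, Fintype.card_fin, Fintype.card_fin] at h5
  have h6 : (Module.finrank k⟮x⟯ F : ℤ) * (r + 1) ≤
      Module.finrank k (LL k (r • pol k x + ∑ i, pol k (u i))) := by exact_mod_cast h5
  rw [mul_comm] at h6
  omega

omit [CFF k F] in
theorem cDeg_finrank_inv (x : F) : Module.finrank k⟮x⁻¹⟯ F = Module.finrank k⟮x⟯ F := by
  rw [adjoin_inv_eq]

theorem dg_pol {x : F} (hx : ∀ a : k, x ≠ algebraMap k F a) :
    dg (pol k x) = Module.finrank k⟮x⟯ F := by
  apply le_antisymm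
  · have h1 := sum_ord_le (nc_inv hx) (pol k x).support fun P hP => by
      rw [Finsupp.mem_support_iff, pol_apply] at hP
      rw [ord_inv]
      omega
    rw [cDeg_finrank_inv] at h1
    rw [dg_eq_sum (S := (pol k x).support) fun P hP => Finsupp.notMem_support_iff.1 hP]
    refine le_trans (le_of_eq (Finset.sum_congr rfl fun P hP => ?_)) h1
    rw [Finsupp.mem_support_iff, pol_apply] at hP
    rw [pol_apply, ord_inv]
    omega
  · obtain ⟨C, hC⟩ := cDeg_lower hx
    by_contra hlt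
    rw [not_le] at hlt
    have h0 : (0 : ℤ) ≤ dg (pol k x) := by
      have := dg_mono (pol_nonneg (k := k) x)
      rwa [map_zero] at this
    have h1 := hC (C.toNat + 1)
    have h2 := l_sub_le (k := k) (D := 0) (E := (C.toNat + 1) • pol k x)
      (nsmul_nonneg (pol_nonneg x) _)
    rw [l_zero, map_nsmul, map_zero, nsmul_eq_mul, Nat.cast_one] at h2
    push_cast at h1 h2
    have h3 : C ≤ C.toNat := Int.self_le_toNat C
    have h4 : ((C.toNat : ℤ) + 1 + 1) * (dg (pol k x) + 1) ≤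
        (C.toNat + 1 + 1) * (Module.finrank k⟮x⟯ F : ℤ) :=
      mul_le_mul_of_nonneg_left (by omega) (by omega)
    have h5 : ((C.toNat : ℤ) + 1 + 1) * (dg (pol k x) + 1) =
      (C.toNat + 1) * dg (pol k x) + dg (pol k x) + C.toNat + 2 := by ring
    omega

/-- Riemann's lower bound for the multiples of the divisor of poles. -/
theorem exists_l_pol {x : F} (hx : ∀ a : k, x ≠ algebraMap k F a) :
    ∃ C : ℤ, ∀ r : ℕ, r * (Module.finrank k⟮x⟯ F : ℤ) - C ≤
      Module.finrank k (LL k (r • pol k x)) := by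
  obtain ⟨C, hC⟩ := cDeg_lower hx
  refine ⟨C, fun r => ?_⟩
  have h1 := hC r
  rw [add_mul, one_mul] at h1
  omega

theorem dg_dv (z : F) : dg (dv k z) = 0 := by
  by_cases hz : ∃ a : k, z = algebraMap k F a
  · obtain ⟨a, rfl⟩ := hz
    rw [dv_const, map_zero]
  · rw [not_exists] at hz
    rw [dv_eq_pol_sub, map_sub, dg_pol (nc_inv hz), dg_pol hz, cDeg_finrank_inv, sub_self]

/-- the degree of the fibre. -/
theorem fib_sum {x : F} (hx : ∀ a : k, x ≠ algebraMap k F a) (c : k) :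
    ∑ P ∈ (fib_finite hx c).toFinset, ord P (x - algebraMap k F c) = Module.finrank k⟮x⟯ F := by
  have h1 := dg_pol (nc_inv (nc_sub hx c))
  rw [cDeg_finrank_inv, adjoin_sub_eq, dg_eq_sum (S := (fib_finite hx c).toFinset)] at h1
  · rw [← h1]
    refine Finset.sum_congr rfl fun P hP => ?_
    rw [Set.Finite.mem_toFinset, Set.mem_ofPred_eq] at hP
    rw [pol_apply, ord_inv]
    omega
  · intro P hP
    rw [Set.Finite.mem_toFinset, Set.mem_ofPred_eq] at hP
    rw [pol_apply, ord_inv]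
    omega

theorem LL_eq_bot {D : Plk k F →₀ ℤ} (h : dg D < 0) : LL k D = ⊥ := by
  rw [eq_bot_iff]
  rintro z (hz | hz)
  · exact hz
  · exfalso
    have h1 : 0 ≤ D + dv k z := by
      intro P
      have h2 := hz P
      rw [Finsupp.add_apply, dv_apply, Finsupp.zero_apply]
      omega
    have h3 := dg_mono h1
    rw [map_zero, map_add, dg_dv, add_zero] at h3
    omega

theorem l_eq_zero {D : Plk k F →₀ ℤ} (h : dg D < 0) : Module.finrank k (LL k D) = 0 := by
  rw [LL_eq_bot h, finrank_bot]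

variable (k F) in
/-- divisors of large degree. -/
theorem exists_dg_eq (n : ℤ) : ∃ D : Plk k F →₀ ℤ, dg D = n := by
  obtain ⟨P⟩ := nonempty_Plk k F
  exact ⟨Finsupp.single P n, dg_sgl P n⟩

end

end Vale.Agent.P019P
end
end

section

section

/-!
# Graded bases
-/

namespace Vale.Agent.P019P

open Polynomial IntermediateField

section

variable {k F : Type*} [Field k] [Field F] [Algebra k F]

/-- a filtration of a subspace of `F` by finite dimensional spaces, compatible with multiplication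
by `x`. -/
structure Flt (x : F) (M : ℤ → Submodule k F) : Prop where
  fin : ∀ r, FiniteDimensional k (M r)
  neg : ∀ r, r < 0 → M r = ⊥
  mono : Monotone M
  mul : ∀ r z, z ∈ M r → x * z ∈ M (r + 1)
  colon : ∀ r s z, z ∈ M s → x * z ∈ M r → z ∈ M (r - 1)

/-- a graded basis of a filtration. -/
structure GrB (x : F) (M : ℤ → Submodule k F) {ι : Type*} [Fintype ι] (e : ι → F)
    (a : ι → ℕ) : Prop where
  mem : ∀ i, e i ∈ M (a i)
  ind : LinearIndependent k⟮x⟯ e
  span : ∀ (r : ℤ) (z : F), z ∈ M r → ∃ φ : ι → k[X], z = ∑ i, aeval x (φ i) * e i ∧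
    ∀ i, φ i ≠ 0 → ((φ i).natDegree : ℤ) + a i ≤ r

/-- complement of a subspace by a family. -/
private theorem CGrA_cpl (V W : Submodule k F) [FiniteDimensional k V] :
    ∃ (n : ℕ) (e : Fin n → F), (∀ i, e i ∈ V) ∧
      (∀ c : Fin n → k, ∑ i, c i • e i ∈ W → ∀ i, c i = 0) ∧
      ∀ z ∈ V, ∃ c : Fin n → k, z - ∑ i, c i • e i ∈ W := by
  let W' := W.comap V.subtype
  let b := Module.finBasis k (V ⧸ W')
  have hl : ∀ i, ∃ v : V, W'.mkQ v = b i := fun i => W'.mkQ_surjective (b i)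
  choose v hv using hl
  refine ⟨Module.finrank k (V ⧸ W'), fun i => (v i : F), fun i => (v i).2, ?_, ?_⟩
  · intro c hc i
    have h1 : (∑ i, c i • v i) ∈ W' := by
      show V.subtype (∑ i, c i • v i) ∈ W
      rw [map_sum]
      exact hc
    have h2 : ∑ i, c i • b i = 0 := by
      have h3 : W'.mkQ (∑ i, c i • v i) = 0 := (Submodule.Quotient.mk_eq_zero W').2 h1
      rw [map_sum] at h3
      rw [← h3]
      exact Finset.sum_congr rfl fun j _ => by rw [map_smul, hv]
    exact (Fintype.linearIndependent_iff.1 b.linearIndependent) c h2 i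
  · intro z hz
    refine ⟨fun i => b.repr (W'.mkQ ⟨z, hz⟩) i, ?_⟩
    have h1 : ((⟨z, hz⟩ : V) - ∑ i, b.repr (W'.mkQ ⟨z, hz⟩) i • v i) ∈ W' := by
      rw [← Submodule.Quotient.mk_eq_zero W']
      show W'.mkQ ((⟨z, hz⟩ : V) - ∑ i, b.repr (W'.mkQ ⟨z, hz⟩) i • v i) = 0
      rw [map_sub, map_sum, sub_eq_zero]
      conv_lhs => rw [← b.sum_repr (W'.mkQ ⟨z, hz⟩)]
      exact Finset.sum_congr rfl fun j _ => by rw [map_smul, hv]
    have h2 : V.subtype ((⟨z, hz⟩ : V) - ∑ i, b.repr (W'.mkQ ⟨z, hz⟩) i • v i) ∈ W := h1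
    rw [map_sub, map_sum] at h2
    exact h2

private theorem CGrA_pow {x : F} {M : ℤ → Submodule k F} (h : Flt x M) {s : ℤ} {z : F}
    (hz : z ∈ M s) (j : ℕ) : x ^ j * z ∈ M (s + j) := by
  induction j with
  | zero => simpa using hz
  | succ j ih =>
    have h1 := h.mul _ _ ih
    rw [← mul_assoc, ← pow_succ'] at h1
    rw [Nat.cast_succ, ← add_assoc]
    exact h1

/-- the triangular step. -/
private theorem CGrA_tri {x : F} {M : ℤ → Submodule k F} (h : Flt x M) {ι : Type*} [Fintype ι]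
    (e : ι → F) (a : ι → ℕ) (h1 : ∀ i, e i ∈ M (a i))
    (h2 : ∀ (r : ℕ) (c : ι → k), (∃ z₁ ∈ M ((r : ℤ) - 1), ∃ z₂ ∈ M ((r : ℤ) - 1),
      (∑ i, if a i = r then c i • e i else 0) = z₁ + x * z₂) → ∀ i, a i = r → c i = 0)
    (c : ι → k) : ∀ r : ℕ,
      (∑ i, if a i ≤ r then c i • (x ^ (r - a i) * e i) else 0) ∈ M ((r : ℤ) - 1) →
      ∀ i, a i ≤ r → c i = 0 := by
  intro r
  induction r with
  | zero =>
    intro hr i hi
    refine h2 0 c ⟨_, hr, 0, Submodule.zero_mem _, ?_⟩ i (by omega)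
    rw [mul_zero, add_zero]
    refine Finset.sum_congr rfl fun j _ => ?_
    by_cases hj : a j = 0
    · rw [if_pos hj, if_pos hj.le, hj, Nat.sub_self, pow_zero, one_mul]
    · rw [if_neg hj, if_neg (by omega)]
  | succ r ih =>
    intro hr
    have hr' : (((r + 1 : ℕ) : ℤ) - 1) = r := by push_cast; ring
    rw [hr'] at hr
    have e1 : (∑ i, if a i ≤ r + 1 then c i • (x ^ (r + 1 - a i) * e i) else 0) =
        x * (∑ i, if a i ≤ r then c i • (x ^ (r - a i) * e i) else 0) +
          ∑ i, if a i = r + 1 then c i • e i else 0 := by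
      rw [Finset.mul_sum, ← Finset.sum_add_distrib]
      refine Finset.sum_congr rfl fun j _ => ?_
      rcases lt_trichotomy (a j) (r + 1) with hj | hj | hj
      · rw [if_pos hj.le, if_pos (by omega), if_neg (by omega), add_zero, mul_smul_comm,
          ← mul_assoc, ← pow_succ', show r + 1 - a j = r - a j + 1 by omega]
      · rw [if_pos hj.le, if_neg (by omega), if_pos hj, hj, Nat.sub_self, pow_zero, one_mul,
          mul_zero, zero_add]
      · rw [if_neg (by omega), if_neg (by omega), if_neg (by omega), mul_zero, zero_add]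
    have hSr : (∑ i, if a i ≤ r then c i • (x ^ (r - a i) * e i) else 0) ∈ M (r : ℤ) := by
      refine Submodule.sum_mem _ fun j _ => ?_
      split_ifs with hj
      · refine Submodule.smul_mem _ _ ?_
        have h3 := CGrA_pow h (h1 j) (r - a j)
        have h4 : ((a j : ℤ) + ((r - a j : ℕ) : ℤ)) = r := by omega
        rwa [h4] at h3
      · exact Submodule.zero_mem _
    have hc1 := h2 (r + 1) c ⟨_, hr' ▸ hr, _, hr' ▸ (Submodule.neg_mem _ hSr), by
      rw [e1]; ring⟩
    have e2 : (∑ i, if a i = r + 1 then c i • e i else 0) = 0 := by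
      refine Finset.sum_eq_zero fun j _ => ?_
      split_ifs with hj
      · rw [hc1 j hj, zero_smul]
      · rfl
    rw [e1, e2, add_zero] at hr
    have h5 := ih (h.colon _ _ _ hSr hr)
    intro i hi
    rcases Nat.lt_or_ge (a i) (r + 1) with h6 | h6
    · exact h5 i (by omega)
    · exact hc1 i (by omega)

/-- independence. -/
private theorem CGrA_ind {x : F} {M : ℤ → Submodule k F} (h : Flt x M)
    (hx : Transcendental k x) {ι : Type*} [Fintype ι]
    (e : ι → F) (a : ι → ℕ) (h1 : ∀ i, e i ∈ M (a i))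
    (h2 : ∀ (r : ℕ) (c : ι → k), (∃ z₁ ∈ M ((r : ℤ) - 1), ∃ z₂ ∈ M ((r : ℤ) - 1),
      (∑ i, if a i = r then c i • e i else 0) = z₁ + x * z₂) → ∀ i, a i = r → c i = 0) :
    LinearIndependent k⟮x⟯ e := by
  refine indep_of_poly hx fun φ h0 => ?_
  have key : ∀ N : ℕ, (∀ i j, N + 1 ≤ j + a i → (φ i).coeff j = 0) →
      ∀ i j, N ≤ j + a i → (φ i).coeff j = 0 := by
    intro N hN
    have h3 : (∑ i, if a i ≤ N then (φ i).coeff (N - a i) • (x ^ (N - a i) * e i) else 0) ∈
        M ((N : ℤ) - 1) := by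
      have h4 : (∑ i, (aeval x (φ i) * e i -
          if a i ≤ N then (φ i).coeff (N - a i) • (x ^ (N - a i) * e i) else 0)) ∈
          M ((N : ℤ) - 1) := by
        refine Submodule.sum_mem _ fun i _ => ?_
        by_cases hi : a i ≤ N
        · rw [if_pos hi]
          have hd : (φ i).natDegree < N - a i + 1 := by
            rw [Nat.lt_succ_iff, natDegree_le_iff_coeff_eq_zero]
            intro j hj
            exact hN i j (by omega)
          rw [aeval_eq_sum_range' hd, Finset.sum_range_succ, add_mul, Finset.sum_mul,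
            smul_mul_assoc, add_sub_cancel_right]
          refine Submodule.sum_mem _ fun j hj => ?_
          rw [smul_mul_assoc]
          refine Submodule.smul_mem _ _ (h.mono ?_ (CGrA_pow h (h1 i) j))
          have := Finset.mem_range.1 hj
          omega
        · rw [if_neg hi, sub_zero]
          have h5 : φ i = 0 := by
            ext j
            rw [coeff_zero]
            exact hN i j (by omega)
          rw [h5, map_zero, zero_mul]
          exact Submodule.zero_mem _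
      rw [Finset.sum_sub_distrib, h0, zero_sub] at h4
      exact (Submodule.neg_mem_iff _).1 h4
    have h6 := CGrA_tri h e a h1 h2 (fun i => (φ i).coeff (N - a i)) N h3
    intro i j hij
    rcases Nat.lt_or_ge N (j + a i) with h7 | h7
    · exact hN i j h7
    · have h8 := h6 i (by omega)
      rwa [show N - a i = j by omega] at h8
  have hbig : ∀ i j, (∑ i, ((φ i).natDegree + a i)) + 1 ≤ j + a i → (φ i).coeff j = 0 := by
    intro i j hij
    refine coeff_eq_zero_of_natDegree_lt ?_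
    have := Finset.single_le_sum (f := fun i => (φ i).natDegree + a i)
      (fun _ _ => Nat.zero_le _) (Finset.mem_univ i)
    omega
  have hall : ∀ N : ℕ, (∀ i j, N ≤ j + a i → (φ i).coeff j = 0) → ∀ i j, (φ i).coeff j = 0 := by
    intro N
    induction N with
    | zero => intro hN i j; exact hN i j (Nat.zero_le _)
    | succ N ih => intro hN; exact ih (key N hN)
  intro i
  ext j
  rw [coeff_zero]
  exact hall _ hbig i j

/-- the span. -/
private theorem CGrA_span {x : F} {M : ℤ → Submodule k F} (h : Flt x M) {ι : Type*} [Fintype ι]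
    (e : ι → F) (a : ι → ℕ)
    (h3 : ∀ (r : ℕ) (z : F), z ∈ M r → ∃ c : ι → k, ∃ z₁ ∈ M ((r : ℤ) - 1),
      ∃ z₂ ∈ M ((r : ℤ) - 1), z = (∑ i, if a i = r then c i • e i else 0) + (z₁ + x * z₂)) :
    ∀ (N : ℕ) (z : F), z ∈ M ((N : ℤ) - 1) → ∃ φ : ι → k[X], z = ∑ i, aeval x (φ i) * e i ∧
      ∀ i j, (φ i).coeff j ≠ 0 → j + a i < N := by
  intro N
  induction N with
  | zero =>
    intro z hz
    rw [h.neg _ (by norm_num), Submodule.mem_bot] at hz
    refine ⟨fun _ => 0, ?_, ?_⟩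
    · rw [hz]
      simp
    · intro i j hj
      exact absurd (coeff_zero j) hj
  | succ N ih =>
    intro z hz
    have hr' : (((N + 1 : ℕ) : ℤ) - 1) = N := by push_cast; ring
    rw [hr'] at hz
    obtain ⟨c, z₁, hz₁, z₂, hz₂, hzz⟩ := h3 N z hz
    obtain ⟨φ₁, e₁, d₁⟩ := ih z₁ hz₁
    obtain ⟨φ₂, e₂, d₂⟩ := ih z₂ hz₂
    refine ⟨fun i => (if a i = N then C (c i) else 0) + (φ₁ i + X * φ₂ i), ?_, ?_⟩
    · rw [hzz]
      conv_lhs => rw [e₁, e₂]
      rw [Finset.mul_sum, ← Finset.sum_add_distrib, ← Finset.sum_add_distrib]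
      refine Finset.sum_congr rfl fun i _ => ?_
      rw [map_add, map_add, map_mul, aeval_X]
      split_ifs
      · rw [aeval_C, Algebra.smul_def]
        ring
      · rw [map_zero]
        ring
    · intro i j hj
      by_contra hcon
      apply hj
      rw [coeff_add, coeff_add]
      have g1 : (φ₁ i).coeff j = 0 := by
        by_contra hne
        have := d₁ i j hne
        omega
      have g2 : (X * φ₂ i).coeff j = 0 := by
        cases j with
        | zero => rw [mul_coeff_zero, coeff_X_zero, zero_mul]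
        | succ j =>
          rw [coeff_X_mul]
          by_contra hne
          have := d₂ i j hne
          omega
      have g3 : (if a i = N then C (c i) else (0 : k[X])).coeff j = 0 := by
        split_ifs with hi
        · rw [coeff_C_of_ne_zero]
          omega
        · exact coeff_zero j
      rw [g1, g2, g3, add_zero, add_zero]

/-- existence of graded bases. -/
theorem Flt.exists_GrB {x : F} {M : ℤ → Submodule k F} (h : Flt x M) (hx : Transcendental k x)
    [FiniteDimensional k⟮x⟯ F] : ∃ (n : ℕ) (e : Fin n → F) (a : Fin n → ℕ), GrB x M e a := by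
  classical
  have hex : ∀ r : ℕ, ∃ (n : ℕ) (e : Fin n → F), (∀ i, e i ∈ M r) ∧
      (∀ c : Fin n → k, ∑ i, c i • e i ∈
        M ((r : ℤ) - 1) ⊔ (M ((r : ℤ) - 1)).map (LinearMap.mulLeft k x) → ∀ i, c i = 0) ∧
      ∀ z ∈ M r, ∃ c : Fin n → k, z - ∑ i, c i • e i ∈
        M ((r : ℤ) - 1) ⊔ (M ((r : ℤ) - 1)).map (LinearMap.mulLeft k x) := by
    intro r
    have := h.fin r
    exact CGrA_cpl (M r) _
  choose n e he1 he2 he3 using hex
  have hW : ∀ (r : ℕ) (w : F),
      w ∈ M ((r : ℤ) - 1) ⊔ (M ((r : ℤ) - 1)).map (LinearMap.mulLeft k x) ↔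
        ∃ z₁ ∈ M ((r : ℤ) - 1), ∃ z₂ ∈ M ((r : ℤ) - 1), w = z₁ + x * z₂ := by
    intro r w
    rw [Submodule.mem_sup]
    constructor
    · rintro ⟨y, hy, z, hz, rfl⟩
      obtain ⟨z', hz', rfl⟩ := Submodule.mem_map.1 hz
      exact ⟨y, hy, z', hz', rfl⟩
    · rintro ⟨y, hy, z, hz, rfl⟩
      exact ⟨y, hy, x * z, Submodule.mem_map.2 ⟨z, hz, rfl⟩, rfl⟩
  -- the sums over the finite families
  have hsum : ∀ (R r : ℕ) (hr : r < R) (c : (Σ s : Fin R, Fin (n s)) → k),
      (∑ p : (Σ s : Fin R, Fin (n s)), if (p.1 : ℕ) = r then c p • e p.1 p.2 else 0) =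
        ∑ i : Fin (n r), c ⟨⟨r, hr⟩, i⟩ • e r i := by
    intro R r hr c
    rw [Fintype.sum_sigma, Finset.sum_eq_single (⟨r, hr⟩ : Fin R)]
    · exact Finset.sum_congr rfl fun i _ => if_pos rfl
    · intro s _ hs
      refine Finset.sum_eq_zero fun i _ => if_neg ?_
      intro h4
      exact hs (Fin.ext h4)
    · intro h4
      exact absurd (Finset.mem_univ _) h4
  have hI1 : ∀ (R : ℕ) (p : (Σ s : Fin R, Fin (n s))), e p.1 p.2 ∈ M ((p.1 : ℕ) : ℤ) :=
    fun R p => he1 p.1 p.2
  have hI2 : ∀ (R : ℕ) (r : ℕ) (c : (Σ s : Fin R, Fin (n s)) → k),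
      (∃ z₁ ∈ M ((r : ℤ) - 1), ∃ z₂ ∈ M ((r : ℤ) - 1),
        (∑ p : (Σ s : Fin R, Fin (n s)), if (p.1 : ℕ) = r then c p • e p.1 p.2 else 0) =
          z₁ + x * z₂) → ∀ p : (Σ s : Fin R, Fin (n s)), (p.1 : ℕ) = r → c p = 0 := by
    intro R r c hc p hp
    have hr : r < R := hp ▸ p.1.2
    rw [hsum R r hr] at hc
    have h4 := he2 r _ ((hW r _).2 hc)
    obtain ⟨⟨s, hs⟩, i⟩ := p
    simp only at hp
    subst hp
    exact h4 i
  have hind : ∀ R : ℕ, LinearIndependent k⟮x⟯
      (fun p : (Σ s : Fin R, Fin (n s)) => e p.1 p.2) := fun R =>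
    CGrA_ind h hx (fun p : (Σ s : Fin R, Fin (n s)) => e p.1 p.2) (fun p => (p.1 : ℕ)) (hI1 R)
      (hI2 R)
  -- finiteness
  have hbd : ∀ R : ℕ, ∑ s ∈ Finset.range R, n s ≤ Module.finrank k⟮x⟯ F := by
    intro R
    have h4 := (hind R).fintype_card_le_finrank
    rw [Fintype.card_sigma] at h4
    simp only [Fintype.card_fin] at h4
    rwa [Fin.sum_univ_eq_sum_range (fun s => n s) R] at h4
  obtain ⟨R, hR⟩ : ∃ R : ℕ, ∀ s, R ≤ s → n s = 0 := by
    have hb : BddAbove (Set.range fun R : ℕ => ∑ s ∈ Finset.range R, n s) :=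
      ⟨_, by rintro _ ⟨R, rfl⟩; exact hbd R⟩
    obtain ⟨R, hR⟩ := Nat.sSup_mem (Set.range_nonempty fun R : ℕ => ∑ s ∈ Finset.range R, n s) hb
    refine ⟨R, fun s hs => ?_⟩
    have h4 : ∑ s ∈ Finset.range (s + 1), n s ≤ ∑ s ∈ Finset.range R, n s := by
      have h5 := le_csSup hb (Set.mem_range_self (f := fun R : ℕ => ∑ s ∈ Finset.range R, n s)
        (s + 1))
      rw [← hR] at h5
      exact h5
    have h6 : ∑ s ∈ Finset.range R, n s ≤ ∑ s ∈ Finset.range s, n s :=
      Finset.sum_le_sum_of_subset (Finset.range_subset_range.2 hs)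
    rw [Finset.sum_range_succ] at h4
    omega
  -- the third property
  have hI3 : ∀ (r : ℕ) (z : F), z ∈ M r → ∃ c : (Σ s : Fin R, Fin (n s)) → k,
      ∃ z₁ ∈ M ((r : ℤ) - 1), ∃ z₂ ∈ M ((r : ℤ) - 1),
      z = (∑ p : (Σ s : Fin R, Fin (n s)), if (p.1 : ℕ) = r then c p • e p.1 p.2 else 0) +
        (z₁ + x * z₂) := by
    intro r z hz
    obtain ⟨c, hc⟩ := he3 r z hz
    obtain ⟨z₁, hz₁, z₂, hz₂, hzz⟩ := (hW r _).1 hc
    rcases Nat.lt_or_ge r R with hr | hr
    · refine ⟨fun p => if hp : (p.1 : ℕ) = r then c (hp ▸ p.2) else 0, z₁, hz₁, z₂, hz₂, ?_⟩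
      rw [hsum R r hr, ← hzz]
      have h4 : ∀ i : Fin (n r), (if hp : r = r then c (hp ▸ i) else 0) = c i := by
        intro i
        rw [dif_pos rfl]
      have h5 : (∑ i : Fin (n r), (if hp : r = r then c (hp ▸ i) else 0) • e r i) =
          ∑ i, c i • e r i := Finset.sum_congr rfl fun i _ => by rw [h4]
      show z = (∑ i : Fin (n r), (if hp : r = r then c (hp ▸ i) else 0) • e r i) + _
      rw [h5]
      ring
    · refine ⟨0, z₁, hz₁, z₂, hz₂, ?_⟩
      have h4 : ∑ i, c i • e r i = 0 := by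
        refine Finset.sum_eq_zero fun i _ => ?_
        have h9 := i.2
        have h10 := hR r hr
        omega
      rw [h4, sub_zero] at hzz
      have h5 : (∑ p : (Σ s : Fin R, Fin (n s)),
          if (p.1 : ℕ) = r then (0 : (Σ s : Fin R, Fin (n s)) → k) p • e p.1 p.2 else 0) = 0 := by
        refine Finset.sum_eq_zero fun p _ => ?_
        split_ifs
        · rw [Pi.zero_apply, zero_smul]
        · rfl
      rw [h5, zero_add]
      exact hzz
  have hspan := CGrA_span h (fun p : (Σ s : Fin R, Fin (n s)) => e p.1 p.2) (fun p => (p.1 : ℕ))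
    hI3
  have hspan2 : ∀ (r : ℤ) (z : F), z ∈ M r → ∃ φ : (Σ s : Fin R, Fin (n s)) → k[X],
      z = ∑ p, aeval x (φ p) * e p.1 p.2 ∧
        ∀ p, φ p ≠ 0 → ((φ p).natDegree : ℤ) + ((p.1 : ℕ) : ℤ) ≤ r := by
    intro r z hz
    rcases lt_or_ge r 0 with hr | hr
    · rw [h.neg _ hr, Submodule.mem_bot] at hz
      refine ⟨fun _ => 0, ?_, fun p hp => absurd rfl hp⟩
      rw [hz]
      simp
    · obtain ⟨N, rfl⟩ := Int.eq_ofNat_of_zero_le hr
      obtain ⟨φ, hφ1, hφ2⟩ := hspan (N + 1) z (by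
        have hr' : (((N + 1 : ℕ) : ℤ) - 1) = N := by push_cast; ring
        rw [hr']
        exact hz)
      refine ⟨φ, hφ1, fun p hp => ?_⟩
      have h4 := hφ2 p (φ p).natDegree (by
        rw [coeff_natDegree]
        exact leadingCoeff_ne_zero.2 hp)
      omega
  -- reindexing
  let E := Fintype.equivFin (Σ s : Fin R, Fin (n s))
  refine ⟨Fintype.card (Σ s : Fin R, Fin (n s)), fun i => e (E.symm i).1 (E.symm i).2,
    fun i => ((E.symm i).1 : ℕ), ⟨fun i => hI1 R (E.symm i), ?_, ?_⟩⟩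
  · exact (hind R).comp E.symm E.symm.injective
  · intro r z hz
    obtain ⟨φ, hφ1, hφ2⟩ := hspan2 r z hz
    refine ⟨fun i => φ (E.symm i), ?_, fun i hi => hφ2 (E.symm i) hi⟩
    rw [hφ1]
    exact (E.symm.sum_comp fun p => aeval x (φ p) * e p.1 p.2).symm

end

end Vale.Agent.P019P
end
end

section

section

/-!
# Dimensions of a filtration with a graded basis
-/

namespace Vale.Agent.P019P

open Polynomial IntermediateField

section

variable {k F : Type*} [Field k] [Field F] [Algebra k F]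

theorem CGrD_pow_mem {x : F} {M : ℤ → Submodule k F} (h : Flt x M) {s : ℤ} {z : F}
    (hz : z ∈ M s) (j : ℕ) : x ^ j * z ∈ M (s + j) := by
  induction j with
  | zero => simpa using hz
  | succ j ih =>
    have h1 := h.mul _ _ ih
    have h2 : x * (x ^ j * z) = x ^ (j + 1) * z := by ring
    have h3 : s + (j : ℤ) + 1 = s + ((j + 1 : ℕ) : ℤ) := by push_cast; ring
    rwa [h2, h3] at h1

/-- the dimensions of a filtration with a graded basis. -/
theorem GrB.finrank_eq {x : F} {M : ℤ → Submodule k F} (h : Flt x M) (hx : Transcendental k x)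
    {ι : Type*} [Fintype ι] {e : ι → F} {a : ι → ℕ} (he : GrB x M e a) {r : ℤ}
    (hr : ∀ i, (a i : ℤ) ≤ r) : (Module.finrank k (M r) : ℤ) = ∑ i, (r - a i + 1) := by
  classical
  let g : (Σ i : ι, Fin (r - a i + 1).toNat) → F := fun p => x ^ (p.2 : ℕ) * e p.1
  have hg : LinearIndependent k g := by
    have h1 := (indep_pow_mul hx he.ind).comp
      (fun p : (Σ i : ι, Fin (r - a i + 1).toNat) => ((p.1, (p.2 : ℕ)) : ι × ℕ)) (by
        rintro ⟨i, j⟩ ⟨i', j'⟩ hij
        simp only [Prod.mk.injEq] at hij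
        obtain ⟨hi, hj⟩ := hij
        subst hi
        rw [Fin.ext hj])
    exact h1
  have hspan : Submodule.span k (Set.range g) = M r := by
    apply le_antisymm
    · rw [Submodule.span_le]
      rintro _ ⟨⟨i, j⟩, rfl⟩
      have h1 := CGrD_pow_mem h (he.mem i) (j : ℕ)
      have hj := j.2
      have h2 : (a i : ℤ) + ((j : ℕ) : ℤ) ≤ r := by omega
      exact h.mono h2 h1
    · intro z hz
      obtain ⟨φ, hφ, hd⟩ := he.span r z hz
      rw [hφ]
      refine Submodule.sum_mem _ fun i _ => ?_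
      by_cases h0 : φ i = 0
      · rw [h0, map_zero, zero_mul]
        exact Submodule.zero_mem _
      · rw [aeval_eq_sum_range, Finset.sum_mul]
        refine Submodule.sum_mem _ fun j hj => ?_
        rw [smul_mul_assoc]
        refine Submodule.smul_mem _ _ (Submodule.subset_span ?_)
        have h1 := hd i h0
        have h2 : j ≤ (φ i).natDegree := Nat.lt_succ_iff.1 (Finset.mem_range.1 hj)
        exact ⟨⟨i, ⟨j, by omega⟩⟩, rfl⟩
  have h1 : Module.finrank k (M r) = ∑ i, (r - a i + 1).toNat := by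
    rw [← hspan, finrank_span_eq_card hg, Fintype.card_sigma]
    simp only [Fintype.card_fin]
  rw [h1]
  push_cast
  refine Finset.sum_congr rfl fun i _ => ?_
  have := hr i
  omega

end

end Vale.Agent.P019P
end
end

section

section

/-!
# The abstract zeta theorem: data
-/

namespace Vale.Agent.P019P

/-- the data of a curve over (the closure of) a finite field needed for the zeta function:
`P` is the set of places, `σ` the `q`-Frobenius. -/
structure ZDat (P : Type*) where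
  σ : Equiv.Perm P
  q : ℕ
  g : ℕ
  prin : AddSubgroup (P →₀ ℤ)
  l : (P →₀ ℤ) → ℕ
  κ : P →₀ ℤ
  P0 : P
  two_le : 2 ≤ q
  fix0 : σ P0 = P0
  per : ∀ p, ∃ n : ℕ, 0 < n ∧ (σ ^ n) p = p
  fin : ∀ n : ℕ, 0 < n → {p | (σ ^ n) p = p}.Finite
  deg_prin : ∀ D ∈ prin, dg D = 0
  sig_prin : ∀ D, D ∈ prin ↔ D.mapDomain σ ∈ prin
  rr : ∀ D, (l D : ℤ) - l (κ - D) = dg D + 1 - g
  l_neg : ∀ D, dg D < 0 → l D = 0
  l_prin : ∀ D ∈ prin, l D = 1
  l_zero : ∀ D, dg D = 0 → D ∉ prin → l D = 0
  count : ∀ n : ℕ, 0 < n → ∀ D, D.mapDomain (σ ^ n) - D ∈ prin →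
    Nat.card {E : P →₀ ℤ // 0 ≤ E ∧ E.mapDomain (σ ^ n) = E ∧ E - D ∈ prin} * (q ^ n - 1) =
      q ^ (n * l D) - 1

end Vale.Agent.P019P
end
end

section

section

/-!
# Divisor classes
-/

namespace Vale.Agent.P019P

open Finsupp

variable {P : Type*}

theorem dg_single (p : P) (n : ℤ) : dg (single p n) = n := by
  simp [dg]

theorem dg_mapDomain (τ : Equiv.Perm P) (D : P →₀ ℤ) : dg (D.mapDomain τ) = dg D := by
  induction D using Finsupp.induction_linear with
  | zero => rw [Finsupp.mapDomain_zero]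
  | add f g hf hg => rw [Finsupp.mapDomain_add, map_add, map_add, hf, hg]
  | single a b => rw [Finsupp.mapDomain_single, dg_single, dg_single]

namespace ZDat

variable (Z : ZDat P)

/-- divisor classes. -/
abbrev Pic : Type _ := (P →₀ ℤ) ⧸ Z.prin

/-- the class of a divisor. -/
noncomputable def cl : (P →₀ ℤ) →+ Z.Pic := QuotientAddGroup.mk' Z.prin

theorem cl_surj (x : Z.Pic) : ∃ D, Z.cl D = x := QuotientAddGroup.mk'_surjective _ x

theorem cl_eq {D E : P →₀ ℤ} : Z.cl D = Z.cl E ↔ D - E ∈ Z.prin := by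
  rw [cl, QuotientAddGroup.mk'_apply, QuotientAddGroup.mk'_apply, QuotientAddGroup.eq,
    ← neg_mem_iff, neg_add, neg_neg, sub_eq_add_neg]

/-- the degree of a class. -/
noncomputable def deg : Z.Pic →+ ℤ := QuotientAddGroup.lift Z.prin dg (fun D hD => Z.deg_prin D hD)

@[simp] theorem deg_cl (D : P →₀ ℤ) : Z.deg (Z.cl D) = dg D := rfl

/-- the action of the Frobenius on classes. -/
noncomputable def s : AddMonoid.End Z.Pic :=
  QuotientAddGroup.map Z.prin Z.prin (Finsupp.mapDomain.addMonoidHom Z.σ)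
    (fun D hD => (Z.sig_prin D).1 hD)

theorem s_cl (D : P →₀ ℤ) : Z.s (Z.cl D) = Z.cl (D.mapDomain Z.σ) := rfl

theorem s_pow_cl (n : ℕ) (D : P →₀ ℤ) : (Z.s ^ n) (Z.cl D) = Z.cl (D.mapDomain (Z.σ ^ n)) := by
  induction n with
  | zero =>
    rw [pow_zero, pow_zero, Equiv.Perm.coe_one, Finsupp.mapDomain_id]
    rfl
  | succ n ih =>
    have h : (Z.s ^ (n + 1)) (Z.cl D) = Z.s ((Z.s ^ n) (Z.cl D)) := by
      rw [pow_succ']
      rfl
    rw [h, ih, s_cl, ← Finsupp.mapDomain_comp, pow_succ', Equiv.Perm.coe_mul]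

theorem deg_s (x : Z.Pic) : Z.deg (Z.s x) = Z.deg x := by
  obtain ⟨D, rfl⟩ := Z.cl_surj x
  rw [s_cl, deg_cl, deg_cl, dg_mapDomain]

theorem deg_s_pow (n : ℕ) (x : Z.Pic) : Z.deg ((Z.s ^ n) x) = Z.deg x := by
  obtain ⟨D, rfl⟩ := Z.cl_surj x
  rw [s_pow_cl, deg_cl, deg_cl, dg_mapDomain]

/-- every divisor is fixed by a power of the Frobenius. -/
theorem exists_fix (D : P →₀ ℤ) : ∃ n : ℕ, 0 < n ∧ D.mapDomain (Z.σ ^ n) = D := by
  have h1 : ∀ p : P, ∃ n : ℕ, 0 < n ∧ (Z.σ ^ n) p = p := fun p => Z.per p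
  choose f hf0 hf using h1
  refine ⟨∏ p ∈ D.support, f p, Finset.prod_pos fun p _ => hf0 p, ?_⟩
  have h2 : ∀ p ∈ D.support, (Z.σ ^ (∏ p ∈ D.support, f p)) p = p := by
    intro p hp
    obtain ⟨c, hc⟩ := Finset.dvd_prod_of_mem f hp
    rw [hc, pow_mul]
    exact Function.IsFixedPt.perm_pow (hf p) c
  conv_rhs => rw [← Finsupp.mapDomain_id (v := D)]
  exact Finsupp.mapDomain_congr h2

theorem fix_mul {D : P →₀ ℤ} {n : ℕ} (h : D.mapDomain (Z.σ ^ n) = D) (m : ℕ) :
    D.mapDomain (Z.σ ^ (n * m)) = D := by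
  induction m with
  | zero => rw [mul_zero, pow_zero, Equiv.Perm.coe_one, Finsupp.mapDomain_id]
  | succ m ih =>
    rw [Nat.mul_succ, pow_add, Equiv.Perm.coe_mul, Finsupp.mapDomain_comp, h, ih]

/-- `l` depends only on the class. -/
theorem l_congr {D E : P →₀ ℤ} (h : D - E ∈ Z.prin) : Z.l D = Z.l E := by
  obtain ⟨n₁, hn₁, h₁⟩ := Z.exists_fix D
  obtain ⟨n₂, hn₂, h₂⟩ := Z.exists_fix E
  have hn : 0 < n₁ * n₂ := Nat.mul_pos hn₁ hn₂
  have hD : D.mapDomain (Z.σ ^ (n₁ * n₂)) = D := Z.fix_mul h₁ n₂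
  have hE : E.mapDomain (Z.σ ^ (n₁ * n₂)) = E := by
    rw [Nat.mul_comm]
    exact Z.fix_mul h₂ n₁
  have cD := Z.count (n₁ * n₂) hn D (by rw [hD, sub_self]; exact zero_mem _)
  have cE := Z.count (n₁ * n₂) hn E (by rw [hE, sub_self]; exact zero_mem _)
  have hset : ∀ F : P →₀ ℤ, (0 ≤ F ∧ F.mapDomain (Z.σ ^ (n₁ * n₂)) = F ∧ F - D ∈ Z.prin) ↔
      (0 ≤ F ∧ F.mapDomain (Z.σ ^ (n₁ * n₂)) = F ∧ F - E ∈ Z.prin) := by
    intro F
    refine and_congr_right fun _ => and_congr_right fun _ => ?_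
    have e1 : F - E = (F - D) + (D - E) := by abel
    rw [e1]
    exact (AddSubgroup.add_mem_cancel_right _ h).symm
  have hc : Nat.card {F : P →₀ ℤ // 0 ≤ F ∧ F.mapDomain (Z.σ ^ (n₁ * n₂)) = F ∧
      F - D ∈ Z.prin} = Nat.card {F : P →₀ ℤ // 0 ≤ F ∧
        F.mapDomain (Z.σ ^ (n₁ * n₂)) = F ∧ F - E ∈ Z.prin} :=
    Nat.card_congr (Equiv.subtypeEquivRight hset)
  rw [hc, cE] at cD
  have hq : 0 < Z.q := lt_of_lt_of_le two_pos Z.two_le
  have p1 : 0 < Z.q ^ (n₁ * n₂ * Z.l D) := Nat.pow_pos hq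
  have p2 : 0 < Z.q ^ (n₁ * n₂ * Z.l E) := Nat.pow_pos hq
  have e2 : Z.q ^ (n₁ * n₂ * Z.l D) = Z.q ^ (n₁ * n₂ * Z.l E) := by omega
  exact Nat.eq_of_mul_eq_mul_left hn (Nat.pow_right_injective Z.two_le e2)

theorem mapDomain_sig_comm (n : ℕ) (F : P →₀ ℤ) :
    (F.mapDomain Z.σ).mapDomain (Z.σ ^ n) = (F.mapDomain (Z.σ ^ n)).mapDomain Z.σ := by
  rw [← Finsupp.mapDomain_comp, ← Finsupp.mapDomain_comp, ← Equiv.Perm.coe_mul,
    ← Equiv.Perm.coe_mul, ← pow_succ, ← pow_succ']

theorem mapDomain_sig_inj {F G : P →₀ ℤ} (h : F.mapDomain Z.σ = G.mapDomain Z.σ) : F = G :=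
  Finsupp.mapDomain_injective Z.σ.injective h

theorem l_sig (D : P →₀ ℤ) : Z.l (D.mapDomain Z.σ) = Z.l D := by
  obtain ⟨n, hn, hD⟩ := Z.exists_fix D
  have hS : (D.mapDomain Z.σ).mapDomain (Z.σ ^ n) = D.mapDomain Z.σ := by
    rw [Z.mapDomain_sig_comm, hD]
  have cD := Z.count n hn D (by rw [hD, sub_self]; exact zero_mem _)
  have cS := Z.count n hn (D.mapDomain Z.σ) (by rw [hS, sub_self]; exact zero_mem _)
  have happ : ∀ F : P →₀ ℤ, (Finsupp.domCongr (M := ℤ) Z.σ) F = F.mapDomain Z.σ := fun F => by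
    rw [Finsupp.domCongr_apply, Finsupp.equivMapDomain_eq_mapDomain]
  have hc : Nat.card {F : P →₀ ℤ // 0 ≤ F ∧ F.mapDomain (Z.σ ^ n) = F ∧ F - D ∈ Z.prin} =
      Nat.card {F : P →₀ ℤ // 0 ≤ F ∧ F.mapDomain (Z.σ ^ n) = F ∧
        F - D.mapDomain Z.σ ∈ Z.prin} := by
    refine Nat.card_congr (Equiv.subtypeEquiv (Finsupp.domCongr (M := ℤ) Z.σ).toEquiv ?_)
    intro F
    have e0 : (Finsupp.domCongr (M := ℤ) Z.σ).toEquiv F = F.mapDomain Z.σ := happ F
    rw [e0]
    refine and_congr ?_ (and_congr ?_ ?_)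
    · constructor
      · intro h p
        rw [← Finsupp.equivMapDomain_eq_mapDomain, Finsupp.equivMapDomain_apply]
        exact h _
      · intro h p
        have h1 := h (Z.σ p)
        rw [← Finsupp.equivMapDomain_eq_mapDomain, Finsupp.equivMapDomain_apply,
          Equiv.symm_apply_apply] at h1
        exact h1
    · rw [Z.mapDomain_sig_comm]
      constructor
      · intro h
        rw [h]
      · intro h
        exact Z.mapDomain_sig_inj h
    · have e1 : F.mapDomain Z.σ - D.mapDomain Z.σ = (F - D).mapDomain Z.σ :=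
        ((Finsupp.mapDomain.addMonoidHom (M := ℤ) Z.σ).map_sub F D).symm
      rw [e1]
      exact Z.sig_prin _
  rw [hc, cS] at cD
  have hq : 0 < Z.q := lt_of_lt_of_le two_pos Z.two_le
  have p1 : 0 < Z.q ^ (n * Z.l D) := Nat.pow_pos hq
  have p2 : 0 < Z.q ^ (n * Z.l (D.mapDomain Z.σ)) := Nat.pow_pos hq
  have e2 : Z.q ^ (n * Z.l (D.mapDomain Z.σ)) = Z.q ^ (n * Z.l D) := by omega
  exact Nat.eq_of_mul_eq_mul_left hn (Nat.pow_right_injective Z.two_le e2)

/-- the dimension of a class. -/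
noncomputable def ll : Z.Pic → ℕ :=
  Quotient.lift Z.l (fun D E h => Z.l_congr (by
    have h1 : Z.cl D = Z.cl E := Quotient.sound h
    exact (Z.cl_eq).1 h1))

@[simp] theorem ll_cl (D : P →₀ ℤ) : Z.ll (Z.cl D) = Z.l D := rfl

theorem ll_s (x : Z.Pic) : Z.ll (Z.s x) = Z.ll x := by
  obtain ⟨D, rfl⟩ := Z.cl_surj x
  rw [Z.s_cl, Z.ll_cl, Z.ll_cl, Z.l_sig]

theorem l_zero' : Z.l 0 = 1 := Z.l_prin 0 (zero_mem _)

theorem l_kappa : Z.l Z.κ = Z.g := by
  have h := Z.rr 0
  rw [sub_zero, Z.l_zero', map_zero] at h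
  push_cast at h
  omega

theorem dg_kappa : dg Z.κ = 2 * (Z.g : ℤ) - 2 := by
  have h := Z.rr Z.κ
  rw [sub_self, Z.l_zero', Z.l_kappa] at h
  push_cast at h
  omega

/-- Riemann-Roch in large degree. -/
theorem ll_large (x : Z.Pic) (h : 2 * (Z.g : ℤ) - 1 ≤ Z.deg x) :
    (Z.ll x : ℤ) = Z.deg x + 1 - Z.g := by
  obtain ⟨D, rfl⟩ := Z.cl_surj x
  rw [Z.deg_cl] at h ⊢
  have h1 := Z.rr D
  have h2 : Z.l (Z.κ - D) = 0 := Z.l_neg _ (by
    rw [map_sub, Z.dg_kappa]
    omega)
  rw [h2] at h1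
  rw [Z.ll_cl]
  push_cast at h1
  omega

theorem ll_crit_eq : Z.ll (Z.cl Z.κ) = Z.g := by
  rw [Z.ll_cl, Z.l_kappa]

theorem ll_crit_ne (x : Z.Pic) (h : Z.deg x = 2 * (Z.g : ℤ) - 2) (hx : x ≠ Z.cl Z.κ) :
    (Z.ll x : ℤ) = Z.g - 1 := by
  obtain ⟨D, rfl⟩ := Z.cl_surj x
  rw [Z.deg_cl] at h
  have h1 := Z.rr D
  have h2 : Z.l (Z.κ - D) = 0 := Z.l_zero _ (by
    rw [map_sub, Z.dg_kappa]
    omega) (fun hm => hx (Z.cl_eq.2 hm).symm)
  rw [h2] at h1
  rw [Z.ll_cl]
  push_cast at h1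
  omega

theorem ll_pos (x : Z.Pic) (h : (Z.g : ℤ) ≤ Z.deg x) : 0 < Z.ll x := by
  obtain ⟨D, rfl⟩ := Z.cl_surj x
  rw [Z.deg_cl] at h
  have h1 := Z.rr D
  rw [Z.ll_cl]
  omega

theorem s_kappa : Z.s (Z.cl Z.κ) = Z.cl Z.κ := by
  by_contra hne
  have h1 := Z.ll_crit_ne (Z.s (Z.cl Z.κ)) (by rw [Z.deg_s, Z.deg_cl, Z.dg_kappa]) hne
  rw [Z.ll_s, Z.ll_crit_eq] at h1
  omega

/-- the classes of degree zero. -/
abbrev J : Type _ := Z.deg.ker

/-- the action of the Frobenius on classes of degree zero. -/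
noncomputable def sJ : AddMonoid.End Z.J :=
  (Z.s.comp (AddSubgroup.subtype _)).codRestrict _ (fun x => by
    have h := x.2
    rw [AddMonoidHom.mem_ker] at h ⊢
    exact (Z.deg_s _).trans h)

theorem coe_sJ (x : Z.J) : ((Z.sJ x : Z.J) : Z.Pic) = Z.s x := rfl

theorem coe_sJ_pow (n : ℕ) (x : Z.J) : (((Z.sJ ^ n) x : Z.J) : Z.Pic) = (Z.s ^ n) x := by
  induction n with
  | zero => rfl
  | succ n ih =>
    have h1 : (Z.sJ ^ (n + 1)) x = Z.sJ ((Z.sJ ^ n) x) := by
      rw [pow_succ']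
      rfl
    have h2 : (Z.s ^ (n + 1)) (x : Z.Pic) = Z.s ((Z.s ^ n) (x : Z.Pic)) := by
      rw [pow_succ']
      rfl
    rw [h1, h2, coe_sJ, ih]

theorem sJ_per (x : Z.J) : ∃ n : ℕ, 0 < n ∧ (Z.sJ ^ n) x = x := by
  obtain ⟨D, hD⟩ := Z.cl_surj (x : Z.Pic)
  obtain ⟨n, hn, h⟩ := Z.exists_fix D
  refine ⟨n, hn, Subtype.ext ?_⟩
  rw [coe_sJ_pow, ← hD, s_pow_cl, h]

end ZDat

end Vale.Agent.P019P
end
end
namespace AFast9853f6x3190a
@[reducible] noncomputable def a0.{u1} {x1 : Type u1} {x2 : Vale.Agent.P019P.ZDat x1} : AddZeroClass x2.Pic := inferInstance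
@[reducible] noncomputable def a1.{u1} {x1 : Type u1} {x2 : Vale.Agent.P019P.ZDat x1} : AddMonoid x2.Pic := inferInstance
@[reducible] noncomputable def a2.{u1} {x1 : Type u1} {x2 : Vale.Agent.P019P.ZDat x1} : AddZero x2.Pic := inferInstance
@[reducible] noncomputable def a3.{u1} {x1 : Type u1} {x2 : Vale.Agent.P019P.ZDat x1} : SubNegMonoid x2.Pic := inferInstance
@[reducible] noncomputable def a4.{u1} {x1 : Type u1} {x2 : Vale.Agent.P019P.ZDat x1} : AddZero x2.J := inferInstance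
@[reducible] noncomputable def a5.{u1} {x1 : Type u1} {x2 : Vale.Agent.P019P.ZDat x1} : AddZeroClass x2.J := inferInstance
@[reducible] noncomputable def a6.{u1} {x1 : Type u1} {x2 : Vale.Agent.P019P.ZDat x1} : AddMonoid x2.J := inferInstance
end AFast9853f6x3190a
attribute [local instance] AFast9853f6x3190a.a0 AFast9853f6x3190a.a1 AFast9853f6x3190a.a2
  AFast9853f6x3190a.a3 AFast9853f6x3190a.a4 AFast9853f6x3190a.a5 AFast9853f6x3190a.a6

section

section

/-!
# Logarithmic derivatives of power series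
-/

namespace Vale.Agent.P019P

open PowerSeries

variable {R : Type*} [CommRing R]

/-- `S` is the logarithmic derivative `X A' / A` of `A`. -/
def LD (A S : R⟦X⟧) : Prop := X * (d⁄dX R A) = A * S

/-- the power series `∑_{m ≥ 1} s m X^m`. -/
noncomputable def pos (s : ℕ → R) : R⟦X⟧ := PowerSeries.mk fun m => if m = 0 then 0 else s m

theorem LD.mul {A B S T : R⟦X⟧} (h1 : LD A S) (h2 : LD B T) : LD (A * B) (S + T) := by
  unfold LD at *
  rw [Derivation.leibniz, smul_eq_mul, smul_eq_mul]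
  calc X * (A * (d⁄dX R) B + B * (d⁄dX R) A)
      = A * (X * (d⁄dX R) B) + B * (X * (d⁄dX R) A) := by ring
    _ = A * B * (S + T) := by rw [h1, h2]; ring

theorem LD_of_rec (a s : ℕ → R)
    (h : ∀ M : ℕ, (M : R) * a M = ∑ m ∈ Finset.Icc 1 M, s m * a (M - m)) :
    LD (PowerSeries.mk a) (pos s) := by
  unfold LD
  ext M
  have hL : coeff M (X * (d⁄dX R) (PowerSeries.mk a)) = (M : R) * a M := by
    cases M with
    | zero => simp
    | succ k =>
      rw [coeff_succ_X_mul, coeff_derivative, coeff_mk]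
      push_cast
      ring
  rw [hL, h M, mul_comm (PowerSeries.mk a), coeff_mul,
    Finset.Nat.sum_antidiagonal_eq_sum_range_succ_mk]
  have hs : Finset.Icc 1 M ⊆ Finset.range (M + 1) := by
    intro m hm
    rw [Finset.mem_Icc] at hm
    rw [Finset.mem_range]
    omega
  rw [← Finset.sum_subset hs]
  · refine Finset.sum_congr rfl fun m hm => ?_
    rw [Finset.mem_Icc] at hm
    have : m ≠ 0 := by omega
    simp only [pos, coeff_mk, if_neg this]
  · intro m hm1 hm2
    rw [Finset.mem_range] at hm1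
    rw [Finset.mem_Icc] at hm2
    have : m = 0 := by omega
    simp only [pos, coeff_mk, if_pos this, zero_mul]

theorem LD_lin (a : R) : LD (1 - C a * X) (pos fun m => -a ^ m) := by
  unfold LD
  have h1 : (d⁄dX R) (1 - C a * X : R⟦X⟧) = - C a := by
    rw [map_sub, Derivation.leibniz, derivative_X, derivative_C, smul_zero, add_zero,
      smul_eq_mul, mul_one, Derivation.map_one_eq_zero, zero_sub]
  rw [h1, sub_mul, one_mul, mul_assoc]
  ext n
  rw [map_sub, coeff_C_mul]
  rcases n with _ | _ | n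
  · simp [pos]
  · rw [coeff_succ_X_mul, coeff_succ_X_mul]
    simp [pos]
  · rw [coeff_succ_X_mul, coeff_succ_X_mul, map_neg, coeff_C, if_neg (Nat.succ_ne_zero n)]
    simp only [pos, coeff_mk, Nat.add_eq_zero_iff, one_ne_zero, and_false, if_false]
    ring

theorem pos_add (s t : ℕ → R) : pos s + pos t = pos fun m => s m + t m := by
  ext n
  simp only [pos, map_add, coeff_mk]
  split_ifs
  · rw [add_zero]
  · rfl

theorem pos_inj {s t : ℕ → R} (h : pos s = pos t) (m : ℕ) (hm : 0 < m) : s m = t m := by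
  have h1 := congrArg (coeff m) h
  simpa only [pos, coeff_mk, if_neg hm.ne'] using h1

theorem pos_congr {s t : ℕ → R} (h : ∀ m, 0 < m → s m = t m) : pos s = pos t := by
  ext n
  simp only [pos, coeff_mk]
  split_ifs with h0
  · rfl
  · exact h n (Nat.pos_of_ne_zero h0)

theorem LD_prod (A : Multiset R) :
    LD ((A.map fun a => (1 : R⟦X⟧) - C a * X).prod) (pos fun m => -(A.map fun a => a ^ m).sum) := by
  induction A using Multiset.induction_on with
  | empty =>
    unfold LD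
    ext n
    simp [pos]
  | cons a A ih =>
    rw [Multiset.map_cons, Multiset.prod_cons]
    have h1 := (LD_lin a).mul ih
    rw [pos_add] at h1
    convert h1 using 2
    funext m
    rw [Multiset.map_cons, Multiset.sum_cons, neg_add]

/-- the logarithmic derivative is unique. -/
theorem LD.right_unique [IsDomain R] {A S T : R⟦X⟧} (h0 : constantCoeff A = 1)
    (h1 : LD A S) (h2 : LD A T) : S = T := by
  have hA : A ≠ 0 := by
    rintro rfl
    simp at h0
  exact mul_left_cancel₀ hA (h1.symm.trans h2)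

/-- a power series with constant coefficient one is determined by its logarithmic derivative. -/
theorem LD.left_unique [IsDomain R] [CharZero R] {A B S : R⟦X⟧} (hA : constantCoeff A = 1)
    (hB : constantCoeff B = 1) (h1 : LD A S) (h2 : LD B S) : A = B := by
  have hS : coeff 0 S = 0 := by
    have h3 := congrArg constantCoeff h1
    rw [map_mul, map_mul, constantCoeff_X, zero_mul, hA, one_mul] at h3
    rw [coeff_zero_eq_constantCoeff_apply]
    exact h3.symm
  ext n
  induction n using Nat.strong_induction_on with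
  | _ n ih =>
    cases n with
    | zero => rw [coeff_zero_eq_constantCoeff_apply, coeff_zero_eq_constantCoeff_apply, hA, hB]
    | succ k =>
      have key : coeff (k + 1) (A * S) = coeff (k + 1) (B * S) := by
        rw [coeff_mul, coeff_mul]
        refine Finset.sum_congr rfl fun p hp => ?_
        have hp' : p.1 + p.2 = k + 1 := Finset.HasAntidiagonal.mem_antidiagonal.1 hp
        rcases Nat.eq_zero_or_pos p.2 with h0 | h0
        · rw [h0, hS, mul_zero, mul_zero]
        · rw [ih p.1 (by omega)]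
      unfold LD at h1 h2
      rw [← h1, ← h2, coeff_succ_X_mul, coeff_succ_X_mul, coeff_derivative,
        coeff_derivative] at key
      exact mul_right_cancel₀ (by exact_mod_cast Nat.succ_ne_zero k) key

end Vale.Agent.P019P
end
end

section

section

/-!
# Effective invariant divisors
-/

namespace Vale.Agent.P019P

open Finsupp

variable {P : Type*}

/-- effective `τ`-invariant divisors of degree `m`. -/
def Eff (τ : Equiv.Perm P) (m : ℕ) : Set (P →₀ ℤ) :=
  {E | 0 ≤ E ∧ E.mapDomain τ = E ∧ dg E = m}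

/-- the coefficients of the zeta function with weights `χ`. -/
noncomputable def ac {R : Type*} [CommRing R] (τ : Equiv.Perm P) (χ : (P →₀ ℤ) → R) (m : ℕ) : R :=
  ∑ᶠ E ∈ Eff τ m, χ E

/-- the coefficients of its logarithmic derivative. -/
noncomputable def sc {R : Type*} [CommRing R] (τ : Equiv.Perm P) (χ : (P →₀ ℤ) → R) (m : ℕ) : R :=
  ∑ᶠ p ∈ {p | (τ ^ m) p = p}, χ (single p 1) ^ m

private theorem dg_eq_sum' (D : P →₀ ℤ) : dg D = ∑ p ∈ D.support, D p := by
  simp only [dg, liftAddHom_apply, Finsupp.sum, AddMonoidHom.id_apply]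

private theorem sum_le_dg (E : P →₀ ℤ) (hE : 0 ≤ E) (s : Finset P) : ∑ p ∈ s, E p ≤ dg E := by
  classical
  rw [dg_eq_sum']
  calc ∑ p ∈ s, E p ≤ ∑ p ∈ s ∪ E.support, E p :=
        Finset.sum_le_sum_of_subset_of_nonneg Finset.subset_union_left fun p _ _ => hE p
    _ = ∑ p ∈ E.support, E p := by
        refine (Finset.sum_subset Finset.subset_union_right fun p _ hp => ?_).symm
        exact notMem_support_iff.1 hp

private theorem val_pow {τ : Equiv.Perm P} {E : P →₀ ℤ} (h : E.mapDomain τ = E) (i : ℕ) (p : P) :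
    E ((τ ^ i) p) = E p := by
  induction i with
  | zero => rfl
  | succ n ih =>
    rw [pow_succ', Equiv.Perm.mul_apply, ← ih]
    have h2 := mapDomain_apply τ.injective E ((τ ^ n) p)
    rw [h] at h2
    exact h2

private theorem per_of_ne {τ : Equiv.Perm P} {E : P →₀ ℤ} {m : ℕ} (hE : E ∈ Eff τ m) {p : P}
    (hp : E p ≠ 0) : (τ ^ m.factorial) p = p := by
  classical
  obtain ⟨h0, h1, h2⟩ := hE
  have hpos : 1 ≤ E p := Int.add_one_le_iff.2 (lt_of_le_of_ne (h0 p) (Ne.symm hp))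
  have hninj : ¬ Set.InjOn (fun i => (τ ^ i) p) (Finset.range (m + 1) : Set ℕ) := by
    intro hinj
    have h3 := sum_le_dg E h0 ((Finset.range (m + 1)).image fun i => (τ ^ i) p)
    rw [Finset.sum_image hinj, Finset.sum_congr rfl fun i _ => val_pow h1 i p, Finset.sum_const,
      Finset.card_range, h2, nsmul_eq_mul] at h3
    push_cast at h3
    nlinarith only [h3, hpos, Int.natCast_nonneg m]
  have hd : ∃ d, 0 < d ∧ d ≤ m ∧ (τ ^ d) p = p := by
    rw [Set.InjOn] at hninj
    push Not at hninj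
    obtain ⟨i, hi, j, hj, hij, hne⟩ := hninj
    have key : ∀ i j : ℕ, i < j → j < m + 1 → (τ ^ i) p = (τ ^ j) p →
        ∃ d, 0 < d ∧ d ≤ m ∧ (τ ^ d) p = p := by
      intro i j hij hj he
      refine ⟨j - i, by omega, by omega, ?_⟩
      apply (τ ^ i).injective
      rw [← Equiv.Perm.mul_apply, ← pow_add, he]
      congr 2
      omega
    have hi' : i < m + 1 := by simpa using hi
    have hj' : j < m + 1 := by simpa using hj
    rcases lt_or_gt_of_ne hne with h | h
    · exact key i j h hj' hij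
    · exact key j i h hi' hij.symm
  obtain ⟨d, hd0, hdm, hd⟩ := hd
  obtain ⟨c, hc⟩ := Nat.dvd_factorial hd0 hdm
  rw [hc, pow_mul]
  clear hc
  induction c with
  | zero => rfl
  | succ n ih => rw [pow_succ, Equiv.Perm.mul_apply, hd, ih]

theorem eff_finite (τ : Equiv.Perm P)
    (hfin : ∀ n : ℕ, 0 < n → {p | (τ ^ n) p = p}.Finite) (m : ℕ) : (Eff τ m).Finite := by
  classical
  have hF := hfin m.factorial m.factorial_pos
  refine (Set.finite_Icc (0 : P →₀ ℤ) (Finsupp.indicator hF.toFinset fun _ _ => (m : ℤ))).subset ?_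
  intro E hE
  refine ⟨hE.1, fun p => ?_⟩
  by_cases hp : (τ ^ m.factorial) p = p
  · rw [Finsupp.indicator_of_mem (hF.mem_toFinset.2 hp)]
    have h := sum_le_dg E hE.1 {p}
    rwa [Finset.sum_singleton, hE.2.2] at h
  · rw [Finsupp.indicator_of_notMem (fun h => hp (hF.mem_toFinset.1 h))]
    by_contra h
    exact hp (per_of_ne hE (fun h0 => h h0.le))

theorem eff_zero (τ : Equiv.Perm P) : Eff τ 0 = {0} := by
  ext E
  rw [Set.mem_singleton_iff]
  constructor
  · rintro ⟨h0, -, h2⟩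
    ext p
    have h := sum_le_dg E h0 {p}
    rw [Finset.sum_singleton, h2] at h
    exact le_antisymm h (h0 p)
  · rintro rfl
    exact ⟨le_rfl, mapDomain_zero, by rw [map_zero]; rfl⟩

theorem ac_zero {R : Type*} [CommRing R] (τ : Equiv.Perm P) (χ : (P →₀ ℤ) → R) :
    ac τ χ 0 = χ 0 := by
  rw [ac, eff_zero, finsum_mem_singleton]

end Vale.Agent.P019P
end
end

section

section

/-!
# Counting effective divisors in classes
-/

namespace Vale.Agent.P019P

open Finsupp

variable {P : Type*}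

namespace ZDat

variable (Z : ZDat P)

theorem fin_pow (n : ℕ) (hn : 0 < n) (m : ℕ) (hm : 0 < m) :
    {p | ((Z.σ ^ n) ^ m) p = p}.Finite := by
  rw [← pow_mul]
  exact Z.fin _ (Nat.mul_pos hn hm)

/-- Frobenius-invariant classes of degree `M`. -/
def PM (n : ℕ) (M : ℤ) : Set Z.Pic := {x | Z.deg x = M ∧ (Z.s ^ n) x = x}

/-- the number of invariant classes of degree zero. -/
noncomputable def hh (n : ℕ) : ℕ := Nat.card {x : Z.J // (Z.sJ ^ n) x = x}

theorem ZCntA_sigma_pow_P0 (n : ℕ) : (Z.σ ^ n) Z.P0 = Z.P0 := by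
  induction n with
  | zero => rfl
  | succ n ih => rw [pow_succ, Equiv.Perm.mul_apply, Z.fix0, ih]

theorem ZCntA_add_mem (n : ℕ) {M : ℤ} {x : Z.Pic} (hx : x ∈ Z.PM n M) (k : ℤ) :
    x + Z.cl (single Z.P0 k) ∈ Z.PM n (M + k) := by
  refine ⟨?_, ?_⟩
  · rw [map_add, hx.1, Z.deg_cl, dg_single]
  · rw [map_add, hx.2, Z.s_pow_cl, Finsupp.mapDomain_single, ZCntA_sigma_pow_P0]

theorem ZCntA_fibre_set (n : ℕ) (M : ℕ) (D : P →₀ ℤ) (hD : Z.cl D ∈ Z.PM n M) :
    {E | E ∈ Eff (Z.σ ^ n) M ∧ Z.cl E = Z.cl D} =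
      {E : P →₀ ℤ | 0 ≤ E ∧ E.mapDomain (Z.σ ^ n) = E ∧ E - D ∈ Z.prin} := by
  ext E
  constructor
  · rintro ⟨⟨h1, h2, _⟩, h4⟩
    exact ⟨h1, h2, Z.cl_eq.1 h4⟩
  · rintro ⟨h1, h2, h3⟩
    have h4 : Z.cl E = Z.cl D := Z.cl_eq.2 h3
    refine ⟨⟨h1, h2, ?_⟩, h4⟩
    rw [← Z.deg_cl, h4]
    exact hD.1

theorem fibre (n : ℕ) (hn : 0 < n) (M : ℕ) (x : Z.Pic) (hx : x ∈ Z.PM n M) :
    {E | E ∈ Eff (Z.σ ^ n) M ∧ Z.cl E = x}.ncard * (Z.q ^ n - 1) = Z.q ^ (n * Z.ll x) - 1 := by
  obtain ⟨D, rfl⟩ := Z.cl_surj x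
  have h1 : D.mapDomain (Z.σ ^ n) - D ∈ Z.prin := by
    have h := hx.2
    rw [Z.s_pow_cl] at h
    exact Z.cl_eq.1 h
  have h2 := Z.count n hn D h1
  rw [Z.ll_cl, ← h2, Z.ZCntA_fibre_set n M D hx]
  rfl

theorem ZCntA_nonempty (n : ℕ) (hn : 0 < n) (M : ℕ) (hM : Z.g ≤ M) (x : Z.Pic)
    (hx : x ∈ Z.PM n M) : ∃ E ∈ Eff (Z.σ ^ n) M, Z.cl E = x := by
  have h1 := Z.fibre n hn M x hx
  have h2 : 0 < Z.ll x := by
    refine Z.ll_pos x ?_
    rw [hx.1]
    exact_mod_cast hM
  have h3 : 1 < Z.q ^ (n * Z.ll x) :=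
    Nat.one_lt_pow (Nat.mul_pos hn h2).ne' (lt_of_lt_of_le one_lt_two Z.two_le)
  have h4 : {E | E ∈ Eff (Z.σ ^ n) M ∧ Z.cl E = x}.ncard ≠ 0 := by
    intro h
    rw [h, zero_mul] at h1
    omega
  obtain ⟨E, hE⟩ := Set.nonempty_of_ncard_ne_zero h4
  exact ⟨E, hE.1, hE.2⟩

theorem ZCntA_PM_finite_nat (n : ℕ) (hn : 0 < n) (M : ℕ) (hM : Z.g ≤ M) :
    (Z.PM n M).Finite := by
  have h1 : (Eff (Z.σ ^ n) M).Finite := eff_finite _ (Z.fin_pow n hn) M
  refine (h1.image Z.cl).subset ?_
  intro x hx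
  obtain ⟨E, hE, h⟩ := Z.ZCntA_nonempty n hn M hM x hx
  exact ⟨E, hE, h⟩

theorem PM_finite (n : ℕ) (hn : 0 < n) (M : ℤ) : (Z.PM n M).Finite := by
  obtain ⟨k, M', hk, hM'⟩ : ∃ (k : ℤ) (M' : ℕ), M + k = M' ∧ Z.g ≤ M' := by
    refine ⟨(Z.g : ℤ) - M, Z.g, ?_, le_rfl⟩
    ring
  have h1 := Z.ZCntA_PM_finite_nat n hn M' hM'
  rw [← hk] at h1
  refine Set.Finite.of_injOn (f := fun x => x + Z.cl (single Z.P0 k)) ?_ ?_ h1
  · intro x hx
    exact Z.ZCntA_add_mem n hx k
  · intro x _ y _ hxy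
    exact add_right_cancel hxy

theorem sJ_fin (n : ℕ) (hn : 0 < n) : {x : Z.J | (Z.sJ ^ n) x = x}.Finite := by
  refine Set.Finite.of_injOn (f := fun x : Z.J => (x : Z.Pic)) ?_ ?_ (Z.PM_finite n hn 0)
  · intro x hx
    refine ⟨x.2, ?_⟩
    have h : (Z.sJ ^ n) x = x := hx
    change (Z.s ^ n) (x : Z.Pic) = x
    rw [← Z.coe_sJ_pow, h]
  · intro x _ y _ hxy
    exact Subtype.ext hxy

theorem card_PM (n : ℕ) (M : ℤ) : (Z.PM n M).ncard = Z.hh n := by
  unfold hh
  rw [← Nat.card_coe_set_eq]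
  symm
  have hmem : ∀ x : {x : Z.J // (Z.sJ ^ n) x = x},
      ((x.1 : Z.J) : Z.Pic) + Z.cl (single Z.P0 M) ∈ Z.PM n M := by
    intro x
    have h0 : ((x.1 : Z.J) : Z.Pic) ∈ Z.PM n 0 := by
      refine ⟨x.1.2, ?_⟩
      rw [← Z.coe_sJ_pow, x.2]
    have h := Z.ZCntA_add_mem n h0 M
    rwa [zero_add] at h
  refine Nat.card_eq_of_bijective
    (fun x => (⟨((x.1 : Z.J) : Z.Pic) + Z.cl (single Z.P0 M), hmem x⟩ : Z.PM n M)) ⟨?_, ?_⟩
  · intro x y hxy
    have h := congrArg (fun z : Z.PM n M => (z : Z.Pic)) hxy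
    exact Subtype.ext (Subtype.ext (add_right_cancel h))
  · rintro ⟨y, hy⟩
    have h0 := Z.ZCntA_add_mem n hy (-M)
    rw [add_neg_cancel] at h0
    have h1 : Z.deg (y + Z.cl (single Z.P0 (-M))) = 0 := h0.1
    refine ⟨⟨⟨y + Z.cl (single Z.P0 (-M)), h1⟩, ?_⟩, ?_⟩
    · apply Subtype.ext
      rw [Z.coe_sJ_pow]
      exact h0.2
    · apply Subtype.ext
      change y + Z.cl (single Z.P0 (-M)) + Z.cl (single Z.P0 M) = y
      rw [add_assoc, ← map_add, ← single_add, neg_add_cancel, single_zero, map_zero, add_zero]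

theorem hh_pos (n : ℕ) (hn : 0 < n) : 0 < Z.hh n := by
  unfold hh
  have : Nonempty {x : Z.J // (Z.sJ ^ n) x = x} := ⟨⟨0, map_zero _⟩⟩
  have : Finite {x : Z.J // (Z.sJ ^ n) x = x} := (Z.sJ_fin n hn).to_subtype
  exact Nat.card_pos

theorem kappa_mem (n : ℕ) : Z.cl Z.κ ∈ Z.PM n (2 * (Z.g : ℤ) - 2) := by
  refine ⟨?_, ?_⟩
  · rw [Z.deg_cl, Z.dg_kappa]
  · induction n with
    | zero => rfl
    | succ n ih =>
      rw [pow_succ]
      change (Z.s ^ n) (Z.s (Z.cl Z.κ)) = Z.cl Z.κ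
      rw [Z.s_kappa, ih]

theorem ac_eq {R : Type*} [CommRing R] (n : ℕ) (hn : 0 < n) (χ : Z.Pic → R) (M : ℕ) :
    ((Z.q : R) ^ n - 1) * ac (Z.σ ^ n) (fun D => χ (Z.cl D)) M =
      ∑ᶠ x ∈ Z.PM n M, χ x * ((Z.q : R) ^ (n * Z.ll x) - 1) := by
  classical
  have hF : (Eff (Z.σ ^ n) M).Finite := eff_finite _ (Z.fin_pow n hn) M
  have hG : (Z.PM n M).Finite := Z.PM_finite n hn M
  have hq1 : ∀ m : ℕ, 1 ≤ Z.q ^ m := fun m =>
    Nat.one_le_pow _ _ (lt_of_lt_of_le zero_lt_two Z.two_le)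
  unfold ac
  rw [finsum_mem_eq_finite_toFinset_sum _ hF, finsum_mem_eq_finite_toFinset_sum _ hG]
  have hmaps : ∀ E ∈ hF.toFinset, Z.cl E ∈ hG.toFinset := by
    intro E hE
    rw [Set.Finite.mem_toFinset] at hE ⊢
    refine ⟨?_, ?_⟩
    · rw [Z.deg_cl]
      exact hE.2.2
    · rw [Z.s_pow_cl, hE.2.1]
  rw [← Finset.sum_fiberwise_of_maps_to hmaps, Finset.mul_sum]
  refine Finset.sum_congr rfl fun x hx => ?_
  rw [Set.Finite.mem_toFinset] at hx
  have h1 : ∑ E ∈ hF.toFinset with Z.cl E = x, χ (Z.cl E) =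
      ((hF.toFinset.filter (fun E => Z.cl E = x)).card : R) * χ x := by
    rw [Finset.sum_congr rfl (g := fun _ => χ x)
      (fun E hE => by rw [(Finset.mem_filter.1 hE).2]), Finset.sum_const, nsmul_eq_mul]
  have h2 : (hF.toFinset.filter (fun E => Z.cl E = x)).card =
      {E | E ∈ Eff (Z.σ ^ n) M ∧ Z.cl E = x}.ncard := by
    rw [← Set.ncard_coe_finset]
    congr 1
    ext E
    simp
  have h3 := Z.fibre n hn M x hx
  have h4 : (({E | E ∈ Eff (Z.σ ^ n) M ∧ Z.cl E = x}.ncard : ℕ) : R) * ((Z.q : R) ^ n - 1) =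
      (Z.q : R) ^ (n * Z.ll x) - 1 := by
    have h5 := congrArg (fun k : ℕ => (k : R)) h3
    rw [Nat.cast_mul, Nat.cast_sub (hq1 _), Nat.cast_sub (hq1 _)] at h5
    push_cast at h5
    exact h5
  rw [h1, h2, ← h4]
  ring

end ZDat

end Vale.Agent.P019P
end
end

section

section

/-!
# Locally finite automorphisms: the tower of fixed groups
-/

namespace Vale.Agent.P019P

/-- the orders of the fixed groups grow like those of an abelian variety. -/
structure Grow (ℓ N : ℕ) (h : ℕ → ℕ) : Prop where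
  pos : ∀ n, 0 < n → 0 < h n
  ex : ∃ n0 : ℕ, 0 < n0 ∧
    (∀ n, 0 < n → n0 ∣ n → padicValNat ℓ (h (n * ℓ)) = padicValNat ℓ (h n) + N) ∧
    (∀ n r, 0 < n → n0 ∣ n → ¬ ℓ ∣ r → padicValNat ℓ (h (n * r)) = padicValNat ℓ (h n))

/-- the tower of `ℓ`-primary fixed groups. -/
structure Tower {J : Type*} [AddCommGroup J] (φ : AddMonoid.End J) (ℓ N c : ℕ) : Prop where
  card : ∀ m : ℕ, Nat.card {x : J // (φ ^ ℓ ^ m) x = x ∧ ∃ k : ℕ, ℓ ^ k • x = 0} = ℓ ^ (c + N * m)
  ex : ∀ x : J, (∃ k : ℕ, ℓ ^ k • x = 0) → ∃ m : ℕ, (φ ^ ℓ ^ m) x = x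

/-- the `ℓ`-primary part of a finite abelian group has `ℓ ^ v` elements (multiplicative form). -/
theorem zgA_primary_mul {G : Type*} [CommGroup G] [Finite G] {ℓ : ℕ} (hℓ : ℓ.Prime) :
    Nat.card {x : G // ∃ k : ℕ, x ^ ℓ ^ k = 1} = ℓ ^ padicValNat ℓ (Nat.card G) := by
  have := Fact.mk hℓ
  obtain ⟨P⟩ : Nonempty (Sylow ℓ G) := inferInstance
  have hu := Sylow.unique_of_normal P inferInstance
  have hcard := Sylow.card_eq_multiplicity P
  rw [Nat.factorization_def _ hℓ] at hcard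
  rw [← hcard]
  apply Nat.card_congr
  refine Equiv.subtypeEquivRight fun x => ?_
  constructor
  · rintro ⟨k, hk⟩
    have hz : IsPGroup ℓ (Subgroup.zpowers x) := by
      rintro ⟨y, hy⟩
      obtain ⟨j, rfl⟩ := Subgroup.mem_zpowers_iff.1 hy
      refine ⟨k, ?_⟩
      ext
      simp only [Subgroup.coe_pow, Subgroup.coe_one]
      rw [← zpow_natCast, ← zpow_mul, mul_comm, zpow_mul, zpow_natCast, hk, one_zpow]
    obtain ⟨Q, hQ⟩ := hz.exists_le_sylow
    have hQP : Q = P := Subsingleton.elim _ _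
    rw [← hQP]
    exact hQ (Subgroup.mem_zpowers x)
  · intro hx
    obtain ⟨k, hk⟩ := P.isPGroup' ⟨x, hx⟩
    refine ⟨k, ?_⟩
    have := congrArg Subtype.val hk
    simpa using this

/-- the `ℓ`-primary part of a finite abelian group has `ℓ ^ v` elements. -/
theorem zgA_primary {F : Type*} [AddCommGroup F] [Finite F] {ℓ : ℕ} (hℓ : ℓ.Prime) :
    Nat.card {x : F // ∃ k : ℕ, ℓ ^ k • x = 0} = ℓ ^ padicValNat ℓ (Nat.card F) := by
  have : Finite (Multiplicative F) := inferInstanceAs (Finite F)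
  exact zgA_primary_mul (G := Multiplicative F) hℓ

/-- the fixed points of an endomorphism. -/
def ZgAFixed {J : Type*} [AddCommGroup J] (φ : AddMonoid.End J) : AddSubgroup J where
  carrier := {x | φ x = x}
  zero_mem' := map_zero φ
  add_mem' := by
    intro a b ha hb
    simp only [Set.mem_ofPred_eq] at *
    rw [map_add, ha, hb]
  neg_mem' := by
    intro a ha
    simp only [Set.mem_ofPred_eq] at *
    rw [map_neg, ha]

theorem zgA_fixed_primary {J : Type*} [AddCommGroup J] (φ : AddMonoid.End J) {ℓ : ℕ}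
    (hℓ : ℓ.Prime) (hfin : {x : J | φ x = x}.Finite) :
    Nat.card {x : J // φ x = x ∧ ∃ k : ℕ, ℓ ^ k • x = 0} =
      ℓ ^ padicValNat ℓ (Nat.card {x : J // φ x = x}) := by
  have : Finite (ZgAFixed φ) := hfin
  have h := zgA_primary (F := ZgAFixed φ) hℓ
  have e1 : Nat.card (ZgAFixed φ) = Nat.card {x : J // φ x = x} := rfl
  rw [← e1, ← h]
  refine Nat.card_congr ?_
  refine ⟨fun x => ⟨⟨x.1, x.2.1⟩, ?_⟩, fun y => ⟨y.1.1, y.1.2, ?_⟩, fun x => rfl, fun y => rfl⟩
  · obtain ⟨k, hk⟩ := x.2.2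
    exact ⟨k, Subtype.ext hk⟩
  · obtain ⟨k, hk⟩ := y.2
    exact ⟨k, congrArg Subtype.val hk⟩

theorem zgA_fix_pow {J : Type*} [AddCommGroup J] (φ : AddMonoid.End J) {x : J} (hx : φ x = x)
    (r : ℕ) : (φ ^ r) x = x := by
  induction r with
  | zero => simp
  | succ r ih =>
    rw [pow_succ]
    change (φ ^ r) (φ x) = x
    rw [hx, ih]

theorem exists_tower {J : Type*} [AddCommGroup J] (s : AddMonoid.End J) {ℓ N : ℕ}
    (hℓ : ℓ.Prime) (hper : ∀ x : J, ∃ n : ℕ, 0 < n ∧ (s ^ n) x = x)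
    (hfin : ∀ n : ℕ, 0 < n → {x : J | (s ^ n) x = x}.Finite)
    (hg : Grow ℓ N (fun n => Nat.card {x : J // (s ^ n) x = x})) :
    ∃ n0 c : ℕ, Tower (s ^ n0) ℓ N c := by
  obtain ⟨hpos, n0, hn0, hg1, hg2⟩ := hg
  have hl0 : 0 < ℓ := hℓ.pos
  have hstep : ∀ m : ℕ, padicValNat ℓ (Nat.card {x : J // (s ^ (n0 * ℓ ^ m)) x = x}) =
      padicValNat ℓ (Nat.card {x : J // (s ^ n0) x = x}) + N * m := by
    intro m
    induction m with
    | zero => simp
    | succ m ih =>
      have h := hg1 (n0 * ℓ ^ m) (by positivity) (Dvd.intro _ rfl)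
      rw [pow_succ, ← mul_assoc, h, ih]
      ring
  refine ⟨n0, padicValNat ℓ (Nat.card {x : J // (s ^ n0) x = x}), ?_, ?_⟩
  · intro m
    rw [← pow_mul, zgA_fixed_primary _ hℓ (hfin _ (by positivity)), hstep]
  · rintro x ⟨k, hk⟩
    obtain ⟨n, hn, hx⟩ := hper x
    obtain ⟨m, r, hr, rfl⟩ := Nat.exists_eq_pow_mul_and_not_dvd hn.ne' ℓ hℓ.ne_one
    refine ⟨m, ?_⟩
    rw [← pow_mul]
    have hr0 : 0 < r := Nat.pos_of_ne_zero fun h => hr (h ▸ dvd_zero ℓ)
    have hv := hg2 (n0 * ℓ ^ m) r (by positivity) (Dvd.intro _ rfl) hr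
    have hA := zgA_fixed_primary (s ^ (n0 * ℓ ^ m)) hℓ (hfin _ (by positivity))
    have hB := zgA_fixed_primary (s ^ (n0 * ℓ ^ m * r)) hℓ (hfin _ (by positivity))
    have hsub : {x : J | (s ^ (n0 * ℓ ^ m)) x = x ∧ ∃ k : ℕ, ℓ ^ k • x = 0} ⊆
        {x : J | (s ^ (n0 * ℓ ^ m * r)) x = x ∧ ∃ k : ℕ, ℓ ^ k • x = 0} := by
      rintro y ⟨hy, hk'⟩
      exact ⟨by rw [pow_mul]; exact zgA_fix_pow _ hy r, hk'⟩
    have hfinB : {x : J | (s ^ (n0 * ℓ ^ m * r)) x = x ∧ ∃ k : ℕ, ℓ ^ k • x = 0}.Finite :=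
      (hfin (n0 * ℓ ^ m * r) (by positivity)).subset fun y hy => hy.1
    have heq := Set.eq_of_subset_of_ncard_le hsub (by
      have e1 : {x : J | (s ^ (n0 * ℓ ^ m * r)) x = x ∧ ∃ k : ℕ, ℓ ^ k • x = 0}.ncard =
          Nat.card {x : J // (s ^ (n0 * ℓ ^ m * r)) x = x ∧ ∃ k : ℕ, ℓ ^ k • x = 0} := rfl
      have e2 : {x : J | (s ^ (n0 * ℓ ^ m)) x = x ∧ ∃ k : ℕ, ℓ ^ k • x = 0}.ncard =
          Nat.card {x : J // (s ^ (n0 * ℓ ^ m)) x = x ∧ ∃ k : ℕ, ℓ ^ k • x = 0} := rfl
      rw [e1, e2, hA, hB, hv]) hfinB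
    have hxB : x ∈ {x : J | (s ^ (n0 * ℓ ^ m * r)) x = x ∧ ∃ k : ℕ, ℓ ^ k • x = 0} := by
      refine ⟨?_, k, hk⟩
      have e : n0 * ℓ ^ m * r = (ℓ ^ m * r) * n0 := by ring
      rw [e, pow_mul]
      exact zgA_fix_pow _ hx n0
    rw [← heq] at hxB
    exact hxB.1

end Vale.Agent.P019P
end
end

section

section

/-!
# Fields of roots of unity
-/

namespace Vale.Agent.P019P

/-- the characteristic of a field of roots of unity. -/
theorem exists_prime_char {k : Type*} [Field k] (hf : ∀ a : k, a ≠ 0 → ∃ n : ℕ, 0 < n ∧ a ^ n = 1) :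
    ∃ p : ℕ, p.Prime ∧ CharP k p := by
  obtain ⟨p, hp⟩ := CharP.exists k
  rcases CharP.char_is_prime_or_zero k p with h | h
  · exact ⟨p, h, hp⟩
  · exfalso
    subst h
    have : CharZero k := CharP.charP_to_charZero k
    obtain ⟨n, hn, h1⟩ := hf 2 two_ne_zero
    have h2 : ((2 ^ n : ℕ) : k) = ((1 : ℕ) : k) := by
      push_cast
      exact h1
    have h3 : (2 : ℕ) ^ n = 1 := Nat.cast_injective h2
    have h4 : 1 < 2 ^ n := Nat.one_lt_two_pow hn.ne'
    omega

namespace AuxFFrobA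

theorem iter_fix {k : Type*} [Field k] {p m : ℕ} {a : k} (h : a ^ p ^ m = a) (j : ℕ) :
    a ^ p ^ (m * j) = a := by
  induction j with
  | zero => simp
  | succ j ih =>
    rw [Nat.mul_succ, pow_add, pow_mul, ih, h]

theorem one_fix {k : Type*} [Field k] {p : ℕ} [Fact p.Prime] [CharP k p]
    (hf : ∀ a : k, a ≠ 0 → ∃ n : ℕ, 0 < n ∧ a ^ n = 1) (a : k) :
    ∃ m : ℕ, 0 < m ∧ a ^ p ^ m = a := by
  have hp : p.Prime := Fact.out
  by_cases ha : a = 0
  · subst ha
    exact ⟨1, one_pos, by rw [pow_one, zero_pow hp.ne_zero]⟩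
  · obtain ⟨n, hn, h1⟩ := hf a ha
    obtain ⟨r, q, hq, rfl⟩ := Nat.exists_eq_pow_mul_and_not_dvd hn.ne' p hp.ne_one
    have hq0 : 0 < q := Nat.pos_of_mul_pos_left hn |> fun h => by
      rcases Nat.eq_zero_or_pos q with h0 | h0
      · subst h0; simp at hq
      · exact h0
    have haq : a ^ q = 1 := by
      have h2 : (a ^ q) ^ p ^ r = 1 := by
        rw [← pow_mul, mul_comm]; exact h1
      have h3 : (a ^ q) ^ p ^ r = (1 : k) ^ p ^ r := by rw [h2, one_pow]
      exact iterateFrobenius_inj k p r (by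
        simpa [iterateFrobenius_def] using h3)
    have hcop : Nat.Coprime p q := (Nat.Prime.coprime_iff_not_dvd hp).2 hq
    have hmod : p ^ Nat.totient q ≡ 1 [MOD q] := Nat.ModEq.pow_totient hcop
    refine ⟨Nat.totient q, Nat.totient_pos.2 hq0, ?_⟩
    have h4 : a ^ p ^ Nat.totient q = a ^ 1 :=
      pow_eq_pow_of_modEq hmod haq
    rw [h4, pow_one]

end AuxFFrobA

/-- finitely many constants lie in a finite field. -/
theorem exists_pow_fix {k : Type*} [Field k] {p : ℕ} [Fact p.Prime] [CharP k p]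
    (hf : ∀ a : k, a ≠ 0 → ∃ n : ℕ, 0 < n ∧ a ^ n = 1) (s : Finset k) :
    ∃ m : ℕ, 0 < m ∧ ∀ a ∈ s, a ^ p ^ m = a := by
  classical
  induction s using Finset.induction_on with
  | empty => exact ⟨1, one_pos, by simp⟩
  | insert b s hb ih =>
    obtain ⟨m, hm, h⟩ := ih
    obtain ⟨m', hm', h'⟩ := AuxFFrobA.one_fix (p := p) hf b
    refine ⟨m * m', Nat.mul_pos hm hm', ?_⟩
    intro a ha
    rcases Finset.mem_insert.1 ha with h1 | h1
    · subst h1
      rw [mul_comm]
      exact AuxFFrobA.iter_fix h' m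
    · exact AuxFFrobA.iter_fix (h a h1) m'

end Vale.Agent.P019P
end
end

section

section

/-!
# Frobenius on the rational function field
-/

namespace Vale.Agent.P019P

open Polynomial IntermediateField

/-- the Frobenius of the constants acting on the coefficients of rational functions. -/
theorem exists_frob_adj {k F : Type*} [Field k] [Field F] [Algebra k F]
    {p : ℕ} [Fact p.Prime] [CharP k p] {x : F} (hx : Transcendental k x) (m : ℕ) :
    ∃ τ : k⟮x⟯ →+* k⟮x⟯, (∀ a : k, τ (algebraMap k k⟮x⟯ a) = algebraMap k k⟮x⟯ (a ^ p ^ m)) ∧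
      τ (AdjoinSimple.gen k x) = AdjoinSimple.gen k x := by
  set φ : k[X] →+* k⟮x⟯ := Polynomial.eval₂RingHom
    ((algebraMap k k⟮x⟯).comp (iterateFrobenius k p m)) (AdjoinSimple.gen k x) with hφd
  have hgen : Transcendental k (AdjoinSimple.gen k x) := by
    intro h
    apply hx
    have := h.algebraMap (A := F)
    rwa [AdjoinSimple.algebraMap_gen] at this
  have hinj : ∀ f : k[X], φ f = 0 → f = 0 := by
    intro f hf
    have h1 : φ f = aeval (AdjoinSimple.gen k x) (f.map (iterateFrobenius k p m)) := by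
      simp only [hφd, coe_eval₂RingHom, aeval_def, eval₂_map]
    rw [h1] at hf
    have h2 : f.map (iterateFrobenius k p m) = 0 := by
      by_contra hne
      exact hgen ⟨_, hne, hf⟩
    rwa [Polynomial.map_eq_zero] at h2
  have hφ : nonZeroDivisors k[X] ≤ (nonZeroDivisors k⟮x⟯).comap φ := by
    intro f hf
    rw [Submonoid.mem_comap, mem_nonZeroDivisors_iff_ne_zero]
    intro h
    exact (mem_nonZeroDivisors_iff_ne_zero.1 hf) (hinj f h)
  refine ⟨(RatFunc.liftRingHom φ hφ).comp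
    ((RatFunc.algEquivOfTranscendental x hx).symm : k⟮x⟯ →+* RatFunc k), ?_, ?_⟩
  · intro a
    have h1 : (RatFunc.algEquivOfTranscendental x hx).symm (algebraMap k k⟮x⟯ a) =
        RatFunc.C a := by
      rw [AlgEquiv.commutes]
      rfl
    simp only [RingHom.comp_apply, RingHom.coe_coe]
    rw [h1, RatFunc.liftRingHom_C]
    simp [hφd, iterateFrobenius_def]
  · simp only [RingHom.comp_apply, RingHom.coe_coe]
    rw [RatFunc.algEquivOfTranscendental_symm_gen, RatFunc.liftRingHom_X]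
    simp [hφd]

/-- every element of `k(x)` is fixed by a power of Frobenius. -/
theorem exists_frob_fix {k F : Type*} [Field k] [Field F] [Algebra k F]
    {p : ℕ} [Fact p.Prime] [CharP k p]
    (hf : ∀ a : k, a ≠ 0 → ∃ n : ℕ, 0 < n ∧ a ^ n = 1) {x : F} (s : Finset k⟮x⟯) :
    ∃ m : ℕ, 0 < m ∧ ∀ τ : k⟮x⟯ →+* k⟮x⟯,
      (∀ a : k, τ (algebraMap k k⟮x⟯ a) = algebraMap k k⟮x⟯ (a ^ p ^ m)) →
      τ (AdjoinSimple.gen k x) = AdjoinSimple.gen k x → ∀ z ∈ s, τ z = z := by
  classical
  have hex : ∀ z : k⟮x⟯, ∃ r q : k[X], z = aeval (AdjoinSimple.gen k x) r /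
      aeval (AdjoinSimple.gen k x) q := by
    intro z
    obtain ⟨r, q, h⟩ := (IntermediateField.mem_adjoin_simple_iff k (z : F)).1 z.2
    refine ⟨r, q, ?_⟩
    apply (algebraMap k⟮x⟯ F).injective
    rw [map_div₀, ← aeval_algebraMap_apply, ← aeval_algebraMap_apply,
      AdjoinSimple.algebraMap_gen]
    exact h
  choose r q hrq using hex
  obtain ⟨m, hm, hfix⟩ := exists_pow_fix (p := p) hf
    (s.biUnion fun z => (r z).coeffs ∪ (q z).coeffs)
  refine ⟨m, hm, fun τ hτ hτx z hz => ?_⟩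
  have key : ∀ f : k[X], (∀ n ∈ f.support, f.coeff n ^ p ^ m = f.coeff n) →
      τ (aeval (AdjoinSimple.gen k x) f) = aeval (AdjoinSimple.gen k x) f := by
    intro f hcf
    rw [aeval_def, Polynomial.hom_eval₂, hτx, eval₂_eq_sum, eval₂_eq_sum, Polynomial.sum_def,
      Polynomial.sum_def]
    refine Finset.sum_congr rfl fun n hn => ?_
    rw [RingHom.comp_apply, hτ, hcf n hn]
  have h1 : τ (aeval (AdjoinSimple.gen k x) (r z)) = aeval (AdjoinSimple.gen k x) (r z) := by
    refine key _ fun n hn => hfix _ (Finset.mem_biUnion.2 ⟨z, hz, Finset.mem_union_left _ ?_⟩)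
    exact Polynomial.coeff_mem_coeffs (Polynomial.mem_support_iff.1 hn)
  have h2 : τ (aeval (AdjoinSimple.gen k x) (q z)) = aeval (AdjoinSimple.gen k x) (q z) := by
    refine key _ fun n hn => hfix _ (Finset.mem_biUnion.2 ⟨z, hz, Finset.mem_union_right _ ?_⟩)
    exact Polynomial.coeff_mem_coeffs (Polynomial.mem_support_iff.1 hn)
  rw [hrq z, map_div₀, h1, h2]

end Vale.Agent.P019P
end
end

section

section

/-!
# Rings of functions with poles at one place: definitions
-/

namespace Vale.Agent.P019P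

open Polynomial IntermediateField TensorProduct

/-- numerical semigroups with `g` gaps, all of them smaller than `2 * g`. -/
structure Sgp (g : ℕ) (S : Set ℕ) : Prop where
  zero : 0 ∈ S
  add : ∀ {a b : ℕ}, a ∈ S → b ∈ S → a + b ∈ S
  large : ∀ n, 2 * g ≤ n → n ∈ S
  gaps : Sᶜ.ncard = g

section

variable {A R : Type*} [CommRing A] [CommRing R] [Algebra A R] {S : Set ℕ}

/-- bases indexed by the degrees, the leading coefficients of the products are units. -/
structure IsDB (b : Module.Basis S A R) : Prop where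
  one : ∀ d : S, (d : ℕ) = 0 → b d = 1
  top : ∀ d e f : S, (f : ℕ) = d + e → IsUnit (b.repr (b d * b e) f)
  low : ∀ d e f : S, (d : ℕ) + e < f → b.repr (b d * b e) f = 0

/-- the elements of degree at most `n`. -/
def fil (b : Module.Basis S A R) (n : ℕ) : Submodule A R where
  carrier := {z | ∀ f : S, n < f → b.repr z f = 0}
  zero_mem' := fun f _ => by rw [map_zero]; rfl
  add_mem' := fun {z w} hz hw f hf => by
    rw [map_add, Finsupp.add_apply, hz f hf, hw f hf, add_zero]
  smul_mem' := fun a z hz f hf => by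
    rw [map_smul, Finsupp.smul_apply, hz f hf, smul_zero]

theorem mem_fil {b : Module.Basis S A R} {n : ℕ} {z : R} :
    z ∈ fil b n ↔ ∀ f : S, n < f → b.repr z f = 0 := Iff.rfl

/-- the degree. -/
noncomputable def dgr (b : Module.Basis S A R) (z : R) : ℕ :=
  (b.repr z).support.sup fun f => (f : ℕ)

/-- the bounded part of the index set. -/
abbrev SD (S : Set ℕ) (D : ℕ) : Type := {d : Fin (D + 1) // (d : ℕ) ∈ S}

noncomputable instance (S : Set ℕ) (D : ℕ) : Fintype (SD S D) := Fintype.ofFinite _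

noncomputable instance (S : Set ℕ) (D : ℕ) : DecidableEq (SD S D) := Classical.decEq _

/-- the index of an element of the bounded part. -/
def SD.ix {S : Set ℕ} {D : ℕ} (d : SD S D) : S := ⟨(d.1 : ℕ), d.2⟩

/-- elements with given coordinates. -/
noncomputable def el (b : Module.Basis S A R) {D : ℕ} (t : SD S D → A) : R :=
  ∑ d, t d • b d.ix

end

section

variable {k F : Type*} [Field k] [Field F] [Algebra k F] [CFF k F]

/-- the functions with poles only at `P₀`. -/
def RO (P₀ : Plk k F) : Subalgebra k F where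
  carrier := {w | ∀ P, P ≠ P₀ → w = 0 ∨ 0 ≤ ord P w}
  mul_mem' := by
    intro z w hz hw P hP
    rcases hz P hP with h1 | h1
    · left; rw [h1, zero_mul]
    rcases hw P hP with h2 | h2
    · left; rw [h2, mul_zero]
    by_cases hz0 : z = 0
    · left; rw [hz0, zero_mul]
    by_cases hw0 : w = 0
    · left; rw [hw0, mul_zero]
    right
    rw [ord_mul P hz0 hw0]
    omega
  add_mem' := by
    intro z w hz hw P hP
    have h1 : z ∈ P.1 := (mem_iff_ord P z).2 (hz P hP)
    have h2 : w ∈ P.1 := (mem_iff_ord P w).2 (hw P hP)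
    exact (mem_iff_ord P _).1 (add_mem h1 h2)
  algebraMap_mem' := by
    intro a P _
    right
    rw [ord_const]

theorem mem_RO {P₀ : Plk k F} {w : F} :
    w ∈ RO P₀ ↔ ∀ P, P ≠ P₀ → w = 0 ∨ 0 ≤ ord P w := Iff.rfl

/-- the functions with a pole of order at most `n` at `P₀` and no other poles. -/
noncomputable abbrev LP (P₀ : Plk k F) (n : ℕ) : Submodule k F :=
  LL k (Finsupp.single P₀ (n : ℤ))

/-- the data of a function which is locally a product of an `ℓ`-th power, a generator of the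
ideal of the `p i` and a unit. -/
structure JT {R : Type*} [CommRing R] (ℓ : ℕ) {ι : Type} [Fintype ι] (p : ι → R) (f : R)
    (a : Fin 2 → R) (r s : ι → Fin 2 → R) : Prop where
  eq : ∀ i j, p i * a j ^ ℓ = f * r i j
  one : ∑ i, ∑ j, s i j * r i j = 1

/-- `M` pairwise inequivalent functions with divisor divisible by `ℓ`. -/
def NC (ℓ : ℕ) (k F : Type*) [Field k] [Field F] [Algebra k F] [CFF k F] (M : ℕ) : Prop :=
  ∃ z : Fin M → F, (∀ i, z i ≠ 0 ∧ ∀ P : Plk k F, (ℓ : ℤ) ∣ ord P (z i)) ∧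
    ∀ i j, i ≠ j → ¬ ∃ h : F, z i = h ^ ℓ * z j

end

end Vale.Agent.P019P
end
end

section

section

/-!
# Rings with a degree basis: filtration
-/

namespace Vale.Agent.P019P

open Polynomial IntermediateField TensorProduct

section

variable {A R : Type*} [CommRing A] [CommRing R] [Algebra A R] {S : Set ℕ}
  {b : Module.Basis S A R}

theorem repr_el (b : Module.Basis S A R) {D : ℕ} (t : SD S D → A) (d : SD S D) :
    b.repr (el b t) d.ix = t d := by
  rw [el, map_sum, Finsupp.finset_sum_apply, Finset.sum_eq_single d]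
  · rw [map_smul, b.repr_self, Finsupp.smul_apply, Finsupp.single_eq_same, smul_eq_mul, mul_one]
  · intro e _ he
    rw [map_smul, b.repr_self, Finsupp.smul_apply, Finsupp.single_eq_of_ne, smul_zero]
    intro h
    apply he
    apply Subtype.ext
    apply Fin.ext
    exact (congrArg (fun f : S => (f : ℕ)) h).symm
  · intro h
    exact absurd (Finset.mem_univ _) h

theorem el_mem (b : Module.Basis S A R) {D : ℕ} (t : SD S D → A) : el b t ∈ fil b D := by
  refine Submodule.sum_mem _ fun d _ => Submodule.smul_mem _ _ ?_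
  intro f hf
  rw [b.repr_self, Finsupp.single_eq_of_ne]
  intro h
  have h1 : (f : ℕ) = (d.1 : ℕ) := congrArg (fun f : S => (f : ℕ)) h
  have h2 := d.1.2
  omega

theorem exists_el {D : ℕ} {z : R} (hz : z ∈ fil b D) : ∃ t : SD S D → A, z = el b t := by
  refine ⟨fun d => b.repr z d.ix, ?_⟩
  apply b.ext_elem
  intro f
  by_cases hf : (f : ℕ) ≤ D
  · exact (repr_el b (fun d => b.repr z d.ix) ⟨⟨f, by omega⟩, f.2⟩).symm
  · rw [hz f (by omega), el_mem b _ f (by omega)]

/-- base change. -/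
theorem IsDB.baseChange (h : IsDB b) (A' : Type*) [CommRing A'] [Algebra A A'] :
    IsDB (b.baseChange A') := by
  have key : ∀ d e f : S, (b.baseChange A').repr ((b.baseChange A') d * (b.baseChange A') e) f =
      algebraMap A A' (b.repr (b d * b e) f) := by
    intro d e f
    rw [Module.Basis.baseChange_apply, Module.Basis.baseChange_apply,
      Algebra.TensorProduct.tmul_mul_tmul, mul_one, Module.Basis.baseChange_repr_tmul,
      Algebra.smul_def, mul_one]
  refine ⟨?_, ?_, ?_⟩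
  · intro d hd
    rw [Module.Basis.baseChange_apply, h.one d hd]
    rfl
  · intro d e f hf
    rw [key]
    exact (h.top d e f hf).map _
  · intro d e f hf
    rw [key, h.low d e f hf, map_zero]

theorem fil_mono (b : Module.Basis S A R) {m n : ℕ} (h : m ≤ n) : fil b m ≤ fil b n :=
  fun _ hz f hf => hz f (h.trans_lt hf)

theorem fil_mul (h : IsDB b) {m n : ℕ} {z w : R} (hz : z ∈ fil b m) (hw : w ∈ fil b n) :
    z * w ∈ fil b (m + n) := by
  obtain ⟨t, rfl⟩ := exists_el hz
  obtain ⟨u, rfl⟩ := exists_el hw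
  rw [el, el, Finset.sum_mul_sum]
  refine Submodule.sum_mem _ fun d _ => Submodule.sum_mem _ fun e _ => ?_
  rw [smul_mul_smul_comm]
  refine Submodule.smul_mem _ _ ?_
  intro f hf
  apply h.low
  have h1 := d.1.2
  have h2 := e.1.2
  change (d.1 : ℕ) + (e.1 : ℕ) < f
  omega

theorem fil_one (h : IsDB b) (hS : 0 ∈ S) (n : ℕ) : (1 : R) ∈ fil b n := by
  rw [← h.one ⟨0, hS⟩ rfl]
  intro f hf
  rw [b.repr_self, Finsupp.single_eq_of_ne]
  intro h1
  have h2 : (f : ℕ) = 0 := congrArg (fun f : S => (f : ℕ)) h1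
  omega

end

end Vale.Agent.P019P
end
end

section

section

/-!
# Rings with a degree basis over a field: degrees
-/

namespace Vale.Agent.P019P

open Polynomial IntermediateField TensorProduct

section

variable {K R : Type*} [Field K] [CommRing R] [Algebra K R] {S : Set ℕ} {g : ℕ}
  {b : Module.Basis S K R}

theorem mem_fil_iff {n : ℕ} {z : R} : z ∈ fil b n ↔ dgr b z ≤ n := by
  constructor
  · intro hz
    refine Finset.sup_le fun f hf => ?_
    by_contra h
    exact (Finsupp.mem_support_iff.1 hf) (hz f (not_le.1 h))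
  · intro h f hf
    by_contra h0
    have h1 : (f : ℕ) ≤ dgr b z :=
      Finset.le_sup (f := fun f : S => (f : ℕ)) (Finsupp.mem_support_iff.2 h0)
    omega

/-- the leading coefficient. -/
theorem exists_lead {z : R} (hz : z ≠ 0) : ∃ d : S, (d : ℕ) = dgr b z ∧ b.repr z d ≠ 0 := by
  have h1 : (b.repr z).support.Nonempty := by
    rw [Finsupp.support_nonempty_iff]
    intro h
    exact hz (b.repr.map_eq_zero_iff.1 h)
  obtain ⟨d, hd, hd2⟩ := Finset.exists_mem_eq_sup _ h1 (fun f : S => (f : ℕ))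
  exact ⟨d, hd2.symm, Finsupp.mem_support_iff.1 hd⟩

theorem h4Ring_basis_mem (b : Module.Basis S K R) (d : S) : b d ∈ fil b d := by
  intro f hf
  rw [b.repr_self, Finsupp.single_apply, if_neg]
  rintro rfl
  exact lt_irrefl _ hf

theorem h4Ring_lt (h : IsDB b) {m n : ℕ} {z w : R} (hz : ∀ f : S, m ≤ f → b.repr z f = 0)
    (hw : w ∈ fil b n) (f : S) (hf : m + n ≤ f) : b.repr (z * w) f = 0 := by
  rcases Nat.eq_zero_or_pos m with rfl | hm
  · have h0 : z = 0 := by
      apply b.repr.map_eq_zero_iff.1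
      ext f
      exact hz f (Nat.zero_le _)
    rw [h0, zero_mul, map_zero]
    rfl
  · have h1 : z ∈ fil b (m - 1) := fun f hf => hz f (by omega)
    exact fil_mul h h1 hw f (by omega)

theorem h4Ring_repr_sub {z : R} (d : S) (hd : z ∈ fil b d) (f : S) (hf : (d : ℕ) ≤ f) :
    b.repr (z - b.repr z d • b d) f = 0 := by
  rw [map_sub, map_smul, b.repr_self, Finsupp.sub_apply, Finsupp.smul_apply, smul_eq_mul,
    Finsupp.single_apply]
  by_cases h : d = f
  · subst h
    rw [if_pos rfl, mul_one, sub_self]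
  · rw [if_neg h, mul_zero, sub_zero]
    refine hd f (lt_of_le_of_ne hf fun h2 => h (Subtype.ext h2))

theorem h4Ring_repr_mul (h : IsDB b) {z w : R} (d e f : S) (hf : (f : ℕ) = d + e)
    (hz : z ∈ fil b d) (hw : w ∈ fil b e) :
    b.repr (z * w) f = b.repr z d * b.repr w e * b.repr (b d * b e) f := by
  have e1 : z * w = (z - b.repr z d • b d) * w + (w - b.repr w e • b e) * (b.repr z d • b d) +
      (b.repr z d * b.repr w e) • (b d * b e) := by
    simp only [Algebra.smul_def, map_mul]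
    ring
  have e2 : b.repr ((z - b.repr z d • b d) * w) f = 0 :=
    h4Ring_lt h (h4Ring_repr_sub d hz) hw f hf.ge
  have e3 : b.repr ((w - b.repr w e • b e) * (b.repr z d • b d)) f = 0 :=
    h4Ring_lt h (h4Ring_repr_sub e hw) (Submodule.smul_mem _ _ (h4Ring_basis_mem b d)) f
      (by omega)
  rw [e1, map_add, map_add, map_smul, Finsupp.add_apply, Finsupp.add_apply, e2, e3,
    Finsupp.smul_apply, smul_eq_mul, zero_add, zero_add]

theorem dgr_mul (h : IsDB b) (hS : Sgp g S) {z w : R} (hz : z ≠ 0) (hw : w ≠ 0) :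
    z * w ≠ 0 ∧ dgr b (z * w) = dgr b z + dgr b w := by
  obtain ⟨d, hd, hd2⟩ := exists_lead (b := b) hz
  obtain ⟨e, he, he2⟩ := exists_lead (b := b) hw
  have hz1 : z ∈ fil b d := mem_fil_iff.2 hd.ge
  have hw1 : w ∈ fil b e := mem_fil_iff.2 he.ge
  have hf := h4Ring_repr_mul h d e ⟨d + e, hS.add d.2 e.2⟩ rfl hz1 hw1
  have hne : b.repr (z * w) ⟨d + e, hS.add d.2 e.2⟩ ≠ 0 := by
    rw [hf]
    exact mul_ne_zero (mul_ne_zero hd2 he2) (h.top d e _ rfl).ne_zero
  refine ⟨fun h0 => hne (by rw [h0, map_zero]; rfl), le_antisymm ?_ ?_⟩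
  · rw [← hd, ← he]
    exact mem_fil_iff.1 (fil_mul h hz1 hw1)
  · rw [← hd, ← he]
    exact Finset.le_sup (f := fun f : S => (f : ℕ)) (Finsupp.mem_support_iff.2 hne)

theorem h4_domain (h : IsDB b) (hS : Sgp g S) : IsDomain R := by
  have : Nontrivial R := by
    refine ⟨⟨b ⟨0, hS.zero⟩, 0, ?_⟩⟩
    exact b.ne_zero _
  have : NoZeroDivisors R := ⟨by
    intro z w hzw
    by_contra hc
    rw [not_or] at hc
    exact (dgr_mul h hS hc.1 hc.2).1 hzw⟩
  exact NoZeroDivisors.to_isDomain R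

theorem h4Ring_algebraMap (h : IsDB b) (hS : Sgp g S) (c : K) :
    algebraMap K R c = c • b ⟨0, hS.zero⟩ := by
  rw [h.one ⟨0, hS.zero⟩ rfl, Algebra.algebraMap_eq_smul_one]

theorem dgr_algebraMap (h : IsDB b) (hS : Sgp g S) (c : K) : dgr b (algebraMap K R c) = 0 := by
  have h1 : algebraMap K R c ∈ fil b 0 := by
    rw [h4Ring_algebraMap h hS]
    exact Submodule.smul_mem _ _ (h4Ring_basis_mem b ⟨0, hS.zero⟩)
  exact Nat.le_zero.1 (mem_fil_iff.1 h1)

theorem dgr_add_le (b : Module.Basis S K R) (z w : R) :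
    dgr b (z + w) ≤ max (dgr b z) (dgr b w) :=
  mem_fil_iff.1 (Submodule.add_mem _ (mem_fil_iff.2 (le_max_left _ _))
    (mem_fil_iff.2 (le_max_right _ _)))

theorem dgr_basis (b : Module.Basis S K R) (d : S) : dgr b (b d) = d := by
  rw [dgr, b.repr_self, Finsupp.support_single_ne_zero _ one_ne_zero, Finset.sup_singleton]

/-- cancellation of the leading terms. -/
theorem exists_dgr_sub {z w : R} (hz : z ≠ 0) (hw : w ≠ 0) (h : dgr b z = dgr b w) :
    ∃ c : K, c ≠ 0 ∧ (z - c • w = 0 ∨ dgr b (z - c • w) < dgr b z) := by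
  obtain ⟨d, hd, hd2⟩ := exists_lead (b := b) hz
  obtain ⟨e, he, he2⟩ := exists_lead (b := b) hw
  have hde : d = e := Subtype.ext (by rw [hd, he, h])
  subst hde
  refine ⟨b.repr z d / b.repr w d, div_ne_zero hd2 he2, ?_⟩
  by_cases h0 : z - (b.repr z d / b.repr w d) • w = 0
  · exact Or.inl h0
  right
  obtain ⟨f, hf, hf2⟩ := exists_lead (b := b) h0
  by_contra hlt
  rw [not_lt] at hlt
  apply hf2
  rw [map_sub, map_smul, Finsupp.sub_apply, Finsupp.smul_apply, smul_eq_mul]
  by_cases hfd : f = d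
  · rw [hfd, div_mul_cancel₀ _ he2, sub_self]
  · have h3 : (d : ℕ) < f := by
      refine lt_of_le_of_ne ?_ fun h4 => hfd (Subtype.ext h4.symm)
      rw [hf, hd]
      exact hlt
    have hz1 : z ∈ fil b d := mem_fil_iff.2 hd.ge
    have hw1 : w ∈ fil b d := mem_fil_iff.2 he.ge
    rw [hz1 f h3, hw1 f h3, mul_zero, sub_zero]

/-- coordinates of the elements of bounded degree. -/
noncomputable def h4Ring_lin (b : Module.Basis S K R) (n : ℕ) : (SD S n → K) →ₗ[K] fil b n where
  toFun t := ⟨el b t, el_mem b t⟩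
  map_add' t u := Subtype.ext (by
    change el b (t + u) = el b t + el b u
    simp only [el, Pi.add_apply, add_smul, Finset.sum_add_distrib])
  map_smul' c t := Subtype.ext (by
    change el b (c • t) = c • el b t
    simp only [el, Pi.smul_apply, smul_eq_mul, mul_smul, Finset.smul_sum])

theorem h4Ring_lin_surj (b : Module.Basis S K R) (n : ℕ) :
    Function.Surjective (h4Ring_lin b n) := by
  rintro ⟨z, hz⟩
  obtain ⟨t, ht⟩ := exists_el hz
  exact ⟨t, Subtype.ext ht.symm⟩

theorem h4Ring_lin_inj (b : Module.Basis S K R) (n : ℕ) :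
    Function.Injective (h4Ring_lin b n) := by
  intro t u htu
  have h1 : el b t = el b u := congrArg Subtype.val htu
  funext d
  rw [← repr_el b t d, ← repr_el b u d, h1]

theorem fil_finite (b : Module.Basis S K R) (n : ℕ) : FiniteDimensional K (fil b n) :=
  Module.Finite.of_surjective (h4Ring_lin b n) (h4Ring_lin_surj b n)

theorem h4Ring_card (hS : Sgp g S) {n : ℕ} (hn : 2 * g ≤ n) :
    Fintype.card (SD S n) + g = n + 1 := by
  classical
  have h1 : Fintype.card (SD S n) + Fintype.card {d : Fin (n + 1) // ¬ (d : ℕ) ∈ S} = n + 1 := by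
    rw [Fintype.card_subtype_compl, Fintype.card_fin]
    have h2 := Fintype.card_subtype_le (fun d : Fin (n + 1) => (d : ℕ) ∈ S)
    rw [Fintype.card_fin] at h2
    have h3 : Fintype.card (SD S n) = Fintype.card {d : Fin (n + 1) // (d : ℕ) ∈ S} :=
      Fintype.card_congr (Equiv.refl _)
    omega
  have h2 : Fintype.card {d : Fin (n + 1) // ¬ (d : ℕ) ∈ S} = g := by
    rw [← hS.gaps, ← Nat.card_coe_set_eq, ← Nat.card_eq_fintype_card]
    refine Nat.card_congr ⟨fun d => ⟨d.1, d.2⟩, fun d => ⟨⟨d.1, ?_⟩, d.2⟩, ?_, ?_⟩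
    · have h3 : ¬ 2 * g ≤ (d : ℕ) := fun h4 => d.2 (hS.large _ h4)
      omega
    · intro d
      rfl
    · intro d
      rfl
  omega

theorem finrank_fil (b : Module.Basis S K R) (hS : Sgp g S) {n : ℕ} (hn : 2 * g ≤ n) :
    Module.finrank K (fil b n) + g = n + 1 := by
  rw [← h4Ring_card hS hn, ← Module.finrank_fintype_fun_eq_card K (η := SD S n)]
  congr 1
  exact (LinearEquiv.ofBijective (h4Ring_lin b n)
    ⟨h4Ring_lin_inj b n, h4Ring_lin_surj b n⟩).finrank_eq.symm

end

end Vale.Agent.P019P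
end
end

section

section

/-!
# The functions of a ring with a degree basis have poles only at infinity
-/

namespace Vale.Agent.P019P

open Polynomial IntermediateField TensorProduct

section

variable {K R : Type*} [Field K] [CommRing R] [Algebra K R] {S : Set ℕ} {g : ℕ}
  {b : Module.Basis S K R}

theorem h4FrC_bound (v : S → ℤ) (N : ℕ) : ∃ M : ℤ, 0 ≤ M ∧ ∀ d : S, (d : ℕ) < N → v d ≤ M := by
  classical
  have h0 : ∀ n, 0 ≤ (if h : n ∈ S then |v ⟨n, h⟩| else 0) := by
    intro n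
    split_ifs
    · exact abs_nonneg _
    · exact le_rfl
  refine ⟨∑ n ∈ Finset.range N, if h : n ∈ S then |v ⟨n, h⟩| else 0,
    Finset.sum_nonneg fun n _ => h0 n, fun d hd => ?_⟩
  have h1 := Finset.single_le_sum (f := fun n => if h : n ∈ S then |v ⟨n, h⟩| else 0)
    (fun n _ => h0 n) (Finset.mem_range.2 hd)
  rw [dif_pos d.2] at h1
  exact (le_abs_self _).trans h1

theorem h4FrC_mem (N : Submodule K R) {z : R} (h : ∀ f : S, b.repr z f ≠ 0 → b f ∈ N) :
    z ∈ N := by
  rw [← b.linearCombination_repr z, Finsupp.linearCombination_apply, Finsupp.sum]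
  exact Submodule.sum_mem _ fun f hf => N.smul_mem _ (h f (Finsupp.mem_support_iff.1 hf))

theorem h4FrC_pow (h : IsDB b) (hS : Sgp g S) {z : R} (hz : z ≠ 0) (n : ℕ) :
    z ^ n ≠ 0 ∧ dgr b (z ^ n) = n * dgr b z := by
  have : IsDomain R := h4_domain h hS
  refine ⟨pow_ne_zero _ hz, ?_⟩
  induction n with
  | zero =>
    rw [pow_zero, zero_mul, ← map_one (algebraMap K R)]
    exact dgr_algebraMap h hS 1
  | succ n ih =>
    rw [pow_succ, (dgr_mul h hS (pow_ne_zero _ hz) hz).2, ih]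
    ring

end

section

variable {K R F : Type*} [Field K] [CommRing R] [Algebra K R] [Field F]
  [Algebra R F] [Algebra K F] [IsScalarTower K R F] {S : Set ℕ} {g : ℕ}
  {b : Module.Basis S K R} [CFF K F]

variable (K R F) in
/-- the functions in the ring. -/
noncomputable def h4FrC_lin : R →ₗ[K] F := (IsScalarTower.toAlgHom K R F).toLinearMap

theorem h4FrC_lin_apply (z : R) : h4FrC_lin K R F z = algebraMap R F z := rfl

variable (R) in
/-- elements of the ring with bounded pole. -/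
noncomputable def h4FrC_N (P : Plk K F) (n : ℤ) : Submodule K R :=
  (Mge P (-n)).comap (h4FrC_lin K R F)

theorem h4FrC_mem_N {P : Plk K F} {n : ℤ} {z : R} :
    z ∈ h4FrC_N R P n ↔ algebraMap R F z ∈ Mge P (-n) := Iff.rfl

theorem h4FrC_N_mono (P : Plk K F) {m n : ℤ} (h : m ≤ n) : h4FrC_N R P m ≤ h4FrC_N R P n :=
  fun _ hz => Mge_mono P (neg_le_neg h) hz

theorem h4FrC_N_mul {P : Plk K F} {m n : ℤ} {z w : R} (hz : z ∈ h4FrC_N R P m)
    (hw : w ∈ h4FrC_N R P n) : z * w ∈ h4FrC_N R P (m + n) := by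
  have h1 := mul_mem_Mge (h4FrC_mem_N.1 hz) (h4FrC_mem_N.1 hw)
  rw [h4FrC_mem_N, map_mul]
  rwa [show -(m + n) = -m + -n by ring]

/-- the growth of the poles of the basis. -/
theorem h4FrC_basis (h : IsDB b) (hS : Sgp g S) (P : Plk K F) {c M : ℤ} (hc : 0 ≤ c)
    (hx : b ⟨2 * g + 1, hS.large _ (by omega)⟩ ∈ h4FrC_N R P c)
    (hM0 : 0 ≤ M)
    (hM : ∀ d : S, (d : ℕ) < 2 * (2 * g + 1) →
      ((2 * g + 1 : ℕ) : ℤ) * -ord P (algebraMap R F (b d)) ≤ M) :
    ∀ n : ℕ, ∀ e : S, (e : ℕ) = n →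
      b e ∈ h4FrC_N R P ((c * e + M) / ((2 * g + 1 : ℕ) : ℤ)) := by
  have hm : (0 : ℤ) < ((2 * g + 1 : ℕ) : ℤ) := by positivity
  intro n
  induction n using Nat.strong_induction_on with
  | _ n ih =>
  intro e he
  by_cases hlt : (e : ℕ) < 2 * (2 * g + 1)
  · right
    have h1 := hM e hlt
    have h2 : -ord P (algebraMap R F (b e)) ≤ (c * e + M) / ((2 * g + 1 : ℕ) : ℤ) := by
      rw [Int.le_ediv_iff_mul_le hm, mul_comm]
      have : 0 ≤ c * (e : ℤ) := mul_nonneg hc (by positivity)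
      linarith
    rw [h4FrC_lin_apply]
    linarith
  · rw [not_lt] at hlt
    set N := h4FrC_N R P ((c * e + M) / ((2 * g + 1 : ℕ) : ℤ)) with hN
    have hf0 : (e : ℕ) - (2 * g + 1) ∈ S := hS.large _ (by omega)
    set f0 : S := ⟨(e : ℕ) - (2 * g + 1), hf0⟩ with hf0def
    have hf0v : (f0 : ℕ) = (e : ℕ) - (2 * g + 1) := rfl
    set x := b ⟨2 * g + 1, hS.large _ (by omega)⟩ with hxdef
    have hsum : (2 * g + 1) + (f0 : ℕ) = e := by omega
    have hy : x * b f0 ∈ N := by
      have h1 := ih f0 (by omega) f0 rfl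
      have h2 := h4FrC_N_mul hx h1
      refine h4FrC_N_mono P ?_ h2
      have h3 : c * (e : ℤ) + M = (c * (f0 : ℤ) + M) + c * ((2 * g + 1 : ℕ) : ℤ) := by
        rw [← hsum]
        push_cast
        ring
      rw [h3, Int.add_mul_ediv_right _ _ hm.ne']
      linarith
    have hyf : x * b f0 ∈ fil b e := by
      have h1 := fil_mul h (h4Ring_basis_mem b ⟨2 * g + 1, hS.large _ (by omega)⟩)
        (h4Ring_basis_mem b f0)
      rwa [show ((⟨2 * g + 1, hS.large _ (by omega)⟩ : S) : ℕ) + (f0 : ℕ) = e from hsum] at h1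
    have hw : x * b f0 - b.repr (x * b f0) e • b e ∈ N := by
      apply h4FrC_mem (b := b)
      intro f hf
      have hfe : (f : ℕ) < e := by
        by_contra hcon
        exact hf (h4Ring_repr_sub e hyf f (not_lt.1 hcon))
      refine h4FrC_N_mono P ?_ (ih f (by omega) f rfl)
      apply Int.ediv_le_ediv hm
      have h1 : c * (f : ℤ) ≤ c * (e : ℤ) :=
        mul_le_mul_of_nonneg_left (by exact_mod_cast hfe.le) hc
      linarith
    have hu : b.repr (x * b f0) e ≠ 0 :=
      (h.top ⟨2 * g + 1, hS.large _ (by omega)⟩ f0 e hsum.symm).ne_zero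
    have h1 : b.repr (x * b f0) e • b e ∈ N := by
      have h2 := N.sub_mem hy hw
      rwa [sub_sub_cancel] at h2
    have h2 := N.smul_mem (b.repr (x * b f0) e)⁻¹ h1
    rwa [smul_smul, inv_mul_cancel₀ hu, one_smul] at h2

/-- the growth of the poles. -/
theorem h4FrC_all (h : IsDB b) (hS : Sgp g S) (P : Plk K F) {c : ℤ} (hc : 0 ≤ c)
    (hx : b ⟨2 * g + 1, hS.large _ (by omega)⟩ ∈ h4FrC_N R P c) :
    ∃ M : ℤ, ∀ z : R, z ∈ h4FrC_N R P ((c * dgr b z + M) / ((2 * g + 1 : ℕ) : ℤ)) := by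
  have hm : (0 : ℤ) < ((2 * g + 1 : ℕ) : ℤ) := by positivity
  obtain ⟨M, hM0, hM⟩ := h4FrC_bound
    (fun d : S => ((2 * g + 1 : ℕ) : ℤ) * -ord P (algebraMap R F (b d))) (2 * (2 * g + 1))
  refine ⟨M, fun z => ?_⟩
  apply h4FrC_mem (b := b)
  intro f hf
  refine h4FrC_N_mono P ?_ (h4FrC_basis h hS P hc hx hM0 hM f f rfl)
  apply Int.ediv_le_ediv hm
  have h0 : (f : ℕ) ≤ dgr b z :=
    Finset.le_sup (f := fun f : S => (f : ℕ)) (Finsupp.mem_support_iff.2 hf)
  have h1 : c * (f : ℤ) ≤ c * (dgr b z : ℤ) :=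
    mul_le_mul_of_nonneg_left (by exact_mod_cast h0) hc
  linarith

/-- the power trick. -/
theorem h4FrC_star (hinj : Function.Injective (algebraMap R F)) (h : IsDB b) (hS : Sgp g S)
    (P : Plk K F) {c : ℤ} (hc : 0 ≤ c)
    (hx : b ⟨2 * g + 1, hS.large _ (by omega)⟩ ∈ h4FrC_N R P c) {z : R} (hz : z ≠ 0) :
    ((2 * g + 1 : ℕ) : ℤ) * -ord P (algebraMap R F z) ≤ c * dgr b z := by
  have hm : (0 : ℤ) < ((2 * g + 1 : ℕ) : ℤ) := by positivity
  obtain ⟨M, hM⟩ := h4FrC_all h hS P hc hx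
  by_contra hcon
  rw [not_le] at hcon
  set A := ((2 * g + 1 : ℕ) : ℤ) * -ord P (algebraMap R F z) with hA
  have key : ∀ n : ℕ, (n : ℤ) * (A - c * dgr b z) ≤ M := by
    intro n
    obtain ⟨h1, h2⟩ := h4FrC_pow h hS hz n
    have h3 := (h4FrC_mem_N.1 (hM (z ^ n))).resolve_left
      ((map_ne_zero_iff _ hinj).2 h1)
    rw [map_pow, ord_pow, h2] at h3
    have h4 : -((n : ℤ) * ord P (algebraMap R F z)) ≤
        (c * ((n * dgr b z : ℕ) : ℤ) + M) / ((2 * g + 1 : ℕ) : ℤ) := by linarith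
    rw [Int.le_ediv_iff_mul_le hm] at h4
    have h5 : (n : ℤ) * (A - c * dgr b z) =
        -((n : ℤ) * ord P (algebraMap R F z)) * ((2 * g + 1 : ℕ) : ℤ) -
          c * ((n * dgr b z : ℕ) : ℤ) := by
      rw [hA]
      push_cast
      ring
    rw [h5]
    linarith
  have h1 := key (M.toNat + 1)
  have h2 : (1 : ℤ) ≤ A - c * dgr b z := by linarith
  have h3 : ((M.toNat + 1 : ℕ) : ℤ) * 1 ≤ ((M.toNat + 1 : ℕ) : ℤ) * (A - c * dgr b z) :=
    mul_le_mul_of_nonneg_left h2 (by positivity)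
  have h4 : M ≤ (M.toNat : ℤ) := Int.self_le_toNat M
  push_cast at h1 h3
  linarith

/-- the exact orders. -/
theorem h4FrC_exact (hinj : Function.Injective (algebraMap R F)) (h : IsDB b) (hS : Sgp g S)
    (P : Plk K F) (hc : ord P (algebraMap R F (b ⟨2 * g + 1, hS.large _ (by omega)⟩)) < 0)
    {z : R} (hz : z ≠ 0) :
    ((2 * g + 1 : ℕ) : ℤ) * ord P (algebraMap R F z) =
      ord P (algebraMap R F (b ⟨2 * g + 1, hS.large _ (by omega)⟩)) * dgr b z := by
  have : IsDomain R := h4_domain h hS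
  have hm : (0 : ℤ) < ((2 * g + 1 : ℕ) : ℤ) := by positivity
  set x := b ⟨2 * g + 1, hS.large _ (by omega)⟩ with hxdef
  have hx0 : x ≠ 0 := b.ne_zero _
  have hxd : dgr b x = 2 * g + 1 := dgr_basis b _
  have hx : x ∈ h4FrC_N R P (-ord P (algebraMap R F x)) := by
    right
    rw [neg_neg, h4FrC_lin_apply]
  obtain ⟨h1, h2⟩ := h4FrC_pow h hS hz (2 * g + 1)
  obtain ⟨h3, h4⟩ := h4FrC_pow h hS hx0 (dgr b z)
  obtain ⟨l, hl0, hl⟩ := exists_dgr_sub (b := b) h1 h3 (by rw [h2, h4, hxd]; ring)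
  have hlx : algebraMap R F (l • x ^ dgr b z) ≠ 0 :=
    (map_ne_zero_iff _ hinj).2 (smul_ne_zero hl0 h3)
  have hord : ord P (algebraMap R F (l • x ^ dgr b z)) =
      dgr b z * ord P (algebraMap R F x) := by
    rw [← h4FrC_lin_apply (K := K), map_smul, h4FrC_lin_apply, Algebra.smul_def,
      ord_mul P (by rwa [Ne, map_eq_zero]) ((map_ne_zero_iff _ hinj).2 h3), ord_const, zero_add,
      map_pow, ord_pow]
  have hzm : ord P (algebraMap R F (z ^ (2 * g + 1))) = dgr b z * ord P (algebraMap R F x) := by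
    by_cases hy : z ^ (2 * g + 1) - l • x ^ dgr b z = 0
    · rw [sub_eq_zero.1 hy, hord]
    · have h5 := hl.resolve_left hy
      rw [h2] at h5
      have h6 := h4FrC_star hinj h hS P (c := -ord P (algebraMap R F x)) (by linarith) hx hy
      have h7 : algebraMap R F (z ^ (2 * g + 1) - l • x ^ dgr b z) ∈
          Mge P (ord P (algebraMap R F (l • x ^ dgr b z)) + 1) := by
        right
        rw [hord]
        have h8 : (dgr b (z ^ (2 * g + 1) - l • x ^ dgr b z) : ℤ) + 1 ≤
            ((2 * g + 1 : ℕ) : ℤ) * dgr b z := by exact_mod_cast h5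
        have h9 : (-ord P (algebraMap R F x)) *
            ((dgr b (z ^ (2 * g + 1) - l • x ^ dgr b z) : ℤ) + 1) ≤
            (-ord P (algebraMap R F x)) * (((2 * g + 1 : ℕ) : ℤ) * dgr b z) :=
          mul_le_mul_of_nonneg_left h8 (by linarith)
        by_contra hcon
        rw [not_le] at hcon
        have h10 : ord P (algebraMap R F (z ^ (2 * g + 1) - l • x ^ dgr b z)) ≤
            dgr b z * ord P (algebraMap R F x) := by omega
        have h11 := mul_le_mul_of_nonneg_left h10 hm.le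
        nlinarith
      have h8 := (ord_add_of_lt hlx h7).2
      rw [← map_add, add_sub_cancel] at h8
      rw [h8, hord]
  rw [map_pow, ord_pow] at hzm
  rw [hzm]
  ring

end

variable {K R F : Type*} [Field K] [IsAlgClosed K] [CommRing R] [Algebra K R] [Field F]
  [Algebra R F] [IsFractionRing R F] [Algebra K F] [IsScalarTower K R F] {S : Set ℕ} {g : ℕ}
  {b : Module.Basis S K R} [CFF K F] {P₀ : Plk K F}

/-- no other poles. -/
theorem h4_RO (h : IsDB b) (hS : Sgp g S)
    (hP₀ : ∀ z : R, z ≠ 0 → ord P₀ (algebraMap R F z) = -(dgr b z : ℤ)) (z : R) :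
    algebraMap R F z ∈ RO P₀ := by
  have : IsDomain R := h4_domain h hS
  have hinj : Function.Injective (algebraMap R F) := IsFractionRing.injective R F
  have hm : (0 : ℤ) < ((2 * g + 1 : ℕ) : ℤ) := by positivity
  intro P hP
  by_cases hz : z = 0
  · left
    rw [hz, map_zero]
  right
  by_cases hc : ord P (algebraMap R F (b ⟨2 * g + 1, hS.large _ (by omega)⟩)) < 0
  · exfalso
    apply hP
    have key : ∀ z : R, z ≠ 0 → ((2 * g + 1 : ℕ) : ℤ) * ord P (algebraMap R F z) =
        -ord P (algebraMap R F (b ⟨2 * g + 1, hS.large _ (by omega)⟩)) *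
          ord P₀ (algebraMap R F z) := by
      intro z hz
      rw [h4FrC_exact hinj h hS P hc hz, hP₀ z hz]
      ring
    have key2 : ∀ w : F, w ≠ 0 → ((2 * g + 1 : ℕ) : ℤ) * ord P w =
        -ord P (algebraMap R F (b ⟨2 * g + 1, hS.large _ (by omega)⟩)) * ord P₀ w := by
      intro w hw
      obtain ⟨u, v, hv, rfl⟩ := IsFractionRing.div_surjective (A := R) w
      have hv0 : v ≠ 0 := nonZeroDivisors.ne_zero hv
      have hv1 : algebraMap R F v ≠ 0 := (map_ne_zero_iff _ hinj).2 hv0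
      have hu1 : algebraMap R F u ≠ 0 := fun h1 => hw (by rw [h1, zero_div])
      have hu0 : u ≠ 0 := (map_ne_zero_iff _ hinj).1 hu1
      rw [div_eq_mul_inv, ord_mul P hu1 (inv_ne_zero hv1), ord_mul P₀ hu1 (inv_ne_zero hv1),
        ord_inv, ord_inv, mul_add, mul_add, mul_neg, mul_neg, key u hu0, key v hv0]
    apply Plk.eq_of_le
    intro w hw
    rw [mem_iff_ord] at hw ⊢
    rcases hw with hw | hw
    · exact Or.inl hw
    by_cases hw0 : w = 0
    · exact Or.inl hw0
    right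
    have h1 := key2 w hw0
    have h2 : 0 ≤ ((2 * g + 1 : ℕ) : ℤ) * ord P w := mul_nonneg hm.le hw
    rw [h1] at h2
    exact nonneg_of_mul_nonneg_right h2 (by linarith)
  · rw [not_lt] at hc
    have hx : b ⟨2 * g + 1, hS.large _ (by omega)⟩ ∈ h4FrC_N R P 0 := by
      right
      rw [neg_zero, h4FrC_lin_apply]
      exact hc
    have h1 := h4FrC_star hinj h hS P le_rfl hx hz
    rw [zero_mul] at h1
    by_contra hcon
    rw [not_le] at hcon
    have h2 : 0 < ((2 * g + 1 : ℕ) : ℤ) * -ord P (algebraMap R F z) :=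
      mul_pos hm (by linarith)
    linarith

end Vale.Agent.P019P
end
end

section

section

/-!
# Specialisation to closures of finite fields
-/

universe u

namespace Vale.Agent.P019P

theorem h4SysE_int : IsJacobsonRing ℤ := by
  rw [isJacobsonRing_iff_prime_eq]
  intro P hP
  by_cases h0 : P = ⊥
  · subst h0
    rw [eq_bot_iff]
    intro x hx
    rw [Ideal.mem_jacobson_bot] at hx
    have h1 := hx x
    rw [Int.isUnit_iff] at h1
    have h2 : 0 ≤ x * x := mul_self_nonneg x
    have h3 : x * x = 0 := by omega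
    have h4 : x = 0 := by simpa using h3
    simp [h4]
  · have : P.IsMaximal := IsPrime.to_maximal_ideal h0
    exact Ideal.jacobson_eq_self_of_isMaximal

theorem h4SysE_finite (L : Type u) [Field L] [Algebra.FiniteType ℤ L] : Finite L := by
  have := h4SysE_int
  have : Module.Finite ℤ L := finite_of_finite_type_of_isJacobsonRing ℤ L
  obtain ⟨p, hp⟩ := CharP.exists L
  have hp0 : p ≠ 0 := by
    rintro rfl
    have : CharZero L := CharP.charP_to_charZero L
    have hi : Function.Injective (algebraMap ℤ L) := (algebraMap ℤ L).injective_int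
    have := isField_of_isIntegral_of_isField (R := ℤ) (S := L) hi (Field.toIsField L)
    exact Int.not_isField this
  have : NeZero p := ⟨hp0⟩
  let _ : Algebra (ZMod p) L := ZMod.algebra L p
  have : IsScalarTower ℤ (ZMod p) L := by
    refine IsScalarTower.of_algebraMap_eq ?_
    intro x
    simp
  have : Module.Finite (ZMod p) L := Module.Finite.of_restrictScalars_finite ℤ (ZMod p) L
  exact Module.finite_of_finite (ZMod p)

theorem h4SysE_quot (B L : Type u) [CommRing B] [Field L] [Algebra.FiniteType ℤ B] (g : B →+* L)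
    (hg : Function.Surjective g) : Finite L := by
  have hg' : Function.Surjective g.toIntAlgHom := hg
  have : Algebra.FiniteType ℤ L := Algebra.FiniteType.of_surjective _ hg'
  exact h4SysE_finite L

theorem h4SysE_loc (A B L : Type u) [CommRing A] [Algebra.FiniteType ℤ A] [CommRing B]
    [Algebra A B] [Field L] (δ : A) [IsLocalization.Away δ B] (g : B →+* L)
    (hg : Function.Surjective g) : Finite L := by
  have : Algebra.FinitePresentation A B := IsLocalization.Away.finitePresentation δ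
  have : Algebra.FiniteType ℤ B := Algebra.FiniteType.trans (S := A) inferInstance inferInstance
  exact h4SysE_quot B L g hg

theorem h4SysE_tors (L : Type u) [Field L] [Finite L] (a : AlgebraicClosure L) (ha : a ≠ 0) :
    ∃ n : ℕ, 0 < n ∧ a ^ n = 1 := by
  have hint : IsIntegral L a := Algebra.IsIntegral.isIntegral a
  have : FiniteDimensional L (IntermediateField.adjoin L {a}) :=
    IntermediateField.adjoin.finiteDimensional hint
  have : Finite (IntermediateField.adjoin L {a}) := Module.finite_of_finite L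
  have := Fintype.ofFinite (IntermediateField.adjoin L {a})
  let b : IntermediateField.adjoin L {a} := IntermediateField.AdjoinSimple.gen L a
  have hb : b ≠ 0 := by
    intro h
    apply ha
    have := congrArg (fun z : IntermediateField.adjoin L {a} => (z : AlgebraicClosure L)) h
    simpa [b] using this
  refine ⟨Fintype.card (IntermediateField.adjoin L {a}) - 1, ?_, ?_⟩
  · have := Fintype.one_lt_card (α := IntermediateField.adjoin L {a})
    omega
  · have h := FiniteField.pow_card_sub_one_eq_one b hb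
    have := congrArg (fun z : IntermediateField.adjoin L {a} => (z : AlgebraicClosure L)) h
    simpa [b] using this

/-- specialisation to the algebraic closure of a finite field. -/
theorem exists_spec {A : Type u} [CommRing A] [IsDomain A] [Algebra.FiniteType ℤ A] {δ : A}
    (hδ : δ ≠ 0) : ∃ (κ : Type u) (_ : Field κ) (_ : Algebra A κ), IsAlgClosed κ ∧
      (∀ a : κ, a ≠ 0 → ∃ n : ℕ, 0 < n ∧ a ^ n = 1) ∧ algebraMap A κ δ ≠ 0 := by
  have hle : Submonoid.powers δ ≤ nonZeroDivisors A := powers_le_nonZeroDivisors_of_noZeroDivisors hδ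
  have : IsDomain (Localization.Away δ) := IsLocalization.isDomain_localization hle
  obtain ⟨M, hM⟩ := Ideal.exists_maximal (Localization.Away δ)
  have := hM
  let _ : Field (Localization.Away δ ⧸ M) := Ideal.Quotient.field M
  have : Finite (Localization.Away δ ⧸ M) :=
    h4SysE_loc A (Localization.Away δ) _ δ (Ideal.Quotient.mk M) Ideal.Quotient.mk_surjective
  let f : A →+* AlgebraicClosure (Localization.Away δ ⧸ M) :=
    (algebraMap (Localization.Away δ ⧸ M) _).comp
      ((Ideal.Quotient.mk M).comp (algebraMap A (Localization.Away δ)))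
  refine ⟨AlgebraicClosure (Localization.Away δ ⧸ M), inferInstance, f.toAlgebra, inferInstance,
    fun a ha => h4SysE_tors _ a ha, ?_⟩
  have hu : IsUnit (algebraMap A (Localization.Away δ) δ) :=
    IsLocalization.Away.algebraMap_isUnit δ
  have hu2 : IsUnit (f δ) := by
    have := (hu.map (Ideal.Quotient.mk M)).map
      (algebraMap (Localization.Away δ ⧸ M) (AlgebraicClosure (Localization.Away δ ⧸ M)))
    exact this
  exact hu2.ne_zero

end Vale.Agent.P019P
end
end

section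

section

/-!
# Linear algebra: witnesses
-/

namespace Vale.Agent.P019P

variable {K : Type*} [Field K] {ι J : Type*} [Fintype ι] [DecidableEq ι] [Fintype J]
  {v : ι → J → K}

omit [Fintype ι] [DecidableEq ι] in
/-- a linear form on `J → K` in coordinates. -/
theorem h4Lin_form [DecidableEq J] (f : (J → K) →ₗ[K] K) (a : J → K) :
    f a = ∑ j, f (Pi.single j 1) * a j := by
  have h : a = ∑ j, a j • (Pi.single j (1 : K) : J → K) := by
    funext i
    rw [Finset.sum_apply, Finset.sum_eq_single i]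
    · simp
    · intro j _ hj
      simp [Pi.single_eq_of_ne hj.symm]
    · intro hi
      exact absurd (Finset.mem_univ i) hi
  conv_lhs => rw [h]
  rw [map_sum]
  refine Finset.sum_congr rfl fun j _ => ?_
  rw [map_smul, smul_eq_mul, mul_comm]

theorem h4_leftinv (h : LinearIndependent K v) :
    ∃ n : ι → J → K, ∀ c c', ∑ j, n c j * v c' j = if c = c' then 1 else 0 := by
  classical
  have hinj : LinearMap.ker (Fintype.linearCombination K v) = ⊥ := by
    rw [LinearMap.ker_eq_bot']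
    intro x hx
    rw [Fintype.linearIndependent_iff] at h
    funext i
    exact h x (by simpa [Fintype.linearCombination_apply] using hx) i
  obtain ⟨G, hG⟩ := LinearMap.exists_leftInverse_of_injective _ hinj
  refine ⟨fun c j => G (Pi.single j 1) c, fun c c' => ?_⟩
  have h1 : G (v c') c = ∑ j, G (Pi.single j 1) c * v c' j :=
    h4Lin_form ((LinearMap.proj c) ∘ₗ G) (v c')
  have h2 : G (v c') = Pi.single c' 1 := by
    have h3 := DFunLike.congr_fun hG (Pi.single c' (1 : K))
    rw [LinearMap.comp_apply, Fintype.linearCombination_apply_single, one_smul,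
      LinearMap.id_apply] at h3
    exact h3
  rw [← h1, h2, Pi.single_apply]

theorem h4_eq_zero {n : ι → J → K}
    (h : ∀ c c', ∑ j, n c j * v c' j = if c = c' then 1 else 0) {x : ι → K}
    (hx : ∀ j, ∑ c, x c * v c j = 0) (c : ι) : x c = 0 := by
  have h1 : x c = ∑ c', x c' * ∑ j, n c j * v c' j := by
    simp [h]
  rw [h1]
  simp only [Finset.mul_sum]
  rw [Finset.sum_comm]
  refine Finset.sum_eq_zero fun j _ => ?_
  have h2 := congrArg (fun z => n c j * z) (hx j)
  simp only [mul_zero, Finset.mul_sum] at h2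
  rw [← h2]
  exact Finset.sum_congr rfl fun c' _ => by ring

omit [DecidableEq ι] [Fintype ι] in
theorem h4_sep' {a : J → K} (h : a ∉ Submodule.span K (Set.range v)) :
    ∃ u : J → K, (∀ i, ∑ j, u j * v i j = 0) ∧ ∑ j, u j * a j = 1 := by
  classical
  obtain ⟨f, hfa, hf⟩ := Submodule.exists_le_ker_of_notMem h
  refine ⟨fun j => f (Pi.single j 1) / f a, fun i => ?_, ?_⟩
  · have h1 : f (v i) = 0 := hf (Submodule.subset_span ⟨i, rfl⟩)
    have h2 := h4Lin_form f (v i)
    rw [h1] at h2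
    simp only [div_mul_eq_mul_div]
    rw [← Finset.sum_div, ← h2, zero_div]
  · have h2 := h4Lin_form f a
    simp only [div_mul_eq_mul_div]
    rw [← Finset.sum_div, ← h2, div_self hfa]

omit [DecidableEq ι] in
theorem h4_sep {a : J → K} (h : a ∉ Submodule.span K (Set.range v)) :
    ∃ u : J → K, (∀ i, ∑ j, u j * v i j = 0) ∧ ∑ j, u j * a j = 1 :=
  h4_sep' h

end Vale.Agent.P019P
end
end

section

end

section

section
/-!
# Kummer descent
-/

namespace Vale.Agent.P019P

open Vale.Agent.P019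

set_option linter.style.haveILetI false

open Polynomial IntermediateField

section span

variable {Ω : Type*} [Field Ω]

/-- a finite Galois extension inside an algebraically closed field containing finitely many
algebraic elements. -/
theorem exists_galois [IsAlgClosed Ω] (K : Subfield Ω) [PerfectField K] (t : Finset Ω)
    (ht : ∀ b ∈ t, IsAlgebraic K b) :
    ∃ M : IntermediateField K Ω, (∀ b ∈ t, b ∈ M) ∧ FiniteDimensional K M ∧ IsGalois K M ∧
      ∃ R : Set Ω, M = adjoin K R ∧ ∀ r ∈ R, ∃ b ∈ t, aeval r (minpoly K b) = 0 := by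
  classical
  let p : K[X] := ∏ b ∈ t, minpoly K b
  have hp : p ≠ 0 := Finset.prod_ne_zero_iff.2 (fun b hb => minpoly.ne_zero (ht b hb).isIntegral)
  haveI hsf : p.IsSplittingField K (adjoin K (p.rootSet Ω)) :=
    adjoin_rootSet_isSplittingField (IsAlgClosed.splits _)
  refine ⟨adjoin K (p.rootSet Ω), ?_, Polynomial.IsSplittingField.finiteDimensional _ p, ?_,
    p.rootSet Ω, rfl, ?_⟩
  · intro b hb
    apply subset_adjoin
    rw [mem_rootSet]
    refine ⟨hp, ?_⟩
    rw [map_prod]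
    exact Finset.prod_eq_zero hb (minpoly.aeval K b)
  · haveI : Normal K (adjoin K (p.rootSet Ω)) := Normal.of_isSplittingField p
    haveI : FiniteDimensional K (adjoin K (p.rootSet Ω)) :=
      Polynomial.IsSplittingField.finiteDimensional _ p
    exact ⟨⟩
  · intro r hr
    rw [mem_rootSet] at hr
    have h1 := hr.2
    rw [map_prod, Finset.prod_eq_zero_iff] at h1
    exact h1

end span

section kummer

variable {Ω : Type*} [Field Ω]

/-- algebraicity over a smaller subfield is preserved by automorphisms over a bigger one. -/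
theorem isAlgebraic_aut {E K : Subfield Ω} (hEK : E ≤ K) {M : IntermediateField K Ω}
    (σ : M ≃ₐ[K] M) {e : M} (he : IsAlgebraic E (e : Ω)) : IsAlgebraic E ((σ e : M) : Ω) := by
  obtain ⟨Q, hQ0, hQ⟩ := he
  refine ⟨Q, hQ0, ?_⟩
  let Q' : K[X] := Q.map (Subfield.inclusion hEK)
  have key : ∀ y : M, aeval (y : Ω) Q = ((aeval y Q' : M) : Ω) := by
    intro y
    have h1 : ((aeval y Q' : M) : Ω) = aeval (y : Ω) Q' := by
      change M.val (aeval y Q') = aeval (M.val y) Q'
      rw [aeval_algHom_apply]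
    rw [h1, aeval_def, aeval_def, eval₂_map]
    rfl
  rw [key] at hQ ⊢
  have h2 : aeval (σ e) Q' = σ (aeval e Q') := by
    rw [← AlgEquiv.coe_toAlgHom, aeval_algHom_apply]
  have h3 : aeval e Q' = 0 := Subtype.ext hQ
  rw [h2, h3, map_zero]
  rfl

/-- **Kummer descent.** -/
theorem kummer_descent [IsAlgClosed Ω] (ℓ : ℕ) [Fact ℓ.Prime]
    (E K B : Subfield Ω) [PerfectField K] (hEK : E ≤ K) (hac : ∀ z ∈ K, IsAlgebraic E z → z ∈ E)
    (hB : ∀ b ∈ B, IsAlgebraic E b) (ζ : Ω) (hζE : ζ ∈ E) (hζ : IsPrimitiveRoot ζ ℓ)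
    {h r : Ω} (hh : h ∈ K) (h0 : h ≠ 0) (hr : r ∈ K ⊔ B) (hrl : r ^ ℓ = h) :
    ∃ e ∈ E, ∃ w ∈ K, h = e * w ^ ℓ := by
  classical
  haveI : NeZero ℓ := ⟨(Fact.out : ℓ.Prime).ne_zero⟩
  have hBK : ∀ b ∈ B, IsAlgebraic K b := by
    intro b hb
    obtain ⟨Q, hQ0, hQ⟩ := hB b hb
    refine ⟨Q.map (Subfield.inclusion hEK), ?_, ?_⟩
    · rw [Ne, Polynomial.map_eq_zero_iff (RingHom.injective _)]; exact hQ0
    · rw [aeval_def, eval₂_map]; exact hQ
  obtain ⟨t, htB, htr⟩ := Submodule.mem_span_finite_of_mem_span (mem_span_of_mem_sup K B hBK hr)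
  obtain ⟨M, htM, hfd, hgal, R, hMR, hR⟩ := exists_galois K t (fun b hb => hBK b (htB hb))
  have hr0 : r ≠ 0 := by
    rintro rfl
    rw [zero_pow (NeZero.ne ℓ)] at hrl
    exact h0 hrl.symm
  -- `r` in `M`
  have hrM : r ∈ M := by
    have : Submodule.span K (t : Set Ω) ≤ Subalgebra.toSubmodule M.toSubalgebra := by
      rw [Submodule.span_le]
      intro b hb
      exact htM b hb
    exact this htr
  set rM : M := ⟨r, hrM⟩ with hrMdef
  have hrM0 : rM ≠ 0 := fun h' => hr0 (congrArg Subtype.val h')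
  -- the character
  have hchar : ∀ σ : M ≃ₐ[K] M, ∃ c : E, c ≠ 0 ∧ σ rM = (algebraMap K M (Subfield.inclusion hEK c)) * rM := by
    intro σ
    have h1 : (σ rM / rM) ^ ℓ = 1 := by
      have h2 : rM ^ ℓ = algebraMap K M ⟨h, hh⟩ := Subtype.ext hrl
      rw [div_pow, ← map_pow, h2, AlgEquiv.commutes]
      refine div_self ?_
      rw [← h2]; exact pow_ne_zero _ hrM0
    have h2 : (((σ rM / rM : M)) : Ω) ^ ℓ = 1 := by
      have := congrArg (fun x : M => (x : Ω)) h1
      simpa using this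
    obtain ⟨i, -, hi⟩ := hζ.eq_pow_of_pow_eq_one h2
    refine ⟨⟨ζ ^ i, pow_mem hζE i⟩, ?_, ?_⟩
    · intro h3
      have : ζ ^ i = 0 := congrArg Subtype.val h3
      rw [this] at hi
      rw [← hi, zero_pow (NeZero.ne ℓ)] at h2
      exact zero_ne_one h2
    · apply Subtype.ext
      have h3 : ((σ rM : M) : Ω) = ζ ^ i * r := by
        rw [hi]
        have : (((σ rM / rM : M)) : Ω) = ((σ rM : M) : Ω) / r := rfl
        rw [this]
        field_simp
      rw [h3]
      rfl
  choose c hc0 hc using hchar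
  -- multiplicativity
  have hcmul : ∀ σ τ : M ≃ₐ[K] M, c (τ * σ) = c τ * c σ := by
    intro σ τ
    have h1 := hc (τ * σ)
    rw [AlgEquiv.mul_apply, hc σ, map_mul, AlgEquiv.commutes, hc τ] at h1
    have h2 : algebraMap K M (Subfield.inclusion hEK (c (τ * σ))) =
        algebraMap K M (Subfield.inclusion hEK (c τ * c σ)) := by
      apply mul_right_cancel₀ hrM0
      rw [← h1, map_mul, map_mul]
      ring
    have h3 := (algebraMap K M).injective h2
    exact (Subfield.inclusion hEK).injective h3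
  -- the projection
  let p : M →ₗ[K] M := ∑ σ : M ≃ₐ[K] M, (Subfield.inclusion hEK (c σ))⁻¹ • σ.toLinearMap
  have hp : ∀ y, p y = ∑ σ : M ≃ₐ[K] M, (Subfield.inclusion hEK (c σ))⁻¹ • σ y := by
    intro y
    simp [p, LinearMap.sum_apply]
  have hRalg : ∀ r ∈ R, IsAlgebraic E r := by
    intro r hr
    obtain ⟨b, hbt, hb⟩ := hR r hr
    obtain ⟨Q, hQ0, hQ⟩ := hB b (htB hbt)
    refine ⟨Q, hQ0, ?_⟩
    have h1 : minpoly K b ∣ Q.map (Subfield.inclusion hEK) := by
      apply minpoly.dvd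
      rw [aeval_def, eval₂_map]
      exact hQ
    obtain ⟨Q', hQ'⟩ := h1
    have h2 : aeval r (Q.map (Subfield.inclusion hEK)) = 0 := by
      rw [hQ', map_mul, hb, zero_mul]
    rw [aeval_def, eval₂_map] at h2
    exact h2
  -- find `e`
  have hex : ∃ (b : Ω) (hb : b ∈ M), IsAlgebraic E b ∧ p ⟨b, hb⟩ ≠ 0 := by
    by_contra hcon
    push Not at hcon
    have h1 : ∀ y : M, p y = 0 := by
      have h2 : ∀ x ∈ Submodule.span K {y : Ω | y ∈ M ∧ IsAlgebraic E y},
          ∃ hxM : x ∈ M, p ⟨x, hxM⟩ = 0 := by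
        intro x hx
        induction hx using Submodule.span_induction with
        | mem x hx => exact ⟨hx.1, hcon x hx.1 hx.2⟩
        | zero => exact ⟨M.zero_mem, map_zero p⟩
        | add x y _ _ hx hy =>
          obtain ⟨hxM, hx⟩ := hx
          obtain ⟨hyM, hy⟩ := hy
          refine ⟨M.add_mem hxM hyM, ?_⟩
          have := map_add p ⟨x, hxM⟩ ⟨y, hyM⟩
          rw [hx, hy, add_zero] at this
          exact this
        | smul a x _ hx =>
          obtain ⟨hxM, hx⟩ := hx
          refine ⟨M.smul_mem hxM, ?_⟩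
          have := map_smul p a ⟨x, hxM⟩
          rw [hx, smul_zero] at this
          exact this
      rintro ⟨y, hy⟩
      refine (h2 y ?_).2
      have h3 : ∀ x ∈ R, IsIntegral K x := by
        intro x hx
        obtain ⟨b, hbt, hb⟩ := hR x hx
        exact ⟨minpoly K b, minpoly.monic (hBK b (htB hbt)).isIntegral, hb⟩
      have h4 : y ∈ Algebra.adjoin K R := by
        have h5 : (adjoin K R).toSubalgebra = Algebra.adjoin K R :=
          adjoin_toSubalgebra_of_isAlgebraic fun x hx => (h3 x hx).isAlgebraic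
        rw [← h5, ← hMR]
        exact hy
      have h6 : R ⊆ M := by
        rw [hMR]
        exact subset_adjoin K R
      rw [← Subalgebra.mem_toSubmodule, Algebra.adjoin_eq_span] at h4
      refine Submodule.span_mono ?_ h4
      intro x hx
      refine ⟨?_, ?_⟩
      · induction hx using Submonoid.closure_induction with
        | mem x hx => exact h6 hx
        | one => exact M.one_mem
        | mul x y _ _ hx hy => exact M.mul_mem hx hy
      · induction hx using Submonoid.closure_induction with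
        | mem x hx => exact hRalg x hx
        | one => exact isAlgebraic_one
        | mul x y _ _ hx hy => exact hx.mul hy
    have h2 := (linearIndependent_monoidHom M M).comp
      (fun σ : M ≃ₐ[K] M => ((σ : M →+* M) : M →* M)) (fun σ τ h => AlgEquiv.ext fun x =>
        DFunLike.congr_fun h x)
    rw [Fintype.linearIndependent_iff] at h2
    have h3 := h2 (fun σ => algebraMap K M (Subfield.inclusion hEK (c σ))⁻¹) (by
      funext y
      have h4 := h1 y
      rw [hp] at h4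
      rw [Finset.sum_apply, Pi.zero_apply, ← h4]
      refine Finset.sum_congr rfl (fun σ _ => ?_)
      rw [Algebra.smul_def]
      rfl) 1
    exact inv_ne_zero (fun h5 => hc0 1 ((map_eq_zero _).1 h5)) ((map_eq_zero _).1 h3)
  obtain ⟨b, hbM, hbalg, hb⟩ := hex
  set e₀ : M := ⟨b, hbM⟩ with he₀
  set T : M := p e₀ with hT
  have hTtr : ∀ τ : M ≃ₐ[K] M, τ T = algebraMap K M (Subfield.inclusion hEK (c τ)) * T := by
    intro τ
    rw [hT, hp, map_sum, Finset.mul_sum]
    refine Fintype.sum_bijective (fun σ => τ * σ) (Group.mulLeft_bijective τ) _ _ (fun σ => ?_)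
    rw [hcmul, Algebra.smul_def, Algebra.smul_def, map_mul, AlgEquiv.commutes,
      AlgEquiv.mul_apply, map_mul, mul_inv, map_mul, ← mul_assoc, ← mul_assoc, ← map_mul,
      mul_inv_cancel₀, map_one, one_mul]
    intro h2
    exact hc0 τ ((map_eq_zero _).1 h2)
  -- `r / T` is in `K`
  have hw : ∃ w : K, algebraMap K M w = rM / T := by
    have : rM / T ∈ (⊥ : IntermediateField K M) := by
      rw [IsGalois.mem_bot_iff_fixed]
      intro τ
      rw [map_div₀, hTtr, hc, mul_div_mul_left]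
      intro h2
      exact hc0 τ ((map_eq_zero _).1 ((map_eq_zero _).1 h2))
    exact IntermediateField.mem_bot.1 this
  have hTl : ∃ w : K, algebraMap K M w = T ^ ℓ := by
    have : T ^ ℓ ∈ (⊥ : IntermediateField K M) := by
      rw [IsGalois.mem_bot_iff_fixed]
      intro τ
      have h1 : (algebraMap K M (Subfield.inclusion hEK (c τ))) ^ ℓ = 1 := by
        have h2 : rM ^ ℓ = algebraMap K M ⟨h, hh⟩ := Subtype.ext hrl
        have h3 : τ (rM ^ ℓ) = rM ^ ℓ := by rw [h2, AlgEquiv.commutes]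
        rw [map_pow, hc, mul_pow] at h3
        exact mul_right_cancel₀ (pow_ne_zero ℓ hrM0) (h3.trans (one_mul _).symm)
      rw [map_pow, hTtr, mul_pow, h1, one_mul]
    exact IntermediateField.mem_bot.1 this
  obtain ⟨w, hw⟩ := hw
  obtain ⟨e, he⟩ := hTl
  -- `T` algebraic over `E`
  have hTalg : IsAlgebraic E ((T : M) : Ω) := by
    have h1 : ((T : M) : Ω) = ∑ σ : M ≃ₐ[K] M, (((c σ : E) : Ω))⁻¹ * ((σ e₀ : M) : Ω) := by
      rw [hT, hp, ← IntermediateField.coe_val, map_sum]
      refine Finset.sum_congr rfl (fun σ _ => ?_)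
      rfl
    rw [h1]
    have h2 : ∀ σ ∈ (Finset.univ : Finset (M ≃ₐ[K] M)),
        (((c σ : E) : Ω))⁻¹ * ((σ e₀ : M) : Ω) ∈ integralClosure E Ω := by
      intro σ _
      refine Subalgebra.mul_mem _ ?_ ?_
      · have : (((c σ : E) : Ω))⁻¹ = algebraMap E Ω (c σ)⁻¹ := by simp; rfl
        rw [this]
        exact Subalgebra.algebraMap_mem _ _
      · exact (isAlgebraic_aut hEK σ hbalg).isIntegral
    have h3 : (∑ σ : M ≃ₐ[K] M, (((c σ : E) : Ω))⁻¹ * ((σ e₀ : M) : Ω)) ∈ integralClosure E Ω :=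
      Subalgebra.sum_mem _ h2
    exact IsIntegral.isAlgebraic h3
  refine ⟨(e : Ω), ?_, (w : Ω), w.2, ?_⟩
  · apply hac _ e.2
    have h1 : (e : Ω) = ((T : M) : Ω) ^ ℓ := congrArg (fun x : M => (x : Ω)) he
    rw [h1]
    exact hTalg.pow ℓ
  · have h1 : (e : Ω) = ((T : M) : Ω) ^ ℓ := congrArg (fun x : M => (x : Ω)) he
    have h2 : (w : Ω) = r / ((T : M) : Ω) := congrArg (fun x : M => (x : Ω)) hw
    have hT0 : ((T : M) : Ω) ≠ 0 := fun h3 => hb (Subtype.ext h3)
    rw [h1, h2, div_pow, hrl]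
    field_simp

end kummer

end Vale.Agent.P019P
end
end

section

end

section

section

/-!
# Normalized coordinates
-/

namespace Vale.Agent.P019

set_option linter.unusedSectionVars false
set_option linter.unusedVariables false

open Polynomial Filter

/-- `σ` restricts to an isomorphism of the subfields `k` and `l`. -/
structure IsoOn {K L : Type*} [Field K] [Field L] (k : Subfield K) (l : Subfield L) (σ : K → L) :
    Prop where
  mem : ∀ a ∈ k, σ a ∈ l
  add : ∀ a ∈ k, ∀ b ∈ k, σ (a + b) = σ a + σ b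
  mul : ∀ a ∈ k, ∀ b ∈ k, σ (a * b) = σ a * σ b
  one : σ 1 = 1
  surj : ∀ β ∈ l, ∃ b ∈ k, σ b = β

variable {K L : Type*} [Field K] [Field L]
  {ℓ : ℕ} {k : Subfield K} {l : Subfield L} {Θ : V ℓ K ≃ₗ[ZMod ℓ] V ℓ L}

theorem IsoOn.zero {σ : K → L} (hσ : IsoOn k l σ) : σ 0 = 0 := by
  have h := hσ.add 0 k.zero_mem 0 k.zero_mem
  rw [add_zero] at h
  exact (left_eq_add).1 h

theorem IsoOn.neg {σ : K → L} (hσ : IsoOn k l σ) {a : K} (ha : a ∈ k) : σ (-a) = - σ a := by
  have h := hσ.add a ha (-a) (k.neg_mem ha)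
  rw [add_neg_cancel, hσ.zero] at h
  exact (neg_eq_of_add_eq_zero_right h.symm).symm

theorem IsoOn.sub {σ : K → L} (hσ : IsoOn k l σ) {a b : K} (ha : a ∈ k) (hb : b ∈ k) :
    σ (a - b) = σ a - σ b := by
  rw [sub_eq_add_neg, hσ.add a ha (-b) (k.neg_mem hb), hσ.neg hb, sub_eq_add_neg]

theorem IsoOn.ne_zero {σ : K → L} (hσ : IsoOn k l σ) {a : K} (ha : a ∈ k) (h0 : a ≠ 0) :
    σ a ≠ 0 := by
  intro h
  have h1 := hσ.mul a ha a⁻¹ (k.inv_mem ha)
  rw [mul_inv_cancel₀ h0, hσ.one, h, zero_mul] at h1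
  exact one_ne_zero h1

theorem IsoOn.inj {σ : K → L} (hσ : IsoOn k l σ) {a b : K} (ha : a ∈ k) (hb : b ∈ k)
    (h : σ a = σ b) : a = b := by
  by_contra hab
  refine hσ.ne_zero (k.sub_mem ha hb) (sub_ne_zero.2 hab) ?_
  rw [hσ.sub ha hb, h, sub_self]

variable [CharZero K] [CharZero L] [Fact ℓ.Prime]

end Vale.Agent.P019
end
end

section

section

/-!
# Determinants of polynomial matrices
-/

namespace Vale.Agent.P019P

open Polynomial

variable {k : Type*} [Field k] {ι : Type*} [Fintype ι] [DecidableEq ι]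

/-- a basis of `ι → k` adapted to a subspace -/
private theorem CDet_basis (N : Submodule k (ι → k)) :
    ∃ (B : Module.Basis ι k (ι → k)) (J : Finset ι), J.card = Module.finrank k N ∧
      ∀ j ∈ J, B j ∈ N := by
  classical
  obtain ⟨N', hN⟩ := Submodule.exists_isCompl N
  set s := Module.finrank k N
  set t := Module.finrank k N'
  let b := ((Module.finBasis k N).prod (Module.finBasis k N')).map
    (Submodule.prodEquivOfIsCompl N N' hN)
  have hcard : Fintype.card (Fin s ⊕ Fin t) = Fintype.card ι := by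
    rw [← Module.finrank_eq_card_basis b, Module.finrank_fintype_fun_eq_card]
  let e : Fin s ⊕ Fin t ≃ ι := Fintype.equivOfCardEq hcard
  refine ⟨b.reindex e, (Finset.univ : Finset (Fin s)).image fun i => e (Sum.inl i), ?_, ?_⟩
  · rw [Finset.card_image_of_injective _ fun x y h => Sum.inl_injective (e.injective h),
      Finset.card_univ, Fintype.card_fin]
  · intro j hj
    obtain ⟨i, -, rfl⟩ := Finset.mem_image.1 hj
    rw [Module.Basis.reindex_apply, e.symm_apply_apply]
    simp only [b, Module.Basis.map_apply, Module.Basis.prod_apply, Sum.elim_inl,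
      Function.comp_apply, Submodule.coe_prodEquivOfIsCompl', LinearMap.coe_inl,
      ZeroMemClass.coe_zero, add_zero]
    exact (Module.finBasis k N i).2

/-- the determinant of a matrix whose value at `c` has a large kernel. -/
theorem pow_dvd_det (G : Matrix ι ι k[X]) (c : k) (N : Submodule k (ι → k))
    (h : ∀ v ∈ N, (G.map (Polynomial.eval c)).mulVec v = 0) :
    (X - C c) ^ Module.finrank k N ∣ G.det := by
  obtain ⟨B, J, hJ, hB⟩ := CDet_basis N
  let U : Matrix ι ι k := (Pi.basisFun k ι).toMatrix B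
  have hU : U * (B.toMatrix (Pi.basisFun k ι)) = 1 :=
    (Pi.basisFun k ι).toMatrix_mul_toMatrix_flip B
  have hdet : U.det ≠ 0 := by
    intro h0
    have := congrArg Matrix.det hU
    rw [Matrix.det_mul, h0, zero_mul, Matrix.det_one] at this
    exact zero_ne_one this
  let A : Matrix ι ι k[X] := G * U.map C
  have hA : ∀ j ∈ J, ∀ i, (X - C c) ∣ A i j := by
    intro j hj i
    rw [dvd_iff_isRoot, IsRoot.def]
    have h1 := congrFun (h (B j) (hB j hj)) i
    simp only [Matrix.mulVec, dotProduct, Matrix.map_apply, Pi.zero_apply] at h1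
    simp only [A, Matrix.mul_apply, Matrix.map_apply, eval_finsetSum, eval_mul, eval_C, U,
      Module.Basis.toMatrix_apply, Pi.basisFun_repr]
    exact h1
  let v : ι → k[X] := fun j => if j ∈ J then X - C c else 1
  have hv : ∀ i j, v j ∣ A i j := by
    intro i j
    by_cases hj : j ∈ J
    · simp only [v, if_pos hj]
      exact hA j hj i
    · simp only [v, if_neg hj]
      exact one_dvd _
  choose G' hG' using hv
  have e1 : A = fun i j => v j * G' i j := by
    funext i j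
    exact hG' i j
  have e2 : A.det = (∏ j, v j) * Matrix.det (fun i j => G' i j) := by
    rw [e1]
    exact Matrix.det_mul_row v _
  have e3 : (∏ j, v j) = (X - C c) ^ Module.finrank k N := by
    simp only [v]
    rw [Finset.prod_ite_mem, Finset.univ_inter, Finset.prod_const, hJ]
  have e4 : A.det = G.det * C U.det := by
    simp only [A]
    rw [Matrix.det_mul]
    congr 1
    exact (RingHom.map_det C U).symm
  have h5 : (X - C c) ^ Module.finrank k N ∣ G.det * C U.det := by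
    rw [← e4, e2, e3]
    exact dvd_mul_right _ _
  have hu : IsUnit (C U.det) := isUnit_C.2 (isUnit_iff_ne_zero.2 hdet)
  exact (hu.dvd_mul_right).1 h5

theorem natDegree_det_le' (G : Matrix ι ι k[X]) (a b : ι → ℕ)
    (h : ∀ i j, (G i j).natDegree ≤ a i + b j) :
    G.det.natDegree ≤ ∑ i, a i + ∑ j, b j := by
  rw [Matrix.det_apply]
  refine natDegree_sum_le_of_forall_le _ _ fun σ _ => ?_
  have h1 : (Equiv.Perm.sign σ • ∏ i, G (σ i) i).natDegree ≤ (∏ i, G (σ i) i).natDegree := by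
    rcases Int.units_eq_one_or (Equiv.Perm.sign σ) with h | h <;> rw [h]
    · simp
    · simp [Units.smul_def]
  refine h1.trans ((natDegree_prod_le _ _).trans ?_)
  calc ∑ i, (G (σ i) i).natDegree ≤ ∑ i, (a (σ i) + b i) := Finset.sum_le_sum fun i _ => h _ _
    _ = ∑ i, a i + ∑ j, b j := by
      rw [Finset.sum_add_distrib, Equiv.sum_comp σ a]

end Vale.Agent.P019P
end
end

section

section

/-!
# The coefficients of the zeta functions
-/

namespace Vale.Agent.P019P

open Finsupp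

variable {P : Type*}

namespace ZDat

variable (Z : ZDat P)

theorem an_large (n : ℕ) (hn : 0 < n) (M : ℕ) (hM : 2 * Z.g ≤ M + 1) :
    ac (Z.σ ^ n) (fun _ => (1 : ℤ)) M * ((Z.q : ℤ) ^ n - 1) =
      Z.hh n * (((Z.q : ℤ) ^ n) ^ (M + 1 - Z.g) - 1) := by
  have h := Z.ac_eq (R := ℤ) n hn (fun _ => 1) M
  rw [mul_comm, h]
  have hll : ∀ x ∈ Z.PM n M, Z.ll x = M + 1 - Z.g := by
    intro x hx
    have h1 := Z.ll_large x (by rw [hx.1]; omega)
    rw [hx.1] at h1
    omega
  have h2 : ∑ᶠ x ∈ Z.PM n M, (1 : ℤ) * ((Z.q : ℤ) ^ (n * Z.ll x) - 1) =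
      ∑ᶠ x ∈ Z.PM n M, (((Z.q : ℤ) ^ n) ^ (M + 1 - Z.g) - 1) := by
    refine finsum_mem_congr rfl fun x hx => ?_
    rw [one_mul, hll x hx, pow_mul]
  rw [h2, finsum_mem_eq_finite_toFinset_sum _ (Z.PM_finite n hn M), Finset.sum_const,
    nsmul_eq_mul, ← Set.ncard_eq_toFinset_card _ (Z.PM_finite n hn M), Z.card_PM]

theorem an_crit (n : ℕ) (hn : 0 < n) (hg : 0 < Z.g) :
    ac (Z.σ ^ n) (fun _ => (1 : ℤ)) (2 * Z.g - 2) * ((Z.q : ℤ) ^ n - 1) =
      ((Z.hh n : ℤ) - 1) * (((Z.q : ℤ) ^ n) ^ (Z.g - 1) - 1) + (((Z.q : ℤ) ^ n) ^ Z.g - 1) := by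
  classical
  have h := Z.ac_eq (R := ℤ) n hn (fun _ => 1) (2 * Z.g - 2)
  rw [mul_comm, h]
  have hc : ((2 * Z.g - 2 : ℕ) : ℤ) = 2 * (Z.g : ℤ) - 2 := by omega
  rw [hc]
  have hfin := Z.PM_finite n hn (2 * (Z.g : ℤ) - 2)
  have hk : Z.cl Z.κ ∈ hfin.toFinset := by
    rw [Set.Finite.mem_toFinset]
    exact Z.kappa_mem n
  rw [finsum_mem_eq_finite_toFinset_sum _ hfin, ← Finset.add_sum_erase _ _ hk]
  have h2 : ∀ x ∈ hfin.toFinset.erase (Z.cl Z.κ),
      (1 : ℤ) * ((Z.q : ℤ) ^ (n * Z.ll x) - 1) = ((Z.q : ℤ) ^ n) ^ (Z.g - 1) - 1 := by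
    intro x hx
    rw [Finset.mem_erase, Set.Finite.mem_toFinset] at hx
    have h3 := Z.ll_crit_ne x hx.2.1 hx.1
    have h4 : Z.ll x = Z.g - 1 := by omega
    rw [one_mul, h4, pow_mul]
  rw [Finset.sum_congr rfl h2, Finset.sum_const, nsmul_eq_mul, Finset.card_erase_of_mem hk,
    ← Set.ncard_eq_toFinset_card _ hfin, Z.card_PM, Z.ll_crit_eq, one_mul, pow_mul,
    Nat.cast_sub (Z.hh_pos n hn)]
  push_cast
  ring

theorem tw_large (n : ℕ) (hn : 0 < n) (χ : Z.Pic → ℂ) (hχ : ∀ x y, χ (x + y) = χ x * χ y)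
    (j : Z.Pic) (hj : j ∈ Z.PM n 0) (hj1 : χ j ≠ 1) (M : ℕ) (hM : 2 * Z.g ≤ M + 1) :
    ac (Z.σ ^ n) (fun D => χ (Z.cl D)) M = 0 := by
  have h := Z.ac_eq (R := ℂ) n hn χ M
  have hfin := Z.PM_finite n hn M
  have hll : ∀ x ∈ Z.PM n M, Z.ll x = M + 1 - Z.g := by
    intro x hx
    have h1 := Z.ll_large x (by rw [hx.1]; omega)
    rw [hx.1] at h1
    omega
  have h2 : ∑ᶠ x ∈ Z.PM n M, χ x * ((Z.q : ℂ) ^ (n * Z.ll x) - 1) =
      (∑ x ∈ hfin.toFinset, χ x) * ((Z.q : ℂ) ^ (n * (M + 1 - Z.g)) - 1) := by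
    rw [finsum_mem_eq_finite_toFinset_sum _ hfin, Finset.sum_mul]
    refine Finset.sum_congr rfl fun x hx => ?_
    rw [Set.Finite.mem_toFinset] at hx
    rw [hll x hx]
  have h3 : ∑ x ∈ hfin.toFinset, χ x = χ j * ∑ x ∈ hfin.toFinset, χ x := by
    rw [Finset.mul_sum]
    refine (Finset.sum_bij (fun x _ => j + x) ?_ ?_ ?_ ?_).symm
    · intro x hx
      rw [Set.Finite.mem_toFinset] at hx ⊢
      refine ⟨by rw [map_add, hj.1, hx.1, zero_add], by rw [map_add, hj.2, hx.2]⟩
    · intro x _ y _ hxy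
      exact add_left_cancel hxy
    · intro x hx
      rw [Set.Finite.mem_toFinset] at hx
      refine ⟨-j + x, ?_, by abel⟩
      rw [Set.Finite.mem_toFinset]
      refine ⟨by rw [map_add, map_neg, hj.1, hx.1, neg_zero, zero_add],
        by rw [map_add, map_neg, hj.2, hx.2]⟩
    · intro x _
      rw [hχ]
  have h4 : ∑ x ∈ hfin.toFinset, χ x = 0 := by
    have h5 : (1 - χ j) * ∑ x ∈ hfin.toFinset, χ x = 0 := by
      rw [sub_mul, one_mul, ← h3, sub_self]
    exact (mul_eq_zero.1 h5).resolve_left (sub_ne_zero.2 (Ne.symm hj1))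
  rw [h2, h4, zero_mul] at h
  refine (mul_eq_zero.1 h).resolve_left ?_
  have h6 : (1 : ℕ) < Z.q ^ n := Nat.one_lt_pow hn.ne' (lt_of_lt_of_le one_lt_two Z.two_le)
  intro h7
  have h8 : ((Z.q ^ n : ℕ) : ℂ) = ((1 : ℕ) : ℂ) := by
    push_cast
    exact sub_eq_zero.1 h7
  have h9 := Nat.cast_injective h8
  omega

end ZDat

end Vale.Agent.P019P
end
end

section

section

/-!
# Monomial valuation rings
-/

namespace Vale.Agent.P019P

open Vale.Agent.P019

set_option linter.unusedSectionVars false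

variable {L : Type*} [Field L]

/-- `ϖ` is infinitesimal with respect to `l` and `ρ`, and `ρ` is independent of `l`. -/
structure Mon (l : Subfield L) (w : ValuationSubring L) (ρ ϖ : L) : Prop where
  rne : ρ ≠ 0
  pne : ϖ ≠ 0
  plt : w.valuation ϖ < 1
  inf : ∀ c ∈ l, c ≠ 0 → ∀ a : ℤ, w.valuation (c * ρ ^ a) < 1 →
    ∀ b : ℤ, w.valuation (c * ρ ^ a) < w.valuation ϖ ^ b
  ind : ∀ c ∈ l, c ≠ 0 → ∀ a : ℤ, w.valuation (c * ρ ^ a) = 1 → a = 0

/-- `u` is residually transcendental over `l`, and `ϖ` is infinitesimal. -/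
structure QMon (l : Subfield L) (w q : ValuationSubring L) (u ϖ : L) : Prop where
  cst : ∀ c ∈ l, c ∈ q ↔ c ∈ w
  pne : ϖ ≠ 0
  plt : q.valuation ϖ < 1
  inf : ∀ c ∈ l, c ≠ 0 → q.valuation c < 1 → ∀ b : ℤ, q.valuation c < q.valuation ϖ ^ b
  uq : u ∈ q
  ures : ∀ c ∈ l, c ∈ q → q.valuation (u - c) = 1

variable {l : Subfield L} {w q : ValuationSubring L} {ρ ϖ u : L}

/-- the common core of the four lemmas -/
private theorem mona_core {w : ValuationSubring L} {x ϖ : L} (hx : x ≠ 0) (hp : ϖ ≠ 0)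
    (hlt : w.valuation ϖ < 1)
    (h1 : w.valuation x < 1 → ∀ b : ℤ, w.valuation x < w.valuation ϖ ^ b)
    (h2 : w.valuation x⁻¹ < 1 → ∀ b : ℤ, w.valuation x⁻¹ < w.valuation ϖ ^ b) (b : ℤ) :
    (w.valuation (x * ϖ ^ b) = 1 ↔ w.valuation x = 1 ∧ b = 0) ∧
      (w.valuation (x * ϖ ^ b) < 1 ↔ w.valuation x < 1 ∨ w.valuation x = 1 ∧ 0 < b) := by
  have hp0 : 0 < w.valuation ϖ := by
    rw [zero_lt_iff]; exact (Valuation.ne_zero_iff _).2 hp
  have hx0 : 0 < w.valuation x := by
    rw [zero_lt_iff]; exact (Valuation.ne_zero_iff _).2 hx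
  have hb0 : ∀ b : ℤ, 0 < w.valuation ϖ ^ b := fun b => zpow_pos hp0 b
  rw [map_mul, map_zpow₀]
  rcases lt_trichotomy (w.valuation x) 1 with h | h | h
  · have h3 : w.valuation x * w.valuation ϖ ^ b < 1 := by
      have h4 := mul_lt_mul_of_pos_right (h1 h (-b)) (hb0 b)
      rwa [zpow_neg, inv_mul_cancel₀ (hb0 b).ne'] at h4
    exact ⟨⟨fun h5 => absurd h5 h3.ne, fun h5 => absurd h5.1 h.ne⟩,
      ⟨fun _ => Or.inl h, fun _ => h3⟩⟩
  · rw [h, one_mul]
    refine ⟨⟨fun h5 => ⟨rfl, ?_⟩, fun h5 => by rw [h5.2, zpow_zero]⟩,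
      ⟨fun h5 => Or.inr ⟨rfl, ?_⟩, fun h5 => ?_⟩⟩
    · exact (zpow_eq_one_iff_right₀ hp0.le hlt.ne).1 h5
    · exact (zpow_lt_one_iff_right_of_lt_one₀ hp0 hlt).1 h5
    · rcases h5 with h5 | h5
      · exact absurd h5 (lt_irrefl _)
      · exact (zpow_lt_one_iff_right_of_lt_one₀ hp0 hlt).2 h5.2
  · have h3 : 1 < w.valuation x * w.valuation ϖ ^ b := by
      have h5 : w.valuation x⁻¹ < 1 := by
        rw [map_inv₀]
        exact inv_lt_one_of_one_lt₀ h
      have h4 := mul_lt_mul_of_pos_left (h2 h5 b) hx0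
      rwa [map_inv₀, mul_inv_cancel₀ hx0.ne'] at h4
    exact ⟨⟨fun h5 => absurd h5 h3.ne', fun h5 => absurd h5.1 h.ne'⟩,
      ⟨fun h5 => absurd (h3.trans h5) (lt_irrefl _), fun h5 => by
        rcases h5 with h5 | h5
        · exact absurd (h.trans h5) (lt_irrefl _)
        · exact absurd h5.1 h.ne'⟩⟩

private theorem mona_mon (h : Mon l w ρ ϖ) {c : L} (hc : c ∈ l) (hc0 : c ≠ 0) (a b : ℤ) :
    (w.valuation (c * ρ ^ a * ϖ ^ b) = 1 ↔ w.valuation (c * ρ ^ a) = 1 ∧ b = 0) ∧
      (w.valuation (c * ρ ^ a * ϖ ^ b) < 1 ↔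
        w.valuation (c * ρ ^ a) < 1 ∨ w.valuation (c * ρ ^ a) = 1 ∧ 0 < b) := by
  refine mona_core (mul_ne_zero hc0 (zpow_ne_zero _ h.rne)) h.pne h.plt (h.inf c hc hc0 a) ?_ b
  have e : (c * ρ ^ a)⁻¹ = c⁻¹ * ρ ^ (-a) := by rw [mul_inv, zpow_neg]
  rw [e]
  exact h.inf c⁻¹ (l.inv_mem hc) (inv_ne_zero hc0) (-a)

theorem Mon.one_iff (h : Mon l w ρ ϖ) {c : L} (hc : c ∈ l) (hc0 : c ≠ 0) (a b : ℤ) :
    w.valuation (c * ρ ^ a * ϖ ^ b) = 1 ↔ w.valuation c = 1 ∧ a = 0 ∧ b = 0 := by
  rw [(mona_mon h hc hc0 a b).1]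
  constructor
  · rintro ⟨h1, h2⟩
    have h3 := h.ind c hc hc0 a h1
    subst h3
    rw [zpow_zero, mul_one] at h1
    exact ⟨h1, rfl, h2⟩
  · rintro ⟨h1, h2, h3⟩
    subst h2
    rw [zpow_zero, mul_one]
    exact ⟨h1, h3⟩

theorem Mon.lt_iff (h : Mon l w ρ ϖ) {c : L} (hc : c ∈ l) (hc0 : c ≠ 0) (a b : ℤ) :
    w.valuation (c * ρ ^ a * ϖ ^ b) < 1 ↔
      w.valuation (c * ρ ^ a) < 1 ∨ w.valuation (c * ρ ^ a) = 1 ∧ 0 < b :=
  (mona_mon h hc hc0 a b).2

theorem QMon.u_eq (h : QMon l w q u ϖ) : q.valuation u = 1 := by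
  simpa using h.ures 0 l.zero_mem q.zero_mem

theorem QMon.val_iff (h : QMon l w q u ϖ) {c : L} (hc : c ∈ l) (hc0 : c ≠ 0) :
    (q.valuation c < 1 ↔ w.valuation c < 1) ∧ (q.valuation c = 1 ↔ w.valuation c = 1) := by
  have h1 : q.valuation c ≤ 1 ↔ w.valuation c ≤ 1 := by
    rw [ValuationSubring.valuation_le_one_iff, ValuationSubring.valuation_le_one_iff]
    exact h.cst c hc
  have h2 : 1 ≤ q.valuation c ↔ 1 ≤ w.valuation c := by
    have e : ∀ r : ValuationSubring L, 1 ≤ r.valuation c ↔ c⁻¹ ∈ r := by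
      intro r
      have hr : 0 < r.valuation c := by
        rw [zero_lt_iff]; exact (Valuation.ne_zero_iff _).2 hc0
      rw [← ValuationSubring.valuation_le_one_iff, map_inv₀, inv_le_one₀ hr]
    rw [e, e]
    exact h.cst c⁻¹ (l.inv_mem hc)
  constructor
  · rw [← not_le, ← not_le, h2]
  · rw [le_antisymm_iff, le_antisymm_iff, h1, h2]

private theorem mona_qmon (h : QMon l w q u ϖ) {c : L} (hc : c ∈ l) (hc0 : c ≠ 0) (a b : ℤ) :
    (q.valuation (c * u ^ a * ϖ ^ b) = 1 ↔ q.valuation c = 1 ∧ b = 0) ∧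
      (q.valuation (c * u ^ a * ϖ ^ b) < 1 ↔
        q.valuation c < 1 ∨ q.valuation c = 1 ∧ 0 < b) := by
  have e : q.valuation (c * u ^ a * ϖ ^ b) = q.valuation (c * ϖ ^ b) := by
    rw [map_mul, map_mul, map_zpow₀, h.u_eq, one_zpow, mul_one, map_mul]
  rw [e]
  exact mona_core hc0 h.pne h.plt (h.inf c hc hc0) (h.inf c⁻¹ (l.inv_mem hc) (inv_ne_zero hc0)) b

theorem QMon.one_iff (h : QMon l w q u ϖ) {c : L} (hc : c ∈ l) (hc0 : c ≠ 0) (a b : ℤ) :
    q.valuation (c * u ^ a * ϖ ^ b) = 1 ↔ w.valuation c = 1 ∧ b = 0 := by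
  rw [(mona_qmon h hc hc0 a b).1, (h.val_iff hc hc0).2]

theorem QMon.lt_iff (h : QMon l w q u ϖ) {c : L} (hc : c ∈ l) (hc0 : c ≠ 0) (a b : ℤ) :
    q.valuation (c * u ^ a * ϖ ^ b) < 1 ↔
      w.valuation c < 1 ∨ w.valuation c = 1 ∧ 0 < b := by
  rw [(mona_qmon h hc hc0 a b).2, (h.val_iff hc hc0).1, (h.val_iff hc hc0).2]

end Vale.Agent.P019P
end
end

section

section

/-!
# The function field of a ring with a degree basis
-/

namespace Vale.Agent.P019P

open Polynomial IntermediateField TensorProduct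

variable {K R F : Type*} [Field K] [IsAlgClosed K] [CommRing R] [Algebra K R] [Field F]
  [Algebra R F] [IsFractionRing R F] [Algebra K F] [IsScalarTower K R F] {S : Set ℕ} {g : ℕ}
  {b : Module.Basis S K R}

omit [IsAlgClosed K] [IsFractionRing R F] in
theorem h4FrA_smul (c : K) (r : R) : algebraMap R F (c • r) = c • algebraMap R F r := by
  rw [Algebra.smul_def, map_mul, ← IsScalarTower.algebraMap_apply, ← Algebra.smul_def]

omit [IsAlgClosed K] [IsFractionRing R F] in
/-- the basis elements lie in the span of those of small degree. -/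
theorem h4FrA_basis (h : IsDB b) (hS : Sgp g S) {m : ℕ} (hm : m ∈ S) (hm2 : 2 * g < m)
    (L : IntermediateField K F) (hL : algebraMap R F (b ⟨m, hm⟩) ∈ L) (N : Submodule L F)
    (hN : ∀ d : S, (d : ℕ) < 2 * m → algebraMap R F (b d) ∈ N) :
    ∀ e : ℕ, ∀ he : e ∈ S, algebraMap R F (b ⟨e, he⟩) ∈ N := by
  intro e
  induction e using Nat.strong_induction_on with
  | _ e ih =>
  intro he
  by_cases hlt : e < 2 * m
  · exact hN ⟨e, he⟩ hlt
  rw [not_lt] at hlt
  have he1 : e - m ∈ S := hS.large _ (by omega)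
  set z : R := b ⟨m, hm⟩ * b ⟨e - m, he1⟩ with hz
  have hu : IsUnit (b.repr z ⟨e, he⟩) :=
    h.top ⟨m, hm⟩ ⟨e - m, he1⟩ ⟨e, he⟩ (by simp only; omega)
  set u : K := b.repr z ⟨e, he⟩ with hudef
  have hu0 : u ≠ 0 := hu.ne_zero
  have hw : z - u • b ⟨e, he⟩ ∈ fil b (e - 1) := by
    intro f hf
    rw [map_sub, map_smul, b.repr_self, Finsupp.sub_apply, Finsupp.smul_apply, smul_eq_mul,
      Finsupp.single_apply]
    by_cases hfe : (⟨e, he⟩ : S) = f
    · rw [if_pos hfe, mul_one, ← hfe, ← hudef, sub_self]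
    · rw [if_neg hfe, mul_zero, sub_zero]
      refine h.low ⟨m, hm⟩ ⟨e - m, he1⟩ f ?_
      have h1 : e ≠ (f : ℕ) := fun h2 => hfe (Subtype.ext h2)
      simp only
      omega
  obtain ⟨t, ht⟩ := exists_el hw
  have hzN : algebraMap R F z ∈ N := by
    rw [hz, map_mul]
    exact N.smul_mem (⟨_, hL⟩ : L) (ih (e - m) (by omega) he1)
  have hwN : algebraMap R F (z - u • b ⟨e, he⟩) ∈ N := by
    rw [ht, el, map_sum]
    refine N.sum_mem fun d _ => ?_
    rw [h4FrA_smul]
    refine N.smul_of_tower_mem _ ?_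
    have hd : (d.1 : ℕ) < e := by
      have := d.1.2
      omega
    exact ih (d.1 : ℕ) hd d.2
  have hbe : algebraMap R F (b ⟨e, he⟩) = u⁻¹ • (algebraMap R F z -
      algebraMap R F (z - u • b ⟨e, he⟩)) := by
    rw [← map_sub, sub_sub_cancel, h4FrA_smul, smul_smul, inv_mul_cancel₀ hu0, one_smul]
  rw [hbe]
  exact N.smul_of_tower_mem _ (N.sub_mem hzN hwN)

/-- the fraction field is a function field of one variable. -/
theorem h4_cff (h : IsDB b) (hS : Sgp g S) : CFF K F := by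
  have hdom : IsDomain R := h4_domain h hS
  have hinj : Function.Injective (algebraMap R F) := IsFractionRing.injective R F
  set m : ℕ := 2 * g + 1 with hmdef
  have hm : m ∈ S := hS.large _ (by omega)
  set X : F := algebraMap R F (b ⟨m, hm⟩) with hX
  refine ⟨inferInstance, X, ?_, ?_⟩
  · intro halg
    have hint : IsIntegral K X := halg.isIntegral
    obtain ⟨a, ha⟩ := minpoly.mem_range_of_degree_eq_one K X
      (IsAlgClosed.degree_eq_one_of_irreducible K (minpoly.irreducible hint))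
    rw [IsScalarTower.algebraMap_apply K R F] at ha
    have h1 : algebraMap K R a = b ⟨m, hm⟩ := hinj ha
    have h2 := dgr_algebraMap (b := b) h hS a
    rw [h1, dgr_basis] at h2
    simp only at h2
    omega
  · have hXL : X ∈ K⟮X⟯ := mem_adjoin_simple_self K X
    set s : Set F := (fun d : S => algebraMap R F (b d)) '' {d : S | (d : ℕ) < 2 * m} with hs
    have hfin : s.Finite := by
      refine Set.Finite.image _ ?_
      refine Set.Finite.of_injOn (f := fun d : S => (d : ℕ)) (t := Set.Iio (2 * m)) ?_ ?_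
        (Set.finite_Iio _)
      · intro d hd
        exact hd
      · intro d _ e _ hde
        exact Subtype.ext hde
    set N : Submodule K⟮X⟯ F := Submodule.span K⟮X⟯ s with hN
    have hb : ∀ d : S, algebraMap R F (b d) ∈ N := fun d =>
      h4FrA_basis h hS hm (by omega) K⟮X⟯ hXL N
        (fun d hd => Submodule.subset_span ⟨d, hd, rfl⟩) d d.2
    have hR : ∀ a : R, algebraMap R F a ∈ N := by
      intro a
      have h1 : a = (b.repr a).sum fun d c => c • b d := by
        have := b.linearCombination_repr a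
        rw [Finsupp.linearCombination_apply] at this
        exact this.symm
      rw [h1, Finsupp.sum, map_sum]
      refine N.sum_mem fun d _ => ?_
      rw [h4FrA_smul]
      exact N.smul_of_tower_mem _ (hb d)
    have hmul : ∀ (a : R) (v : F), v ∈ N → algebraMap R F a * v ∈ N := by
      intro a v hv
      rw [hN] at hv
      induction hv using Submodule.span_induction with
      | mem x hx =>
        obtain ⟨d, _, rfl⟩ := hx
        simp only
        rw [← map_mul]
        exact hR _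
      | zero => rw [mul_zero]; exact N.zero_mem
      | add x y _ _ hx hy => rw [mul_add]; exact N.add_mem hx hy
      | smul c x _ hx => rw [mul_smul_comm]; exact N.smul_mem c hx
    have hfd : FiniteDimensional K⟮X⟯ N := FiniteDimensional.span_of_finite _ hfin
    have hinv : ∀ c : R, c ≠ 0 → (algebraMap R F c)⁻¹ ∈ N := by
      intro c hc
      have hc0 : algebraMap R F c ≠ 0 := by
        rw [Ne, map_eq_zero_iff _ hinj]
        exact hc
      let T : N →ₗ[K⟮X⟯] N :=
        { toFun := fun v => ⟨algebraMap R F c * v, hmul c v v.2⟩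
          map_add' := fun v w => Subtype.ext (by
            simp only [Submodule.coe_add, mul_add])
          map_smul' := fun r v => Subtype.ext (by
            simp only [Submodule.coe_smul, RingHom.id_apply, mul_smul_comm]) }
      have hT : Function.Injective T := by
        intro v w hvw
        have h1 : algebraMap R F c * (v : F) = algebraMap R F c * (w : F) :=
          congrArg Subtype.val hvw
        exact Subtype.ext (mul_left_cancel₀ hc0 h1)
      have hT2 : Function.Surjective T := LinearMap.injective_iff_surjective.1 hT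
      have h1N : (1 : F) ∈ N := by
        have := hR 1
        rwa [map_one] at this
      obtain ⟨v, hv⟩ := hT2 ⟨1, h1N⟩
      have h1 : algebraMap R F c * (v : F) = 1 := congrArg Subtype.val hv
      have h2 : (algebraMap R F c)⁻¹ = v := by
        rw [inv_eq_iff_eq_inv, ← mul_eq_one_iff_eq_inv₀]
        · exact h1
        · intro h3
          rw [h3, mul_zero] at h1
          exact zero_ne_one h1
      rw [h2]
      exact v.2
    have htop : N = ⊤ := by
      rw [eq_top_iff]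
      intro y _
      obtain ⟨a, c, hc, rfl⟩ := IsFractionRing.div_surjective (A := R) y
      rw [div_eq_mul_inv]
      exact hmul a _ (hinv c (nonZeroDivisors.ne_zero hc))
    have : Module.Finite K⟮X⟯ F := ⟨by
      rw [← htop, hN]
      exact Submodule.fg_span hfin⟩
    exact this

end Vale.Agent.P019P
end
end

section

section

/-!
# Finite systems of polynomial equations over a ring
-/

universe u

namespace Vale.Agent.P019P

section

variable {A₀ : Type u} [CommRing A₀] {ι : Type}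

/-- predicates given by polynomial equations with coefficients in `A₀`. -/
def IsSys (Q : ∀ (A : Type u) [CommRing A] [Algebra A₀ A], (ι → A) → Prop) : Prop :=
  ∃ E : Set (MvPolynomial ι A₀), ∀ (A : Type u) [CommRing A] [Algebra A₀ A] (t : ι → A),
    Q A t ↔ ∀ e ∈ E, MvPolynomial.aeval t e = 0

theorem IsSys.and {Q Q' : ∀ (A : Type u) [CommRing A] [Algebra A₀ A], (ι → A) → Prop}
    (h : IsSys Q) (h' : IsSys Q') :
    IsSys fun (A : Type u) [CommRing A] [Algebra A₀ A] (t : ι → A) => Q A t ∧ Q' A t := by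
  obtain ⟨E, hE⟩ := h
  obtain ⟨E', hE'⟩ := h'
  refine ⟨E ∪ E', fun A _ _ t => ?_⟩
  beta_reduce
  rw [hE, hE']
  constructor
  · rintro ⟨h1, h2⟩ e (he | he)
    · exact h1 e he
    · exact h2 e he
  · intro h
    exact ⟨fun e he => h e (Or.inl he), fun e he => h e (Or.inr he)⟩

theorem IsSys.all {J : Type*}
    {Q : J → ∀ (A : Type u) [CommRing A] [Algebra A₀ A], (ι → A) → Prop}
    (h : ∀ j, IsSys (Q j)) :
    IsSys fun (A : Type u) [CommRing A] [Algebra A₀ A] (t : ι → A) => ∀ j, Q j A t := by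
  choose E hE using h
  refine ⟨⋃ j, E j, fun A _ _ t => ?_⟩
  constructor
  · intro h1 e he
    obtain ⟨j, hj⟩ := Set.mem_iUnion.mp he
    exact (hE j A t).mp (h1 j) e hj
  · intro h1 j
    exact (hE j A t).mpr fun e he => h1 e (Set.mem_iUnion.mpr ⟨j, he⟩)

/-- natural functions are polynomial. -/
theorem isSys_scalar (G : ∀ (A : Type u) [CommRing A] [Algebra A₀ A], (ι → A) → A)
    (nat : ∀ (A A' : Type u) [CommRing A] [Algebra A₀ A] [CommRing A'] [Algebra A₀ A']
      (φ : A →ₐ[A₀] A') (t : ι → A), φ (G A t) = G A' fun i => φ (t i)) :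
    IsSys fun (A : Type u) [CommRing A] [Algebra A₀ A] (t : ι → A) => G A t = 0 := by
  refine ⟨{G (MvPolynomial ι A₀) MvPolynomial.X}, fun A _ _ t => ?_⟩
  have h := nat (MvPolynomial ι A₀) A (MvPolynomial.aeval t) MvPolynomial.X
  simp only [MvPolynomial.aeval_X] at h
  simp [h]

end

end Vale.Agent.P019P
end
end

section

end

section

end

section

section

/-!
# Approximation: the approximating valuation rings
-/

namespace Vale.Agent.P019P

open Vale.Agent.P019

set_option linter.style.haveILetI false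
set_option linter.unusedSectionVars false

open Polynomial Filter

variable {K : Type*} [Field K] {k F : Subfield K}

/-- the homomorphism `F[S] → M`, `S ↦ s`. -/
noncomputable def apbJ {M : Subfield K} (hFM : F ≤ M) {s : K} (hs : s ∈ M) : F[X] →+* M :=
  eval₂RingHom (Subfield.inclusion hFM) ⟨s, hs⟩

section main

variable {t s θ : K} {Φ U V : k[X][X][X]} {δ : k[X][X]}

end main

end Vale.Agent.P019P
end
end

section

end
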