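import Vale.Agent.P019.MathlibFull
import Vale.Agent.P019.MathlibFull2
import Vale.Agent.P019.MathlibUsed
import Vale.Agent.P019.Bd4.B1
import Vale.Agent.P019.Bd4.B2

set_option linter.all false

namespace AFast89c1c5x8a
@[reducible] def a0.{u1} {x1 : Type u1} [x2 : Field x1] {x3 : Subfield x1} : CommSemiring ↥x3 := inferInstance
@[reducible] noncomputable def a1.{u1} {x1 : Type u1} [x2 : Field x1] {x3 : Subfield x1} : Module (↥x3) (Polynomial ↥x3) := inferInstance
theorem a2.{u1} {x1 : Type u1} [x2 : Field x1] : SubsemiringClass (Subfield x1) x1 := inferInstance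
@[reducible] def a3.{u1} {x1 : Type u1} [x2 : Field x1] {x3 : Subfield x1} : Semiring ↥x3 := inferInstance
@[reducible] def a4.{u1} {x1 : Type u1} [x2 : Field x1] {x3 : Subfield x1} : NonAssocSemiring ↥x3 := inferInstance
@[reducible] def a5.{u1} {x1 : Type u1} [x2 : Field x1] {x3 : Subfield x1} : CommRing ↥x3 := inferInstance
theorem a6.{u1} {x1 : Type u1} [x2 : Field x1] {x3 : Subfield x1} : Nontrivial ↥x3 := inferInstance
@[reducible] noncomputable def a7.{u1} {x1 : Type u1} [x2 : Field x1] {x3 : Subfield x1} : Algebra (↥x3) (Polynomial ↥x3) := inferInstance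
@[reducible] def a8.{u1} {x1 : Type u1} [x2 : Field x1] {x3 : Subfield x1} : Zero ↥x3 := inferInstance
theorem a9.{u1} {x1 : Type u1} [x2 : Field x1] : AddSubmonoidClass (Subfield x1) x1 := inferInstance
@[reducible] def a10.{u1, u2} {x1 : Type u1} [x2 : Field x1] {x3 : Type u2} [x4 : Field x3] {x5 : Vale.Agent.P019.Pl x1 x3} : Semiring ↥x5.O := inferInstance
@[reducible] noncomputable def a11.{u1} {x1 : ℕ} {x2 : Type u1} [x3 : Field x2] : AddCommMonoid (Vale.Agent.P019.V x1 x2) := inferInstance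
theorem a12.{u1} {x1 : Type u1} [x2 : Field x1] {x3 : Subfield x1} : MulHomClass (Polynomial ↥x3 →ₐ[↥x3] x1) (Polynomial ↥x3) x1 := inferInstance
@[reducible] def a13.{u1} {x1 : Type u1} [x2 : Field x1] {x3 : Subfield x1} : Monoid ↥x3 := inferInstance
@[reducible] def a14.{u1} {x1 : Type u1} [x2 : Field x1] {x3 : Subfield x1} : Mul ↥x3 := inferInstance
@[reducible] def a15.{u1} {x1 : Type u1} [x2 : Field x1] {x3 : Subfield x1} : Distrib ↥x3 := inferInstance
theorem a16.{u1} {x1 : Type u1} [x2 : Field x1] {x3 : Subfield x1} : NonUnitalAlgHomClass (Polynomial ↥x3 →ₐ[↥x3] x1) (↥x3) (Polynomial ↥x3) x1 := inferInstance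
theorem a18.{u1} {x1 : Type u1} [x2 : Field x1] : ZeroMemClass (Subfield x1) x1 := inferInstance
@[reducible] def a19.{u1, u2} {x1 : Type u1} [x2 : Field x1] {x3 : Type u2} [x4 : Field x3] {x5 : Vale.Agent.P019.Pl x1 x3} : CommSemiring ↥x5.O := inferInstance
@[reducible] def a20.{u1} {x1 : Type u1} [x2 : Field x1] {x3 : Subfield x1} : Add ↥x3 := inferInstance
theorem a21.{u1} {x1 : Type u1} [x2 : Field x1] {x3 : Subfield x1} : NoZeroDivisors ↥x3 := inferInstance
@[reducible] def a22.{u1} {x1 : Type u1} [x2 : Field x1] {x3 : Subfield x1} : NonAssocCommRing ↥x3 := inferInstance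
theorem a23.{u1} {x1 : Type u1} [x2 : Field x1] {x3 : Subfield x1} : MonoidWithZeroHomClass (Polynomial ↥x3 →ₐ[↥x3] x1) (Polynomial ↥x3) x1 := inferInstance
@[reducible] def a24.{u1, u2} {x1 : Type u1} [x2 : Field x1] {x3 : Type u2} [x4 : Field x3] {x5 : Vale.Agent.P019.Pl x1 x3} : NonAssocSemiring ↥x5.O := inferInstance
@[reducible] noncomputable def a25.{u1} {x1 : Type u1} [x2 : Field x1] {x3 : Subfield x1} : CommSemiring (Polynomial ↥x3) := inferInstance
theorem a26.{u1} {x1 : Type u1} [x2 : Field x1] : SubsemiringClass (ValuationSubring x1) x1 := inferInstance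
@[reducible] noncomputable def a27.{u1} {x1 : Type u1} [x2 : Field x1] {x3 : Subfield x1} : Dvd (Polynomial ↥x3) := inferInstance
theorem a28.{u1} {x1 : Type u1} [x2 : Field x1] {x3 : Subfield x1} : MonoidHomClass (Polynomial ↥x3 →ₐ[↥x3] x1) (Polynomial ↥x3) x1 := inferInstance
@[reducible] def a29.{u1, u2} {x1 : Type u1} [x2 : Field x1] {x3 : Type u2} {x4 : x3 → Subfield x1} {x5 : x3} : Zero ↥(x4 x5) := inferInstance
@[reducible] def a30.{u1} {x1 : Type u1} [x2 : Field x1] {x3 : ValuationSubring x1} : NonAssocSemiring ↥x3 := inferInstance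
@[reducible] noncomputable def a31.{u1} {x1 : Type u1} [x2 : Field x1] {x3 : Subfield x1} : Semigroup (Polynomial ↥x3) := inferInstance
@[reducible] def a32.{u1} {x1 : Type u1} [x2 : Field x1] {x3 : ValuationSubring x1} : Semiring ↥x3 := inferInstance
@[reducible] noncomputable def a33.{u1, u2} {x1 : Type u1} [x2 : Field x1] {x3 : Type u2} {x4 : x3 → ValuationSubring x1} {x5 : x3} : One (x4 x5).ValueGroup := inferInstance
@[reducible] noncomputable def a34.{u1} {x1 : Type u1} [x2 : Field x1] {x3 : Subfield x1} : SemigroupWithZero (Polynomial ↥x3) := inferInstance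
@[reducible] def a35.{u1} {x1 : Type u1} [x2 : Field x1] {x3 : Subfield x1} : Module (↥x3) x1 := inferInstance
@[reducible] noncomputable def a36.{u1} {x1 : Type u1} [x2 : Field x1] {x3 : Subfield x1} : NonUnitalSemiring (Polynomial ↥x3) := inferInstance
@[reducible] noncomputable def a37.{u1} {x1 : Type u1} [x2 : Field x1] {x3 : Subfield x1} : NonUnitalCommRing (Polynomial ↥x3) := inferInstance
@[reducible] def a38.{u1} {x1 : Type u1} [x2 : Field x1] {x3 : Subfield x1} : MulOneClass ↥x3 := inferInstance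
theorem a39.{u1} {x1 : Type u1} [x2 : Field x1] {x3 : Subfield x1} : AddMonoidHomClass (Polynomial ↥x3 →ₐ[↥x3] x1) (Polynomial ↥x3) x1 := inferInstance
@[reducible] noncomputable def a40.{u1} {x1 : Type u1} [x2 : Field x1] {x3 : Subfield x1} {x4 : x1} : Module (↥(Vale.Agent.P019.adj x3 x4)) (Polynomial ↥(Vale.Agent.P019.adj x3 x4)) := inferInstance
@[reducible] noncomputable def a41.{u1} {x1 : Type u1} [x2 : Field x1] {x3 : ValuationSubring x1} : One x3.ValueGroup := inferInstance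
@[reducible] noncomputable def a43.{u1} {x1 : Type u1} [x2 : Field x1] {x3 : Subfield x1} : AddZero (Polynomial ↥x3) := inferInstance
@[reducible] noncomputable def a44.{u1} {x1 : Type u1} [x2 : Field x1] {x3 : Subfield x1} : AddZeroClass (Polynomial ↥x3) := inferInstance
theorem a45.{u1} {x1 : Type u1} [x2 : Field x1] {x3 : Subfield x1} {x4 : x1} : AddMonoidHomClass (Polynomial ↥(Vale.Agent.P019.adj x3 x4) →ₗ[↥(Vale.Agent.P019.adj x3 x4)] Polynomial ↥(Vale.Agent.P019.adj x3 x4)) (Polynomial ↥(Vale.Agent.P019.adj x3 x4)) (Polynomial ↥(Vale.Agent.P019.adj x3 x4)) := inferInstance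
@[reducible] noncomputable def a46.{u1} {x1 : Type u1} [x2 : Field x1] {x3 : Subfield x1} : AddMonoid (Polynomial ↥x3) := inferInstance
@[reducible] noncomputable def a47.{u1, u2} {x1 : Type u1} [x2 : Field x1] {x3 : Type u2} {x4 : x3 → ValuationSubring x1} {x5 : x3} : Preorder (x4 x5).ValueGroup := inferInstance
@[reducible] noncomputable def a48.{u1} {x1 : Type u1} [x2 : Field x1] {x3 : ValuationSubring x1} : Preorder x3.ValueGroup := inferInstance
theorem a49.{u1} {x1 : Type u1} [x2 : Field x1] {x3 : Subfield x1} : ZeroHomClass (Polynomial ↥x3 →ₐ[↥x3] x1) (Polynomial ↥x3) x1 := inferInstance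
@[reducible] noncomputable def a50.{u1} {x1 : Type u1} [x2 : Field x1] {x3 : Subfield x1} : AddGroupWithOne (Polynomial ↥x3) := inferInstance
@[reducible] def a51.{u1} {x1 : Type u1} [x2 : Field x1] {x3 : Subfield x1} : MulOne ↥x3 := inferInstance
@[reducible] noncomputable def a52.{u1, u2} {x1 : Type u1} [x2 : Field x1] {x3 : Type u2} {x4 : x3 → ValuationSubring x1} {x5 : x3} : PartialOrder (x4 x5).ValueGroup := inferInstance
@[reducible] noncomputable def a53.{u1} {x1 : Type u1} [x2 : Field x1] {x3 : Subfield x1} : NonUnitalCommSemiring (Polynomial ↥x3) := inferInstance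
@[reducible] noncomputable def a54.{u1} {x1 : Type u1} [x2 : Field x1] {x3 : ValuationSubring x1} : PartialOrder x3.ValueGroup := inferInstance
theorem a55.{u1} {x1 : Type u1} [x2 : Field x1] {x3 : ValuationSubring x1} : PosMulReflectLT x3.ValueGroup := inferInstance
theorem a56.{u1} {x1 : Type u1} [x2 : Field x1] {x3 : Subfield x1} {x4 : x1} : DistribMulActionSemiHomClass (Polynomial ↥(Vale.Agent.P019.adj x3 x4) →ₗ[↥(Vale.Agent.P019.adj x3 x4)] Polynomial ↥(Vale.Agent.P019.adj x3 x4)) (⇑(RingHom.id ↥(Vale.Agent.P019.adj x3 x4))) (Polynomial ↥(Vale.Agent.P019.adj x3 x4)) (Polynomial ↥(Vale.Agent.P019.adj x3 x4)) := inferInstance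
@[reducible] noncomputable def a57.{u1} {x1 : Type u1} [x2 : Field x1] {x3 : ValuationSubring x1} : LT x3.ValueGroup := inferInstance
theorem a58.{u1} {x1 : Type u1} [x2 : Field x1] {x3 : Subfield x1} : DistribMulActionSemiHomClass (Polynomial ↥x3 →ₐ[↥x3] x1) (⇑(MonoidHom.id ↥x3)) (Polynomial ↥x3) x1 := inferInstance
theorem a59.{u1} {x1 : Type u1} [x2 : Field x1] {x3 : ValuationSubring x1} : ZeroLEOneClass x3.ValueGroup := inferInstance
theorem a60.{u1} {x1 : Type u1} [x2 : Field x1] {x3 : Subfield x1} : RingHomClass (Polynomial ↥x3 →ₐ[↥x3] x1) (Polynomial ↥x3) x1 := inferInstance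
@[reducible] def a61.{u1} {x1 : Type u1} [x2 : Field x1] {x3 : Subfield x1} : MulZeroClass ↥x3 := inferInstance
@[reducible] def a62.{u1, u2} {x1 : Type u1} [x2 : Field x1] {x3 : Type u2} {x4 : x3 → Subfield x1} {x5 : x3} : CommSemiring ↥(x4 x5) := inferInstance
@[reducible] def a63.{u1} {x1 : Type u1} [x2 : Field x1] {x3 : ValuationSubring x1} : CommSemiring ↥x3 := inferInstance
theorem a64.{u1} {x1 : Type u1} [x2 : Field x1] : SubmonoidClass (Subfield x1) x1 := inferInstance
@[reducible] noncomputable def a65.{u1, u2} {x1 : Type u1} [x2 : Field x1] {x3 : Type u2} {x4 : x3 → ValuationSubring x1} {x5 : x3} : LE (x4 x5).ValueGroup := inferInstance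
theorem a66.{u1} {x1 : Type u1} [x2 : Field x1] : MulMemClass (Subfield x1) x1 := inferInstance
end AFast89c1c5x8a
attribute [local instance] AFast89c1c5x8a.a0 AFast89c1c5x8a.a1 AFast89c1c5x8a.a2 AFast89c1c5x8a.a3
  AFast89c1c5x8a.a4 AFast89c1c5x8a.a5 AFast89c1c5x8a.a6 AFast89c1c5x8a.a7 AFast89c1c5x8a.a8
  AFast89c1c5x8a.a9 AFast89c1c5x8a.a10 AFast89c1c5x8a.a11 AFast89c1c5x8a.a12 AFast89c1c5x8a.a13
  AFast89c1c5x8a.a14 AFast89c1c5x8a.a15 AFast89c1c5x8a.a16 AFast89c1c5x8a.a18
  AFast89c1c5x8a.a19 AFast89c1c5x8a.a20 AFast89c1c5x8a.a21 AFast89c1c5x8a.a22 AFast89c1c5x8a.a23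
  AFast89c1c5x8a.a24 AFast89c1c5x8a.a25 AFast89c1c5x8a.a26 AFast89c1c5x8a.a27 AFast89c1c5x8a.a28
  AFast89c1c5x8a.a29 AFast89c1c5x8a.a30 AFast89c1c5x8a.a31 AFast89c1c5x8a.a32 AFast89c1c5x8a.a33
  AFast89c1c5x8a.a34 AFast89c1c5x8a.a35 AFast89c1c5x8a.a36 AFast89c1c5x8a.a37 AFast89c1c5x8a.a38
  AFast89c1c5x8a.a39 AFast89c1c5x8a.a40 AFast89c1c5x8a.a41 AFast89c1c5x8a.a43
  AFast89c1c5x8a.a44 AFast89c1c5x8a.a45 AFast89c1c5x8a.a46 AFast89c1c5x8a.a47 AFast89c1c5x8a.a48
  AFast89c1c5x8a.a49 AFast89c1c5x8a.a50 AFast89c1c5x8a.a51 AFast89c1c5x8a.a52 AFast89c1c5x8a.a53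
  AFast89c1c5x8a.a54 AFast89c1c5x8a.a55 AFast89c1c5x8a.a56 AFast89c1c5x8a.a57 AFast89c1c5x8a.a58
  AFast89c1c5x8a.a59 AFast89c1c5x8a.a60 AFast89c1c5x8a.a61 AFast89c1c5x8a.a62 AFast89c1c5x8a.a63
  AFast89c1c5x8a.a64 AFast89c1c5x8a.a65 AFast89c1c5x8a.a66
namespace AFast89c1c5x8b
theorem a0.{u1} {x1 : Type u1} [x2 : Field x1] {x3 : Subfield x1} : IsScalarTower (↥x3) (↥x3) x1 := inferInstance
@[reducible] def a1.{u1} {x1 : Type u1} [x2 : Field x1] {x3 : Subfield x1} {x4 : Set x1} : Algebra ↥x3 ↥(IntermediateField.adjoin (↥x3) x4) := inferInstance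
theorem a2.{u1} {x1 : Type u1} [x2 : Field x1] : AddMonoidHomClass (x1 →+* x1) x1 x1 := inferInstance
end AFast89c1c5x8b
attribute [local instance] AFast89c1c5x8b.a0 AFast89c1c5x8b.a1 AFast89c1c5x8b.a2
attribute [local instance] O19.fr O19.tf O19.pj O19.fl

section

section

/-!
# Images of subfields under places
-/

namespace Vale.Agent.P019

set_option linter.style.haveILetI false

open Polynomial

section im

variable {K Ω : Type*} [Field K] [Field Ω] (P : Pl K Ω)

/-- the residue homomorphism on a subfield of the valuation ring. -/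
noncomputable def Pl.resHom (A : Subfield K) (hA : ∀ x ∈ A, x ∈ P.O) : A →+* Ω :=
  P.ψ.comp (RingHom.codRestrict A.subtype P.O.toSubring (fun x => hA x x.2))

theorem Pl.resHom_apply (A : Subfield K) (hA : ∀ x ∈ A, x ∈ P.O) (x : A) :
    P.resHom A hA x = P.ev (x : K) := by
  rw [P.ev_of_mem (hA x x.2)]
  rfl

/-- the image of a subfield of the valuation ring. -/
noncomputable def Pl.im (A : Subfield K) (hA : ∀ x ∈ A, x ∈ P.O) : Subfield Ω :=
  (P.resHom A hA).fieldRange

theorem Pl.mem_im {A : Subfield K} {hA : ∀ x ∈ A, x ∈ P.O} {y : Ω} :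
    y ∈ P.im A hA ↔ ∃ x ∈ A, P.ev x = y := by
  unfold Pl.im
  rw [RingHom.mem_fieldRange]
  constructor
  · rintro ⟨x, rfl⟩
    exact ⟨x, x.2, (P.resHom_apply A hA x).symm⟩
  · rintro ⟨x, hx, rfl⟩
    exact ⟨⟨x, hx⟩, P.resHom_apply A hA _⟩

theorem Pl.ev_mem_im {A : Subfield K} (hA : ∀ x ∈ A, x ∈ P.O) {x : K} (hx : x ∈ A) :
    P.ev x ∈ P.im A hA := P.mem_im.2 ⟨x, hx, rfl⟩

theorem Pl.ev_inj {A : Subfield K} (hA : ∀ x ∈ A, x ∈ P.O) {x y : K} (hx : x ∈ A) (hy : y ∈ A)
    (h : P.ev x = P.ev y) : x = y := by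
  have h1 : P.resHom A hA ⟨x, hx⟩ = P.resHom A hA ⟨y, hy⟩ := by
    rw [P.resHom_apply, P.resHom_apply]; exact h
  exact congrArg Subtype.val ((P.resHom A hA).injective h1)

/-- the place attached to a valuation ring. -/
noncomputable def plOf (O : ValuationSubring K) :
    Pl K (AlgebraicClosure (IsLocalRing.ResidueField O)) where
  O := O
  ψ := (algebraMap (IsLocalRing.ResidueField O) _).comp (IsLocalRing.residue O)
  ker := by
    intro x
    rw [RingHom.comp_apply, map_eq_zero, IsLocalRing.residue_eq_zero_iff,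
      ValuationSubring.valuation_lt_one_iff]

/-- the isomorphism of a subfield of the valuation ring with its image. -/
noncomputable def Pl.imEquiv (A : Subfield K) (hA : ∀ x ∈ A, x ∈ P.O) : A ≃+* P.im A hA :=
  RingEquiv.ofBijective (P.resHom A hA).rangeRestrictField
    ⟨(P.resHom A hA).rangeRestrictField.injective, by
      rintro ⟨y, ⟨x, rfl⟩⟩
      exact ⟨x, rfl⟩⟩

theorem Pl.coe_imEquiv (A : Subfield K) (hA : ∀ x ∈ A, x ∈ P.O) (x : A) :
    ((P.imEquiv A hA x : P.im A hA) : Ω) = P.resHom A hA x := rfl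

theorem Pl.resHom_imEquiv_symm (A : Subfield K) (hA : ∀ x ∈ A, x ∈ P.O) (y : P.im A hA) :
    P.resHom A hA ((P.imEquiv A hA).symm y) = (y : Ω) := by
  rw [← P.coe_imEquiv, RingEquiv.apply_symm_apply]

/-- evaluation of polynomials with coefficients in a subfield of the valuation ring. -/
theorem Pl.ev_aeval_im {A : Subfield K} (hA : ∀ x ∈ A, x ∈ P.O) {z : K} (hz : z ∈ P.O)
    (Q : A[X]) :
    aeval z Q ∈ P.O ∧ P.ev (aeval z Q) = eval₂ (P.resHom A hA) (P.ev z) Q := by
  induction Q using Polynomial.induction_on' with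
  | add p q hp hq =>
    rw [map_add, eval₂_add, ← hp.2, ← hq.2]
    exact ⟨P.O.add_mem _ _ hp.1 hq.1, P.ev_add hp.1 hq.1⟩
  | monomial n c =>
    rw [aeval_monomial, eval₂_monomial, P.resHom_apply]
    have h1 := hA c c.2
    refine ⟨P.O.mul_mem _ _ h1 (pow_mem hz n), ?_⟩
    change P.ev ((c : K) * z ^ n) = _
    rw [P.ev_mul h1 (pow_mem hz n), P.ev_pow hz]

/-- polynomials over the image. -/
theorem Pl.eval₂_eq_aeval {A : Subfield K} (hA : ∀ x ∈ A, x ∈ P.O) (w : Ω) (Q : A[X]) :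
    eval₂ (P.resHom A hA) w Q = aeval w (Q.map (P.imEquiv A hA : A →+* P.im A hA)) := by
  rw [aeval_def, eval₂_map]
  rfl

theorem Pl.eval₂_eq_aeval_symm {A : Subfield K} (hA : ∀ x ∈ A, x ∈ P.O) (w : Ω)
    (Q : (P.im A hA)[X]) :
    eval₂ (P.resHom A hA) w (Q.map ((P.imEquiv A hA).symm : P.im A hA →+* A)) = aeval w Q := by
  rw [aeval_def, eval₂_map]
  congr 1
  ext y
  exact P.resHom_imEquiv_symm A hA y

theorem Pl.map_symm_ne_zero {A : Subfield K} (hA : ∀ x ∈ A, x ∈ P.O) {Q : (P.im A hA)[X]}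
    (hQ : Q ≠ 0) : Q.map ((P.imEquiv A hA).symm : P.im A hA →+* A) ≠ 0 := by
  rw [Ne, Polynomial.map_eq_zero_iff (RingHom.injective _)]
  exact hQ

theorem Pl.map_ne_zero' {A : Subfield K} (hA : ∀ x ∈ A, x ∈ P.O) {Q : A[X]}
    (hQ : Q ≠ 0) : Q.map (P.imEquiv A hA : A →+* P.im A hA) ≠ 0 := by
  rw [Ne, Polynomial.map_eq_zero_iff (RingHom.injective _)]
  exact hQ

theorem Pl.map_map_symm {A : Subfield K} (hA : ∀ x ∈ A, x ∈ P.O) (Q : A[X]) :
    (Q.map (P.imEquiv A hA : A →+* P.im A hA)).map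
      ((P.imEquiv A hA).symm : P.im A hA →+* A) = Q := by
  rw [Polynomial.map_map]
  have h1 : ((P.imEquiv A hA).symm : P.im A hA →+* A).comp
      (P.imEquiv A hA : A →+* P.im A hA) = RingHom.id A := by
    ext x
    exact congrArg Subtype.val ((P.imEquiv A hA).symm_apply_apply x)
  rw [h1, Polynomial.map_id]

/-- R2. -/
theorem Pl.mem_adj_of_transcendental (E : Subfield K) (hE : ∀ x ∈ E, x ∈ P.O) {b : K}
    (hb : b ∈ P.O) (hbt : ¬ IsAlgebraic (P.im E hE) (P.ev b)) : ∀ x ∈ adj E b, x ∈ P.O := by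
  intro x hx
  obtain ⟨r, s, rfl⟩ := Gn.mem_adj_frac hx
  by_cases hs : s = 0
  · rw [hs, map_zero, div_zero]; exact P.O.zero_mem
  have hs' := P.ev_aeval_im hE hb s
  have hU : P.U (aeval b s) := by
    refine ⟨hs'.1, fun h => hbt ⟨s.map (P.imEquiv E hE : E →+* P.im E hE), P.map_ne_zero' hE hs, ?_⟩⟩
    rw [← P.eval₂_eq_aeval, ← hs'.2, h]
  rw [div_eq_mul_inv]
  exact P.O.mul_mem _ _ (P.ev_aeval_im hE hb r).1 hU.inv_mem

/-- R3. -/
theorem Gd.sup [CharZero K] {P : Pl K Ω} {π : K} {κ : Subfield Ω} {F E B : Subfield K}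
    (hπ : π ≠ 0) (hπO : π ∈ P.O) (hπ0 : P.ev π = 0) (hπF : π ∈ F) (hF : Gd P π κ F)
    (hEF : E ≤ F) (hEB : E ≤ B) (hB : ∀ x ∈ B, x ∈ P.O) (hκ : ∀ x ∈ B, P.ev x ∈ κ)
    (halg : ∀ x ∈ B, IsAlgebraic E x) : Gd P π κ (F ⊔ B) := by
  intro z hz hz0
  obtain ⟨T, hT, hzT⟩ := Gn.exists_finset_sup hz
  exact Gn.gd_finset hπ hπO hπ0 hπF hF hEF hEB hB hκ halg T hT z hzT hz0

/-- R4. -/
theorem exists_gd_adj (A : Subfield K) (hA : ∀ x ∈ A, x ∈ P.O) {z : K} (hz : z ∈ P.O)
    (hzA : ¬ IsAlgebraic A z) (he : IsAlgebraic (P.im A hA) (P.ev z)) :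
    ∃ π ∈ adj A z, π ≠ 0 ∧ π ∈ P.O ∧ P.ev π = 0 ∧ ∀ κ : Subfield Ω, P.im A hA ≤ κ →
      P.ev z ∈ κ → Gd P π κ (adj A z) := by
  classical
  set m := minpoly (P.im A hA) (P.ev z) with hm
  have hint : IsIntegral (P.im A hA) (P.ev z) := he.isIntegral
  have hmon : m.Monic := minpoly.monic hint
  set m' : A[X] := m.map ((P.imEquiv A hA).symm : P.im A hA →+* A) with hm'
  have hmon' : m'.Monic := hmon.map _
  have hpi := P.ev_aeval_im hA hz m'
  have hpi0 : aeval z m' ≠ 0 := fun h => hzA ⟨m', hmon'.ne_zero, h⟩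
  have hev0 : P.ev (aeval z m') = 0 := by
    rw [hpi.2, hm', P.eval₂_eq_aeval_symm, hm, minpoly.aeval]
  refine ⟨aeval z m', Gn.aeval_mem_adj z m', hpi0, hpi.1, hev0, ?_⟩
  intro κ hκ hzκ
  have hκ' : ∀ Q : A[X], eval₂ (P.resHom A hA) (P.ev z) Q ∈ κ := by
    intro Q
    rw [eval₂_eq_sum_range]
    refine κ.sum_mem (fun i _ => κ.mul_mem (hκ ⟨Q.coeff i, rfl⟩) (pow_mem hzκ i))
  have hdeg : 0 < m'.degree := by
    rw [hm', degree_map]
    exact minpoly.degree_pos hint
  have key : ∀ Q : A[X], Q ≠ 0 → ∃ (n : ℕ) (u : K), P.U u ∧ P.ev u ∈ κ ∧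
      aeval z Q = (aeval z m') ^ n * u := by
    intro Q hQ
    have hfin : FiniteMultiplicity m' Q :=
      Polynomial.finiteMultiplicity_of_degree_pos_of_monic hdeg hmon' hQ
    obtain ⟨h, hh, hh'⟩ := hfin.exists_eq_pow_mul_and_not_dvd
    have h1 := P.ev_aeval_im hA hz h
    refine ⟨multiplicity m' Q, aeval z h, ⟨h1.1, ?_⟩, ?_, ?_⟩
    · intro h2
      apply hh'
      rw [h1.2, P.eval₂_eq_aeval] at h2
      have h3 := minpoly.dvd (P.im A hA) (P.ev z) h2
      have h4 := Polynomial.map_dvd ((P.imEquiv A hA).symm : P.im A hA →+* A) h3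
      rw [P.map_map_symm] at h4
      exact h4
    · rw [h1.2]; exact hκ' h
    · conv_lhs => rw [hh, map_mul, map_pow]
  intro y hy hy0
  obtain ⟨r, s, rfl⟩ := Gn.mem_adj_frac hy
  have hr0 : r ≠ 0 := by
    rintro rfl
    rw [map_zero, zero_div] at hy0
    exact hy0 rfl
  have hs0 : s ≠ 0 := by
    rintro rfl
    rw [map_zero, div_zero] at hy0
    exact hy0 rfl
  obtain ⟨n, u, hu, hu', e1⟩ := key r hr0
  obtain ⟨k, v, hv, hv', e2⟩ := key s hs0
  refine ⟨(k : ℤ) - n, ?_⟩
  have e3 : aeval z r / aeval z s * (aeval z m') ^ ((k : ℤ) - n) = u / v := by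
    have := hv.ne_zero
    rw [e1, e2, zpow_sub₀ hpi0, zpow_natCast, zpow_natCast]
    field_simp
  rw [e3]
  exact ⟨hu.div hv, by rw [P.ev_div hu.1 hv]; exact κ.div_mem hu' hv'⟩

/-- R7. -/
theorem Pl.isAlgebraic_of_im {A E : Subfield K} (hA : ∀ x ∈ A, x ∈ P.O) (hEA : E ≤ A) {x : K}
    (hx : x ∈ A) (h : IsAlgebraic (P.im E (fun x hx => hA x (hEA hx))) (P.ev x)) :
    IsAlgebraic E x := by
  obtain ⟨Q, hQ0, hQ⟩ := h
  have hE : ∀ x ∈ E, x ∈ P.O := fun x hx => hA x (hEA hx)
  refine ⟨Q.map ((P.imEquiv E hE).symm : P.im E hE →+* E), P.map_symm_ne_zero hE hQ0, ?_⟩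
  have h1 := P.ev_aeval_im hE (hA x hx) (Q.map ((P.imEquiv E hE).symm : P.im E hE →+* E))
  rw [P.eval₂_eq_aeval_symm, hQ] at h1
  refine P.ev_inj hA ?_ A.zero_mem (h1.2.trans P.ev_zero.symm)
  exact adj_le hEA hx (Gn.aeval_mem_adj x _)

/-- R7b. -/
theorem Pl.im_adj {A E : Subfield K} (hA : ∀ x ∈ A, x ∈ P.O) (hEA : E ≤ A) {y : K}
    (hy : y ∈ A) :
    P.im (adj E y) (fun x hx => hA x (adj_le hEA hy hx)) =
      adj (P.im E (fun x hx => hA x (hEA hx))) (P.ev y) := by
  have hE : ∀ x ∈ E, x ∈ P.O := fun x hx => hA x (hEA hx)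
  apply le_antisymm
  · intro w hw
    obtain ⟨x, hx, rfl⟩ := P.mem_im.1 hw
    obtain ⟨r, s, rfl⟩ := Gn.mem_adj_frac hx
    have hr := P.ev_aeval_im hE (hA y hy) r
    have hs := P.ev_aeval_im hE (hA y hy) s
    by_cases hs0 : aeval y s = 0
    · rw [hs0, div_zero, P.ev_zero]; exact Subfield.zero_mem _
    have hU : P.U (aeval y s) := by
      refine ⟨hs.1, fun h => hs0 ?_⟩
      exact P.ev_inj hA (adj_le hEA hy (Gn.aeval_mem_adj y s)) A.zero_mem (h.trans P.ev_zero.symm)
    rw [P.ev_div hr.1 hU, hr.2, hs.2, P.eval₂_eq_aeval, P.eval₂_eq_aeval]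
    exact Subfield.div_mem _ (Gn.aeval_mem_adj _ _) (Gn.aeval_mem_adj _ _)
  · refine adj_le ?_ (P.ev_mem_im _ (mem_adj E y))
    intro w hw
    obtain ⟨x, hx, rfl⟩ := P.mem_im.1 hw
    exact P.ev_mem_im _ (le_adj E y hx)

/-- R8. -/
theorem Pl.isAlgClosed_im {A : Subfield K} (hA : ∀ x ∈ A, x ∈ P.O) (h : IsAlgClosed A) :
    IsAlgClosed (P.im A hA) := by
  apply IsAlgClosed.of_exists_root
  intro p hp hirr
  obtain ⟨c, hc⟩ := IsAlgClosed.exists_root
    (p.map ((P.imEquiv A hA).symm : P.im A hA →+* A)) (by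
      rw [degree_map]
      exact (degree_pos_of_irreducible hirr).ne')
  refine ⟨P.imEquiv A hA c, ?_⟩
  have h1 : (P.imEquiv A hA).symm (p.eval (P.imEquiv A hA c)) = 0 := by
    rw [IsRoot.def, eval_map] at hc
    rw [← hc]
    have h2 := hom_eval₂ p (RingHom.id _) ((P.imEquiv A hA).symm : P.im A hA →+* A)
      (P.imEquiv A hA c)
    rw [RingHom.comp_id] at h2
    change (P.imEquiv A hA).symm (eval₂ (RingHom.id _) (P.imEquiv A hA c) p) = _
    refine h2.trans ?_
    congr 1
    exact (P.imEquiv A hA).symm_apply_apply c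
  exact (P.imEquiv A hA).symm.injective (h1.trans (map_zero _).symm)

end im

end Vale.Agent.P019
end
end
namespace AFast89c1c5x280a
theorem a0.{u1, u2} {x1 : Type u1} [x2 : Field x1] {x3 : Type u2} [x4 : Field x3] {x5 : Vale.Agent.P019.Pl x3 x1} {x6 : Subfield x3} {x7 : ∀ x ∈ x6, x ∈ x5.O} : RingHomClass (↥(x5.im x6 x7) ≃+* ↥x6) ↥(x5.im x6 x7) ↥x6 := inferInstance
theorem a1.{u1, u2} {x1 : Type u1} [x2 : Field x1] {x3 : Subfield x1} {x4 : Type u2} [x5 : Field x4] {x6 : Vale.Agent.P019.Pl x1 x4} {x7 : ∀ x ∈ x3, x ∈ x6.O} : RingHomClass (↥x3 ≃+* ↥(x6.im x3 x7)) ↥x3 ↥(x6.im x3 x7) := inferInstance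
@[reducible] noncomputable def a2.{u1, u2} {x1 : Type u1} [x2 : Field x1] {x3 : Type u2} [x4 : Field x3] {x5 : Vale.Agent.P019.Pl x3 x1} {x6 : Subfield x3} {x7 : ∀ x ∈ x6, x ∈ x5.O} : Add ↥(x5.im x6 x7) := inferInstance
@[reducible] noncomputable def a3.{u1, u2} {x1 : Type u1} [x2 : Field x1] {x3 : Type u2} [x4 : Field x3] {x5 : Vale.Agent.P019.Pl x3 x1} {x6 : Subfield x3} {x7 : ∀ x ∈ x6, x ∈ x5.O} : Mul ↥(x5.im x6 x7) := inferInstance
@[reducible] noncomputable def a4.{u1, u2} {x1 : Type u1} [x2 : Field x1] {x3 : Type u2} [x4 : Field x3] {x5 : Vale.Agent.P019.Pl x3 x1} {x6 : Subfield x3} {x7 : ∀ x ∈ x6, x ∈ x5.O} : Distrib ↥(x5.im x6 x7) := inferInstance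
@[reducible] noncomputable def a5.{u1, u2} {x1 : Type u1} [x2 : Field x1] {x3 : Type u2} [x4 : Field x3] {x5 : Vale.Agent.P019.Pl x3 x1} {x6 : Subfield x3} {x7 : ∀ x ∈ x6, x ∈ x5.O} : Semiring ↥(x5.im x6 x7) := inferInstance
@[reducible] noncomputable def a6.{u1, u2} {x1 : Type u1} [x2 : Field x1] {x3 : Type u2} [x4 : Field x3] {x5 : Vale.Agent.P019.Pl x3 x1} {x6 : Subfield x3} {x7 : ∀ x ∈ x6, x ∈ x5.O} : NonAssocSemiring ↥(x5.im x6 x7) := inferInstance
@[reducible] noncomputable def a7.{u1, u2} {x1 : Type u1} [x2 : Field x1] {x3 : Type u2} [x4 : Field x3] {x5 : Vale.Agent.P019.Pl x3 x1} {x6 : Subfield x3} {x7 : ∀ x ∈ x6, x ∈ x5.O} : CommSemiring ↥(x5.im x6 x7) := inferInstance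
@[reducible] noncomputable def a8.{u1, u2} {x1 : Type u1} [x2 : Field x1] {x3 : Type u2} [x4 : Field x3] {x5 : Vale.Agent.P019.Pl x3 x1} {x6 : Subfield x3} {x7 : ∀ x ∈ x6, x ∈ x5.O} : Algebra (↥(x5.im x6 x7)) (Polynomial ↥(x5.im x6 x7)) := inferInstance
end AFast89c1c5x280a
attribute [local instance] AFast89c1c5x280a.a0 AFast89c1c5x280a.a1 AFast89c1c5x280a.a2
  AFast89c1c5x280a.a3 AFast89c1c5x280a.a4 AFast89c1c5x280a.a5 AFast89c1c5x280a.a6
  AFast89c1c5x280a.a7 AFast89c1c5x280a.a8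

section

section

/-!
# The numerator of the zeta function is a polynomial
-/

namespace Vale.Agent.P019P

open Polynomial

/-- Coefficients of the numerator. -/
def zpB (A : ℕ → ℤ) (Q : ℤ) : ℕ → ℤ
  | 0 => A 0
  | 1 => A 1 - (Q + 1) * A 0
  | m + 2 => A (m + 2) - (Q + 1) * A (m + 1) + Q * A m

theorem zpB_coeff (A : ℕ → ℤ) (Q : ℤ) (m : ℕ) :
    PowerSeries.coeff m ((1 - PowerSeries.C 1 * PowerSeries.X) *
      (1 - PowerSeries.C Q * PowerSeries.X) * PowerSeries.mk A) = zpB A Q m := by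
  have h : (1 - PowerSeries.C (1 : ℤ) * PowerSeries.X) *
      (1 - PowerSeries.C Q * PowerSeries.X) * PowerSeries.mk A =
      PowerSeries.mk A - PowerSeries.C (Q + 1) * (PowerSeries.X * PowerSeries.mk A) +
        PowerSeries.C Q * (PowerSeries.X * (PowerSeries.X * PowerSeries.mk A)) := by
    rw [map_add, map_one]
    ring
  rw [h, map_add, map_sub, PowerSeries.coeff_C_mul, PowerSeries.coeff_C_mul]
  match m with
  | 0 => simp [zpB]
  | 1 =>
    rw [PowerSeries.coeff_succ_X_mul, PowerSeries.coeff_succ_X_mul, PowerSeries.coeff_mk,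
      PowerSeries.coeff_mk, PowerSeries.coeff_zero_X_mul]
    simp [zpB]
  | m + 2 =>
    rw [PowerSeries.coeff_succ_X_mul, PowerSeries.coeff_succ_X_mul,
      PowerSeries.coeff_succ_X_mul, PowerSeries.coeff_mk,
      PowerSeries.coeff_mk, PowerSeries.coeff_mk]
    simp [zpB]

theorem zpB_sum (A : ℕ → ℤ) (Q : ℤ) (K : ℕ) :
    ∑ m ∈ Finset.range (K + 2), zpB A Q m = A (K + 1) - Q * A K := by
  induction K with
  | zero =>
    rw [Finset.sum_range_succ, Finset.sum_range_one]
    simp only [zpB]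
    ring
  | succ K ih =>
    rw [Finset.sum_range_succ, ih]
    simp only [zpB]
    ring

/-- The three facts on the coefficients. -/
theorem zpB_facts (A : ℕ → ℤ) (g : ℕ) (Q h : ℤ) (hQ : 2 ≤ Q) (h0 : A 0 = 1)
    (h1 : ∀ M : ℕ, 2 * g ≤ M + 1 → A M * (Q - 1) = h * (Q ^ (M + 1 - g) - 1))
    (h2 : 0 < g → A (2 * g - 2) * (Q - 1) = (h - 1) * (Q ^ (g - 1) - 1) + (Q ^ g - 1)) :
    (∀ m, 2 * g < m → zpB A Q m = 0) ∧ zpB A Q (2 * g) = Q ^ g ∧
      ∑ m ∈ Finset.range (2 * g + 1), zpB A Q m = h := by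
  have hQ1 : Q - 1 ≠ 0 := by omega
  rcases g with _ | g
  · have e0 := h1 0 (by omega)
    rw [h0] at e0
    simp only [zero_add, Nat.sub_zero, pow_one, one_mul] at e0
    have hh : h = 1 := by
      have : (h - 1) * (Q - 1) = 0 := by linear_combination -e0
      rcases mul_eq_zero.1 this with h3 | h3
      · omega
      · exact absurd h3 hQ1
    subst hh
    refine ⟨fun m hm => ?_, ?_, ?_⟩
    · apply mul_right_cancel₀ hQ1
      match m, hm with
      | 1, _ =>
        have e1 := h1 1 (by omega)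
        simp only [zpB]
        rw [h0]
        norm_num at e1
        linear_combination e1
      | k + 2, _ =>
        have e1 := h1 k (by omega)
        have e2 := h1 (k + 1) (by omega)
        have e3 := h1 (k + 2) (by omega)
        simp only [Nat.sub_zero] at e1 e2 e3
        simp only [zpB]
        rw [zero_mul]
        have p2 : Q ^ (k + 1 + 1) = Q ^ (k + 1) * Q := pow_succ _ _
        have p3 : Q ^ (k + 2 + 1) = Q ^ (k + 1) * Q * Q := by rw [pow_succ, pow_succ]
        rw [p2] at e2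
        rw [p3] at e3
        linear_combination e3 - (Q + 1) * e2 + Q * e1
    · simp only [zpB, pow_zero]
      exact h0
    · simp only [mul_zero, zero_add, Finset.sum_range_one, zpB]
      exact h0
  · have h2' := h2 (by omega)
    have i1 : 2 * (g + 1) - 2 = 2 * g := by omega
    have i2 : g + 1 - 1 = g := by omega
    rw [i1, i2] at h2'
    have e1 := h1 (2 * g + 1) (by omega)
    have e2 := h1 (2 * g + 2) (by omega)
    have i3 : 2 * g + 1 + 1 - (g + 1) = g + 1 := by omega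
    have i4 : 2 * g + 2 + 1 - (g + 1) = g + 2 := by omega
    rw [i3] at e1
    rw [i4] at e2
    have i5 : 2 * (g + 1) = 2 * g + 2 := by ring
    have p1 : Q ^ (g + 1) = Q ^ g * Q := pow_succ _ _
    have p2 : Q ^ (g + 2) = Q ^ g * Q * Q := by rw [pow_succ, pow_succ]
    rw [p1] at e1 h2'
    rw [p2] at e2
    refine ⟨fun m hm => ?_, ?_, ?_⟩
    · apply mul_right_cancel₀ hQ1
      obtain ⟨k, rfl⟩ : ∃ k, m = k + 2 := ⟨m - 2, by omega⟩
      have e1 := h1 k (by omega)
      have e2 := h1 (k + 1) (by omega)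
      have e3 := h1 (k + 2) (by omega)
      obtain ⟨e, he⟩ : ∃ e, k + 1 - (g + 1) = e := ⟨_, rfl⟩
      have j2 : k + 1 + 1 - (g + 1) = e + 1 := by omega
      have j3 : k + 2 + 1 - (g + 1) = e + 2 := by omega
      rw [he] at e1
      rw [j2, pow_succ] at e2
      rw [j3, pow_succ, pow_succ] at e3
      simp only [zpB]
      linear_combination e3 - (Q + 1) * e2 + Q * e1
    · apply mul_right_cancel₀ hQ1
      rw [i5, p1]
      simp only [zpB]
      linear_combination e2 - (Q + 1) * e1 + Q * h2'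
    · have hs := zpB_sum A Q (2 * g + 1)
      have i6 : 2 * (g + 1) + 1 = 2 * g + 1 + 2 := by ring
      rw [i6, hs]
      apply mul_right_cancel₀ hQ1
      linear_combination e2 - Q * e1

theorem poly_L (A : ℕ → ℤ) (g : ℕ) (Q h : ℤ) (hQ : 2 ≤ Q) (h0 : A 0 = 1)
    (h1 : ∀ M : ℕ, 2 * g ≤ M + 1 → A M * (Q - 1) = h * (Q ^ (M + 1 - g) - 1))
    (h2 : 0 < g → A (2 * g - 2) * (Q - 1) = (h - 1) * (Q ^ (g - 1) - 1) + (Q ^ g - 1)) :
    ∃ L : ℤ[X], L.natDegree ≤ 2 * g ∧ L.coeff 0 = 1 ∧ L.coeff (2 * g) = Q ^ g ∧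
      L.eval 1 = h ∧ (L : PowerSeries ℤ) =
        (1 - PowerSeries.C 1 * PowerSeries.X) * (1 - PowerSeries.C Q * PowerSeries.X) *
          PowerSeries.mk A := by
  obtain ⟨f1, f2, f3⟩ := zpB_facts A g Q h hQ h0 h1 h2
  obtain ⟨S, hS⟩ : ∃ S, S = (1 - PowerSeries.C 1 * PowerSeries.X) *
      (1 - PowerSeries.C Q * PowerSeries.X) * PowerSeries.mk A := ⟨_, rfl⟩
  have hc : ∀ m, PowerSeries.coeff m S = zpB A Q m := fun m => by
    rw [hS]; exact zpB_coeff A Q m
  rw [← hS]
  have hco : ∀ m, (PowerSeries.trunc (2 * g + 1) S).coeff m =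
      if m < 2 * g + 1 then zpB A Q m else 0 := fun m => by
    rw [PowerSeries.coeff_trunc, hc]
  have hlt : (PowerSeries.trunc (2 * g + 1) S).natDegree < 2 * g + 1 :=
    PowerSeries.natDegree_trunc_lt _ _
  refine ⟨PowerSeries.trunc (2 * g + 1) S, by omega, ?_, ?_, ?_, ?_⟩
  · rw [hco, if_pos (by omega)]
    exact h0
  · rw [hco, if_pos (by omega)]
    exact f2
  · rw [Polynomial.eval_eq_sum_range' hlt, ← f3]
    refine Finset.sum_congr rfl fun m hm => ?_
    rw [hco, if_pos (Finset.mem_range.1 hm), one_pow, mul_one]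
  · ext m
    rw [Polynomial.coeff_coe, hco, hc]
    split_ifs with hm
    · rfl
    · exact (f1 m (by omega)).symm

end Vale.Agent.P019P
end
end

section

section

/-!
# Existence of models
-/

namespace Vale.Agent.P019

set_option linter.style.haveILetI false

open Polynomial

section aux

variable {K : Type*} [Field K]

/-- algebraicity through polynomials over the ambient field. -/
theorem isAlgebraic_iff_coeff {E : Subfield K} {z : K} :
    IsAlgebraic E z ↔ ∃ q : K[X], q ≠ 0 ∧ (∀ i, q.coeff i ∈ E) ∧ q.eval z = 0 := by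
  constructor
  · rintro ⟨Q, hQ0, hQ⟩
    refine ⟨Q.map (algebraMap E K), ?_, ?_, ?_⟩
    · rwa [Ne, Polynomial.map_eq_zero_iff (algebraMap E K).injective]
    · intro i
      rw [coeff_map]
      exact (Q.coeff i).2
    · rw [eval_map_algebraMap]
      exact hQ
  · rintro ⟨q, hq0, hq, hz⟩
    have h1 : q ∈ lifts (algebraMap E K) := by
      rw [lifts_iff_coeff_lifts]
      intro n
      exact ⟨⟨q.coeff n, hq n⟩, rfl⟩
    obtain ⟨Q, hQ⟩ := (mem_lifts _).1 h1
    refine ⟨Q, ?_, ?_⟩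
    · rintro rfl
      apply hq0
      rw [← hQ, Polynomial.map_zero]
    · rw [← eval_map_algebraMap, hQ]
      exact hz

/-- elements of `k(L)` need finitely many constants only. -/
theorem mem_sup_finite {k : Subfield K} {L : Set K} {z : K} (hz : z ∈ k ⊔ Subfield.closure L) :
    ∃ C : Finset K, (C : Set K) ⊆ (k : Set K) ∧ ∀ N : Subfield K, (C : Set K) ⊆ (N : Set K) →
      z ∈ N ⊔ Subfield.closure L := by
  classical
  have h0 : k ⊔ Subfield.closure L = Subfield.closure ((k : Set K) ∪ L) := by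
    rw [Subfield.closure_union, Subfield.closure_eq]
  rw [h0] at hz
  induction hz using Subfield.closure_induction with
  | mem z hz =>
    rcases hz with hz | hz
    · refine ⟨{z}, by simpa using hz, fun N hN => ?_⟩
      exact (le_sup_left : N ≤ _) (hN (by simp))
    · refine ⟨∅, by simp, fun N _ => ?_⟩
      exact (le_sup_right : _ ≤ N ⊔ Subfield.closure L) (Subfield.subset_closure hz)
  | one => exact ⟨∅, by simp, fun N _ => Subfield.one_mem _⟩
  | add a b _ _ ha hb =>
    obtain ⟨C, hC, h⟩ := ha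
    obtain ⟨C', hC', h'⟩ := hb
    refine ⟨C ∪ C', by push_cast; exact Set.union_subset hC hC', fun N hN => ?_⟩
    push_cast at hN
    exact Subfield.add_mem _ (h N (Set.subset_union_left.trans hN))
      (h' N (Set.subset_union_right.trans hN))
  | neg a _ ha =>
    obtain ⟨C, hC, h⟩ := ha
    exact ⟨C, hC, fun N hN => Subfield.neg_mem _ (h N hN)⟩
  | inv a _ ha =>
    obtain ⟨C, hC, h⟩ := ha
    exact ⟨C, hC, fun N hN => Subfield.inv_mem _ (h N hN)⟩
  | mul a b _ _ ha hb =>
    obtain ⟨C, hC, h⟩ := ha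
    obtain ⟨C', hC', h'⟩ := hb
    refine ⟨C ∪ C', by push_cast; exact Set.union_subset hC hC', fun N hN => ?_⟩
    push_cast at hN
    exact Subfield.mul_mem _ (h N (Set.subset_union_left.trans hN))
      (h' N (Set.subset_union_right.trans hN))

/-- algebraic elements over `k(L)` need finitely many constants only. -/
theorem isAlgebraic_sup_finite {k : Subfield K} {L : Set K} {z : K}
    (hz : IsAlgebraic (k ⊔ Subfield.closure L : Subfield K) z) :
    ∃ C : Finset K, (C : Set K) ⊆ (k : Set K) ∧ ∀ N : Subfield K, (C : Set K) ⊆ (N : Set K) →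
      IsAlgebraic (N ⊔ Subfield.closure L : Subfield K) z := by
  classical
  obtain ⟨q, hq0, hq, hqz⟩ := isAlgebraic_iff_coeff.1 hz
  choose C hC hCN using fun i => mem_sup_finite (hq i)
  refine ⟨(Finset.range (q.natDegree + 1)).biUnion C, ?_, fun N hN => ?_⟩
  · intro c hc
    simp only [Finset.coe_biUnion, Set.mem_iUnion] at hc
    obtain ⟨i, _, hi⟩ := hc
    exact hC i hi
  · refine isAlgebraic_iff_coeff.2 ⟨q, hq0, fun i => ?_, hqz⟩
    by_cases hi : i < q.natDegree + 1
    · refine hCN i N (subset_trans ?_ hN)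
      intro c hc
      simp only [Finset.coe_biUnion, Set.mem_iUnion]
      exact ⟨i, by simpa using hi, hc⟩
    · rw [coeff_eq_zero_of_natDegree_lt (by omega)]
      exact Subfield.zero_mem _

theorem sup_closure_insert (N : Subfield K) (s : K) (L : Set K) :
    N ⊔ Subfield.closure (insert s L) = adj (N ⊔ Subfield.closure L) s := by
  unfold adj
  rw [Set.insert_eq, Subfield.closure_union, sup_assoc]
  congr 1
  exact sup_comm _ _

attribute [-instance] AFast89c1c5x8a.a0 AFast89c1c5x8a.a1 AFast89c1c5x8a.a2 AFast89c1c5x8a.a3 AFast89c1c5x8a.a4 AFast89c1c5x8a.a5 AFast89c1c5x8a.a6 AFast89c1c5x8a.a7 AFast89c1c5x8a.a8 AFast89c1c5x8a.a9 AFast89c1c5x8a.a10 AFast89c1c5x8a.a11 AFast89c1c5x8a.a12 AFast89c1c5x8a.a13 AFast89c1c5x8a.a14 AFast89c1c5x8a.a15 AFast89c1c5x8a.a16 AFast89c1c5x8a.a18 AFast89c1c5x8a.a19 AFast89c1c5x8a.a20 AFast89c1c5x8a.a21 AFast89c1c5x8a.a22 AFast89c1c5x8a.a23 AFast89c1c5x8a.a24 AFast89c1c5x8a.a25 AFast89c1c5x8a.a26 AFast89c1c5x8a.a27 AFast89c1c5x8a.a28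 AFast89c1c5x8a.a29 AFast89c1c5x8a.a30 AFast89c1c5x8a.a31 AFast89c1c5x8a.a32 AFast89c1c5x8a.a33 AFast89c1c5x8a.a34 AFast89c1c5x8a.a35 AFast89c1c5x8a.a36 AFast89c1c5x8a.a37 AFast89c1c5x8a.a38 AFast89c1c5x8a.a39 AFast89c1c5x8a.a40 AFast89c1c5x8a.a41 AFast89c1c5x8a.a43 AFast89c1c5x8a.a44 AFast89c1c5x8a.a45 AFast89c1c5x8a.a46 AFast89c1c5x8a.a47 AFast89c1c5x8a.a48 AFast89c1c5x8a.a49 AFast89c1c5x8a.a50 AFast89c1c5x8a.a51 AFast89c1c5x8a.a52 AFast89c1c5x8a.a53 AFast89c1c5x8a.a54 AFast89c1c5x8a.a55 AFast89c1c5x8a.a56 AFast89c1c5x8a.a57 AFast89c1c5x8a.a58 AFast89c1c5x8a.a59 AFast89c1c5x8a.a60 AFast89c1c5x8a.a61 AFast89c1c5x8a.a62 AFast89c1c5x8a.a63 AFast89c1c5x8a.a64 AFast89c1c5x8a.a65 AFast89c1c5x8a.a66 AFast89c1c5x8b.a0 AFast89c1c5x8b.a1 AFast89c1c5x8b.a2 AFast89c1c5x280a.a0 AFast89c1c5x280a.a1 AFast89c1c5x280a.a2 AFast89c1c5x280a.a3 AFast89c1c5x280a.a4 AFast89c1c5x280a.a5 AFast89c1c5x280a.a6 AFast89c1c5x280a.a7 AFast89c1c5x280a.a8 in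
/-- constants algebraic over `N(L)` are algebraic over `N` as soon as `N` contains finitely many
fixed constants. -/
theorem exists_finite_free (k : Subfield K) (L : Finset K) :
    ∃ C : Finset K, (C : Set K) ⊆ (k : Set K) ∧ ∀ N : Subfield K, (C : Set K) ⊆ (N : Set K) →
      N ≤ k → ∀ a ∈ k, IsAlgebraic (N ⊔ Subfield.closure (L : Set K) : Subfield K) a →
        IsAlgebraic N a := by
  classical
  induction L using Finset.induction_on with
  | empty =>
    refine ⟨∅, by simp, fun N _ _ a _ ha => ?_⟩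
    exact isAlgebraic_mono (sup_le le_rfl (Subfield.closure_le.2 (by simp))) ha
  | insert s L _ ih =>
    obtain ⟨C, hC, h⟩ := ih
    by_cases hs : IsAlgebraic (k ⊔ Subfield.closure (L : Set K) : Subfield K) s
    · obtain ⟨C', hC', h'⟩ := isAlgebraic_sup_finite hs
      refine ⟨C ∪ C', by push_cast; exact Set.union_subset hC hC', fun N hN hNk a hak ha => ?_⟩
      push_cast at hN
      apply h N (Set.subset_union_left.trans hN) hNk a hak
      have h1 := h' N (Set.subset_union_right.trans hN)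
      rw [Finset.coe_insert, sup_closure_insert] at ha
      refine isAlgebraic_trans (le_adj _ s) ?_ ha
      intro z hz
      have h2 : adj (N ⊔ Subfield.closure (L : Set K)) s ≤ rac (N ⊔ Subfield.closure (L : Set K)) :=
        adj_le (le_rac _) (mem_rac.2 h1)
      exact mem_rac.1 (h2 hz)
    · refine ⟨C, hC, fun N hN hNk a hak ha => ?_⟩
      apply h N hN hNk a hak
      by_contra hna
      rw [Finset.coe_insert, sup_closure_insert] at ha
      have h1 := exchange hna ha
      apply hs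
      refine isAlgebraic_mono ?_ h1
      refine adj_le (sup_le_sup_right hNk _) ?_
      exact (le_sup_left : k ≤ _) hak

end aux

end Vale.Agent.P019
end
end

section

section

/-!
# Closed pairs
-/

namespace Vale.Agent.P019

set_option linter.style.haveILetI false

open Polynomial

section ctb

variable {K : Type*} [Field K]

theorem ctb_closure {s : Set K} (hs : s.Countable) : (Subfield.closure s : Set K).Countable := by
  have h := Subfield.cardinalMk_closure_le_max s
  have h1 : Cardinal.mk s ≤ Cardinal.aleph0 := Cardinal.le_aleph0_iff_set_countable.2 hs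
  rw [max_eq_right h1] at h
  exact Cardinal.le_aleph0_iff_set_countable.1 h

theorem ctb_sup {E F : Subfield K} (hE : (E : Set K).Countable) (hF : (F : Set K).Countable) :
    ((E ⊔ F : Subfield K) : Set K).Countable := by
  have h : E ⊔ F ≤ Subfield.closure ((E : Set K) ∪ F) :=
    sup_le (fun x hx => Subfield.subset_closure (Or.inl hx))
      (fun x hx => Subfield.subset_closure (Or.inr hx))
  exact (ctb_closure (hE.union hF)).mono h

theorem ctb_rac {E : Subfield K} (hE : (E : Set K).Countable) : (rac E : Set K).Countable := by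
  haveI : Countable E := hE.to_subtype
  have h := Algebra.IsAlgebraic.cardinalMk_le_max E (algebraicClosure E K)
  have h1 : Cardinal.mk E ≤ Cardinal.aleph0 := Cardinal.mk_le_aleph0
  rw [max_eq_right h1] at h
  exact Cardinal.le_aleph0_iff_set_countable.1 h

end ctb

section chain

variable {K : Type*} [Field K]

end chain

namespace Mdl

variable {K : Type*} [Field K] (M : Mdl K)

/-- every element comes from a countable field of constants. -/
theorem exists_ctb (z : K) : ∃ S : Set K, S.Countable ∧ (∀ s ∈ S, s ∈ M.k) ∧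
    z ∈ M.K0 ⊔ Subfield.closure S := by
  have hz : z ∈ Subfield.closure ((M.K0 : Set K) ∪ M.k) := by
    have h1 : (⊤ : Subfield K) ≤ Subfield.closure ((M.K0 : Set K) ∪ M.k) := by
      rw [← M.sup]
      exact sup_le (fun x hx => Subfield.subset_closure (Or.inl hx))
        (fun x hx => Subfield.subset_closure (Or.inr hx))
    exact h1 trivial
  induction hz using Subfield.closure_induction with
  | mem x hx =>
    rcases hx with hx | hx
    · exact ⟨∅, Set.countable_empty, by simp, (le_sup_left : M.K0 ≤ _) hx⟩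
    · exact ⟨{x}, Set.countable_singleton x, by simpa using hx,
        (le_sup_right : Subfield.closure {x} ≤ M.K0 ⊔ _) (Subfield.subset_closure rfl)⟩
  | one => exact ⟨∅, Set.countable_empty, by simp, Subfield.one_mem _⟩
  | add x y _ _ hx hy =>
    obtain ⟨S, hS, hSk, hx⟩ := hx
    obtain ⟨T, hT, hTk, hy⟩ := hy
    refine ⟨S ∪ T, hS.union hT, ?_, Subfield.add_mem _ ?_ ?_⟩
    · rintro s (hs | hs)
      exacts [hSk s hs, hTk s hs]
    · exact sup_le_sup_left (Subfield.closure_mono Set.subset_union_left) _ hx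
    · exact sup_le_sup_left (Subfield.closure_mono Set.subset_union_right) _ hy
  | neg x _ hx =>
    obtain ⟨S, hS, hSk, hx⟩ := hx
    exact ⟨S, hS, hSk, Subfield.neg_mem _ hx⟩
  | inv x _ hx =>
    obtain ⟨S, hS, hSk, hx⟩ := hx
    exact ⟨S, hS, hSk, Subfield.inv_mem _ hx⟩
  | mul x y _ _ hx hy =>
    obtain ⟨S, hS, hSk, hx⟩ := hx
    obtain ⟨T, hT, hTk, hy⟩ := hy
    refine ⟨S ∪ T, hS.union hT, ?_, Subfield.mul_mem _ ?_ ?_⟩
    · rintro s (hs | hs)
      exacts [hSk s hs, hTk s hs]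
    · exact sup_le_sup_left (Subfield.closure_mono Set.subset_union_left) _ hx
    · exact sup_le_sup_left (Subfield.closure_mono Set.subset_union_right) _ hy

/-- enlarging a countable field of constants. -/
theorem exists_big (hk : ¬ (M.k : Set K).Countable) {N : Subfield K} (hN : M.Sub N)
    (hc : (N : Set K).Countable) (Z : Set K) (hZ : Z.Countable) :
    ∃ N₂, M.Sub N₂ ∧ (N₂ : Set K).Countable ∧ N ≤ N₂ ∧ (∃ a ∈ N₂, a ∉ N) ∧
      ∀ z ∈ Z, z ∈ M.F N₂ := by
  choose S hS hSk hSz using M.exists_ctb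
  obtain ⟨a, hak, haN⟩ : ∃ a ∈ M.k, a ∉ N := by
    by_contra hcon
    push Not at hcon
    exact hk (hc.mono hcon)
  set T : Set K := {a} ∪ ⋃ z ∈ Z, S z with hT
  have hTc : T.Countable :=
    (Set.countable_singleton a).union (hZ.biUnion (fun z _ => hS z))
  have hTk : Subfield.closure T ≤ M.k := by
    rw [Subfield.closure_le]
    rintro s (hs | hs)
    · rw [Set.mem_singleton_iff.1 hs]; exact hak
    · obtain ⟨z, _, hs⟩ := Set.mem_iUnion₂.1 hs
      exact hSk z s hs
  have h0 : N ≤ rac (N ⊔ Subfield.closure T) := le_sup_left.trans (le_rac _)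
  have h1 : Subfield.closure T ≤ rac (N ⊔ Subfield.closure T) := le_sup_right.trans (le_rac _)
  refine ⟨rac (N ⊔ Subfield.closure T), sub_rac (hN.ge.trans le_sup_left)
    (sup_le hN.le hTk), ctb_rac (ctb_sup hc (ctb_closure hTc)), h0,
    ⟨a, h1 (Subfield.subset_closure (Or.inl rfl)), haN⟩, ?_⟩
  intro z hz
  refine sup_le_sup_left ?_ M.K0 (hSz z)
  refine (Subfield.closure_mono ?_).trans h1
  exact (Set.subset_biUnion_of_mem (u := fun z => S z) hz).trans Set.subset_union_right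

variable {M}

end Mdl

section CP

variable {K L : Type*} [Field K] [Field L] {ℓ : ℕ}

/-- closed pairs of countable algebraically closed fields of constants. -/
structure CP (M : Mdl K) (M' : Mdl L) (Θ : V ℓ K ≃ₗ[ZMod ℓ] V ℓ L) (N : Subfield K)
    (N' : Subfield L) : Prop where
  sub : M.Sub N
  sub' : M'.Sub N'
  ctb : (N : Set K).Countable
  ctb' : (N' : Set L).Countable
  map : ∀ v, v ∈ VS ℓ (M.F N) ↔ Θ v ∈ VS ℓ (M'.F N')
  inf : ∀ S : Finset K, (∀ s ∈ S, s ∈ M.F N) →
    ∃ N₀, M.Sub N₀ ∧ N₀ ≤ N ∧ N₀ ≠ N ∧ (∀ s ∈ S, s ∈ M.F N₀)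
  inf' : ∀ S : Finset L, (∀ s ∈ S, s ∈ M'.F N') →
    ∃ N₀, M'.Sub N₀ ∧ N₀ ≤ N' ∧ N₀ ≠ N' ∧ (∀ s ∈ S, s ∈ M'.F N₀)

/-- the state of the construction. -/
structure St (M : Mdl K) (M' : Mdl L) where
  N : Subfield K
  N' : Subfield L
  sub : M.Sub N
  sub' : M'.Sub N'
  ctb : (N : Set K).Countable
  ctb' : (N' : Set L).Countable

end CP

end Vale.Agent.P019
end
end

section

section

/-!
# Images of subfields under places
-/

namespace Vale.Agent.P019P

open Vale.Agent.P019

set_option linter.style.haveILetI false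

open Polynomial

section im

variable {K Ω : Type*} [Field K] [Field Ω] (P : Pl K Ω)

/-- the valuation ring is closed under `q`-power roots. -/
theorem Pl.mem_of_pow {P : Pl K Ω} {z : K} {n : ℕ} (h : z ^ ringExpChar K ^ n ∈ P.O) :
    z ∈ P.O := by
  rw [← P.O.valuation_le_one_iff] at h ⊢
  rw [map_pow] at h
  exact (pow_le_one_iff (qpow_pos K n).ne').1 h

theorem Pl.ringExpChar_eq (E : Subfield K) (hE : ∀ x ∈ E, x ∈ P.O) :
    ringExpChar K = ringExpChar Ω :=
  (ringExpChar_eq_of_hom (E.subtype)).symm.trans (ringExpChar_eq_of_hom (P.resHom E hE))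

instance perfect_im (A : Subfield K) [PerfectField A] (hA : ∀ x ∈ A, x ∈ P.O) :
    PerfectField (P.im A hA) :=
  inferInstanceAs (PerfectField (P.resHom A hA).fieldRange)

/-- R2. -/
theorem Pl.mem_adj_of_transcendental (E : Subfield K) (hE : ∀ x ∈ E, x ∈ P.O) {b : K}
    (hb : b ∈ P.O) (hbt : ¬ IsAlgebraic (P.im E hE) (P.ev b)) : ∀ x ∈ adj E b, x ∈ P.O := by
  intro x hx
  obtain ⟨n, hn⟩ := mem_adj_iff.1 hx
  exact Pl.mem_of_pow (Vale.Agent.P019.Pl.mem_adj_of_transcendental P E hE hb hbt _ hn)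

theorem Pl.im_pf [PerfectField K] {A : Subfield K} (hA : ∀ x ∈ pf A, x ∈ P.O) :
    P.im (pf A) hA = pf (P.im A (fun x hx => hA x (le_pf A hx))) := by
  have hq := Pl.ringExpChar_eq P _ hA
  apply le_antisymm
  · intro w hw
    obtain ⟨x, hx, rfl⟩ := P.mem_im.1 hw
    obtain ⟨n, hn⟩ := mem_pf.1 hx
    refine mem_pf.2 ⟨n, ?_⟩
    rw [← hq, ← P.ev_pow (hA x hx)]
    exact P.ev_mem_im _ hn
  · intro w hw
    obtain ⟨n, hn⟩ := mem_pf.1 hw
    obtain ⟨x, hx, hxw⟩ := P.mem_im.1 hn
    obtain ⟨y, hy, hyx⟩ := exists_root_q (pf A) (le_pf A hx) n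
    refine P.mem_im.2 ⟨y, hy, ?_⟩
    apply pow_q_injective n
    change P.ev y ^ _ = w ^ _
    rw [← hxw, ← hyx, P.ev_pow (hA y hy), hq]

/-- R7b. -/
theorem Pl.im_adj [PerfectField K] {A E : Subfield K} [PerfectField A] (hA : ∀ x ∈ A, x ∈ P.O)
    (hEA : E ≤ A) {y : K} (hy : y ∈ A) :
    P.im (adj E y) (fun x hx => hA x (adj_le hEA hy hx)) =
      adj (P.im E (fun x hx => hA x (hEA hx))) (P.ev y) := by
  have h1 := Pl.im_pf P (A := Vale.Agent.P019.adj E y) (fun x hx => hA x (adj_le hEA hy hx))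
  have h2 := Vale.Agent.P019.Pl.im_adj P hA hEA hy
  unfold adj
  rw [← h2]
  exact h1

end im

end Vale.Agent.P019P
end
end

section

end

section

section

/-!
# Free composita with algebraically closed fields
-/

namespace Vale.Agent.P019P

open Vale.Agent.P019

set_option linter.style.haveILetI false
set_option linter.unusedSectionVars false

open Polynomial

section fre

variable {K : Type*} [Field K]

/-- the relative algebraic closure of `l(T)`. -/
noncomputable def rcl (l : Subfield K) (T : Finset K) : Subfield K :=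
  rac (l ⊔ Subfield.closure (T : Set K))

theorem le_rcl (l : Subfield K) (T : Finset K) : l ≤ rcl l T := le_sup_left.trans (le_rac _)

theorem rcl_RAC (l : Subfield K) (T : Finset K) : RAC (rcl l T) := RAC_rac _

theorem mem_rcl {l : Subfield K} {T : Finset K} {c : K} (hc : c ∈ T) : c ∈ rcl l T :=
  (le_sup_right.trans (le_rac _) : Subfield.closure (T : Set K) ≤ rcl l T)
    (Subfield.subset_closure hc)

theorem rcl_le {l B : Subfield K} {T : Finset K} (hB : RAC B) (hlB : l ≤ B)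
    (hT : ∀ c ∈ T, c ∈ B) : rcl l T ≤ B :=
  hB.le (sup_le hlB (Subfield.closure_le.2 fun c hc => hT c hc))

theorem rcl_empty {l : Subfield K} (hl : RAC l) : rcl l ∅ = l :=
  le_antisymm (rcl_le hl le_rfl fun c hc => absurd hc (Finset.notMem_empty c)) (le_rcl l ∅)

theorem RAC_adj_le {N B : Subfield K} (hB : RAC B) (h : N ≤ B) {b : K} (hb : b ∈ B) :
    rac (adj N b) ≤ B := by
  rw [rac_adj]
  exact hB.le (Vale.Agent.P019.adj_le h hb)

theorem rcl_insert [DecidableEq K] (l : Subfield K) (T : Finset K) (b : K) :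
    rcl l (insert b T) = rac (adj (rcl l T) b) := by
  apply le_antisymm
  · refine rcl_le (RAC_rac _) ((le_rcl l T).trans ((le_adj _ b).trans (le_rac _))) ?_
    intro c hc
    rcases Finset.mem_insert.1 hc with rfl | hc
    · exact le_rac _ (mem_adj _ _)
    · exact le_rac _ (le_adj _ _ (mem_rcl hc))
  · refine RAC_adj_le (rcl_RAC _ _) (rcl_le (rcl_RAC _ _) (le_rcl _ _) ?_)
      (mem_rcl (Finset.mem_insert_self b T))
    intro c hc
    exact mem_rcl (Finset.mem_insert_of_mem hc)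

/-- going down a chain. -/
theorem chain_down {l B : Subfield K} (hl : RAC l) (p : Subfield K → Prop)
    (hstep : ∀ T : Finset K, (∀ c ∈ T, c ∈ B) → ∀ b ∈ B, b ∉ rcl l T →
      p (rac (adj (rcl l T) b)) → p (rcl l T))
    (T : Finset K) (hT : ∀ c ∈ T, c ∈ B) (h : p (rcl l T)) : p l := by
  classical
  induction T using Finset.induction_on with
  | empty => rwa [rcl_empty hl] at h
  | insert b T hbT ih =>
    rw [rcl_insert] at h
    have hTB : ∀ c ∈ T, c ∈ B := fun c hc => hT c (Finset.mem_insert_of_mem hc)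
    apply ih hTB
    by_cases hb : b ∈ rcl l T
    · have e : rac (adj (rcl l T) b) = rcl l T :=
        le_antisymm (RAC_adj_le (rcl_RAC _ _) le_rfl hb) ((le_adj _ _).trans (le_rac _))
      rwa [e] at h
    · exact hstep T hTB b (hT b (Finset.mem_insert_self b T)) hb h

/-- `A` and `B` are free over `l`. -/
def Fre (l A B : Subfield K) : Prop :=
  ∀ N : Subfield K, RAC N → l ≤ N → N ≤ B → ∀ a ∈ B, IsAlgebraic (A ⊔ N : Subfield K) a → a ∈ N

/-- relative algebraic closedness in free composita. -/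
theorem rac_sup_gen {l A B : Subfield K} (hl : RAC l) (hlA : l ≤ A) (hlB : l ≤ B)
    (hB : IsAlgClosed B) (hfree : Fre l A B) {h : K} (hh : h ∈ A ⊔ B) (hha : IsAlgebraic A h) :
    h ∈ A := by
  have hBR : RAC B := RAC_of_isAlgClosed B hB
  obtain ⟨C, hC, hCN⟩ := mem_sup_finite (k := B) (L := (A : Set K)) (z := h) (by
    rw [Subfield.closure_eq, sup_comm]
    exact hh)
  have h1 : h ∈ A ⊔ rcl l C := by
    have h2 := hCN (rcl l C) (fun c hc => mem_rcl hc)
    rw [Subfield.closure_eq, sup_comm] at h2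
    exact h2
  have h3 := chain_down (B := B) hl (fun N => h ∈ A ⊔ N) ?_ C (fun c hc => hC hc) h1
  · rwa [sup_eq_left.2 hlA] at h3
  · intro T hT b hb hbN hmem
    have hN := rcl_RAC l T
    have hlN := le_rcl l T
    have hNB := rcl_le hBR hlB hT
    set N := rcl l T with hNdef
    have hNac : IsAlgClosed N := isAlgClosed_of_RAC hB hN hNB
    refine rac_sup (l := N) (A := A ⊔ N) (B := rac (adj N b)) (y := b) hNac le_sup_right
      ((le_adj _ _).trans (le_rac _)) (le_rac _ (mem_adj _ _))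
      (fun h => hbN (hfree N hN hlN hNB b hb h)) (fun c hc => mem_rac.1 hc) ?_
      (isAlgebraic_mono le_sup_left hha)
    exact (sup_le_sup_right le_sup_left _ : A ⊔ rac (adj N b) ≤ _) hmem

theorem isAlgebraic_sup_of_adj {A N E : Subfield K} (hA : ∀ a ∈ A, IsAlgebraic E a) (hN : N ≤ E)
    {z : K} (hz : IsAlgebraic (A ⊔ N : Subfield K) z) : IsAlgebraic E z := by
  have h1 : A ⊔ N ≤ rac E := sup_le (fun a ha => mem_rac.2 (hA a ha)) (hN.trans (le_rac E))
  exact mem_rac.1 (RAC_rac E z (isAlgebraic_mono h1 hz))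

/-- freeness from one transcendental element. -/
theorem Fre.of_one {l A B : Subfield K} {y : K} (hA : ∀ a ∈ A, IsAlgebraic (adj l y) a)
    (hy : ¬ IsAlgebraic B y) : Fre l A B := by
  intro N hN hlN hNB a ha halg
  by_contra haN
  have h1 : IsAlgebraic (adj N y) a :=
    isAlgebraic_sup_of_adj (fun a ha => isAlgebraic_mono (adj_mono hlN y) (hA a ha))
      (le_adj _ _) halg
  have h2 := exchange (fun h => haN (hN a h)) h1
  have h3 : adj N a ≤ rac B := by
    have h4 : Vale.Agent.P019.adj N a ≤ B := Vale.Agent.P019.adj_le hNB ha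
    have h5 : rac (adj N a) ≤ rac B := by
      rw [rac_adj]
      exact rac_mono h4
    exact (le_rac _).trans h5
  exact hy (mem_rac.1 (RAC_rac B y (isAlgebraic_mono h3 h2)))

theorem adj_comm_alg {E : Subfield K} {x y z : K} (h : IsAlgebraic (adj (adj E x) y) z) :
    IsAlgebraic (adj (adj E y) x) z := by
  have h1 : adj (adj E x) y ≤ rac (adj (adj E y) x) := by
    have h2 : Vale.Agent.P019.adj E x ≤ adj (adj E y) x := by
      refine Vale.Agent.P019.adj_le ?_ (mem_adj _ _)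
      exact (le_adj E y).trans (le_adj _ x)
    have h3 : rac (adj E x) ≤ rac (adj (adj E y) x) := by
      rw [rac_adj]
      exact rac_mono h2
    have h4 : Vale.Agent.P019.adj (adj E x) y ≤ rac (adj (adj E y) x) := by
      refine Vale.Agent.P019.adj_le ((le_rac _).trans h3) (le_rac _ ?_)
      exact le_adj _ _ (mem_adj _ _)
    have h5 : rac (adj (adj E x) y) ≤ rac (adj (adj E y) x) := by
      rw [rac_adj]
      exact (RAC_rac _).le h4
    exact (le_rac _).trans h5
  exact mem_rac.1 (RAC_rac _ z (isAlgebraic_mono h1 h))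

/-- freeness from two algebraically independent elements. -/
theorem Fre.of_two {l A B : Subfield K} {x y : K}
    (hA : ∀ a ∈ A, IsAlgebraic (adj (adj l x) y) a) (hx : ¬ IsAlgebraic B x)
    (hy : ¬ IsAlgebraic (adj B x) y) : Fre l A B := by
  intro N hN hlN hNB a ha halg
  by_contra haN
  have hNa : adj N a ≤ rac B := by
    have h4 : Vale.Agent.P019.adj N a ≤ B := Vale.Agent.P019.adj_le hNB ha
    have h5 : rac (adj N a) ≤ rac B := by
      rw [rac_adj]
      exact rac_mono h4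
    exact (le_rac _).trans h5
  have h1 : IsAlgebraic (adj (adj N x) y) a :=
    isAlgebraic_sup_of_adj (fun a ha => isAlgebraic_mono (adj_mono (adj_mono hlN x) y) (hA a ha))
      ((le_adj _ _).trans (le_adj _ _)) halg
  have h2 : ¬ IsAlgebraic (adj N x) a := by
    intro h3
    have h4 := exchange (fun h => haN (hN a h)) h3
    exact hx (mem_rac.1 (RAC_rac B x (isAlgebraic_mono hNa h4)))
  have h3 := exchange h2 h1
  have h4 := adj_comm_alg h3
  apply hy
  have h5 : adj (adj N a) x ≤ rac (adj B x) := by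
    have h6 : rac B ≤ rac (adj B x) := rac_mono (le_adj B x)
    have h7 : Vale.Agent.P019.adj (adj N a) x ≤ rac (adj B x) :=
      Vale.Agent.P019.adj_le (hNa.trans h6) (le_rac _ (mem_adj _ _))
    have h8 : rac (adj (adj N a) x) ≤ rac (adj B x) := by
      rw [rac_adj]
      exact (RAC_rac _).le h7
    exact (le_rac _).trans h8
  exact mem_rac.1 (RAC_rac _ y (isAlgebraic_mono h5 h4))

/-- transcendence degree at most one. -/
def Td1 (N E : Subfield K) : Prop := ∀ u ∈ E, ∀ v ∈ E, u ∈ N ∨ IsAlgebraic (adj N u) v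

/-- one specialization step. -/
theorem spec_step [IsAlgClosed K] [PerfectField K] {ℓ : ℕ} {A N : Subfield K}
    (hN : IsAlgClosed N) {b : K}
    (hb : ¬ IsAlgebraic (A ⊔ N : Subfield K) b) {X : Set K} (hX : ∀ x ∈ X, x ∈ A ∧ x ≠ 0)
    {E : Subfield K} (hBE : rac (adj N b) ≤ E) (hEA : E ≤ A ⊔ rac (adj N b))
    (htd : Td1 (rac (adj N b)) E)
    (hXE : ∀ x ∈ X, ∃ e ∈ E, ∃ w ∈ A ⊔ rac (adj N b), x = e * w ^ ℓ) :
    ∃ E' : Subfield K, N ≤ E' ∧ E' ≤ A ⊔ N ∧ Td1 N E' ∧
      ∀ x ∈ X, ∃ e ∈ E', ∃ w ∈ A ⊔ N, x = e * w ^ ℓ := by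
  obtain ⟨P, hPA, hbO, -, hPB⟩ := exists_one (K := K) (Ω := K) hN
    (le_sup_right : N ≤ A ⊔ N) hb N.zero_mem
  simp only [Algebra.algebraMap_self_apply] at hPA hPB
  set B := rac (adj N b) with hB
  have hNB : N ≤ B := (le_adj _ _).trans (le_rac _)
  have hAO : ∀ a ∈ A ⊔ N, a ∈ P.O := fun a ha => (hPA a ha).1
  have hNO : ∀ a ∈ N, a ∈ P.O := fun a ha => hAO a ((le_sup_right : N ≤ A ⊔ N) ha)
  have hNev : ∀ a ∈ N, P.ev a = a := fun a ha => (hPA a ((le_sup_right : N ≤ A ⊔ N) ha)).2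
  have hBd : ∀ c ∈ B, c ∈ P.O → ∃ d ∈ N, P.ev c = P.ev d := by
    intro c hc hcO
    obtain ⟨d, hd, he⟩ := hPB c hcO (mem_rac.1 hc)
    exact ⟨d, hd, by rw [he, hNev d hd]⟩
  have hsup : A ⊔ B ≤ (A ⊔ N) ⊔ B := sup_le_sup_right le_sup_left B
  have hgauss : ∀ z ∈ A ⊔ B, z ≠ 0 → ∃ β ∈ B, β ≠ 0 ∧ P.U (β * z) ∧ P.ev (β * z) ∈ A ⊔ N := by
    intro z hz hz0
    obtain ⟨β, hβ, hβ0, hU, a, ha, hev⟩ := P.gauss (l := N) (A := A ⊔ N) (B := B) le_sup_right hNB
      hAO hBd (hsup hz) hz0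
    exact ⟨β, hβ, hβ0, hU, by rw [hev, (hPA a ha).2]; exact ha⟩
  have hinvO : ∀ e : K, e ∈ P.O → P.ev e ≠ 0 → P.U e := fun e he h => ⟨he, h⟩
  let E' : Subfield K :=
    { carrier := {z | ∃ e ∈ E, e ∈ P.O ∧ P.ev e = z}
      mul_mem' := by
        rintro _ _ ⟨e, he, heO, rfl⟩ ⟨f, hf, hfO, rfl⟩
        exact ⟨e * f, E.mul_mem he hf, P.O.mul_mem _ _ heO hfO, P.ev_mul heO hfO⟩
      one_mem' := ⟨1, E.one_mem, P.O.one_mem, P.ev_one⟩
      add_mem' := by
        rintro _ _ ⟨e, he, heO, rfl⟩ ⟨f, hf, hfO, rfl⟩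
        exact ⟨e + f, E.add_mem he hf, P.O.add_mem _ _ heO hfO, P.ev_add heO hfO⟩
      zero_mem' := ⟨0, E.zero_mem, P.O.zero_mem, P.ev_zero⟩
      neg_mem' := by
        rintro _ ⟨e, he, heO, rfl⟩
        exact ⟨-e, E.neg_mem he, P.O.neg_mem _ heO, P.ev_neg heO⟩
      inv_mem' := by
        rintro _ ⟨e, he, heO, rfl⟩
        by_cases h0 : P.ev e = 0
        · rw [h0, inv_zero]
          exact ⟨0, E.zero_mem, P.O.zero_mem, P.ev_zero⟩
        · have hU : P.U e := ⟨heO, h0⟩
          exact ⟨e⁻¹, E.inv_mem he, hU.inv_mem, hU.ev_inv⟩ }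
  have hmemE' : ∀ z, z ∈ E' ↔ ∃ e ∈ E, e ∈ P.O ∧ P.ev e = z := fun z => Iff.rfl
  have hNE' : N ≤ E' := fun c hc => ⟨c, hBE (hNB hc), hNO c hc, hNev c hc⟩
  refine ⟨E', hNE', ?_, ?_, ?_⟩
  · rintro _ ⟨e, he, heO, rfl⟩
    by_cases h0 : P.ev e = 0
    · rw [h0]; exact Subfield.zero_mem _
    have hUe : P.U e := ⟨heO, h0⟩
    obtain ⟨β, hβ, hβ0, hU, hev⟩ := hgauss e (hEA he) hUe.ne_zero
    have hUβ : P.U β := by
      have h1 : β = (β * e) / e := by
        have := hUe.ne_zero
        field_simp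
      rw [h1]; exact hU.div hUe
    obtain ⟨d, hd, hbd⟩ := hBd β hβ hUβ.1
    rw [P.ev_mul hUβ.1 heO] at hev
    have hd0 : P.ev β ≠ 0 := hUβ.2
    have h2 : P.ev e = (P.ev β * P.ev e) / P.ev β := by field_simp
    rw [h2]
    refine Subfield.div_mem _ hev ?_
    rw [hbd, hNev d hd]
    exact (le_sup_right : N ≤ A ⊔ N) hd
  · rintro _ ⟨e, he, heO, rfl⟩ _ ⟨f, hf, hfO, rfl⟩
    rcases htd e he f hf with h | h
    · left
      obtain ⟨d, hd, hbd⟩ := hBd e h heO
      rw [hbd, hNev d hd]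
      exact hd
    · by_cases hu : P.ev e ∈ N
      · exact Or.inl hu
      right
      -- the residue of `e` is transcendental
      have hNR : RAC N := RAC_of_isAlgClosed N hN
      have him : P.im N hNO = N := by
        ext z
        rw [P.mem_im]
        constructor
        · rintro ⟨c, hc, rfl⟩
          rw [hNev c hc]; exact hc
        · intro hz
          exact ⟨z, hz, hNev z hz⟩
      have htr : ¬ IsAlgebraic (P.im N hNO) (P.ev e) := by
        rw [him]
        exact fun h' => hu (hNR _ h')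
      have hadjO : ∀ x ∈ adj N e, x ∈ P.O := Pl.mem_adj_of_transcendental P N hNO heO htr
      have hadjev : ∀ x ∈ adj N e, P.ev x ∈ adj N (P.ev e) := by
        intro x hx
        haveI : PerfectField N := by
          haveI := hN
          infer_instance
        have h1 := Pl.im_adj P (A := adj N e) (E := N) hadjO (le_adj N e) (mem_adj N e)
        have h2 : P.ev x ∈ P.im (adj N e) hadjO := P.ev_mem_im hadjO hx
        have h3 : P.im (adj N e) hadjO = adj (P.im N hNO) (P.ev e) := h1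
        rw [h3, him] at h2
        exact h2
      refine P.isAlgebraic_ev (adj B e) (adj N (P.ev e)) ?_ h hfO
      intro x hx hxO
      by_cases h0 : P.ev x = 0
      · rw [h0]; exact Subfield.zero_mem _
      have hUx : P.U x := ⟨hxO, h0⟩
      -- pass to a power
      obtain ⟨n, hn⟩ := mem_adj_iff.1 hx
      have hUxn : P.U (x ^ ringExpChar K ^ n) := hUx.pow _
      have hmem : x ^ ringExpChar K ^ n ∈ adj N e ⊔ B := by
        refine (Vale.Agent.P019.adj_le ?_ ?_ : Vale.Agent.P019.adj B e ≤ adj N e ⊔ B) hn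
        · exact le_sup_right
        · exact (le_sup_left : adj N e ≤ _) (mem_adj N e)
      obtain ⟨β, hβ, hβ0, hU, a, ha, hev⟩ := P.gauss (l := N) (A := adj N e) (B := B)
        (le_adj N e) hNB hadjO hBd hmem hUxn.ne_zero
      have hUβ : P.U β := by
        have h1 : β = (β * x ^ ringExpChar K ^ n) / x ^ ringExpChar K ^ n := by
          have := hUxn.ne_zero
          field_simp
        rw [h1]; exact hU.div hUxn
      obtain ⟨d, hd, hbd⟩ := hBd β hβ hUβ.1
      rw [P.ev_mul hUβ.1 hUxn.1, P.ev_pow hxO] at hev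
      have hd0 : P.ev β ≠ 0 := hUβ.2
      have h2 : P.ev x ^ ringExpChar K ^ n = P.ev a / P.ev β := by
        rw [← hev]; field_simp
      have h3 : P.ev x ^ ringExpChar K ^ n ∈ adj N (P.ev e) := by
        rw [h2]
        refine Subfield.div_mem _ (hadjev a ha) ?_
        rw [hbd, hNev d hd]
        exact le_adj _ _ hd
      exact mem_of_pow_q h3
  · intro x hx
    obtain ⟨hxA, hx0⟩ := hX x hx
    obtain ⟨e, he, w, hw, hxe⟩ := hXE x hx
    have he0 : e ≠ 0 := by
      rintro rfl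
      rw [zero_mul] at hxe
      exact hx0 hxe
    have hUx : P.U x := by
      refine P.U_of_isAlgebraic (A ⊔ N) hAO (isAlgebraic_of_mem ?_) hx0
      exact (le_sup_left : A ≤ A ⊔ N) hxA
    have hevx : P.ev x = x := (hPA x ((le_sup_left : A ≤ A ⊔ N) hxA)).2
    by_cases hℓ : ℓ = 0
    · subst hℓ
      rw [pow_zero, mul_one] at hxe
      refine ⟨x, ⟨e, he, ?_, ?_⟩, 1, Subfield.one_mem _, by rw [pow_zero, mul_one]⟩
      · rw [← hxe]; exact hUx.1
      · rw [← hxe]; exact hevx
    have hw0 : w ≠ 0 := by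
      rintro rfl
      rw [zero_pow hℓ, mul_zero] at hxe
      exact hx0 hxe
    obtain ⟨β, hβ, hβ0, hUβ, hevβ⟩ := hgauss w hw hw0
    obtain ⟨γ, hγ, hγ0, hUγ, hevγ⟩ := hgauss e (hEA he) he0
    have hδ : P.U (β ^ ℓ * γ) := by
      have h1 : β ^ ℓ * γ = ((γ * e) * (β * w) ^ ℓ) / x := by
        rw [hxe, mul_pow]
        field_simp
      rw [h1]
      exact (hUγ.mul (hUβ.pow ℓ)).div hUx
    obtain ⟨d, hd, hbd⟩ := hBd _ (B.mul_mem (B.pow_mem hβ ℓ) hγ) hδ.1
    have hd0 : P.ev (β ^ ℓ * γ) ≠ 0 := hδ.2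
    have hkey : x * P.ev (β ^ ℓ * γ) = P.ev (γ * e) * P.ev (β * w) ^ ℓ := by
      rw [← P.ev_pow hUβ.1, ← P.ev_mul hUγ.1 (hUβ.pow ℓ).1]
      have h2 : γ * e * (β * w) ^ ℓ = x * (β ^ ℓ * γ) := by
        rw [hxe, mul_pow]; ring
      rw [h2, P.ev_mul hUx.1 hδ.1, hevx]
    have hdE : P.ev (β ^ ℓ * γ) ∈ E' := by
      rw [hbd, hNev d hd]
      exact hNE' hd
    refine ⟨P.ev (γ * e) / P.ev (β ^ ℓ * γ), E'.div_mem ?_ hdE, P.ev (β * w), hevβ, ?_⟩
    · exact ⟨γ * e, E.mul_mem (hBE hγ) he, hUγ.1, rfl⟩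
    · rw [div_mul_eq_mul_div, ← hkey]
      field_simp

end fre

end Vale.Agent.P019P
end
end

section

section

/-!
# Uniform bounds for the residue curves of a pencil
-/

namespace Vale.Agent.P019P

open Vale.Agent.P019

set_option linter.style.haveILetI false
set_option linter.unusedSectionVars false

open Polynomial Filter

section apdalg

/-- degree of an element satisfying an equation. -/
theorem apd_minpoly {E L : Type*} [Field E] [Field L] [Algebra E L] {x : L} {n : ℕ} {a : ℕ → E}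
    (h0 : ∃ i ∈ Finset.range (n + 1), a i ≠ 0)
    (h : ∑ i ∈ Finset.range (n + 1), algebraMap E L (a i) * x ^ i = 0) :
    IsAlgebraic E x ∧ (minpoly E x).natDegree ≤ n := by
  set p : E[X] := ∑ i ∈ Finset.range (n + 1), C (a i) * X ^ i with hp
  have hcoef : ∀ i ∈ Finset.range (n + 1), p.coeff i = a i := by
    intro i hi
    rw [hp, finsetSum_coeff]
    simp only [coeff_C_mul_X_pow]
    rw [Finset.sum_eq_single i]
    · rw [if_pos rfl]
    · intro j _ hj
      rw [if_neg (Ne.symm hj)]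
    · intro hi'
      exact absurd hi hi'
  have hp0 : p ≠ 0 := by
    obtain ⟨i, hi, hai⟩ := h0
    intro h1
    apply hai
    rw [← hcoef i hi, h1, coeff_zero]
  have hpr : aeval x p = 0 := by
    rw [hp, map_sum, ← h]
    refine Finset.sum_congr rfl fun i _ => ?_
    rw [map_mul, aeval_C, map_pow, aeval_X]
  have hpd : p.natDegree ≤ n := by
    refine natDegree_sum_le_of_forall_le _ _ fun i hi => ?_
    refine (natDegree_C_mul_X_pow_le _ _).trans ?_
    have := Finset.mem_range.1 hi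
    omega
  refine ⟨⟨p, hp0, hpr⟩, ?_⟩
  exact (natDegree_le_of_dvd (minpoly.dvd E x hpr) hp0).trans hpd

/-- polynomial expressions in a non-constant element. -/
theorem apd_ne_zero {L : Type*} [Field L] {k : Subfield L} (hk : RAC k) {x : L} (hx : x ∉ k)
    {n : ℕ} {a : ℕ → L} (ha : ∀ i, a i ∈ k) (h0 : ∃ i ∈ Finset.range (n + 1), a i ≠ 0) :
    ∑ i ∈ Finset.range (n + 1), a i * x ^ i ≠ 0 := by
  intro h
  apply hx
  apply hk
  refine (apd_minpoly (E := k) (a := fun i => ⟨a i, ha i⟩) (n := n) ?_ h).1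
  obtain ⟨i, hi, hai⟩ := h0
  exact ⟨i, hi, fun h1 => hai (congrArg Subtype.val h1)⟩

theorem apd_deg {L : Type*} [Field L] [PerfectField L] {k : Subfield L} (hk : RAC k) {x y z : L}
    (hx : x ∉ k) (hz : z ∉ k) (htop : adj (adj k x) y = ⊤) {m n : ℕ} {c d : ℕ → ℕ → L}
    (hc : ∀ i j, c i j ∈ k) (hd : ∀ i j, d i j ∈ k)
    (hc0 : ∃ i ∈ Finset.range (m + 1), ∃ j ∈ Finset.range (m + 1), c i j ≠ 0)
    (hd0 : ∃ i ∈ Finset.range (n + 1), ∃ j ∈ Finset.range (n + 1), d i j ≠ 0)
    (hcr : ∑ i ∈ Finset.range (m + 1), ∑ j ∈ Finset.range (m + 1), c i j * x ^ i * z ^ j = 0)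
    (hdr : ∑ i ∈ Finset.range (n + 1), ∑ j ∈ Finset.range (n + 1), d i j * x ^ i * y ^ j = 0) :
    Module.finrank (adj k z) L ≤ m * n := by
  set E : Subfield L := adj k z with hE
  haveI : PerfectField E := perfect_adj _ _
  -- the degree of `x`
  have h1 : IsAlgebraic E x ∧ (minpoly E x).natDegree ≤ m := by
    have hmem : ∀ i, ∑ j ∈ Finset.range (m + 1), c i j * z ^ j ∈ E := fun i =>
      Subfield.sum_mem _ fun j _ => E.mul_mem (le_adj k z (hc i j)) (E.pow_mem (mem_adj k z) j)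
    refine apd_minpoly (n := m) (a := fun i => ⟨_, hmem i⟩) ?_ ?_
    · obtain ⟨i, hi, hij⟩ := hc0
      refine ⟨i, hi, fun h => ?_⟩
      exact apd_ne_zero hk hz (fun j => hc i j) hij (congrArg Subtype.val h)
    · rw [← hcr]
      refine Finset.sum_congr rfl fun i _ => ?_
      change (∑ j ∈ Finset.range (m + 1), c i j * z ^ j) * x ^ i = _
      rw [Finset.sum_mul]
      refine Finset.sum_congr rfl fun j _ => ?_
      ring
  set L₂ : IntermediateField E L := IntermediateField.adjoin E {x} with hL₂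
  haveI hL2alg : Algebra.IsAlgebraic E L₂ :=
    IntermediateField.isAlgebraic_adjoin_simple h1.1.isIntegral
  haveI : PerfectField L₂ := Algebra.IsAlgebraic.perfectField (K := E) (L := L₂)
  haveI : PerfectField L₂.toSubfield := inferInstanceAs (PerfectField L₂)
  have hf1 : Module.finrank E L₂ ≤ m := by
    rw [hL₂, IntermediateField.adjoin.finrank h1.1.isIntegral]
    exact h1.2
  have hkx : adj k x ≤ L₂.toSubfield := by
    refine adj_le ?_ ?_
    · intro e he
      exact L₂.algebraMap_mem ⟨e, le_adj k z he⟩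
    · exact IntermediateField.mem_adjoin_simple_self E x
  have h2 : IsAlgebraic L₂ y ∧ (minpoly L₂ y).natDegree ≤ n := by
    have hmem : ∀ j, ∑ i ∈ Finset.range (n + 1), d i j * x ^ i ∈ L₂ := fun j =>
      hkx (Subfield.sum_mem _ fun i _ => (adj k x).mul_mem (le_adj k x (hd i j))
        ((adj k x).pow_mem (mem_adj k x) i))
    refine apd_minpoly (n := n) (a := fun i => ⟨_, hmem i⟩) ?_ ?_
    · obtain ⟨i, hi, j, hj, hij⟩ := hd0
      refine ⟨j, hj, fun h => ?_⟩
      exact apd_ne_zero hk hx (fun i => hd i j) ⟨i, hi, hij⟩ (congrArg Subtype.val h)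
    · rw [← hdr, Finset.sum_comm]
      refine Finset.sum_congr rfl fun j _ => ?_
      change (∑ i ∈ Finset.range (n + 1), d i j * x ^ i) * y ^ j = _
      rw [Finset.sum_mul]
  have h3 : IntermediateField.adjoin L₂ {y} = ⊤ := by
    set L₃ : IntermediateField L₂ L := IntermediateField.adjoin L₂ {y} with hL₃
    haveI hL3alg : Algebra.IsAlgebraic L₂ L₃ :=
      IntermediateField.isAlgebraic_adjoin_simple h2.1.isIntegral
    haveI : PerfectField L₃ := Algebra.IsAlgebraic.perfectField (K := L₂) (L := L₃)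
    haveI : PerfectField L₃.toSubfield := inferInstanceAs (PerfectField L₃)
    have h4 : adj (adj k x) y ≤ L₃.toSubfield := by
      refine adj_le ?_ ?_
      · intro e he
        exact L₃.algebraMap_mem ⟨e, hkx he⟩
      · exact IntermediateField.mem_adjoin_simple_self L₂ y
    rw [htop] at h4
    rw [eq_top_iff]
    intro e _
    exact h4 (Subfield.mem_top e)
  have hf2 : Module.finrank L₂ L ≤ n := by
    have h4 := IntermediateField.adjoin.finrank h2.1.isIntegral
    rw [h3, IntermediateField.finrank_top'] at h4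
    rw [h4]
    exact h2.2
  rw [← Module.finrank_mul_finrank E L₂ L]
  exact Nat.mul_le_mul hf1 hf2

end apdalg

section apdrel

variable {K : Type*} [Field K]

theorem apd_mvp {k : Subfield K} {t s w : K} (hw : IsAlgebraic (adj (adj k s) t) w) :
    ∃ p : MvPolynomial (Fin 3) k, p ≠ 0 ∧
      ∑ d ∈ p.support, ((p.coeff d : k) : K) * (t ^ d 0 * s ^ d 1 * w ^ d 2) = 0 := by
  have h1 : IsAlgebraic (IntermediateField.adjoin k {t, s}).toSubfield w := by
    set F0 : Subfield K := (IntermediateField.adjoin k {t, s}).toSubfield with hF0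
    have hk : k ≤ F0 := fun e he => (IntermediateField.adjoin k {t, s}).algebraMap_mem ⟨e, he⟩
    have hs : s ∈ F0 := IntermediateField.subset_adjoin k {t, s} (by simp)
    have ht : t ∈ F0 := IntermediateField.subset_adjoin k {t, s} (by simp)
    have h2 : adj k s ≤ pf F0 := pf_mono (Vale.Agent.P019.adj_le hk hs)
    have h3 : adj (adj k s) t ≤ pf F0 := by
      have h4 := pf_mono (Vale.Agent.P019.adj_le h2 (le_pf F0 ht))
      rw [pf_pf] at h4
      exact h4
    exact isAlgebraic_pf.1 (isAlgebraic_mono h3 hw)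
  have h2 : IsAlgebraic (Algebra.adjoin k {t, s}) w :=
    IntermediateField.isAlgebraic_adjoin_iff.1 h1
  by_contra hcon
  push Not at hcon
  have h3 : AlgebraicIndependent k ![t, s, w] := by
    rw [algebraicIndependent_iff]
    intro p hp
    by_contra hp0
    apply hcon p hp0
    rw [MvPolynomial.aeval_def, MvPolynomial.eval₂_eq'] at hp
    rw [← hp]
    refine Finset.sum_congr rfl fun d _ => ?_
    rw [Fin.prod_univ_three]
    rfl
  have h4 := h3.transcendental_adjoin (s := {0, 1}) (i := 2) (by decide)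
  apply h4
  have h5 : (![t, s, w] : Fin 3 → K) '' {0, 1} = {t, s} := by
    rw [Set.image_pair]
    rfl
  rw [h5]
  exact h2

/-- the reduction of an algebraic relation. -/
theorem apd_rel {k : Subfield K} {t s w : K} (hw : IsAlgebraic (adj (adj k s) t) w) :
    ∃ m : ℕ, ∀ᶠ b in ae k, ∀ (W : ValuationSubring K) (hW : TrivOn W k),
      W.valuation (t - b) < 1 → t ∈ W → s ∈ W → w ∈ W →
      ∃ c : ℕ → ℕ → IsLocalRing.ResidueField W, (∀ i j, c i j ∈ bar hW) ∧
        (∃ i ∈ Finset.range (m + 1), ∃ j ∈ Finset.range (m + 1), c i j ≠ 0) ∧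
        ∑ i ∈ Finset.range (m + 1), ∑ j ∈ Finset.range (m + 1),
          c i j * rs W s ^ i * rs W w ^ j = 0 := by
  classical
  obtain ⟨p, hp0, hp⟩ := apd_mvp hw
  set m : ℕ := p.support.sup (fun d => max (d 1) (d 2)) with hm
  have hd1 : ∀ d ∈ p.support, d 1 ∈ Finset.range (m + 1) := fun d hd => by
    have := Finset.le_sup (f := fun d : Fin 3 →₀ ℕ => max (d 1) (d 2)) hd
    rw [Finset.mem_range]
    have h2 : d 1 ≤ max (d 1) (d 2) := le_max_left _ _
    omega
  have hd2 : ∀ d ∈ p.support, d 2 ∈ Finset.range (m + 1) := fun d hd => by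
    have := Finset.le_sup (f := fun d : Fin 3 →₀ ℕ => max (d 1) (d 2)) hd
    rw [Finset.mem_range]
    have h2 : d 2 ≤ max (d 1) (d 2) := le_max_right _ _
    omega
  obtain ⟨e, he⟩ := (MvPolynomial.support_nonempty).2 hp0
  -- the coefficients as polynomials in `t`
  let P : ℕ → ℕ → k[X] := fun i j => ∑ d ∈ p.support with (d 1 = i ∧ d 2 = j),
    C (p.coeff d) * X ^ (d 0)
  have hP : P (e 1) (e 2) ≠ 0 := by
    intro h0
    have h1 := congrArg (fun q => q.coeff (e 0)) h0
    simp only [P, finsetSum_coeff, coeff_C_mul_X_pow, coeff_zero] at h1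
    rw [Finset.sum_eq_single e] at h1
    · rw [if_pos rfl] at h1
      exact (MvPolynomial.mem_support_iff.1 he) h1
    · intro d hd hde
      rw [Finset.mem_filter] at hd
      rw [if_neg]
      intro h2
      apply hde
      ext i
      fin_cases i
      · exact h2.symm
      · exact hd.2.1
      · exact hd.2.2
    · intro h2
      exact absurd (Finset.mem_filter.2 ⟨he, rfl, rfl⟩) h2
  refine ⟨m, ?_⟩
  have hev : ∀ᶠ b in ae k, ∃ hb : b ∈ k, (P (e 1) (e 2)).eval ⟨b, hb⟩ ≠ 0 := by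
    refine frb_ae ?_
    filter_upwards [eval_ne_zero_ae hP] with b hb
    exact ⟨b.2, hb⟩
  filter_upwards [hev] with b hb W hW hlt htW hsW hwW
  obtain ⟨hbk, hb0⟩ := hb
  have hbW : b ∈ W := hW b hbk
  have hres : ∀ q : k, rs W (q : K) = barHom hW q := fun q => rfl
  let c : ℕ → ℕ → k := fun i j => (P i j).eval ⟨b, hbk⟩
  refine ⟨fun i j => rs W (c i j : K), fun i j => rs_mem_bar hW (c i j).2,
    ⟨e 1, hd1 e he, e 2, hd2 e he, ?_⟩, ?_⟩
  · intro h0
    have h1 : barHom hW (c (e 1) (e 2)) = 0 := h0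
    exact hb0 ((map_eq_zero _).1 h1)
  · have hrt : rs W t = rs W b := (rs_eq htW hbW).2 hlt
    have h1 : rs W (∑ d ∈ p.support, ((p.coeff d : k) : K) * (t ^ d 0 * s ^ d 1 * w ^ d 2)) =
        ∑ d ∈ p.support, rs W ((p.coeff d : k) : K) * (rs W b ^ d 0 * rs W s ^ d 1 * rs W w ^ d 2) := by
      have hgen : ∀ S : Finset (Fin 3 →₀ ℕ),
          (∑ d ∈ S, ((p.coeff d : k) : K) * (t ^ d 0 * s ^ d 1 * w ^ d 2)) ∈ W ∧
          rs W (∑ d ∈ S, ((p.coeff d : k) : K) * (t ^ d 0 * s ^ d 1 * w ^ d 2)) =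
          ∑ d ∈ S, rs W ((p.coeff d : k) : K) * (rs W b ^ d 0 * rs W s ^ d 1 * rs W w ^ d 2) := by
        intro S
        induction S using Finset.induction_on with
        | empty =>
          refine ⟨?_, ?_⟩
          · rw [Finset.sum_empty]; exact W.zero_mem
          · rw [Finset.sum_empty, Finset.sum_empty, rs_zero]
        | insert d S hd ih =>
          have hm1 : t ^ d 0 * s ^ d 1 * w ^ d 2 ∈ W :=
            mul_mem (mul_mem (pow_mem htW _) (pow_mem hsW _)) (pow_mem hwW _)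
          have hm2 : ((p.coeff d : k) : K) * (t ^ d 0 * s ^ d 1 * w ^ d 2) ∈ W :=
            mul_mem (hW _ (p.coeff d).2) hm1
          refine ⟨?_, ?_⟩
          · rw [Finset.sum_insert hd]
            exact add_mem hm2 ih.1
          · rw [Finset.sum_insert hd, Finset.sum_insert hd, rs_add hm2 ih.1, ih.2,
              rs_mul (hW _ (p.coeff d).2) hm1,
              rs_mul (mul_mem (pow_mem htW _) (pow_mem hsW _)) (pow_mem hwW _),
              rs_mul (pow_mem htW _) (pow_mem hsW _), rs_pow htW, rs_pow hsW, rs_pow hwW, hrt]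
      exact (hgen _).2
    rw [hp, rs_zero] at h1
    have h2 : ∀ i j, rs W (c i j : K) = ∑ d ∈ p.support,
        if d 1 = i ∧ d 2 = j then rs W ((p.coeff d : k) : K) * rs W b ^ d 0 else 0 := by
      intro i j
      rw [hres]
      simp only [c, P, eval_finsetSum, eval_mul, eval_C, eval_pow, eval_X, map_sum, map_mul,
        map_pow]
      rw [Finset.sum_filter]
      rfl
    rw [h1]
    simp only [h2, Finset.sum_mul]
    rw [Finset.sum_congr rfl fun i _ => Finset.sum_comm, Finset.sum_comm]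
    refine Finset.sum_congr rfl fun d hd => ?_
    rw [Finset.sum_eq_single (d 1), Finset.sum_eq_single (d 2)]
    · rw [if_pos ⟨rfl, rfl⟩]
      ring
    · intro j _ hj
      rw [if_neg (fun h => hj h.2.symm), zero_mul, zero_mul]
    · intro h
      exact absurd (hd2 d hd) h
    · intro i _ hi
      refine Finset.sum_eq_zero fun j _ => ?_
      rw [if_neg (fun h => hi h.1.symm), zero_mul, zero_mul]
    · intro h
      exact absurd (hd1 d hd) h

end apdrel

section apdres

variable {K : Type*} [Field K] [PerfectField K]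

end apdres

variable {K : Type*} [Field K] [PerfectField K] {ℓ : ℕ} [Fact ℓ.Prime] [NeZero (ℓ : K)]

end Vale.Agent.P019P
end
end

section

section

/-!
# Ultrapowers of a field
-/

namespace Vale.Agent.P019P

open Vale.Agent.P019

set_option linter.style.haveILetI false
set_option linter.unusedSectionVars false

open Polynomial Filter

section ger

variable {I : Type*} (U : Ultrafilter I) {L : Type*} [Field L]

/-- the ultrapower. -/
abbrev Gm (U : Ultrafilter I) (L : Type*) := (U : Filter I).Germ L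

/-- the class of a family. -/
noncomputable def gm : (I → L) →+* Gm U L := Filter.Germ.coeRingHom (U : Filter I)

theorem gm_surj (z : Gm U L) : ∃ f : I → L, gm U f = z := by
  induction z using Filter.Germ.inductionOn with
  | h f => exact ⟨f, rfl⟩

variable {U}

theorem gm_eq {f g : I → L} : gm U f = gm U g ↔ ∀ᶠ i in U, f i = g i :=
  Filter.Germ.coe_eq

theorem gm_ne {f g : I → L} : gm U f ≠ gm U g ↔ ∀ᶠ i in U, f i ≠ g i := by
  rw [Ne, gm_eq, Ultrafilter.eventually_not]

theorem gm_eq_zero {f : I → L} : gm U f = 0 ↔ ∀ᶠ i in U, f i = 0 := by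
  rw [← map_zero (gm U), gm_eq]; rfl

theorem gm_inv (f : I → L) : gm U (fun i => (f i)⁻¹) = (gm U f)⁻¹ :=
  Filter.Germ.coe_inv f

theorem gm_mul (f g : I → L) : gm U (fun i => f i * g i) = gm U f * gm U g :=
  map_mul (gm U) f g

theorem gm_add (f g : I → L) : gm U (fun i => f i + g i) = gm U f + gm U g :=
  map_add (gm U) f g

theorem gm_neg (f : I → L) : gm U (fun i => - f i) = - gm U f :=
  map_neg (gm U) f

theorem gm_sub (f g : I → L) : gm U (fun i => f i - g i) = gm U f - gm U g :=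
  map_sub (gm U) f g

theorem gm_pow (f : I → L) (n : ℕ) : gm U (fun i => f i ^ n) = gm U f ^ n :=
  map_pow (gm U) f n

theorem gm_sum {ι : Type*} (s : Finset ι) (f : ι → I → L) :
    gm U (fun i => ∑ j ∈ s, f j i) = ∑ j ∈ s, gm U (f j) := by
  rw [← map_sum]
  congr 1
  ext i
  rw [Finset.sum_apply]

variable (U)

/-- the constants. -/
noncomputable def gc : L →+* Gm U L := (gm U).comp (Pi.constRingHom I L)

variable {U}

theorem gc_apply (z : L) : gc U z = gm U (fun _ => z) := rfl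

theorem ringExpChar_gm : ringExpChar (Gm U L) = ringExpChar L :=
  (ringExpChar_eq_of_hom (gc U : L →+* Gm U L)).symm

instance perfect_gm [PerfectField L] : PerfectField (Gm U L) := by
  haveI : PerfectRing (Gm U L) (ringExpChar (Gm U L)) := PerfectRing.ofSurjective _ _ fun z => by
    obtain ⟨f, rfl⟩ := gm_surj U z
    have h : ∀ i, ∃ y : L, y ^ ringExpChar L = f i := by
      intro i
      obtain ⟨y, -, hy⟩ := exists_root_q (⊤ : Subfield L) (Subfield.mem_top (f i)) 1
      exact ⟨y, by rwa [pow_one] at hy⟩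
    choose y hy using h
    refine ⟨gm U y, ?_⟩
    rw [frobenius_def, ringExpChar_gm, ← gm_pow]
    exact congrArg _ (funext hy)
  exact PerfectRing.toPerfectField (Gm U L) (ringExpChar (Gm U L))

/-- ultraproducts of subfields. -/
def uSub (U : Ultrafilter I) (E : I → Subfield L) : Subfield (Gm U L) where
  carrier := {z | ∃ f : I → L, gm U f = z ∧ ∀ i, f i ∈ E i}
  mul_mem' := by
    rintro _ _ ⟨f, rfl, hf⟩ ⟨g, rfl, hg⟩
    exact ⟨fun i => f i * g i, gm_mul f g, fun i => (E i).mul_mem (hf i) (hg i)⟩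
  one_mem' := ⟨1, map_one _, fun i => (E i).one_mem⟩
  add_mem' := by
    rintro _ _ ⟨f, rfl, hf⟩ ⟨g, rfl, hg⟩
    exact ⟨fun i => f i + g i, gm_add f g, fun i => (E i).add_mem (hf i) (hg i)⟩
  zero_mem' := ⟨0, map_zero _, fun i => (E i).zero_mem⟩
  neg_mem' := by
    rintro _ ⟨f, rfl, hf⟩
    exact ⟨fun i => - f i, gm_neg f, fun i => (E i).neg_mem (hf i)⟩
  inv_mem' := by
    rintro _ ⟨f, rfl, hf⟩
    exact ⟨fun i => (f i)⁻¹, gm_inv f, fun i => (E i).inv_mem (hf i)⟩

theorem gm_mem_uSub {E : I → Subfield L} {f : I → L} :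
    gm U f ∈ uSub U E ↔ ∀ᶠ i in U, f i ∈ E i := by
  classical
  constructor
  · rintro ⟨g, hg, hgE⟩
    exact (gm_eq.1 hg).mono fun i hi => hi ▸ hgE i
  · intro h
    refine ⟨fun i => if f i ∈ E i then f i else 0, ?_, fun i => ?_⟩
    · exact gm_eq.2 (h.mono fun i hi => if_pos hi)
    · dsimp only
      split_ifs with hi
      · exact hi
      · exact (E i).zero_mem

/-- ultraproducts of valuation subrings. -/
noncomputable def uVal (U : Ultrafilter I) (O : I → ValuationSubring L) :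
    ValuationSubring (Gm U L) where
  carrier := {z | ∃ f : I → L, gm U f = z ∧ ∀ i, f i ∈ O i}
  mul_mem' := by
    rintro _ _ ⟨f, rfl, hf⟩ ⟨g, rfl, hg⟩
    exact ⟨fun i => f i * g i, gm_mul f g, fun i => (O i).mul_mem _ _ (hf i) (hg i)⟩
  one_mem' := ⟨1, map_one _, fun i => (O i).one_mem⟩
  add_mem' := by
    rintro _ _ ⟨f, rfl, hf⟩ ⟨g, rfl, hg⟩
    exact ⟨fun i => f i + g i, gm_add f g, fun i => (O i).add_mem _ _ (hf i) (hg i)⟩
  zero_mem' := ⟨0, map_zero _, fun i => (O i).zero_mem⟩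
  neg_mem' := by
    rintro _ ⟨f, rfl, hf⟩
    exact ⟨fun i => - f i, gm_neg f, fun i => (O i).neg_mem _ (hf i)⟩
  mem_or_inv_mem' := by
    classical
    intro z
    obtain ⟨f, rfl⟩ := gm_surj U z
    rcases U.em (fun i => f i ∈ O i) with h | h
    · left
      refine ⟨fun i => if f i ∈ O i then f i else 0, ?_, fun i => ?_⟩
      · exact gm_eq.2 (h.mono fun i hi => if_pos hi)
      · dsimp only
        split_ifs with hi
        · exact hi
        · exact (O i).zero_mem
    · right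
      refine ⟨fun i => if f i ∈ O i then 0 else (f i)⁻¹, ?_, fun i => ?_⟩
      · rw [← gm_inv]
        exact gm_eq.2 (h.mono fun i hi => if_neg hi)
      · dsimp only
        split_ifs with hi
        · exact (O i).zero_mem
        · exact ((O i).mem_or_inv_mem (f i)).resolve_left hi

theorem gm_mem_uVal {O : I → ValuationSubring L} {f : I → L} :
    gm U f ∈ uVal U O ↔ ∀ᶠ i in U, f i ∈ O i := by
  classical
  constructor
  · rintro ⟨g, hg, hgE⟩
    exact (gm_eq.1 hg).mono fun i hi => hi ▸ hgE i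
  · intro h
    refine ⟨fun i => if f i ∈ O i then f i else 0, ?_, fun i => ?_⟩
    · exact gm_eq.2 (h.mono fun i hi => if_pos hi)
    · dsimp only
      split_ifs with hi
      · exact hi
      · exact (O i).zero_mem

theorem uVal_le_one {O : I → ValuationSubring L} {f : I → L} :
    (uVal U O).valuation (gm U f) ≤ 1 ↔ ∀ᶠ i in U, (O i).valuation (f i) ≤ 1 := by
  rw [ValuationSubring.valuation_le_one_iff, gm_mem_uVal]
  simp only [ValuationSubring.valuation_le_one_iff]

theorem one_lt_uVal {O : I → ValuationSubring L} {f : I → L} :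
    1 < (uVal U O).valuation (gm U f) ↔ ∀ᶠ i in U, 1 < (O i).valuation (f i) := by
  rw [← not_le, uVal_le_one, ← Ultrafilter.eventually_not]
  simp only [not_le]

theorem uVal_lt_one {O : I → ValuationSubring L} {f : I → L} :
    (uVal U O).valuation (gm U f) < 1 ↔ ∀ᶠ i in U, (O i).valuation (f i) < 1 := by
  have key : ∀ {F : Type _} [Field F] (A : ValuationSubring F) (z : F),
      A.valuation z < 1 ↔ z = 0 ∨ 1 < A.valuation z⁻¹ := by
    intro F _ A z
    by_cases hz : z = 0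
    · simp [hz]
    · rw [map_inv₀, one_lt_inv₀ ((Valuation.pos_iff _).2 hz)]
      simp [hz]
  have key' : ∀ (A : ValuationSubring L) (z : L),
      A.valuation z < 1 ↔ z = 0 ∨ 1 < A.valuation z⁻¹ := by
    intro A z
    by_cases hz : z = 0
    · simp [hz]
    · rw [map_inv₀, one_lt_inv₀ ((Valuation.pos_iff _).2 hz)]
      simp [hz]
  rw [key, ← gm_inv, one_lt_uVal, gm_eq_zero, ← Ultrafilter.eventually_or]
  simp only [key']

theorem uVal_eq_one {O : I → ValuationSubring L} {f : I → L} :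
    (uVal U O).valuation (gm U f) = 1 ↔ ∀ᶠ i in U, (O i).valuation (f i) = 1 := by
  rw [le_antisymm_iff, ← not_lt (a := (uVal U O).valuation (gm U f)), uVal_lt_one,
    ← Ultrafilter.eventually_not, uVal_le_one, ← Filter.eventually_and]
  simp only [not_lt, ← le_antisymm_iff]

theorem isAlgClosed_uSub {E : I → Subfield L} (h : ∀ i, IsAlgClosed (E i)) :
    IsAlgClosed (uSub U E) := by
  refine IsAlgClosed.of_exists_root _ ?_
  intro p hmon hirr
  -- lifts of the coefficients
  have h1 : ∀ j, ∃ f : I → L, gm U f = ((p.coeff j : uSub U E) : Gm U L) ∧ ∀ i, f i ∈ E i :=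
    fun j => (p.coeff j).2
  choose f hf hfE using h1
  set n := p.natDegree with hn
  have hn0 : 0 < n := hirr.natDegree_pos
  have h2 : ∀ i, ∃ x : E i, ((x : L)) ^ n + ∑ j ∈ Finset.range n, f j i * (x : L) ^ j = 0 := by
    intro i
    haveI := h i
    let P : (E i)[X] := X ^ n + ∑ j ∈ Finset.range n, C ⟨f j i, hfE j i⟩ * X ^ j
    have hdeg : P.degree = (n : WithBot ℕ) := by
      have h3 : (∑ j ∈ Finset.range n, C (⟨f j i, hfE j i⟩ : E i) * X ^ j).degree <
          (n : WithBot ℕ) := by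
        refine (degree_sum_le _ _).trans_lt ?_
        rw [Finset.sup_lt_iff (by exact_mod_cast WithBot.bot_lt_coe n)]
        intro j hj
        refine (degree_C_mul_X_pow_le _ _).trans_lt ?_
        exact_mod_cast Finset.mem_range.1 hj
      change (X ^ n + ∑ j ∈ Finset.range n, C (⟨f j i, hfE j i⟩ : E i) * X ^ j).degree =
        (n : WithBot ℕ)
      rw [degree_add_eq_left_of_degree_lt]
      · rw [degree_X_pow]
      · rw [degree_X_pow]; exact h3
    obtain ⟨x, hx⟩ := IsAlgClosed.exists_root P (by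
      rw [hdeg]; exact_mod_cast hn0.ne')
    refine ⟨x, ?_⟩
    have h4 : eval x P = 0 := hx
    have h5 := congrArg (Subfield.subtype (E i)) h4
    simp only [P, eval_add, eval_pow, eval_X, eval_finsetSum, eval_mul, eval_C, map_add, map_pow,
      map_sum, map_mul, map_zero, Subfield.subtype_apply] at h5
    exact h5
  choose x hx using h2
  refine ⟨⟨gm U (fun i => (x i : L)), ⟨_, rfl, fun i => (x i).2⟩⟩, ?_⟩
  apply Subtype.ext
  have h6 : ((eval (⟨gm U (fun i => (x i : L)), ⟨_, rfl, fun i => (x i).2⟩⟩ : uSub U E) p :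
      uSub U E) : Gm U L) =
      gm U (fun i => ((x i : L)) ^ n + ∑ j ∈ Finset.range n, f j i * (x i : L) ^ j) := by
    rw [gm_add, gm_pow, gm_sum]
    conv_lhs => rw [hmon.as_sum]
    rw [eval_add, eval_pow, eval_X, eval_finsetSum]
    simp only [eval_mul, eval_C, eval_pow, eval_X, Subfield.coe_add, SubmonoidClass.coe_pow,
      AddSubmonoidClass.coe_finsetSum, Subfield.coe_mul, gm_mul, gm_pow, hf]
    rfl
  change ((eval (⟨gm U (fun i => (x i : L)), ⟨_, rfl, fun i => (x i).2⟩⟩ : uSub U E) p :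
      uSub U E) : Gm U L) = 0
  rw [h6]
  refine (congrArg (gm U) (funext hx)).trans ?_
  exact map_zero (gm U)

end ger

end Vale.Agent.P019P
end
end
namespace AFast89c1c5x1768a
@[reducible] def a0.{u1, u2} {x1 : Type u1} {x2 : Ultrafilter x1} {x3 : Type u2} [x4 : Field x3] {x5 : x1 → Subfield x3} : CommSemiring ↥(Vale.Agent.P019P.uSub x2 x5) := inferInstance
theorem a1.{u1, u2} {x1 : Type u1} {x2 : Ultrafilter x1} {x3 : Type u2} [x4 : Field x3] : SubsemiringClass (Subfield (Vale.Agent.P019P.Gm x2 x3)) (Vale.Agent.P019P.Gm x2 x3) := inferInstance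
@[reducible] def a2.{u1, u2} {x1 : Type u1} {x2 : Ultrafilter x1} {x3 : Type u2} [x4 : Field x3] {x5 : x1 → Subfield x3} : Semiring ↥(Vale.Agent.P019P.uSub x2 x5) := inferInstance
theorem a3.{u1, u2} {x1 : Type u1} {x2 : Type u2} {x3 : Ultrafilter x1} [x4 : Field x2] : MonoidWithZeroHomClass ((x1 → x2) →+* Vale.Agent.P019P.Gm x3 x2) (x1 → x2) (Vale.Agent.P019P.Gm x3 x2) := inferInstance
theorem a4.{u1, u2} {x1 : Type u1} {x2 : Ultrafilter x1} {x3 : Type u2} [x4 : Field x3] : AddSubmonoidClass (Subfield (Vale.Agent.P019P.Gm x2 x3)) (Vale.Agent.P019P.Gm x2 x3) := inferInstance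
@[reducible] def a5.{u1, u2} {x1 : Type u1} {x2 : Ultrafilter x1} {x3 : Type u2} [x4 : Field x3] {x5 : x1 → Subfield x3} : DivisionSemiring ↥(Vale.Agent.P019P.uSub x2 x5) := inferInstance
theorem a6.{u1, u2} {x1 : Type u1} {x2 : Type u2} {x3 : Ultrafilter x1} [x4 : Field x2] : ZeroHomClass ((x1 → x2) →+* Vale.Agent.P019P.Gm x3 x2) (x1 → x2) (Vale.Agent.P019P.Gm x3 x2) := inferInstance
@[reducible] noncomputable def a7.{u1, u2} {x1 : Type u1} {x2 : Ultrafilter x1} {x3 : Type u2} [x4 : Field x3] {x5 : x1 → Subfield x3} : Algebra (↥(Vale.Agent.P019P.uSub x2 x5)) (Polynomial ↥(Vale.Agent.P019P.uSub x2 x5)) := inferInstance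
@[reducible] def a8.{u1, u2} {x1 : Type u1} {x2 : Ultrafilter x1} {x3 : Type u2} [x4 : Field x3] {x5 : x1 → Subfield x3} : MulZeroClass ↥(Vale.Agent.P019P.uSub x2 x5) := inferInstance
end AFast89c1c5x1768a
attribute [local instance] AFast89c1c5x1768a.a0 AFast89c1c5x1768a.a1 AFast89c1c5x1768a.a2
  AFast89c1c5x1768a.a3 AFast89c1c5x1768a.a4 AFast89c1c5x1768a.a5 AFast89c1c5x1768a.a6
  AFast89c1c5x1768a.a7 AFast89c1c5x1768a.a8
namespace AFast89c1c5x1768b
theorem a0.{u1, u2} {x1 : Type u1} {x2 : Type u2} {x3 : Ultrafilter x1} [x4 : Field x2] : AddMonoidHomClass ((x1 → x2) →+* Vale.Agent.P019P.Gm x3 x2) (x1 → x2) (Vale.Agent.P019P.Gm x3 x2) := inferInstance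
theorem a1.{u1, u2} {x1 : Type u1} {x2 : Ultrafilter x1} {x3 : Type u2} [x4 : Field x3] : AddMonoidHomClass (Vale.Agent.P019P.Gm x2 x3 →+* Vale.Agent.P019P.Gm x2 x3) (Vale.Agent.P019P.Gm x2 x3) (Vale.Agent.P019P.Gm x2 x3) := inferInstance
@[reducible] def a2.{u1, u2} {x1 : Type u1} {x2 : Ultrafilter x1} {x3 : Type u2} [x4 : Field x3] {x5 : x1 → Subfield x3} : Zero ↥(Vale.Agent.P019P.uSub x2 x5) := inferInstance
theorem a3.{u1, u2} {x1 : Type u1} {x2 : Ultrafilter x1} {x3 : Type u2} [x4 : Field x3] : NoZeroDivisors (Vale.Agent.P019P.Gm x2 x3) := inferInstance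
end AFast89c1c5x1768b
attribute [local instance] AFast89c1c5x1768b.a0 AFast89c1c5x1768b.a1 AFast89c1c5x1768b.a2
  AFast89c1c5x1768b.a3

section

section

/-!
# Rational functions in an ultrapower
-/

namespace Vale.Agent.P019P

open Vale.Agent.P019

set_option linter.style.haveILetI false
set_option linter.unusedSectionVars false

open Polynomial Filter

section rat

/-- simple roots in the perfect closure. -/
theorem mem_of_simple_root {K : Type*} [Field K] {F : Subfield K} {ρ : K} (hρ : ρ ∈ pf F)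
    {p : F[X]} (h0 : aeval ρ p = 0) (h1 : aeval ρ (derivative p) ≠ 0) : ρ ∈ F := by
  have hp0 : p ≠ 0 := by
    rintro rfl
    rw [derivative_zero, map_zero] at h1
    exact h1 rfl
  have hint : IsIntegral F ρ := IsAlgebraic.isIntegral ⟨p, hp0, h0⟩
  obtain ⟨s, hs⟩ := minpoly.dvd F ρ h0
  have hder : derivative (minpoly F ρ) ≠ 0 := by
    intro h
    apply h1
    rw [hs, derivative_mul, h, zero_mul, zero_add, map_mul, minpoly.aeval, zero_mul]
  have hsep : (minpoly F ρ).Separable :=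
    (separable_iff_derivative_ne_zero (minpoly.irreducible hint)).2 hder
  have h2 : (minpoly F ρ).natSepDegree = 1 := by
    rw [minpoly.natSepDegree_eq_one_iff_pow_mem (ringExpChar K)]
    obtain ⟨n, hn⟩ := mem_pf.1 hρ
    exact ⟨n, ⟨⟨_, hn⟩, rfl⟩⟩
  rw [hsep.natSepDegree_eq_natDegree] at h2
  rw [minpoly.natDegree_eq_one_iff] at h2
  obtain ⟨y, hy⟩ := h2
  rw [← hy]
  exact y.2

theorem aeval_mem_adj0 {K : Type*} [Field K] {E : Subfield K} (g : K) (A : E[X]) :
    aeval g A ∈ Vale.Agent.P019.adj E g := by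
  rw [aeval_eq_sum_range]
  refine sum_mem fun i _ => ?_
  rw [Algebra.smul_def]
  exact mul_mem (Vale.Agent.P019.le_adj E g (A.coeff i).2)
    (pow_mem (Vale.Agent.P019.mem_adj E g) i)

theorem aeval_ne_of_transc {K : Type*} [Field K] {E : Subfield K} {g : K}
    (hg : ¬ IsAlgebraic E g) {p : E[X]} (hp : p ≠ 0) : aeval g p ≠ 0 := fun h => hg ⟨p, hp, h⟩

theorem coprime_rep {K : Type*} [Field K] {E : Subfield K} {g : K} (hg : ¬ IsAlgebraic E g)
    {z : K} (hz : z ∈ Vale.Agent.P019.adj E g) :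
    ∃ p q : E[X], IsCoprime p q ∧ q ≠ 0 ∧ z = aeval g p / aeval g q := by
  classical
  obtain ⟨p, q, rfl⟩ := finK_mem_adj.1 hz
  by_cases hq : q = 0
  · refine ⟨0, 1, isCoprime_one_right, one_ne_zero, ?_⟩
    rw [hq]
    simp
  · set d := EuclideanDomain.gcd p q with hd
    have hd0 : d ≠ 0 := by
      intro h
      exact hq (EuclideanDomain.gcd_eq_zero_iff.1 h).2
    have h1 : p = d * (p / d) := (EuclideanDomain.mul_div_cancel' hd0
      (EuclideanDomain.gcd_dvd_left p q)).symm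
    have h2 : q = d * (q / d) := (EuclideanDomain.mul_div_cancel' hd0
      (EuclideanDomain.gcd_dvd_right p q)).symm
    refine ⟨p / d, q / d, ?_, ?_, ?_⟩
    · obtain ⟨u, v, h3⟩ : ∃ u v, d = p * u + q * v :=
        ⟨_, _, EuclideanDomain.gcd_eq_gcd_ab p q⟩
      refine ⟨u, v, mul_left_cancel₀ hd0 ?_⟩
      calc d * (u * (p / d) + v * (q / d)) = (d * (p / d)) * u + (d * (q / d)) * v := by ring
        _ = p * u + q * v := by rw [← h1, ← h2]
        _ = d * 1 := by rw [← h3, mul_one]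
    · intro h
      rw [h, mul_zero] at h2
      exact hq h2
    · have h3 : aeval g d ≠ 0 := aeval_ne_of_transc hg hd0
      conv_lhs => rw [h1, h2]
      rw [map_mul, map_mul, mul_div_mul_left _ _ h3]

/-- the rational root theorem. -/
theorem rat_root {K : Type*} [Field K] {E : Subfield K} {g : K} (hg : ¬ IsAlgebraic E g) {ρ : K}
    (hρ : ρ ∈ adj E g) {n H : ℕ} (A : ℕ → E[X]) (hA : ∀ i, (A i).natDegree ≤ H) (hA0 : A 0 ≠ 0)
    (hAn : A n ≠ 0) (h0 : ∑ i ∈ Finset.range (n + 1), aeval g (A i) * ρ ^ i = 0)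
    (h1 : ∑ i ∈ Finset.range (n + 1), aeval g (A i) * ((i : K) * ρ ^ (i - 1)) ≠ 0) :
    ∃ u v : E[X], u.natDegree ≤ H ∧ v.natDegree ≤ H ∧ v ≠ 0 ∧
      ρ * aeval g v = aeval g u := by
  have hρ0 : ρ ∈ Vale.Agent.P019.adj E g := by
    let p : (Vale.Agent.P019.adj E g)[X] := ∑ i ∈ Finset.range (n + 1),
      C ⟨aeval g (A i), aeval_mem_adj0 g (A i)⟩ * X ^ i
    refine mem_of_simple_root (F := Vale.Agent.P019.adj E g) (p := p) hρ ?_ ?_
    · rw [← h0, map_sum]
      refine Finset.sum_congr rfl fun i _ => ?_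
      rw [map_mul, map_pow, aeval_X, aeval_C]
      rfl
    · convert h1 using 1
      simp only [p, map_sum]
      refine Finset.sum_congr rfl fun i _ => ?_
      rw [derivative_C_mul, derivative_X_pow, map_mul, map_mul, map_pow, aeval_X, aeval_C, aeval_C,
        map_natCast]
      rfl
  obtain ⟨a, b, hab, hb, hρab⟩ := coprime_rep hg hρ0
  have hbg : aeval g b ≠ 0 := aeval_ne_of_transc hg hb
  have key : ∑ i ∈ Finset.range (n + 1), A i * a ^ i * b ^ (n - i) = 0 := by
    by_contra hne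
    apply aeval_ne_of_transc hg hne
    have e1 : aeval g (∑ i ∈ Finset.range (n + 1), A i * a ^ i * b ^ (n - i)) =
        aeval g b ^ n * ∑ i ∈ Finset.range (n + 1), aeval g (A i) * ρ ^ i := by
      rw [map_sum, Finset.mul_sum]
      refine Finset.sum_congr rfl fun i hi => ?_
      have hi' : i ≤ n := Nat.lt_succ_iff.1 (Finset.mem_range.1 hi)
      rw [map_mul, map_mul, map_pow, map_pow, hρab, div_pow]
      have e2 : aeval g b ^ n = aeval g b ^ (n - i) * aeval g b ^ i := by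
        rw [← pow_add, Nat.sub_add_cancel hi']
      rw [e2]
      have e3 := pow_ne_zero i hbg
      field_simp
    rw [e1, h0, mul_zero]
  have hbA : b ∣ A n := by
    rw [Finset.sum_range_succ] at key
    simp only [Nat.sub_self, pow_zero, mul_one] at key
    have h2 : b ∣ A n * a ^ n := by
      have h3 : b ∣ ∑ i ∈ Finset.range n, A i * a ^ i * b ^ (n - i) := by
        refine Finset.dvd_sum fun i hi => ?_
        have hi' : n - i ≠ 0 := Nat.sub_ne_zero_of_lt (Finset.mem_range.1 hi)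
        exact Dvd.dvd.mul_left (dvd_pow_self b hi') _
      have h4 : A n * a ^ n = -∑ i ∈ Finset.range n, A i * a ^ i * b ^ (n - i) := by
        rw [eq_neg_iff_add_eq_zero, add_comm]
        exact key
      rw [h4]
      exact (dvd_neg).2 h3
    exact (hab.symm.pow_right).dvd_of_dvd_mul_right h2
  have haA : a ∣ A 0 := by
    rw [Finset.sum_range_succ'] at key
    simp only [pow_zero, mul_one, Nat.sub_zero] at key
    have h2 : a ∣ A 0 * b ^ n := by
      have h3 : a ∣ ∑ i ∈ Finset.range n, A (i + 1) * a ^ (i + 1) * b ^ (n - (i + 1)) := by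
        refine Finset.dvd_sum fun i hi => ?_
        exact Dvd.dvd.mul_right (Dvd.dvd.mul_left (dvd_pow_self a (Nat.succ_ne_zero i)) _) _
      have h4 : A 0 * b ^ n =
          -∑ i ∈ Finset.range n, A (i + 1) * a ^ (i + 1) * b ^ (n - (i + 1)) := by
        rw [eq_neg_iff_add_eq_zero, add_comm]
        exact key
      rw [h4]
      exact (dvd_neg).2 h3
    exact (hab.pow_right).dvd_of_dvd_mul_right h2
  refine ⟨a, b, (natDegree_le_of_dvd haA hA0).trans (hA 0),
    (natDegree_le_of_dvd hbA hAn).trans (hA n), hb, ?_⟩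
  rw [hρab]
  field_simp

/-- common denominators. -/
theorem common_den {K : Type*} [Field K] {E : Subfield K} {g : K} (hg : ¬ IsAlgebraic E g)
    (c : ℕ → K) (s : Finset ℕ) (hc : ∀ i ∈ s, c i ∈ Vale.Agent.P019.adj E g) :
    ∃ D : E[X], D ≠ 0 ∧ ∀ i ∈ s, ∃ A : E[X], aeval g A = aeval g D * c i := by
  classical
  induction s using Finset.induction_on with
  | empty => exact ⟨1, one_ne_zero, fun i hi => absurd hi (Finset.notMem_empty i)⟩
  | insert a s ha ih =>
    obtain ⟨D, hD, hDA⟩ := ih (fun i hi => hc i (Finset.mem_insert_of_mem hi))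
    obtain ⟨p, q, -, hq, hpq⟩ := coprime_rep hg (hc a (Finset.mem_insert_self a s))
    have hqg : aeval g q ≠ 0 := aeval_ne_of_transc hg hq
    refine ⟨D * q, mul_ne_zero hD hq, ?_⟩
    intro i hi
    rcases Finset.mem_insert.1 hi with rfl | hi
    · refine ⟨D * p, ?_⟩
      rw [map_mul, map_mul, hpq]
      field_simp
    · obtain ⟨A, hA⟩ := hDA i hi
      refine ⟨A * q, ?_⟩
      rw [map_mul, map_mul, hA]
      ring

variable {I : Type*} {U : Ultrafilter I} {L : Type*} [Field L]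

/-- lifts of polynomials. -/
theorem exists_lift_coeff {E : I → Subfield L} (A : (uSub U E)[X]) :
    ∃ α : ℕ → I → L, (∀ j, gm U (α j) = ((A.coeff j : uSub U E) : Gm U L)) ∧
      ∀ j i, α j i ∈ E i := by
  have h1 : ∀ j, ∃ f : I → L, gm U f = ((A.coeff j : uSub U E) : Gm U L) ∧ ∀ i, f i ∈ E i :=
    fun j => (A.coeff j).2
  choose f hf hfE using h1
  exact ⟨f, hf, hfE⟩

/-- the polynomial with given coefficients. -/
noncomputable def mkPol {K : Type*} [Field K] (E : Subfield K) (H : ℕ) (α : ℕ → K)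
    (hα : ∀ j, α j ∈ E) : E[X] := ∑ j ∈ Finset.range (H + 1), C ⟨α j, hα j⟩ * X ^ j

theorem aeval_mkPol {K : Type*} [Field K] {E : Subfield K} {H : ℕ} {α : ℕ → K}
    {hα : ∀ j, α j ∈ E} (g : K) :
    aeval g (mkPol E H α hα) = ∑ j ∈ Finset.range (H + 1), α j * g ^ j := by
  rw [mkPol, map_sum]
  refine Finset.sum_congr rfl fun j _ => ?_
  rw [map_mul, map_pow, aeval_X, aeval_C]
  rfl

theorem coeff_mkPol {K : Type*} [Field K] {E : Subfield K} {H : ℕ} {α : ℕ → K}
    {hα : ∀ j, α j ∈ E} {j : ℕ} (hj : j ≤ H) :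
    (mkPol E H α hα).coeff j = ⟨α j, hα j⟩ := by
  rw [mkPol, finsetSum_coeff]
  simp only [coeff_C_mul, coeff_X_pow, mul_ite, mul_one, mul_zero]
  rw [Finset.sum_eq_single j]
  · rw [if_pos rfl]
  · intro b _ hb
    rw [if_neg (Ne.symm hb)]
  · intro h
    exact absurd (Finset.mem_range.2 (Nat.lt_succ_of_le hj)) h

theorem natDegree_mkPol {K : Type*} [Field K] {E : Subfield K} {H : ℕ} {α : ℕ → K}
    {hα : ∀ j, α j ∈ E} : (mkPol E H α hα).natDegree ≤ H := by
  refine natDegree_sum_le_of_forall_le _ _ fun j hj => ?_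
  exact (natDegree_C_mul_X_pow_le _ _).trans (Nat.lt_succ_iff.1 (Finset.mem_range.1 hj))

theorem aeval_eq_sum_le {K : Type*} [Field K] {E : Subfield K} {A : E[X]} {H : ℕ}
    (hA : A.natDegree ≤ H) (g : K) :
    aeval g A = ∑ j ∈ Finset.range (H + 1), ((A.coeff j : E) : K) * g ^ j := by
  rw [aeval_eq_sum_range' (Nat.lt_succ_of_le hA)]
  rfl

/-- transcendence in the ultrapower. -/
theorem gm_transc {E : I → Subfield L} {g : I → L} (hg : ∀ᶠ i in U, ¬ IsAlgebraic (E i) (g i)) :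
    ¬ IsAlgebraic (uSub U E) (gm U g) := by
  rintro ⟨A, hA0, hA⟩
  obtain ⟨α, hα, hαE⟩ := exists_lift_coeff A
  obtain ⟨j, hj⟩ : ∃ j, A.coeff j ≠ 0 := by
    by_contra hcon
    push Not at hcon
    exact hA0 (Polynomial.ext fun j => by rw [hcon j, coeff_zero])
  have hjd : j ≤ A.natDegree := le_natDegree_of_ne_zero hj
  have h1 : ∀ᶠ i in U, α j i ≠ 0 := by
    have h2 : gm U (α j) ≠ 0 := by
      rw [hα]
      intro h
      exact hj (Subtype.ext h)
    rw [← map_zero (gm U)] at h2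
    exact gm_ne.1 h2
  have h3 : ∀ᶠ i in U, ∑ j ∈ Finset.range (A.natDegree + 1), α j i * g i ^ j = 0 := by
    rw [← gm_eq_zero, ← hA, aeval_eq_sum_le le_rfl, gm_sum]
    refine Finset.sum_congr rfl fun j _ => ?_
    rw [gm_mul, gm_pow, hα]
  obtain ⟨i, hi1, hi2, hi3⟩ := (h1.and (h3.and hg)).exists
  refine hi3 ⟨mkPol (E i) A.natDegree (fun j => α j i) (fun j => hαE j i), ?_, ?_⟩
  · intro h
    have h4 := congrArg (fun p => ((p.coeff j : E i) : L)) h
    simp only [coeff_zero] at h4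
    rw [coeff_mkPol hjd] at h4
    exact hi1 h4
  · rw [aeval_mkPol]
    exact hi2

/-- rational functions are relatively algebraically closed in the ultraproduct. -/
theorem rat_gm [PerfectField L] {E : I → Subfield L} {g : I → L}
    (hg : ∀ᶠ i in U, ¬ IsAlgebraic (E i) (g i)) {r : Gm U L}
    (hr : r ∈ uSub U (fun i => adj (E i) (g i)))
    (halg : IsAlgebraic (adj (uSub U E) (gm U g)) r) : r ∈ adj (uSub U E) (gm U g) := by
  classical
  have hgt : ¬ IsAlgebraic (uSub U E) (gm U g) := gm_transc hg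
  by_cases hr0 : r = 0
  · rw [hr0]; exact Subfield.zero_mem _
  obtain ⟨f, rfl, hf⟩ := hr
  set F := adj (uSub U E) (gm U g) with hF
  set F0 := Vale.Agent.P019.adj (uSub U E) (gm U g) with hF0
  set r : Gm U L := gm U f with hrdef
  set m := minpoly F r with hm
  have hint : IsIntegral F r := halg.isIntegral
  have hsep : m.Separable := PerfectField.separable_of_irreducible (minpoly.irreducible hint)
  set n := m.natDegree with hn
  -- common exponent
  have hN : ∃ N : ℕ, ∀ i ∈ Finset.range (n + 1),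
      ((m.coeff i : F) : Gm U L) ^ (ringExpChar L) ^ N ∈ F0 := by
    have h1 : ∀ i, ∃ N : ℕ, ((m.coeff i : F) : Gm U L) ^ (ringExpChar L) ^ N ∈ F0 := by
      intro i
      have h2 := mem_pf.1 (m.coeff i).2
      rw [ringExpChar_gm] at h2
      exact h2
    choose N hN using h1
    refine ⟨(Finset.range (n + 1)).sup N, fun i hi => ?_⟩
    obtain ⟨k, hk⟩ := Nat.exists_eq_add_of_le (Finset.le_sup (f := N) hi)
    rw [hk, pow_add, pow_mul]
    exact Subfield.pow_mem _ (hN i) _
  obtain ⟨N, hN⟩ := hN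
  haveI : ExpChar (Gm U L) (ringExpChar L) := by
    rw [← ringExpChar_gm (U := U) (L := L)]
    infer_instance
  let φ : Gm U L →+* Gm U L := iterateFrobenius (Gm U L) (ringExpChar L) N
  have hφ : ∀ z, φ z = z ^ (ringExpChar L) ^ N := fun z => iterateFrobenius_def _ _ _
  let c : ℕ → Gm U L := fun i => φ ((m.coeff i : F) : Gm U L)
  have hcF : ∀ i ∈ Finset.range (n + 1), c i ∈ F0 := by
    intro i hi
    change φ _ ∈ F0
    rw [hφ]
    exact hN i hi
  set ρ := φ r with hρ
  have hsum0 : ∑ i ∈ Finset.range (n + 1), c i * ρ ^ i = 0 := by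
    have h1 : aeval r m = 0 := minpoly.aeval F r
    rw [aeval_eq_sum_le le_rfl] at h1
    have h2 := congrArg φ h1
    rw [map_sum, map_zero] at h2
    rw [← h2]
    refine Finset.sum_congr rfl fun i _ => ?_
    rw [map_mul, map_pow]
  have hsum1 : ∑ i ∈ Finset.range (n + 1), c i * ((i : Gm U L) * ρ ^ (i - 1)) ≠ 0 := by
    have h1 : aeval r (derivative m) ≠ 0 := by
      intro h
      obtain ⟨a, b, hab⟩ := hsep
      have h2 := congrArg (aeval r) hab
      rw [map_add, map_mul, map_mul, minpoly.aeval, h, mul_zero, mul_zero, add_zero, map_one] at h2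
      exact zero_ne_one h2
    intro h2
    apply h1
    apply φ.injective
    rw [map_zero, ← h2]
    conv_lhs => rw [m.as_sum_range]
    rw [derivative_sum, map_sum, map_sum]
    refine Finset.sum_congr rfl fun i _ => ?_
    rw [derivative_monomial, aeval_monomial, map_mul, map_pow, map_mul, map_mul, map_natCast,
      map_natCast]
    change c i * _ * _ = _
    ring
  obtain ⟨D, hD0, hDA⟩ := common_den hgt c (Finset.range (n + 1)) hcF
  have hDg : aeval (gm U g) D ≠ 0 := aeval_ne_of_transc hgt hD0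
  choose! A hA using hDA
  -- extend by zero
  have hcn : c n ≠ 0 := by
    change φ _ ≠ 0
    rw [hn, hm, coeff_natDegree, (minpoly.monic hint).leadingCoeff]
    rw [show (((1 : F) : F) : Gm U L) = 1 from rfl, map_one]
    exact one_ne_zero
  have hc0 : c 0 ≠ 0 := by
    change φ _ ≠ 0
    rw [Ne, map_eq_zero]
    intro h
    exact minpoly.coeff_zero_ne_zero hint hr0 (Subtype.ext h)
  have hAne : ∀ i ∈ Finset.range (n + 1), c i ≠ 0 → A i ≠ 0 := by
    intro i hi hci h
    have h1 := hA i hi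
    rw [h, map_zero] at h1
    exact mul_ne_zero hDg hci h1.symm
  set H := (Finset.range (n + 1)).sup (fun i => (A i).natDegree) with hH
  have hAH : ∀ i ∈ Finset.range (n + 1), (A i).natDegree ≤ H := fun i hi =>
    Finset.le_sup (f := fun i => (A i).natDegree) hi
  have hlift : ∀ i, ∃ α : ℕ → I → L, (∀ j, gm U (α j) = (((A i).coeff j : uSub U E) : Gm U L)) ∧
      ∀ j ι, α j ι ∈ E ι := fun i => exists_lift_coeff (A i)
  choose α hα hαE using hlift
  have hev : ∀ i ∈ Finset.range (n + 1), aeval (gm U g) (A i) =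
      gm U (fun ι => ∑ j ∈ Finset.range (H + 1), α i j ι * g ι ^ j) := by
    intro i hi
    rw [aeval_eq_sum_le (hAH i hi), gm_sum]
    refine Finset.sum_congr rfl fun j _ => ?_
    rw [gm_mul, gm_pow, hα]
  have hρg : ρ = gm U (fun ι => f ι ^ (ringExpChar L) ^ N) := by
    rw [hρ, hφ, gm_pow]
  have hne : ∀ i ∈ Finset.range (n + 1), A i ≠ 0 →
      ∀ᶠ ι in U, mkPol (E ι) H (fun j => α i j ι) (fun j => hαE i j ι) ≠ 0 := by
    intro i hi hAi
    obtain ⟨j, hj⟩ : ∃ j, (A i).coeff j ≠ 0 := by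
      by_contra hcon
      push Not at hcon
      exact hAi (Polynomial.ext fun j => by rw [hcon j, coeff_zero])
    have hjd : j ≤ H := (le_natDegree_of_ne_zero hj).trans (hAH i hi)
    have h1 : ∀ᶠ ι in U, α i j ι ≠ 0 := by
      have h2 : gm U (α i j) ≠ 0 := by
        rw [hα]
        intro h
        exact hj (Subtype.ext h)
      rw [← map_zero (gm U)] at h2
      exact gm_ne.1 h2
    refine h1.mono fun ι hι h => hι ?_
    have h4 := congrArg (fun p => ((p.coeff j : E ι) : L)) h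
    simp only [coeff_zero] at h4
    rw [coeff_mkPol hjd] at h4
    exact h4
  have e0 : ∀ᶠ ι in U, ∑ i ∈ Finset.range (n + 1),
      (∑ j ∈ Finset.range (H + 1), α i j ι * g ι ^ j) *
        (f ι ^ (ringExpChar L) ^ N) ^ i = 0 := by
    rw [← gm_eq_zero, gm_sum]
    have h1 : ∑ i ∈ Finset.range (n + 1), gm U (fun ι =>
        (∑ j ∈ Finset.range (H + 1), α i j ι * g ι ^ j) * (f ι ^ (ringExpChar L) ^ N) ^ i) =
        aeval (gm U g) D * ∑ i ∈ Finset.range (n + 1), c i * ρ ^ i := by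
      rw [Finset.mul_sum]
      refine Finset.sum_congr rfl fun i hi => ?_
      rw [gm_mul, ← hev i hi, hA i hi, gm_pow, ← hρg]
      ring
    rw [h1, hsum0, mul_zero]
  have e1 : ∀ᶠ ι in U, ∑ i ∈ Finset.range (n + 1),
      (∑ j ∈ Finset.range (H + 1), α i j ι * g ι ^ j) *
        ((i : L) * (f ι ^ (ringExpChar L) ^ N) ^ (i - 1)) ≠ 0 := by
    have h2 : gm U (fun ι => ∑ i ∈ Finset.range (n + 1),
      (∑ j ∈ Finset.range (H + 1), α i j ι * g ι ^ j) *
        ((i : L) * (f ι ^ (ringExpChar L) ^ N) ^ (i - 1))) ≠ gm U 0 := by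
      rw [map_zero, gm_sum]
      have h1 : ∑ i ∈ Finset.range (n + 1), gm U (fun ι =>
          (∑ j ∈ Finset.range (H + 1), α i j ι * g ι ^ j) *
            ((i : L) * (f ι ^ (ringExpChar L) ^ N) ^ (i - 1))) =
          aeval (gm U g) D * ∑ i ∈ Finset.range (n + 1), c i * ((i : Gm U L) * ρ ^ (i - 1)) := by
        rw [Finset.mul_sum]
        refine Finset.sum_congr rfl fun i hi => ?_
        rw [gm_mul, ← hev i hi, hA i hi, gm_mul, gm_pow, ← hρg]
        have h3 : gm U (fun _ : I => (i : L)) = (i : Gm U L) := map_natCast (gm U) i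
        rw [h3]
        ring
      rw [h1]
      exact mul_ne_zero hDg hsum1
    exact gm_ne.1 h2
  have h0n : (0 : ℕ) ∈ Finset.range (n + 1) := Finset.mem_range.2 (Nat.succ_pos n)
  have hnn : n ∈ Finset.range (n + 1) := Finset.mem_range.2 (Nat.lt_succ_self n)
  have hfin : ∀ᶠ ι in U, ∃ u v : (E ι)[X], u.natDegree ≤ H ∧ v.natDegree ≤ H ∧ v ≠ 0 ∧
      (f ι ^ (ringExpChar L) ^ N) * aeval (g ι) v = aeval (g ι) u := by
    filter_upwards [hg, e0, e1, hne 0 h0n (hAne 0 h0n hc0), hne n hnn (hAne n hnn hcn)]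
      with ι h1 h2 h3 h4 h5
    refine rat_root h1 (Subfield.pow_mem _ (hf ι) _) (n := n)
      (fun i => mkPol (E ι) H (fun j => α i j ι) (fun j => hαE i j ι))
      (fun i => natDegree_mkPol) h4 h5 ?_ ?_
    · simp only [aeval_mkPol]
      exact h2
    · simp only [aeval_mkPol]
      exact h3
  have hex : ∀ ι, ∃ u v : (E ι)[X], ((∃ u v : (E ι)[X], u.natDegree ≤ H ∧ v.natDegree ≤ H ∧
      v ≠ 0 ∧ (f ι ^ (ringExpChar L) ^ N) * aeval (g ι) v = aeval (g ι) u) →
      u.natDegree ≤ H ∧ v.natDegree ≤ H ∧ v ≠ 0 ∧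
      (f ι ^ (ringExpChar L) ^ N) * aeval (g ι) v = aeval (g ι) u) := by
    intro ι
    by_cases h : ∃ u v : (E ι)[X], u.natDegree ≤ H ∧ v.natDegree ≤ H ∧
      v ≠ 0 ∧ (f ι ^ (ringExpChar L) ^ N) * aeval (g ι) v = aeval (g ι) u
    · obtain ⟨u, v, huv⟩ := h
      exact ⟨u, v, fun _ => huv⟩
    · exact ⟨0, 0, fun h' => absurd h' h⟩
  choose u v huv using hex
  have hmem : ∀ w : (ι : I) → (E ι)[X],
      gm U (fun ι => ∑ j ∈ Finset.range (H + 1), (((w ι).coeff j : E ι) : L) * g ι ^ j) ∈ F0 := by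
    intro w
    rw [gm_sum]
    refine sum_mem fun j _ => ?_
    rw [gm_mul, gm_pow]
    refine mul_mem (Vale.Agent.P019.le_adj _ _ ?_)
      (pow_mem (Vale.Agent.P019.mem_adj _ _) j)
    exact ⟨_, rfl, fun ι => ((w ι).coeff j).2⟩
  have hv0 : gm U (fun ι => ∑ j ∈ Finset.range (H + 1), (((v ι).coeff j : E ι) : L) * g ι ^ j) ≠
      gm U 0 := by
    rw [gm_ne]
    filter_upwards [hfin, hg] with ι h1 h2
    obtain ⟨-, h3, h4, -⟩ := huv ι h1
    rw [← aeval_eq_sum_le h3]
    exact aeval_ne_of_transc h2 h4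
  rw [map_zero] at hv0
  have hρv : ρ * gm U (fun ι => ∑ j ∈ Finset.range (H + 1), (((v ι).coeff j : E ι) : L) * g ι ^ j) =
      gm U (fun ι => ∑ j ∈ Finset.range (H + 1), (((u ι).coeff j : E ι) : L) * g ι ^ j) := by
    rw [hρg, ← gm_mul, gm_eq]
    filter_upwards [hfin] with ι h1
    obtain ⟨h5, h3, h4, h6⟩ := huv ι h1
    rw [← aeval_eq_sum_le h3, ← aeval_eq_sum_le h5]
    exact h6
  have hρF : ρ ∈ F0 := by
    rw [← eq_div_iff hv0] at hρv
    rw [hρv]
    exact Subfield.div_mem _ (hmem u) (hmem v)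
  rw [hρ, hφ] at hρF
  refine mem_pf.2 ⟨N, ?_⟩
  rw [ringExpChar_gm]
  exact hρF

end rat

end Vale.Agent.P019P
end
end

section

section

/-!
# The place of the ultrapower defined by a family of valuation rings
-/

namespace Vale.Agent.P019P

open Vale.Agent.P019

set_option linter.style.haveILetI false
set_option linter.unusedSectionVars false

open Polynomial Filter

section homs

variable {K Ω : Type*} [Field K] [Field Ω] (j : K →+* Ω)

theorem sub_map_mono {E F : Subfield K} (h : E ≤ F) : E.map j ≤ F.map j := by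
  rintro _ ⟨x, hx, rfl⟩
  exact ⟨x, h hx, rfl⟩

theorem map_pf_le (E : Subfield K) : (pf E).map j ≤ pf (E.map j) := by
  rintro _ ⟨z, hz, rfl⟩
  obtain ⟨n, hn⟩ := mem_pf.1 hz
  refine mem_pf.2 ⟨n, ?_⟩
  rw [← ringExpChar_eq_of_hom j, ← map_pow]
  exact ⟨_, hn, rfl⟩

theorem map_adj0 (E : Subfield K) (y : K) :
    (Vale.Agent.P019.adj E y).map j = Vale.Agent.P019.adj (E.map j) (j y) := by
  unfold Vale.Agent.P019.adj
  rw [Subfield.map_sup]
  congr 1
  rw [RingHom.map_field_closure, Set.image_singleton]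

theorem map_adj_le (E : Subfield K) (y : K) :
    (adj E y).map j ≤ adj (E.map j) (j y) := by
  refine (map_pf_le j _).trans ?_
  rw [map_adj0]
  exact le_rfl

theorem adj_map_le [PerfectField K] (E : Subfield K) (y : K) :
    adj (E.map j) (j y) ≤ (adj E y).map j :=
  adj_le (sub_map_mono j (le_adj E y)) ⟨y, mem_adj E y, rfl⟩

theorem isAlgebraic_map {E : Subfield K} {x : K} (h : IsAlgebraic E x) :
    IsAlgebraic (E.map j) (j x) := by
  obtain ⟨q, hq0, hq, hqz⟩ := isAlgebraic_iff_coeff.1 h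
  refine isAlgebraic_iff_coeff.2 ⟨q.map j, ?_, ?_, ?_⟩
  · rw [Ne, Polynomial.map_eq_zero]
    exact hq0
  · intro i
    rw [coeff_map]
    exact ⟨_, hq i, rfl⟩
  · rw [eval_map, eval₂_at_apply, hqz, map_zero]

theorem isAlgebraic_of_map {E : Subfield K} {x : K} (h : IsAlgebraic (E.map j) (j x)) :
    IsAlgebraic E x := by
  obtain ⟨q, hq0, hq, hqz⟩ := isAlgebraic_iff_coeff.1 h
  choose c hc hcq using hq
  let p : K[X] := ∑ i ∈ Finset.range (q.natDegree + 1), C (c i) * X ^ i
  have hp : p.map j = q := by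
    conv_rhs => rw [q.as_sum_range_C_mul_X_pow]
    simp only [p, Polynomial.map_sum, Polynomial.map_mul, map_C, Polynomial.map_pow, map_X, hcq]
  refine isAlgebraic_iff_coeff.2 ⟨p, ?_, ?_, ?_⟩
  · rintro h0
    rw [h0, Polynomial.map_zero] at hp
    exact hq0 hp.symm
  · intro i
    have h1 : p.coeff i = if i ∈ Finset.range (q.natDegree + 1) then c i else 0 := by
      simp only [p, finsetSum_coeff, coeff_C_mul, coeff_X_pow, mul_ite, mul_one, mul_zero]
      rw [Finset.sum_ite_eq]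
    rw [h1]
    split_ifs
    · exact hc i
    · exact E.zero_mem
  · apply j.injective
    rw [map_zero, ← hqz, ← hp, eval_map, eval₂_at_apply]

end homs

section ul

variable {I : Type*} (U : Ultrafilter I) {K : Type*} [Field K] (O : I → ValuationSubring K)

/-- the place. -/
noncomputable abbrev ulP : Pl (Gm U K) (AlgebraicClosure (IsLocalRing.ResidueField (uVal U O))) :=
  plOf (uVal U O)

/-- nonzero elements are units for almost all members of the family. -/
def Ulu : Prop := ∀ x : K, x ≠ 0 → ∀ᶠ i in U, (O i).valuation x = 1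

variable {U O}

theorem Ulu.gc_mem (h : Ulu U O) (x : K) : gc U x ∈ (ulP U O).O := by
  by_cases hx : x = 0
  · rw [hx, map_zero]; exact (ulP U O).O.zero_mem
  · rw [gc_apply]
    exact gm_mem_uVal.2 ((h x hx).mono fun i hi => ((O i).valuation_le_one_iff x).1 hi.le)

/-- the embedding of the field. -/
noncomputable def Ulu.j (h : Ulu U O) :
    K →+* AlgebraicClosure (IsLocalRing.ResidueField (uVal U O)) where
  toFun x := (ulP U O).ev (gc U x)
  map_one' := by rw [map_one, Pl.ev_one]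
  map_mul' x y := by rw [map_mul, Pl.ev_mul _ (h.gc_mem x) (h.gc_mem y)]
  map_zero' := by rw [map_zero, Pl.ev_zero]
  map_add' x y := by rw [map_add, Pl.ev_add _ (h.gc_mem x) (h.gc_mem y)]

theorem ulP_ev_eq {f g : I → K} (hf : ∀ᶠ i in U, f i ∈ O i) (hg : ∀ᶠ i in U, g i ∈ O i) :
    (ulP U O).ev (gm U f) = (ulP U O).ev (gm U g) ↔
      ∀ᶠ i in U, (O i).valuation (f i - g i) < 1 := by
  have hf' : gm U f ∈ (ulP U O).O := gm_mem_uVal.2 hf
  have hg' : gm U g ∈ (ulP U O).O := gm_mem_uVal.2 hg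
  rw [← sub_eq_zero, ← Pl.ev_sub _ hf' hg', Pl.ev_eq_zero_iff _ ((ulP U O).O.sub_mem hf' hg'),
    ← gm_sub]
  exact uVal_lt_one

theorem ulP_mem {f : I → K} (hf : ∀ᶠ i in U, f i ∈ O i) : gm U f ∈ (ulP U O).O :=
  gm_mem_uVal.2 hf

/-- fields trivially valued by almost all members. -/
theorem ulP_triv {F : Subfield K} (hF : ∀ᶠ i in U, TrivOn (O i) F) :
    ∀ x ∈ uSub U (fun _ => F), x ∈ (ulP U O).O := by
  rintro _ ⟨f, rfl, hf⟩
  exact ulP_mem (hF.mono fun i hi => hi _ (hf i))

theorem gc_mem_uSub {F : Subfield K} {x : K} (hx : x ∈ F) : gc U x ∈ uSub U (fun _ => F) :=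
  ⟨fun _ => x, rfl, fun _ => hx⟩

theorem map_gc_le (F : Subfield K) : F.map (gc U) ≤ uSub U (fun _ => F) := by
  rintro _ ⟨x, hx, rfl⟩
  exact gc_mem_uSub hx

/-- classes dying in almost all residue fields. -/
theorem exists_root_of_U1 {ℓ : ℕ} [Fact ℓ.Prime] {z : K} (hz : z ≠ 0)
    (hv : ∀ᶠ i in U, (O i).valuation z = 1)
    (h : ∀ᶠ i in U, cl ℓ z ∈ U1 ℓ (O i)) :
    ∃ w : I → K, (∀ᶠ i in U, w i ∈ O i) ∧
      (ulP U O).ev (gm U w) ^ ℓ = (ulP U O).ev (gc U z) := by
  have h1 : ∀ᶠ i in U, ∃ w : K, w ∈ O i ∧ (O i).valuation (w ^ ℓ - z) < 1 := by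
    filter_upwards [hv, h] with i hi hi'
    have h2 : rs (O i) z ≠ 0 := (rs_ne_zero (((O i).valuation_le_one_iff z).1 hi.le)).2 hi
    rw [cl_mem_U1_iff hi, cl_eq_zero_iff ℓ h2] at hi'
    obtain ⟨c, hc0, hc⟩ := hi'
    obtain ⟨w, hw, rfl⟩ := rs_surj c
    refine ⟨w, hw, ?_⟩
    rw [← rs_eq_zero ((O i).sub_mem ((O i).pow_mem hw ℓ)
      (((O i).valuation_le_one_iff z).1 hi.le)), rs_sub ((O i).pow_mem hw ℓ)
      (((O i).valuation_le_one_iff z).1 hi.le), rs_pow hw, hc, sub_self]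
  have h2 : ∀ i, ∃ w : K, (∃ w : K, w ∈ O i ∧ (O i).valuation (w ^ ℓ - z) < 1) →
      w ∈ O i ∧ (O i).valuation (w ^ ℓ - z) < 1 := by
    intro i
    by_cases h : ∃ w : K, w ∈ O i ∧ (O i).valuation (w ^ ℓ - z) < 1
    · obtain ⟨w, hw⟩ := h
      exact ⟨w, fun _ => hw⟩
    · exact ⟨0, fun h' => absurd h' h⟩
  choose w hw using h2
  refine ⟨w, h1.mono fun i hi => (hw i hi).1, ?_⟩
  have h3 : gm U w ∈ (ulP U O).O := ulP_mem (h1.mono fun i hi => (hw i hi).1)
  rw [← Pl.ev_pow _ h3, ← gm_pow, gc_apply]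
  rw [ulP_ev_eq (h1.mono fun i hi => (O i).pow_mem (hw i hi).1 ℓ)
    (hv.mono fun i hi => ((O i).valuation_le_one_iff z).1 hi.le)]
  exact h1.mono fun i hi => (hw i hi).2

end ul

end Vale.Agent.P019P
end
end

section

section

/-!
# Places with finite residue fields and Gauss extensions
-/

namespace Vale.Agent.P019P

open Vale.Agent.P019

set_option linter.style.haveILetI false
set_option linter.unusedSectionVars false

open Polynomial Filter

universe u

section bota

theorem bot_val_lt_one {F : Type*} [Field F] {O : ValuationSubring F} {x : F} :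
    O.valuation x < 1 ↔ x = 0 ∨ x⁻¹ ∉ O := by
  by_cases hx : x = 0
  · simp [hx]
  · have h0 : 0 < O.valuation x := zero_lt_iff.2 ((Valuation.ne_zero_iff _).2 hx)
    rw [← O.valuation_le_one_iff x⁻¹, map_inv₀, inv_le_one₀ h0, not_le]
    simp [hx]

/-- composite places. -/
noncomputable def Pl.comp' {F C D : Type*} [Field F] [Field C] [Field D] (P : Pl F C)
    (Q : Pl C D) : Pl F D where
  O :=
  { carrier := {x | x ∈ P.O ∧ P.ev x ∈ Q.O}
    mul_mem' := fun {x y} hx hy => ⟨P.O.mul_mem _ _ hx.1 hy.1, by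
      rw [P.ev_mul hx.1 hy.1]; exact Q.O.mul_mem _ _ hx.2 hy.2⟩
    one_mem' := ⟨P.O.one_mem, by rw [P.ev_one]; exact Q.O.one_mem⟩
    add_mem' := fun {x y} hx hy => ⟨P.O.add_mem _ _ hx.1 hy.1, by
      rw [P.ev_add hx.1 hy.1]; exact Q.O.add_mem _ _ hx.2 hy.2⟩
    zero_mem' := ⟨P.O.zero_mem, by rw [P.ev_zero]; exact Q.O.zero_mem⟩
    neg_mem' := fun {x} hx => ⟨P.O.neg_mem _ hx.1, by
      rw [P.ev_neg hx.1]; exact Q.O.neg_mem _ hx.2⟩
    mem_or_inv_mem' := fun x => by
      by_cases hx : P.O.valuation x < 1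
      · left
        exact ⟨P.mem_of_lt hx, by rw [P.ev_of_lt hx]; exact Q.O.zero_mem⟩
      by_cases hx' : 1 < P.O.valuation x
      · right
        have h1 : P.O.valuation x⁻¹ < 1 := by
          rw [map_inv₀]
          exact inv_lt_one_of_one_lt₀ hx'
        exact ⟨P.mem_of_lt h1, by rw [P.ev_of_lt h1]; exact Q.O.zero_mem⟩
      · have h1 : P.O.valuation x = 1 := le_antisymm (not_lt.1 hx') (not_lt.1 hx)
        have h2 : P.U x := P.U_iff.2 h1
        have h3 : x⁻¹ ∈ P.O := by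
          rw [← P.O.valuation_le_one_iff, map_inv₀, h1, inv_one]
        have h4 : P.ev x⁻¹ = (P.ev x)⁻¹ := by
          refine eq_inv_of_mul_eq_one_left ?_
          rw [← P.ev_mul h3 h2.1, inv_mul_cancel₀ h2.ne_zero, P.ev_one]
        rcases Q.O.mem_or_inv_mem (P.ev x) with h5 | h5
        · exact Or.inl ⟨h2.1, h5⟩
        · exact Or.inr ⟨h3, by rw [h4]; exact h5⟩ }
  ψ :=
  { toFun := fun x => Q.ev (P.ev x)
    map_one' := by
      change Q.ev (P.ev 1) = 1
      rw [P.ev_one, Q.ev_one]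
    map_mul' := fun x y => by
      change Q.ev (P.ev ((x : F) * y)) = _
      rw [P.ev_mul x.2.1 y.2.1, Q.ev_mul x.2.2 y.2.2]
    map_zero' := by
      change Q.ev (P.ev 0) = 0
      rw [P.ev_zero, Q.ev_zero]
    map_add' := fun x y => by
      change Q.ev (P.ev ((x : F) + y)) = _
      rw [P.ev_add x.2.1 y.2.1, Q.ev_add x.2.2 y.2.2] }
  ker := fun x => by
    change Q.ev (P.ev x) = 0 ↔ _
    rw [bot_val_lt_one]
    constructor
    · intro h
      by_contra hcon
      push Not at hcon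
      obtain ⟨hx0, h1, h2⟩ := hcon
      have h3 : Q.ev (P.ev x) * Q.ev (P.ev (x : F)⁻¹) = 1 := by
        rw [← Q.ev_mul x.2.2 h2, ← P.ev_mul x.2.1 h1, mul_inv_cancel₀ hx0, P.ev_one, Q.ev_one]
      rw [h, zero_mul] at h3
      exact zero_ne_one h3
    · rintro (h | h)
      · rw [h, P.ev_zero, Q.ev_zero]
      · by_contra hcon
        apply h
        have h1 : P.ev x ≠ 0 := by
          intro h2
          rw [h2, Q.ev_zero] at hcon
          exact hcon rfl
        have h2 : P.U x := ⟨x.2.1, h1⟩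
        have h3 := P.U_iff.1 h2
        have h4 : (x : F)⁻¹ ∈ P.O := by
          rw [← P.O.valuation_le_one_iff, map_inv₀, h3, inv_one]
        have h5 : P.ev (x : F)⁻¹ = (P.ev x)⁻¹ := by
          refine eq_inv_of_mul_eq_one_left ?_
          rw [← P.ev_mul h4 h2.1, inv_mul_cancel₀ h2.ne_zero, P.ev_one]
        refine ⟨h4, ?_⟩
        rw [h5]
        have h6 : Q.U (P.ev x) := ⟨x.2.2, hcon⟩
        have h7 := Q.U_iff.1 h6
        rw [← Q.O.valuation_le_one_iff, map_inv₀, h7, inv_one]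

theorem Pl.mem_comp' {F C D : Type*} [Field F] [Field C] [Field D] {P : Pl F C}
    {Q : Pl C D} {x : F} : x ∈ (Pl.comp' P Q).O ↔ x ∈ P.O ∧ P.ev x ∈ Q.O := Iff.rfl

theorem Pl.comp'_ev {F C D : Type*} [Field F] [Field C] [Field D] {P : Pl F C}
    {Q : Pl C D} {x : F} (hx : x ∈ P.O) (hx' : P.ev x ∈ Q.O) :
    (Pl.comp' P Q).ev x = Q.ev (P.ev x) := by
  rw [(Pl.comp' P Q).ev_of_mem (x := x) ⟨hx, hx'⟩]
  rfl

/-- places with values in closures of finite fields. -/
theorem exists_finpl {k : Type u} [Field k] (S : Finset k) (hS : ∀ a ∈ S, a ≠ 0) :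
    ∃ (κ : Type u) (_ : Field κ) (P : Pl k κ), IsAlgClosed κ ∧
      (∀ a : κ, a ≠ 0 → ∃ n : ℕ, 0 < n ∧ a ^ n = 1) ∧ ∀ a ∈ S, P.U a := by
  classical
  let T : Finset k := S ∪ S.image (fun a => a⁻¹)
  let A : Subalgebra ℤ k := Algebra.adjoin ℤ (T : Set k)
  haveI : Algebra.FiniteType ℤ A := (Subalgebra.fg_iff_finiteType _).1 ⟨T, rfl⟩
  obtain ⟨κ, hκ, hA, hac, htor, -⟩ := exists_spec (A := A) (δ := 1) one_ne_zero
  obtain ⟨O, ψ, h1, h2⟩ := exists_place A.toSubring (algebraMap A κ : A →+* κ)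
  refine ⟨κ, hκ, ⟨O, ψ, h2⟩, hac, htor, fun a ha => ?_⟩
  have ha1 : a ∈ A := Algebra.subset_adjoin (Finset.mem_coe.2 (Finset.mem_union_left _ ha))
  have ha2 : a⁻¹ ∈ A := Algebra.subset_adjoin (Finset.mem_coe.2
    (Finset.mem_union_right _ (Finset.mem_image_of_mem _ ha)))
  obtain ⟨h3, -⟩ := h1 a ha1
  obtain ⟨h4, -⟩ := h1 a⁻¹ ha2
  rw [Pl.U_iff]
  change O.valuation a = 1
  refine le_antisymm ((O.valuation_le_one_iff a).2 h3) ?_
  rw [← O.valuation_le_one_iff, map_inv₀, inv_le_one₀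
    (zero_lt_iff.2 ((Valuation.ne_zero_iff _).2 (hS a ha)))] at h4
  exact h4

/-- Gauss extension of a place. -/
theorem exists_gpl {K : Type u} [Field K] {F : Subfield K} {κ : Type u} [Field κ] (P : Pl F κ)
    {t : K} (ht : ¬ IsAlgebraic F t) :
    ∃ (Ω : Type u) (_ : Field Ω) (i : κ →+* Ω) (Q : Pl K Ω), IsAlgClosed Ω ∧
      (∀ a : F, (a : K) ∈ Q.O ↔ a ∈ P.O) ∧ (∀ a : F, a ∈ P.O → Q.ev a = i (P.ev a)) ∧
      t ∈ Q.O ∧ ¬ IsAlgebraic i.fieldRange (Q.ev t) := by
  classical
  let κ1 := FractionRing κ[X]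
  let Ω := AlgebraicClosure κ1
  let i1 : κ[X] →+* Ω := (algebraMap κ1 Ω).comp (algebraMap κ[X] κ1)
  have hi1 : Function.Injective i1 :=
    (algebraMap κ1 Ω).injective.comp (IsFractionRing.injective κ[X] κ1)
  let i : κ →+* Ω := i1.comp C
  -- the polynomial ring in `K`
  let e : P.O[X] →+* K := eval₂RingHom ((algebraMap F K).comp P.O.subtype) t
  have he : Function.Injective e := by
    rw [injective_iff_map_eq_zero]
    intro p hp
    by_contra hp0
    apply ht
    refine ⟨p.map P.O.subtype, ?_, ?_⟩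
    · rwa [Ne, Polynomial.map_eq_zero_iff Subtype.val_injective]
    · rw [aeval_def, eval₂_map]
      exact hp
  let A : Subring K := e.range
  let eA : P.O[X] ≃+* A := RingEquiv.ofBijective e.rangeRestrict
    ⟨fun x y h => he (congrArg Subtype.val h), e.rangeRestrict_surjective⟩
  let φ0 : P.O[X] →+* Ω := eval₂RingHom (i.comp P.ψ) (i1 X)
  let φ : A →+* Ω := φ0.comp (eA.symm : A →+* P.O[X])
  obtain ⟨O, ψ, h1, h2⟩ := exists_place A φ
  let Q : Pl K Ω := ⟨O, ψ, h2⟩
  have key : ∀ p : P.O[X], ∃ h : e p ∈ O, Q.ev (e p) = φ0 p := by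
    intro p
    obtain ⟨h3, h4⟩ := h1 (e p) ⟨p, rfl⟩
    refine ⟨h3, ?_⟩
    rw [Q.ev_of_mem h3]
    change ψ ⟨e p, h3⟩ = φ0 p
    rw [h4]
    change φ0 (eA.symm ⟨e p, _⟩) = φ0 p
    congr 1
    rw [RingEquiv.symm_apply_eq]
    rfl
  have hC : ∀ a : P.O, e (C a) = ((a : F) : K) := fun a => by
    change eval₂ _ t (C a) = _
    rw [eval₂_C]; rfl
  have hX : e X = t := by
    change eval₂ _ t X = _
    rw [eval₂_X]
  have hPO : ∀ a : F, a ∈ P.O → (a : K) ∈ O ∧ Q.ev (a : K) = i (P.ev a) := by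
    intro a ha
    obtain ⟨h3, h4⟩ := key (C ⟨a, ha⟩)
    rw [hC] at h3 h4
    refine ⟨h3, h4.trans ?_⟩
    change eval₂ _ _ (C _) = _
    rw [eval₂_C, P.ev_of_mem ha]
    rfl
  refine ⟨Ω, inferInstance, i, Q, inferInstance, fun a => ⟨fun ha => ?_, fun ha => (hPO a ha).1⟩,
    fun a ha => (hPO a ha).2, ?_, ?_⟩
  · by_contra hcon
    have h5 : P.O.valuation a⁻¹ < 1 := by
      rw [bot_val_lt_one, inv_inv]
      exact Or.inr hcon
    obtain ⟨h6, h7⟩ := hPO a⁻¹ (P.mem_of_lt h5)
    rw [P.ev_of_lt h5, map_zero] at h7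
    have ha0 : (a : K) ≠ 0 := by
      intro h
      apply hcon
      have : a = 0 := Subtype.ext h
      rw [this]
      exact P.O.zero_mem
    have h8 : Q.ev (a : K) * Q.ev ((a⁻¹ : F) : K) = 1 := by
      rw [← Q.ev_mul ha h6]
      change Q.ev ((a : K) * (a : K)⁻¹) = 1
      rw [mul_inv_cancel₀ ha0, Q.ev_one]
    rw [h7, mul_zero] at h8
    exact zero_ne_one h8
  · obtain ⟨h3, -⟩ := key X
    rw [hX] at h3
    exact h3
  · obtain ⟨h3, h4⟩ := key X
    rw [hX] at h3 h4
    have h5 : φ0 X = i1 X := by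
      change eval₂ _ _ X = _
      rw [eval₂_X]
    rw [h4, h5]
    rintro ⟨p, hp0, hp⟩
    apply hp0
    -- lift to κ[X]
    have h6 : ∀ n, ∃ a : κ, i a = (p.coeff n : Ω) := fun n => (p.coeff n).2
    choose a ha using h6
    let p' : κ[X] := ∑ n ∈ Finset.range (p.natDegree + 1), C (a n) * X ^ n
    have h7 : i1 p' = 0 := by
      rw [← hp, aeval_eq_sum_range]
      simp only [p', map_sum, map_mul, map_pow]
      refine Finset.sum_congr rfl fun n _ => ?_
      rw [Algebra.smul_def]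
      congr 1
      exact ha n
    have h8 : p' = 0 := hi1 (by rw [h7, map_zero])
    ext n
    rw [coeff_zero]
    by_cases hn : n ≤ p.natDegree
    · have h9 := congrArg (fun q => q.coeff n) h8
      simp only [p', finsetSum_coeff, coeff_C_mul, coeff_X_pow, coeff_zero, mul_ite, mul_one,
        mul_zero] at h9
      rw [Finset.sum_ite_eq (Finset.range (p.natDegree + 1)) n, if_pos (Finset.mem_range.2 (by omega))] at h9
      rw [← ha n, h9, map_zero]; rfl
    · rw [coeff_eq_zero_of_natDegree_lt (by omega)]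

theorem isAlgClosed_equiv' {A B : Type*} [Field A] [Field B] [IsAlgClosed A] (e : A →+* B) :
    IsAlgClosed e.fieldRange := by
  apply IsAlgClosed.of_exists_root
  intro p hp hirr
  have e' : A ≃+* e.fieldRange := RingEquiv.ofBijective e.rangeRestrictField
    ⟨e.rangeRestrictField.injective, fun ⟨_, x, hx⟩ => ⟨x, Subtype.ext hx⟩⟩
  obtain ⟨c, hc⟩ := IsAlgClosed.exists_root (p.map (e'.symm : e.fieldRange →+* A)) (by
    rw [degree_map]
    exact (degree_pos_of_irreducible hirr).ne')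
  refine ⟨e' c, ?_⟩
  have h1 : e'.symm (p.eval (e' c)) = 0 := by
    rw [IsRoot.def, eval_map] at hc
    rw [← hc]
    have h2 := hom_eval₂ p (RingHom.id _) (e'.symm : e.fieldRange →+* A) (e' c)
    rw [RingHom.comp_id] at h2
    simpa using h2
  rwa [map_eq_zero] at h1

/-- restriction of a place to a subfield. -/
noncomputable def Pl.resto {F C : Type*} [Field F] [Field C] (P : Pl F C) (E : Subfield F) :
    Pl E C where
  O := P.O.comap E.subtype
  ψ := P.ψ.comp
    { toFun := fun x : P.O.comap E.subtype => (⟨E.subtype x, x.2⟩ : P.O)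
      map_one' := rfl
      map_mul' := fun _ _ => rfl
      map_zero' := rfl
      map_add' := fun _ _ => rfl }
  ker := fun x => by
    rw [bot_val_lt_one]
    change P.ψ (⟨((x : E) : F), x.2⟩ : P.O) = 0 ↔ _
    rw [P.ker, bot_val_lt_one]
    constructor
    · rintro (h | h)
      · exact Or.inl (Subtype.ext h)
      · exact Or.inr h
    · rintro (h | h)
      · left
        change ((x : E) : F) = 0
        rw [h]
        rfl
      · exact Or.inr h

theorem Pl.resto_ev {F C : Type*} [Field F] [Field C] {P : Pl F C} {E : Subfield F} {x : E}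
    (hx : (x : F) ∈ P.O) : (Pl.resto P E).ev x = P.ev x := by
  rw [(Pl.resto P E).ev_of_mem (x := x) hx, P.ev_of_mem hx]
  rfl

/-- bottom quasi-divisors. -/
theorem exists_botpl {K : Type u} [Field K] {k : Subfield K} {t s : K}
    (hs : ¬ IsAlgebraic k s) (ht : ¬ IsAlgebraic (adj k s) t) {κ : Type u} [Field κ]
    (P : Pl k κ) {c : k} (hc : c ∈ P.O) :
    ∃ (Ω : Type u) (_ : Field Ω) (i : κ →+* Ω) (W : Pl K Ω),
      (∀ a : k, (a : K) ∈ W.O ↔ a ∈ P.O) ∧ (∀ a : k, a ∈ P.O → W.ev a = i (P.ev a)) ∧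
      s ∈ W.O ∧ ¬ IsAlgebraic i.fieldRange (W.ev s) ∧ t - c ∈ W.O ∧ W.ev (t - c) = 0 ∧
      ∀ a : k, P.O.valuation a < 1 → ∀ n : ℕ,
        (a : K) / (t - c) ^ n ∈ W.O ∧ W.ev ((a : K) / (t - c) ^ n) = 0 := by
  obtain ⟨Ω1, _, i1, Q1, hΩ1, hQ1, hQ1e, hsQ, hsa⟩ := exists_gpl P hs
  obtain ⟨Ω2, _, i2, Q2, hΩ2, hQ2, hQ2e, htQ, hta⟩ := exists_gpl (Pl.resto Q1 (adj k s)) ht
  have hka : ∀ a : k, (a : K) ∈ adj k s := fun a => le_adj k s a.2
  have hQ2k : ∀ a : k, (a : K) ∈ Q2.O ↔ a ∈ P.O := fun a => by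
    rw [← hQ1 a]
    exact hQ2 ⟨a, hka a⟩
  have hQ2ke : ∀ a : k, a ∈ P.O → Q2.ev (a : K) = i2 (i1 (P.ev a)) := by
    intro a ha
    have h1 : (a : K) ∈ Q1.O := (hQ1 a).2 ha
    have h2 := hQ2e ⟨a, hka a⟩ h1
    rw [Pl.resto_ev (x := (⟨a, hka a⟩ : adj k s)) h1] at h2
    rw [← hQ1e a ha]
    exact h2
  have hl : IsAlgClosed i2.fieldRange := by
    haveI := hΩ1
    exact isAlgClosed_equiv' i2
  have hcl : Q2.ev (c : K) ∈ i2.fieldRange := by
    rw [hQ2ke c hc]
    exact ⟨_, rfl⟩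
  haveI := hΩ2
  obtain ⟨Q3, h3, h4, h5, -⟩ := exists_one (K := Ω2) (Ω := Ω2) (l := i2.fieldRange)
    (A := i2.fieldRange) hl le_rfl hta hcl
  have h3' : ∀ a ∈ i2.fieldRange, a ∈ Q3.O ∧ Q3.ev a = a := h3
  have h5' : Q3.ev (Q2.ev t) = Q2.ev (c : K) := h5
  have hcQ : (c : K) ∈ Q2.O := (hQ2k c).2 hc
  have htc : t - c ∈ Q2.O := sub_mem htQ hcQ
  have hne : Q2.ev (t - c) ≠ 0 := by
    rw [Q2.ev_sub htQ hcQ, sub_ne_zero]
    intro h
    apply hta
    rw [h]
    exact isAlgebraic_of_mem hcl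
  have htcU : Q2.O.valuation (t - c) = 1 := Q2.U_iff.1 ⟨htc, hne⟩
  refine ⟨Ω2, inferInstance, i2.comp i1, Pl.comp' Q2 Q3, fun a => ?_, fun a ha => ?_, ?_, ?_, ?_,
    ?_, fun a ha n => ?_⟩
  · rw [Pl.mem_comp', hQ2k]
    constructor
    · exact fun h => h.1
    · intro h
      refine ⟨h, ?_⟩
      rw [hQ2ke a h]
      exact (h3' _ ⟨_, rfl⟩).1
  · have h6 := hQ2ke a ha
    have h7 : Q2.ev (a : K) ∈ i2.fieldRange := by rw [h6]; exact ⟨_, rfl⟩
    rw [Pl.comp'_ev ((hQ2k a).2 ha) (h3' _ h7).1, (h3' _ h7).2, h6]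
    rfl
  · have h6 : s ∈ Q2.O := (hQ2 ⟨s, mem_adj k s⟩).2 hsQ
    have h7 : Q2.ev s = i2 (Q1.ev s) := by
      have h8 := hQ2e ⟨s, mem_adj k s⟩ hsQ
      rw [Pl.resto_ev (x := (⟨s, mem_adj k s⟩ : adj k s)) hsQ] at h8
      exact h8
    exact ⟨h6, by rw [h7]; exact (h3' _ ⟨_, rfl⟩).1⟩
  · have h6 : s ∈ Q2.O := (hQ2 ⟨s, mem_adj k s⟩).2 hsQ
    have h7 : Q2.ev s = i2 (Q1.ev s) := by
      have h8 := hQ2e ⟨s, mem_adj k s⟩ hsQ
      rw [Pl.resto_ev (x := (⟨s, mem_adj k s⟩ : adj k s)) hsQ] at h8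
      exact h8
    have h8 : Q2.ev s ∈ i2.fieldRange := by rw [h7]; exact ⟨_, rfl⟩
    rw [Pl.comp'_ev h6 (h3' _ h8).1, (h3' _ h8).2, h7]
    intro h9
    apply hsa
    refine isAlgebraic_of_map i2 (isAlgebraic_mono ?_ h9)
    rintro _ ⟨x, rfl⟩
    exact ⟨i1 x, ⟨x, rfl⟩, rfl⟩
  · refine ⟨htc, ?_⟩
    rw [Q2.ev_sub htQ hcQ]
    exact sub_mem h4 (h3' _ hcl).1
  · have h6 : Q2.ev (t - c) ∈ Q3.O := by
      rw [Q2.ev_sub htQ hcQ]
      exact sub_mem h4 (h3' _ hcl).1
    rw [Pl.comp'_ev htc h6, Q2.ev_sub htQ hcQ, Q3.ev_sub h4 (h3' _ hcl).1, h5', (h3' _ hcl).2,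
      sub_self]
  · have h6 : Q2.O.valuation (a : K) < 1 := by
      have h7 : a ∈ P.O := P.mem_of_lt ha
      rw [← Q2.ev_eq_zero_iff ((hQ2k a).2 h7), hQ2ke a h7, P.ev_of_lt ha, map_zero, map_zero]
    have h7 : Q2.O.valuation ((a : K) / (t - c) ^ n) < 1 := by
      rw [map_div₀, map_pow, htcU, one_pow, div_one]
      exact h6
    have h8 : Q2.ev ((a : K) / (t - c) ^ n) = 0 := Q2.ev_of_lt h7
    have h9 : (a : K) / (t - c) ^ n ∈ (Pl.comp' Q2 Q3).O :=
      ⟨Q2.mem_of_lt h7, by rw [h8]; exact Q3.O.zero_mem⟩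
    exact ⟨h9, by rw [Pl.comp'_ev h9.1 h9.2, h8, Q3.ev_zero]⟩

end bota

end Vale.Agent.P019P
end
end

section

section

/-!
# Relative algebraic closedness: algebraic base change
-/

namespace Vale.Agent.P019P

open Vale.Agent.P019

set_option linter.style.haveILetI false
set_option linter.unusedSectionVars false

open Polynomial

section ul1

open IntermediateField

variable {Ω : Type*} [Field Ω]

/-- degrees do not change under base change from `E` to `R`. -/
theorem ul1_natDegree {E R : Subfield Ω} (hER : E ≤ R)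
    (hrac : ∀ z ∈ R, IsAlgebraic E z → z ∈ E) {γ : Ω} (hγ : IsAlgebraic E γ) :
    (minpoly E γ).natDegree ≤ (minpoly R γ).natDegree := by
  letI : Algebra E R := (Subfield.inclusion hER).toAlgebra
  haveI : IsScalarTower E R Ω := IsScalarTower.of_algebraMap_eq' rfl
  have hi : IsIntegral E γ := hγ.isIntegral
  have hiR : IsIntegral R γ := hi.tower_top
  have h1 : minpoly R γ ∣ (minpoly E γ).map (algebraMap E R) := by
    apply minpoly.dvd
    rw [aeval_map_algebraMap, minpoly.aeval]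
  have h2 := integralClosure.mem_lifts_of_monic_of_dvd_map R (minpoly.monic hi)
    (minpoly.monic hiR) h1
  have h3 : minpoly R γ ∈ Polynomial.lifts (algebraMap E R) := by
    rw [Polynomial.lifts_iff_coeff_lifts] at h2 ⊢
    intro i
    obtain ⟨y, hy⟩ := h2 i
    have h4 : IsIntegral E (((minpoly R γ).coeff i : R) : Ω) := by
      rw [← hy]
      exact (y.2 : IsIntegral E (y : R)).algebraMap
    exact ⟨⟨_, hrac _ ((minpoly R γ).coeff i).2 h4.isAlgebraic⟩, Subtype.ext rfl⟩
  obtain ⟨q, hq, hqd, hqm⟩ := Polynomial.lifts_and_natDegree_eq_and_monic h3 (minpoly.monic hiR)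
  rw [← hqd]
  apply Polynomial.natDegree_le_of_dvd _ hqm.ne_zero
  apply minpoly.dvd
  have h5 := minpoly.aeval R γ
  rw [← hq, aeval_map_algebraMap] at h5
  exact h5

/-- primitive elements inside `Ω`. -/
theorem ul1_primitive {E : Subfield Ω} [PerfectField E] (C : Set Ω) (hC : C.Finite)
    (h : ∀ b ∈ C, IsAlgebraic E b) : ∃ b : Ω, IsAlgebraic E b ∧
      IntermediateField.adjoin E C = IntermediateField.adjoin E {b} := by
  haveI : Finite C := hC
  haveI : FiniteDimensional E (IntermediateField.adjoin E C) :=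
    IntermediateField.finiteDimensional_adjoin fun x hx => (h x hx).isIntegral
  haveI : Algebra.IsSeparable E (IntermediateField.adjoin E C) := inferInstance
  obtain ⟨α, hα⟩ := Field.exists_primitive_element E (IntermediateField.adjoin E C)
  refine ⟨(α : Ω), ?_, ?_⟩
  · have h1 : IsIntegral E α := IsIntegral.of_finite E α
    have h2 : IsIntegral E (α : Ω) := h1.map (IntermediateField.adjoin E C).val
    exact h2.isAlgebraic
  · have h1 := congrArg (fun F => F.map (IntermediateField.adjoin E C).val) hα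
    simp only [IntermediateField.adjoin_map, Set.image_singleton] at h1
    rw [← AlgHom.fieldRange_eq_map, IntermediateField.fieldRange_val] at h1
    exact h1.symm

end ul1

/-- if `E` is relatively algebraically closed in `R` and `B` is algebraic over `E`, then `B` is
relatively algebraically closed in the compositum of `R` and `B`. -/
theorem alg_sup {Ω : Type*} [Field Ω] [PerfectField Ω] {E R B : Subfield Ω} [PerfectField E]
    (hER : E ≤ R) (hEB : E ≤ B) (hrac : ∀ z ∈ R, IsAlgebraic E z → z ∈ E)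
    (hB : ∀ b ∈ B, IsAlgebraic E b) {r : Ω} (hr : r ∈ R ⊔ B) (halg : IsAlgebraic E r) :
    r ∈ B := by
  classical
  rw [sup_comm, ← Subfield.closure_eq R] at hr
  obtain ⟨C, hC, hCN⟩ := mem_sup_finite hr
  obtain ⟨b, hb, hbC⟩ := ul1_primitive (E := E) (C : Set Ω) C.finite_toSet fun x hx => hB x (hC hx)
  obtain ⟨γ, hγ, hγC⟩ := ul1_primitive (E := E) {b, r} (Set.toFinite _) (by
    rintro x hx
    rcases hx with rfl | rfl
    · exact hb
    · exact halg)
  have hbR : IsIntegral R b := by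
    letI : Algebra E R := (Subfield.inclusion hER).toAlgebra
    haveI : IsScalarTower E R Ω := IsScalarTower.of_algebraMap_eq' rfl
    exact hb.isIntegral.tower_top
  -- everything lies in `R(b)`
  have hsub : ∀ x ∈ IntermediateField.adjoin E {b}, x ∈ IntermediateField.adjoin R {b} := by
    intro x hx
    induction hx using IntermediateField.adjoin_induction with
    | mem x hx => exact IntermediateField.subset_adjoin R _ hx
    | algebraMap x => exact (IntermediateField.adjoin R {b}).algebraMap_mem ⟨x, hER x.2⟩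
    | add x y _ _ hx hy => exact add_mem hx hy
    | inv x _ hx => exact inv_mem hx
    | mul x y _ _ hx hy => exact mul_mem hx hy
  have hrR : r ∈ IntermediateField.adjoin R {b} := by
    have h1 := hCN (IntermediateField.adjoin E (C : Set Ω)).toSubfield
      (IntermediateField.subset_adjoin E _)
    have h2 : (IntermediateField.adjoin E (C : Set Ω)).toSubfield ⊔ Subfield.closure (R : Set Ω) ≤
        (IntermediateField.adjoin R {b}).toSubfield := by
      refine sup_le ?_ ?_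
      · intro x hx
        rw [hbC] at hx
        exact hsub x hx
      · rw [Subfield.closure_eq]
        intro x hx
        exact (IntermediateField.adjoin R {b}).algebraMap_mem ⟨x, hx⟩
    exact h2 h1
  have hγR : γ ∈ IntermediateField.adjoin R {b} := by
    have h1 : γ ∈ IntermediateField.adjoin E {b, r} := by
      rw [hγC]; exact IntermediateField.mem_adjoin_simple_self E γ
    have h2 : ∀ x ∈ IntermediateField.adjoin E {b, r}, x ∈ IntermediateField.adjoin R {b} := by
      intro x hx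
      induction hx using IntermediateField.adjoin_induction with
      | mem x hx =>
        rcases hx with rfl | hx
        · exact IntermediateField.mem_adjoin_simple_self R _
        · rw [Set.mem_singleton_iff.1 hx]; exact hrR
      | algebraMap x => exact (IntermediateField.adjoin R {b}).algebraMap_mem ⟨x, hER x.2⟩
      | add x y _ _ hx hy => exact add_mem hx hy
      | inv x _ hx => exact inv_mem hx
      | mul x y _ _ hx hy => exact mul_mem hx hy
    exact h2 γ h1
  -- degrees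
  have d1 := ul1_natDegree hER hrac hγ
  have d2 : (minpoly R γ).natDegree ≤ (minpoly R b).natDegree := by
    haveI : FiniteDimensional R (IntermediateField.adjoin R {b}) :=
      IntermediateField.adjoin.finiteDimensional hbR
    rw [← IntermediateField.adjoin.finrank hbR]
    have h1 := minpoly.natDegree_le (A := R) (⟨γ, hγR⟩ : IntermediateField.adjoin R {b})
    rw [IntermediateField.minpoly_eq] at h1
    exact h1
  have d3 : (minpoly R b).natDegree ≤ (minpoly E b).natDegree := by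
    letI : Algebra E R := (Subfield.inclusion hER).toAlgebra
    haveI : IsScalarTower E R Ω := IsScalarTower.of_algebraMap_eq' rfl
    have h1 : minpoly R b ∣ (minpoly E b).map (algebraMap E R) := by
      apply minpoly.dvd
      rw [aeval_map_algebraMap, minpoly.aeval]
    have h2 := Polynomial.natDegree_le_of_dvd h1
      ((minpoly.monic hb.isIntegral).map (algebraMap E R)).ne_zero
    rwa [Polynomial.natDegree_map] at h2
  have hle : IntermediateField.adjoin E {b} ≤ IntermediateField.adjoin E {γ} := by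
    rw [← hγC]
    exact IntermediateField.adjoin.mono E _ _ (by simp)
  haveI : FiniteDimensional E (IntermediateField.adjoin E {γ}) :=
    IntermediateField.adjoin.finiteDimensional hγ.isIntegral
  have heq : IntermediateField.adjoin E {b} = IntermediateField.adjoin E {γ} := by
    apply IntermediateField.eq_of_le_of_finrank_le hle
    rw [IntermediateField.adjoin.finrank hb.isIntegral,
      IntermediateField.adjoin.finrank hγ.isIntegral]
    exact d1.trans (d2.trans d3)
  have hrb : r ∈ IntermediateField.adjoin E {b} := by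
    rw [heq, ← hγC]
    exact IntermediateField.subset_adjoin E _ (by simp)
  rw [← hbC] at hrb
  have hfin : ∀ x ∈ IntermediateField.adjoin E (C : Set Ω), x ∈ B := by
    intro x hx
    induction hx using IntermediateField.adjoin_induction with
    | mem x hx => exact hC hx
    | algebraMap x => exact hEB x.2
    | add x y _ _ hx hy => exact add_mem hx hy
    | inv x _ hx => exact inv_mem hx
    | mul x y _ _ hx hy => exact mul_mem hx hy
  exact hfin r hrb

end Vale.Agent.P019P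
end
end

section

section

/-!
# Step A: field theory
-/

namespace Vale.Agent.P019P

open Vale.Agent.P019

set_option linter.style.haveILetI false
set_option linter.unusedSectionVars false

open Polynomial Filter

section

variable {Ω : Type*} [Field Ω]

/-- algebraic extensions of bounded degree are generated by one element. -/
theorem bd_prim {M κ : Subfield Ω} [PerfectField M] (hM : M ≤ κ)
    (halg : ∀ r ∈ κ, IsAlgebraic M r) {d : ℕ} (hd : ∀ r ∈ κ, (minpoly M r).natDegree ≤ d) :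
    ∃ γ ∈ κ, κ ≤ Vale.Agent.P019.adj M γ := by
  classical
  obtain ⟨m, ⟨γ, hγ, hγm⟩, hmax⟩ : ∃ m : ℕ, (∃ γ ∈ κ, (minpoly M γ).natDegree = m) ∧
      ∀ m' : ℕ, (∃ γ ∈ κ, (minpoly M γ).natDegree = m') → m' ≤ m := by
    have h1 : ∃ m : ℕ, ∃ γ ∈ κ, (minpoly M γ).natDegree = m := ⟨_, 0, κ.zero_mem, rfl⟩
    have h2 : ∀ m : ℕ, (∃ γ ∈ κ, (minpoly M γ).natDegree = m) → m ≤ d := by
      rintro m ⟨γ, hγ, rfl⟩
      exact hd γ hγ
    exact ⟨Nat.findGreatest (fun m => ∃ γ ∈ κ, (minpoly M γ).natDegree = m) d,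
      Nat.findGreatest_spec (P := fun m => ∃ γ ∈ κ, (minpoly M γ).natDegree = m)
        (h2 _ h1.choose_spec) h1.choose_spec,
      fun m' hm' => Nat.le_findGreatest (h2 m' hm') hm'⟩
  refine ⟨γ, hγ, fun r hr => ?_⟩
  obtain ⟨b, hb, hbC⟩ := ul1_primitive (E := M) {γ, r} (Set.toFinite _) (by
    rintro x hx
    rcases hx with rfl | rfl
    · exact halg _ hγ
    · exact halg _ hr)
  have hsub : ∀ x ∈ IntermediateField.adjoin M {γ, r}, x ∈ κ := by
    intro x hx
    induction hx using IntermediateField.adjoin_induction with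
    | mem x hx =>
      rcases hx with rfl | rfl
      · exact hγ
      · exact hr
    | algebraMap x => exact hM x.2
    | add x y _ _ hx hy => exact κ.add_mem hx hy
    | mul x y _ _ hx hy => exact κ.mul_mem hx hy
    | inv x _ hx => exact κ.inv_mem hx
  have hbκ : b ∈ κ := hsub b (by rw [hbC]; exact IntermediateField.mem_adjoin_simple_self M b)
  have hγb : IntermediateField.adjoin M {γ} ≤ IntermediateField.adjoin M {b} := by
    rw [← hbC]
    exact IntermediateField.adjoin.mono M _ _ (by simp)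
  haveI : FiniteDimensional M (IntermediateField.adjoin M {b}) :=
    IntermediateField.adjoin.finiteDimensional hb.isIntegral
  have heq : IntermediateField.adjoin M {γ} = IntermediateField.adjoin M {b} := by
    refine IntermediateField.eq_of_le_of_finrank_le hγb ?_
    rw [IntermediateField.adjoin.finrank hb.isIntegral,
      IntermediateField.adjoin.finrank (halg γ hγ).isIntegral, hγm]
    exact hmax _ ⟨b, hbκ, rfl⟩
  have hr1 : r ∈ IntermediateField.adjoin M {γ} := by
    rw [heq, ← hbC]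
    exact IntermediateField.subset_adjoin M _ (by simp)
  exact mem_adjoin_simple.1 hr1

/-- finitely generated fields and embeddings. -/
theorem fg_map {L : Type*} [Field L] [PerfectField L] [PerfectField Ω] (j : L →+* Ω) {l : Subfield L}
    (h : FG l (⊤ : Subfield L)) : FG (l.map j) ((⊤ : Subfield L).map j) := by
  classical
  obtain ⟨S, hS⟩ := h
  refine ⟨S.image j, le_antisymm ?_ ?_⟩
  · rw [hS]
    refine (map_pf_le j _).trans (pf_mono ?_)
    rw [Subfield.map_le_iff_le_comap]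
    refine sup_le ?_ ?_
    · rw [← Subfield.map_le_iff_le_comap]
      exact le_sup_left
    · rw [Subfield.closure_le]
      intro x hx
      exact (le_sup_right : Subfield.closure ((S.image j : Finset Ω) : Set Ω) ≤ _)
        (Subfield.subset_closure (by simpa using ⟨x, hx, rfl⟩))
  · haveI : PerfectField ((⊤ : Subfield L).map j) := perfect_map j _
    refine pf_le (sup_le (sub_map_mono j le_top) ?_)
    rw [Subfield.closure_le]
    intro x hx
    obtain ⟨y, -, rfl⟩ := by simpa using hx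
    exact ⟨y, Subfield.mem_top y, rfl⟩

/-- algebraic dependence from a bounded relation. -/
theorem brel_alg {B : Subfield Ω} (hB : RAC B) {X Y : Ω} (hX : X ∉ B) {d : ℕ} {c : ℕ → ℕ → Ω}
    (hc : ∀ i j, c i j ∈ B)
    (h0 : ∃ i ∈ Finset.range (d + 1), ∃ j ∈ Finset.range (d + 1), c i j ≠ 0)
    (h : ∑ i ∈ Finset.range (d + 1), ∑ j ∈ Finset.range (d + 1), c i j * X ^ i * Y ^ j = 0) :
    IsAlgebraic (adj B X) Y := by
  have hmem : ∀ j, (∑ i ∈ Finset.range (d + 1), c i j * X ^ i) ∈ adj B X := fun j =>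
    sum_mem fun i _ => mul_mem (le_adj B X (hc i j)) (pow_mem (mem_adj B X) i)
  refine (apd_minpoly (E := adj B X)
    (a := fun j => ⟨∑ i ∈ Finset.range (d + 1), c i j * X ^ i, hmem j⟩) (n := d) ?_ ?_).1
  · obtain ⟨i, hi, j, hj, hij⟩ := h0
    refine ⟨j, hj, fun h1 => ?_⟩
    exact apd_ne_zero hB hX (a := fun i => c i j) (fun i => hc i j) ⟨i, hi, hij⟩
      (congrArg Subtype.val h1)
  · rw [← h, Finset.sum_comm]
    refine Finset.sum_congr rfl fun j _ => ?_
    change (∑ i ∈ Finset.range (d + 1), c i j * X ^ i) * Y ^ j = _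
    rw [Finset.sum_mul]

end

end Vale.Agent.P019P
end
end

section

section

/-!
# Relative algebraic closedness: adding a variable
-/

namespace Vale.Agent.P019P

open Vale.Agent.P019

set_option linter.style.haveILetI false
set_option linter.unusedSectionVars false

open Polynomial

section uvar

variable {K : Type*} [Field K]

/-- the rational root theorem with divisibilities. -/
theorem uvar_rat_root {E : Subfield K} {g : K} (hg : ¬ IsAlgebraic E g) {ρ : K}
    (hρ : ρ ∈ adj E g) {n : ℕ} (A : ℕ → E[X])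
    (h0 : ∑ i ∈ Finset.range (n + 1), aeval g (A i) * ρ ^ i = 0)
    (h1 : ∑ i ∈ Finset.range (n + 1), aeval g (A i) * ((i : K) * ρ ^ (i - 1)) ≠ 0) :
    ∃ u v : E[X], u ∣ A 0 ∧ v ∣ A n ∧ v ≠ 0 ∧ ρ = aeval g u / aeval g v := by
  have hρ0 : ρ ∈ Vale.Agent.P019.adj E g := by
    let p : (Vale.Agent.P019.adj E g)[X] := ∑ i ∈ Finset.range (n + 1),
      C ⟨aeval g (A i), aeval_mem_adj0 g (A i)⟩ * X ^ i
    refine mem_of_simple_root (F := Vale.Agent.P019.adj E g) (p := p) hρ ?_ ?_
    · rw [← h0, map_sum]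
      refine Finset.sum_congr rfl fun i _ => ?_
      rw [map_mul, map_pow, aeval_X, aeval_C]
      rfl
    · convert h1 using 1
      simp only [p, map_sum]
      refine Finset.sum_congr rfl fun i _ => ?_
      rw [derivative_C_mul, derivative_X_pow, map_mul, map_mul, map_pow, aeval_X, aeval_C, aeval_C,
        map_natCast]
      rfl
  obtain ⟨a, b, hab, hb, hρab⟩ := coprime_rep hg hρ0
  have hbg : aeval g b ≠ 0 := aeval_ne_of_transc hg hb
  have key : ∑ i ∈ Finset.range (n + 1), A i * a ^ i * b ^ (n - i) = 0 := by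
    by_contra hne
    apply aeval_ne_of_transc hg hne
    have e1 : aeval g (∑ i ∈ Finset.range (n + 1), A i * a ^ i * b ^ (n - i)) =
        aeval g b ^ n * ∑ i ∈ Finset.range (n + 1), aeval g (A i) * ρ ^ i := by
      rw [map_sum, Finset.mul_sum]
      refine Finset.sum_congr rfl fun i hi => ?_
      have hi' : i ≤ n := Nat.lt_succ_iff.1 (Finset.mem_range.1 hi)
      rw [map_mul, map_mul, map_pow, map_pow, hρab, div_pow]
      have e2 : aeval g b ^ n = aeval g b ^ (n - i) * aeval g b ^ i := by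
        rw [← pow_add, Nat.sub_add_cancel hi']
      rw [e2]
      have e3 := pow_ne_zero i hbg
      field_simp
    rw [e1, h0, mul_zero]
  have hbA : b ∣ A n := by
    rw [Finset.sum_range_succ] at key
    simp only [Nat.sub_self, pow_zero, mul_one] at key
    have h2 : b ∣ A n * a ^ n := by
      have h3 : b ∣ ∑ i ∈ Finset.range n, A i * a ^ i * b ^ (n - i) := by
        refine Finset.dvd_sum fun i hi => ?_
        have hi' : n - i ≠ 0 := Nat.sub_ne_zero_of_lt (Finset.mem_range.1 hi)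
        exact Dvd.dvd.mul_left (dvd_pow_self b hi') _
      have h4 : A n * a ^ n = -∑ i ∈ Finset.range n, A i * a ^ i * b ^ (n - i) := by
        rw [eq_neg_iff_add_eq_zero, add_comm]
        exact key
      rw [h4]
      exact (dvd_neg).2 h3
    exact (hab.symm.pow_right).dvd_of_dvd_mul_right h2
  have haA : a ∣ A 0 := by
    rw [Finset.sum_range_succ'] at key
    simp only [pow_zero, mul_one, Nat.sub_zero] at key
    have h2 : a ∣ A 0 * b ^ n := by
      have h3 : a ∣ ∑ i ∈ Finset.range n, A (i + 1) * a ^ (i + 1) * b ^ (n - (i + 1)) := by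
        refine Finset.dvd_sum fun i hi => ?_
        exact Dvd.dvd.mul_right (Dvd.dvd.mul_left (dvd_pow_self a (Nat.succ_ne_zero i)) _) _
      have h4 : A 0 * b ^ n =
          -∑ i ∈ Finset.range n, A (i + 1) * a ^ (i + 1) * b ^ (n - (i + 1)) := by
        rw [eq_neg_iff_add_eq_zero, add_comm]
        exact key
      rw [h4]
      exact (dvd_neg).2 h3
    exact (hab.pow_right).dvd_of_dvd_mul_right h2
  exact ⟨a, b, haA, hbA, hb, hρab⟩

/-- a factor in `B[X]` of a polynomial with coefficients in `A` is a constant times a polynomial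
with coefficients in `A`. -/
theorem uvar_factor {A B : Subfield K} (hAB : A ≤ B)
    (hrac : ∀ z ∈ B, IsAlgebraic A z → z ∈ A) {Q : A[X]} (hQ : Q ≠ 0) {u : B[X]} (hu0 : u ≠ 0)
    (hu : u ∣ Q.map (Subfield.inclusion hAB)) {y : K} (hy : ¬ IsAlgebraic B y) :
    ∃ w ∈ Vale.Agent.P019.adj A y, ∃ a ∈ B, w ≠ 0 ∧ aeval y u = a * w := by
  set u1 : B[X] := u * C (u.leadingCoeff)⁻¹ with hu1
  have hm : u1.Monic := monic_mul_leadingCoeff_inv hu0
  have hlc : u.leadingCoeff ≠ 0 := leadingCoeff_ne_zero.2 hu0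
  have huu : u = u1 * C u.leadingCoeff := by
    rw [hu1, mul_assoc, ← C_mul, inv_mul_cancel₀ hlc, C_1, mul_one]
  set Q1 : A[X] := Q * C (Q.leadingCoeff)⁻¹ with hQ1
  have hQm : Q1.Monic := monic_mul_leadingCoeff_inv hQ
  have hdvd : u1 ∣ Q1.map (Subfield.inclusion hAB) := by
    have h1 : u1 ∣ u := ⟨_, huu⟩
    have h2 : Q.map (Subfield.inclusion hAB) ∣ Q1.map (Subfield.inclusion hAB) := by
      rw [hQ1, Polynomial.map_mul]
      exact dvd_mul_right _ _
    exact (h1.trans hu).trans h2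
  have hdvd2 : u1.map B.subtype ∣ Q1.map (algebraMap A K) := by
    have h1 := map_dvd (mapRingHom B.subtype) hdvd
    have h2 : (Q1.map (Subfield.inclusion hAB)).map B.subtype = Q1.map (algebraMap A K) := by
      rw [Polynomial.map_map]
      rfl
    rw [← h2]
    exact h1
  have hint : ∀ i, ((u1.coeff i : B) : K) ∈ A := by
    intro i
    apply hrac _ (u1.coeff i).2
    have h1 := isIntegral_coeff_of_dvd Q1 (u1.map B.subtype) hQm (hm.map _) hdvd2 i
    rw [coeff_map] at h1
    exact h1.isAlgebraic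
  refine ⟨aeval y u1, ?_, (u.leadingCoeff : K), (u.leadingCoeff).2,
    aeval_ne_of_transc hy hm.ne_zero, ?_⟩
  · rw [aeval_eq_sum_range]
    refine sum_mem fun i _ => ?_
    rw [Algebra.smul_def]
    exact mul_mem (Vale.Agent.P019.le_adj A y (hint i))
      (pow_mem (Vale.Agent.P019.mem_adj A y) i)
  · conv_lhs => rw [huu]
    rw [map_mul, aeval_C, mul_comm]
    rfl

theorem uvar_aeval_map {A B : Subfield K} (hAB : A ≤ B) (Q : A[X]) (y : K) :
    aeval y (Q.map (Subfield.inclusion hAB)) = aeval y Q := by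
  rw [aeval_def, aeval_def, eval₂_map]
  rfl

end uvar

/-- if `A` is relatively algebraically closed in `B` and `y` is transcendental over `B`, then
`A(y)` is relatively algebraically closed in `B(y)` (perfect closures). -/
theorem var_rac {K : Type*} [Field K] [PerfectField K] {A B : Subfield K} [PerfectField A]
    [PerfectField B] (hAB : A ≤ B) (hrac : ∀ z ∈ B, IsAlgebraic A z → z ∈ A) {y : K}
    (hy : ¬ IsAlgebraic B y) {r : K} (hr : r ∈ adj B y) (halg : IsAlgebraic (adj A y) r) :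
    r ∈ adj A y := by
  classical
  have hyA : ¬ IsAlgebraic A y := fun h => hy (isAlgebraic_mono hAB h)
  by_cases hr0 : r = 0
  · rw [hr0]; exact Subfield.zero_mem _
  set F := adj A y with hF
  set F0 := Vale.Agent.P019.adj A y with hF0
  set m := minpoly F r with hm
  have hint : IsIntegral F r := halg.isIntegral
  have hsep : m.Separable := PerfectField.separable_of_irreducible (minpoly.irreducible hint)
  set n := m.natDegree with hn
  -- common exponent
  have hN : ∃ N : ℕ, ∀ i ∈ Finset.range (n + 1),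
      ((m.coeff i : F) : K) ^ (ringExpChar K) ^ N ∈ F0 := by
    have h1 : ∀ i, ∃ N : ℕ, ((m.coeff i : F) : K) ^ (ringExpChar K) ^ N ∈ F0 := fun i =>
      mem_pf.1 (m.coeff i).2
    choose N hN using h1
    refine ⟨(Finset.range (n + 1)).sup N, fun i hi => ?_⟩
    obtain ⟨k, hk⟩ := Nat.exists_eq_add_of_le (Finset.le_sup (f := N) hi)
    rw [hk, pow_add, pow_mul]
    exact Subfield.pow_mem _ (hN i) _
  obtain ⟨N, hN⟩ := hN
  let φ : K →+* K := iterateFrobenius K (ringExpChar K) N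
  have hφ : ∀ z, φ z = z ^ (ringExpChar K) ^ N := fun z => iterateFrobenius_def _ _ _
  let c : ℕ → K := fun i => φ ((m.coeff i : F) : K)
  have hcF : ∀ i ∈ Finset.range (n + 1), c i ∈ F0 := by
    intro i hi
    change φ _ ∈ F0
    rw [hφ]
    exact hN i hi
  set ρ := φ r with hρ
  have hsum0 : ∑ i ∈ Finset.range (n + 1), c i * ρ ^ i = 0 := by
    have h1 : aeval r m = 0 := minpoly.aeval F r
    rw [aeval_eq_sum_le le_rfl] at h1
    have h2 := congrArg φ h1
    rw [map_sum, map_zero] at h2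
    rw [← h2]
    refine Finset.sum_congr rfl fun i _ => ?_
    rw [map_mul, map_pow]
  have hsum1 : ∑ i ∈ Finset.range (n + 1), c i * ((i : K) * ρ ^ (i - 1)) ≠ 0 := by
    have h1 : aeval r (derivative m) ≠ 0 := by
      intro h
      obtain ⟨a, b, hab⟩ := hsep
      have h2 := congrArg (aeval r) hab
      rw [map_add, map_mul, map_mul, minpoly.aeval, h, mul_zero, mul_zero, add_zero, map_one] at h2
      exact zero_ne_one h2
    intro h2
    apply h1
    apply φ.injective
    rw [map_zero, ← h2]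
    conv_lhs => rw [m.as_sum_range]
    rw [derivative_sum, map_sum, map_sum]
    refine Finset.sum_congr rfl fun i _ => ?_
    rw [derivative_monomial, aeval_monomial, map_mul, map_pow, map_mul, map_mul, map_natCast,
      map_natCast]
    change c i * _ * _ = _
    ring
  obtain ⟨D, hD0, hDA⟩ := common_den hyA c (Finset.range (n + 1)) hcF
  have hDg : aeval y D ≠ 0 := aeval_ne_of_transc hyA hD0
  choose! G hG using hDA
  have hcn : c n ≠ 0 := by
    change φ _ ≠ 0
    rw [hn, hm, coeff_natDegree, (minpoly.monic hint).leadingCoeff]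
    rw [show (((1 : F) : F) : K) = 1 from rfl, map_one]
    exact one_ne_zero
  have hc0 : c 0 ≠ 0 := by
    change φ _ ≠ 0
    rw [Ne, map_eq_zero]
    intro h
    exact minpoly.coeff_zero_ne_zero hint hr0 (Subtype.ext h)
  have hGne : ∀ i ∈ Finset.range (n + 1), c i ≠ 0 → G i ≠ 0 := by
    intro i hi hci h
    have h1 := hG i hi
    rw [h, map_zero] at h1
    exact mul_ne_zero hDg hci h1.symm
  have h0n : (0 : ℕ) ∈ Finset.range (n + 1) := Finset.mem_range.2 (Nat.succ_pos n)
  have hnn : n ∈ Finset.range (n + 1) := Finset.mem_range.2 (Nat.lt_succ_self n)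
  have hρB : ρ ∈ adj B y := by
    rw [hρ, hφ]
    exact Subfield.pow_mem _ hr _
  obtain ⟨u, v, hu, hv, hv0, hρuv⟩ := uvar_rat_root hy hρB (n := n)
    (fun i => (G i).map (Subfield.inclusion hAB))
    (by
      have h1 : ∑ i ∈ Finset.range (n + 1),
          aeval y ((G i).map (Subfield.inclusion hAB)) * ρ ^ i =
          aeval y D * ∑ i ∈ Finset.range (n + 1), c i * ρ ^ i := by
        rw [Finset.mul_sum]
        refine Finset.sum_congr rfl fun i hi => ?_
        rw [uvar_aeval_map, hG i hi]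
        ring
      rw [h1, hsum0, mul_zero])
    (by
      have h1 : ∑ i ∈ Finset.range (n + 1),
          aeval y ((G i).map (Subfield.inclusion hAB)) * ((i : K) * ρ ^ (i - 1)) =
          aeval y D * ∑ i ∈ Finset.range (n + 1), c i * ((i : K) * ρ ^ (i - 1)) := by
        rw [Finset.mul_sum]
        refine Finset.sum_congr rfl fun i hi => ?_
        rw [uvar_aeval_map, hG i hi]
        ring
      rw [h1]
      exact mul_ne_zero hDg hsum1)
  have hu0 : u ≠ 0 := by
    rintro rfl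
    rw [zero_dvd_iff, Polynomial.map_eq_zero] at hu
    exact hGne 0 h0n hc0 hu
  obtain ⟨w1, hw1, a, ha, hw10, hua⟩ := uvar_factor hAB hrac (hGne 0 h0n hc0) hu0 hu hy
  obtain ⟨w2, hw2, b, hb, hw20, hvb⟩ := uvar_factor hAB hrac (hGne n hnn hcn) hv0 hv hy
  -- the constant
  have hρab : ρ = a / b * (w1 / w2) := by
    rw [hρuv, hua, hvb]
    rw [mul_div_mul_comm]
  have hrho : IsAlgebraic F ρ := by
    rw [hρ, hφ]
    exact halg.pow _
  have hw1F : w1 ∈ F := adj0_le_adj A y hw1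
  have hw2F : w2 ∈ F := adj0_le_adj A y hw2
  have hcalg : IsAlgebraic F (a / b) := by
    have h1 : a / b = ρ * (w2 / w1) := by
      rw [hρab]
      field_simp
    rw [h1]
    exact hrho.mul (isAlgebraic_of_mem (Subfield.div_mem _ hw2F hw1F))
  have habB : a / b ∈ B := Subfield.div_mem _ ha hb
  have hcA : a / b ∈ A := by
    apply hrac _ habB
    by_contra hc
    have h1 := exchange hc hcalg
    exact hy (isAlgebraic_mono (adj_le hAB habB) h1)
  have hρF : ρ ∈ F0 := by
    rw [hρab]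
    exact Subfield.mul_mem _ (Vale.Agent.P019.le_adj A y hcA) (Subfield.div_mem _ hw1 hw2)
  rw [hρ, hφ] at hρF
  exact mem_pf.2 ⟨N, hρF⟩

end Vale.Agent.P019P
end
end

section

section

/-!
# Step A: limits of residue fields of bounded degree
-/

namespace Vale.Agent.P019P

open Vale.Agent.P019

set_option linter.style.haveILetI false
set_option linter.unusedSectionVars false

open Polynomial Filter

variable {L : Type*} [Field L] [PerfectField L] {I : Type*} {U : Ultrafilter I}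
  {O : I → ValuationSubring L} {l : Subfield L}

theorem Ulu.ev_mem (hu : Ulu U O) (x : L) : ∀ᶠ i in U, x ∈ O i := by
  by_cases hx : x = 0
  · rw [hx]; exact Eventually.of_forall fun i => (O i).zero_mem
  · exact (hu x hx).mono fun i hi => ((O i).valuation_le_one_iff x).1 hi.le

end Vale.Agent.P019P
end
end

section

section

/-!
# Classes congruent to one at a valuation where `t` is a generic constant
-/

namespace Vale.Agent.P019

set_option linter.style.haveILetI false

open Polynomial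

section ifive

variable {K : Type*} [Field K] [CharZero K] (M : Mdl K) {ℓ : ℕ} [Fact ℓ.Prime]

theorem ifive_fin {F : Subfield K} (hkF : M.k ≤ F) {t : K}
    (halg : ∀ z : K, IsAlgebraic (adj F t) z) :
    ∃ S : Finset K, (∀ s ∈ S, s ∈ F) ∧
      ∀ z ∈ M.K0, IsAlgebraic (adj (M.k0 ⊔ Subfield.closure (S : Set K)) t) z := by
  classical
  obtain ⟨G, hG⟩ := M.fg
  have h1 : ∀ g : K, ∃ C : Finset K, (C : Set K) ⊆ (F : Set K) ∧
      ∀ N : Subfield K, (C : Set K) ⊆ (N : Set K) → IsAlgebraic (adj N t) g := fun g =>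
    isAlgebraic_sup_finite (k := F) (L := {t}) (halg g)
  choose C hC hCN using h1
  refine ⟨G.biUnion C, ?_, ?_⟩
  · intro s hs
    obtain ⟨g, -, hg⟩ := Finset.mem_biUnion.1 hs
    exact hC g hg
  · intro z hz
    rw [← mem_rac]
    rw [hG] at hz
    have h2 : M.k0 ⊔ Subfield.closure (G : Set K) ≤
        rac (adj (M.k0 ⊔ Subfield.closure ((G.biUnion C : Finset K) : Set K)) t) := by
      refine sup_le (le_sup_left.trans ((le_adj _ t).trans (le_rac _))) ?_
      rw [Subfield.closure_le]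
      intro g hg
      refine mem_rac.2 (hCN g _ ?_)
      intro c hc
      refine (le_sup_right : Subfield.closure ((G.biUnion C : Finset K) : Set K) ≤ _)
        (Subfield.subset_closure ?_)
      exact Finset.mem_coe.2 (Finset.mem_biUnion.2 ⟨g, hg, hc⟩)
    exact h2 hz

/-- **I5.** -/
theorem ifive (hk : ¬ (M.k : Set K).Countable) {F : Subfield K} (hkF : M.k ≤ F) {t : K}
    (halg : ∀ z : K, IsAlgebraic (adj F t) z) (htk : t ∉ M.k) (u : V ℓ K) :
    ∃ C : Set K, C.Countable ∧ ∀ a ∈ M.k, a ∉ C → ∀ W : ValuationSubring K,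
      (∀ x ∈ F, x ∈ W) → W.valuation (t - a) < 1 → u ∈ U1 ℓ W →
      u ∈ VS ℓ (rac (adj M.k t)) := by
  classical
  have hℓ : ℓ ≠ 0 := (Fact.out : ℓ.Prime).ne_zero
  obtain ⟨S, hSF, hS⟩ := ifive_fin M hkF halg
  obtain ⟨C₀, hC₀k, hC₀⟩ := exists_finite_free M.k S
  obtain ⟨x, hx0, rfl⟩ := cl_surj ℓ u
  obtain ⟨N, hN, hNc, hbig⟩ : ∃ N : Subfield K, M.Sub N ∧ (N : Set K).Countable ∧
      ∀ z ∈ ((C₀ : Set K) ∪ {t, x}), z ∈ M.F N := by
    have h0 : M.Sub M.k0 := ⟨RAC_of_isAlgClosed _ M.ack0, le_rfl, M.le_k⟩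
    obtain ⟨N, hN, hNc, -, -, h1⟩ := M.exists_big hk h0 (M.ctb.mono M.le_K0)
      ((C₀ : Set K) ∪ {t, x}) ((Finset.countable_toSet C₀).union (Set.toFinite {t, x}).countable)
    exact ⟨N, hN, hNc, h1⟩
  refine ⟨N, hNc, ?_⟩
  intro a ha haN W hWF hta hxU1
  obtain ⟨k₁, hNk₁, hk₁k, hrac, hak₁, halgk⟩ := Gn.exists_compl M.RAC_k hN.le hN.rac haN
  set A : Subfield K := M.F k₁ with hAdef
  have hk0 : M.k0 ≤ k₁ := hN.ge.trans hNk₁
  have haA : ¬ IsAlgebraic A a := fun h => hak₁ (M.free k₁ hrac hk0 hk₁k a ha h)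
  have hFA : M.F N ≤ A := Mdl.F_mono hNk₁
  have htA : t ∈ A := hFA (hbig t (Or.inr (Or.inl rfl)))
  have hxA : x ∈ A := hFA (hbig x (Or.inr (Or.inr rfl)))
  have hk₁A : k₁ ≤ A := le_sup_right
  -- the place
  set P := plOf W with hP
  have hPF : ∀ y ∈ F, y ∈ P.O := hWF
  have hPk : ∀ y ∈ M.k, y ∈ P.O := fun y hy => hPF y (hkF hy)
  set E : Subfield K := k₁ ⊔ Subfield.closure (S : Set K) with hE
  have hEF : E ≤ F := sup_le (hk₁k.trans hkF) (Subfield.closure_le.2 hSF)
  have hPE : ∀ y ∈ E, y ∈ P.O := fun y hy => hPF y (hEF hy)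
  have haE : ¬ IsAlgebraic E a := by
    intro h
    refine hak₁ (hrac a (hC₀ k₁ ?_ hk₁k a ha h))
    intro c hc
    have h1 : c ∈ M.F N := hbig c (Or.inl hc)
    have h2 : c ∈ N := M.free N hN.rac hN.ge hN.le c (hC₀k hc) (isAlgebraic_of_mem h1)
    exact hNk₁ h2
  have htaO : t - a ∈ P.O := P.mem_of_lt hta
  have haO : a ∈ P.O := hPk a ha
  have htO : t ∈ P.O := by
    have e : t = (t - a) + a := by ring
    rw [e]; exact P.O.add_mem _ _ htaO haO
  have hevt : P.ev t = P.ev a := by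
    have h1 : P.ev (t - a) = 0 := P.ev_of_lt hta
    rw [P.ev_sub htO haO, sub_eq_zero] at h1
    exact h1
  have htE : ¬ IsAlgebraic (P.im E hPE) (P.ev t) := by
    rw [hevt]
    intro h
    exact haE (P.isAlgebraic_of_im hPF hEF (hkF ha) h)
  have hadj := P.mem_adj_of_transcendental E hPE htO htE
  have hA : ∀ y ∈ A, y ∈ P.O := by
    intro y hy
    refine P.mem_of_isAlgebraic (adj E t) hadj (mem_rac.1 ?_)
    have h1 : A ≤ rac (adj E t) := by
      refine sup_le ?_ ?_
      · intro z hz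
        refine mem_rac.2 (isAlgebraic_mono (adj_mono ?_ t) (hS z hz))
        exact sup_le_sup_right hk0 _
      · exact le_sup_left.trans ((le_adj E t).trans (le_rac _))
    exact h1 hy
  have heva : IsAlgebraic (P.im A hA) (P.ev a) := by
    rw [← hevt]
    exact isAlgebraic_of_mem (P.ev_mem_im hA htA)
  obtain ⟨π, hπA, hπ, hπO, hπ0, hGd⟩ := exists_gd_adj P A hA haO haA heva
  set κ := P.im A hA ⊔ P.im M.k hPk with hκ
  have hGd1 : Gd P π κ (adj A a) := hGd κ le_sup_left
    ((le_sup_right : P.im M.k hPk ≤ κ) (P.ev_mem_im hPk ha))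
  have hGd2 : Gd P π κ (adj A a ⊔ M.k) :=
    hGd1.sup hπ hπO hπ0 hπA (E := adj k₁ a) (adj_mono hk₁A a) (adj_le hk₁k ha) hPk
      (fun y hy => (le_sup_right : P.im M.k hPk ≤ κ) (P.ev_mem_im hPk hy)) halgk
  have htop : ∀ z : K, z ∈ adj A a ⊔ M.k := by
    intro z
    have h1 : (⊤ : Subfield K) ≤ adj A a ⊔ M.k := by
      rw [← M.sup]
      exact sup_le_sup_right (le_trans le_sup_left (le_adj A a)) _
    exact h1 trivial
  -- the class
  obtain ⟨m, hm, hxm⟩ := hxU1
  have hxU : P.U x := Gn.U_of_field hA hxA hx0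
  obtain ⟨y, hy0, hy⟩ := (cl_eq_iff ℓ hx0 (one_add_ne_zero hm)).1 hxm
  have hmU : P.U (1 + m) := P.U_iff.2 (val_one_add hm)
  have hyl : P.U (y ^ ℓ) := by
    have : y ^ ℓ = x / (1 + m) := by
      rw [hy]
      have := hmU.ne_zero
      field_simp
    rw [this]
    exact hxU.div hmU
  have hyU : P.U y := by
    rw [P.U_iff] at hyl ⊢
    rw [map_pow] at hyl
    exact (pow_eq_one_iff.1 hyl).resolve_right hℓ
  have hev : P.ev y ^ ℓ = P.ev x := by
    rw [← P.ev_pow hyU.1]
    conv_rhs => rw [hy]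
    rw [P.ev_mul hmU.1 hyl.1, P.ev_add P.O.one_mem (P.mem_of_lt hm), P.ev_one,
      P.ev_of_lt hm, add_zero, one_mul]
  have hevy : P.ev y ∈ κ := Gd.ev_mem hπ hπO hπ0 hGd2 (htop y) hyU.1
  -- Kummer descent
  let E₀ : Subfield K := rac (adj k₁ t) ⊓ A
  have hE₀A : E₀ ≤ A := inf_le_right
  have hk₁E₀ : k₁ ≤ E₀ := le_inf ((le_adj k₁ t).trans (le_rac _)) hk₁A
  haveI : CharZero (AlgebraicClosure (IsLocalRing.ResidueField W)) :=
    charZero_of_injective_ringHom (P.resHom A hA).injective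
  haveI : IsAlgClosed M.k0 := M.ack0
  haveI : NeZero ((ℓ : ℕ) : M.k0) := ⟨by
    rw [Nat.cast_ne_zero]; exact hℓ⟩
  obtain ⟨ζ, hζ⟩ := HasEnoughRootsOfUnity.exists_primitiveRoot M.k0 ℓ
  have hζK : IsPrimitiveRoot (⟨(ζ : K), hk₁A (hk0 ζ.2)⟩ : A) ℓ := by
    have h1 : IsPrimitiveRoot (Subfield.inclusion (hk0.trans hk₁A) ζ) ℓ :=
      hζ.map_of_injective (RingHom.injective _)
    exact h1
  have hζ' : IsPrimitiveRoot (P.ev (ζ : K)) ℓ := by
    have h1 := hζK.map_of_injective (f := P.resHom A hA) (RingHom.injective _)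
    rwa [P.resHom_apply] at h1
  have hPE₀ : ∀ z ∈ E₀, z ∈ P.O := fun z hz => hA z (hE₀A hz)
  have hac : ∀ z ∈ P.im A hA, IsAlgebraic (P.im E₀ hPE₀) z → z ∈ P.im E₀ hPE₀ := by
    intro z hz halgz
    obtain ⟨z₀, hz₀, rfl⟩ := P.mem_im.1 hz
    have h1 := P.isAlgebraic_of_im hA hE₀A hz₀ halgz
    have h2 : IsAlgebraic (rac (adj k₁ t)) z₀ := isAlgebraic_mono inf_le_left h1
    exact P.ev_mem_im hPE₀ ⟨RAC_rac _ z₀ h2, hz₀⟩
  have hadjt : adj k₁ t ≤ E₀ := le_inf (le_rac _) (adj_le hk₁A htA)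
  have hB : ∀ b ∈ P.im M.k hPk, IsAlgebraic (P.im E₀ hPE₀) b := by
    intro b hb
    obtain ⟨c, hc, rfl⟩ := P.mem_im.1 hb
    refine P.isAlgebraic_ev (adj k₁ a) (P.im E₀ hPE₀) ?_ (halgk c hc) (hPk c hc)
    intro y hy _
    have h1 : P.ev y ∈ P.im (adj k₁ a) (fun y hy => hPk y (adj_le hk₁k ha hy)) :=
      P.ev_mem_im _ hy
    rw [P.im_adj hPk hk₁k ha, ← hevt] at h1
    have h2 : adj (P.im k₁ (fun y hy => hPk y (hk₁k hy))) (P.ev t) ≤ P.im E₀ hPE₀ := by
      refine adj_le ?_ (P.ev_mem_im hPE₀ (hadjt (mem_adj _ _)))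
      intro w hw
      obtain ⟨w₀, hw₀, rfl⟩ := P.mem_im.1 hw
      exact P.ev_mem_im hPE₀ (hk₁E₀ hw₀)
    exact h2 h1
  obtain ⟨e, he, w, hw, hew⟩ :=
    kummer_descent ℓ (P.im E₀ hPE₀) (P.im A hA) (P.im M.k hPk)
      (by
        intro z hz
        obtain ⟨z₀, hz₀, rfl⟩ := P.mem_im.1 hz
        exact P.ev_mem_im hA (hE₀A hz₀)) hac hB _
      (P.ev_mem_im hPE₀ (hk₁E₀ (hk0 ζ.2))) hζ' (P.ev_mem_im hA hxA) hxU.2 hevy hev
  obtain ⟨e', he', rfl⟩ := P.mem_im.1 he
  obtain ⟨w', hw', rfl⟩ := P.mem_im.1 hw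
  have hx' : x = e' * w' ^ ℓ := by
    apply P.ev_inj hA hxA (A.mul_mem (hE₀A he') (A.pow_mem hw' _))
    rw [P.ev_mul (hPE₀ _ he') (hA _ (A.pow_mem hw' _)), P.ev_pow (hA _ hw')]
    exact hew
  rw [cl_ne_zero_mem_VS hx0]
  refine ⟨e', rac_mono (adj_mono hk₁k t) he'.1, ?_, w', ?_, hx'⟩
  · rintro rfl
    rw [zero_mul] at hx'
    exact hx0 hx'
  · rintro rfl
    rw [zero_pow hℓ, mul_zero] at hx'
    exact hx0 hx'

end ifive

end Vale.Agent.P019
end
end
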