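import Vale.Agent.P019.MathlibFull
import Vale.Agent.P019.MathlibFull2
import Vale.Agent.P019.MathlibUsed
import Vale.Agent.P019.Bd4.B1
import Vale.Agent.P019.Bd4.B2

set_option linter.all false

namespace AFast9e249ax8a
@[reducible] noncomputable def a0.{u1} {x1 : ℕ} {x2 : Type u1} [x3 : Field x2] : SMulZeroClass (ZMod x1) (Vale.Agent.P019.V x1 x2) := inferInstance
@[reducible] noncomputable def a1.{u1} {x1 : ℕ} {x2 : Type u1} [x3 : Field x2] : SMul (ZMod x1) (Vale.Agent.P019.V x1 x2) := inferInstance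
@[reducible] noncomputable def a2.{u1} {x1 : ℕ} {x2 : Type u1} [x3 : Field x2] : DistribSMul (ZMod x1) (Vale.Agent.P019.V x1 x2) := inferInstance
theorem a3.{u1} {x1 : Type u1} [x2 : Field x1] {x3 : ValuationSubring x1} : MulHomClass (Valuation x1 x3.ValueGroup) x1 x3.ValueGroup := inferInstance
@[reducible] def a4.{u1} {x1 : Type u1} [x2 : Field x1] {x3 : Subfield x1} : CommSemiring ↥x3 := inferInstance
@[reducible] noncomputable def a5.{u1} {x1 : Type u1} [x2 : Field x1] {x3 : Subfield x1} : Module (↥x3) (Polynomial ↥x3) := inferInstance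
@[reducible] noncomputable def a6.{u1} {x1 : ℕ} {x2 : Type u1} [x3 : Field x2] [x4 : Fact (Nat.Prime x1)] : DistribMulAction (ZMod x1) (Vale.Agent.P019.V x1 x2) := inferInstance
theorem a7.{u1} {x1 : Type u1} [x2 : Field x1] {x3 : ValuationSubring x1} : ZeroLEOneClass x3.ValueGroup := inferInstance
theorem a8.{u1} {x1 : Type u1} [x2 : Field x1] : SubsemiringClass (Subfield x1) x1 := inferInstance
@[reducible] noncomputable def a9.{u1} {x1 : Type u1} [x2 : Field x1] {x3 : ValuationSubring x1} : One x3.ValueGroup := inferInstance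
@[reducible] noncomputable def a10.{u1} {x1 : ℕ} {x2 : Type u1} [x3 : Field x2] : AddCommMonoid (Vale.Agent.P019.V x1 x2) := inferInstance
@[reducible] noncomputable def a11.{u1} {x1 : Type u1} [x2 : Field x1] {x3 : ValuationSubring x1} : Preorder x3.ValueGroup := inferInstance
@[reducible] noncomputable def a12.{u1} {x1 : Type u1} [x2 : Field x1] {x3 : ValuationSubring x1} : PartialOrder x3.ValueGroup := inferInstance
@[reducible] noncomputable def a13.{u1} {x1 : Type u1} [x2 : Field x1] {x3 : ValuationSubring x1} : LT x3.ValueGroup := inferInstance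
@[reducible] def a14.{u1} {x1 : Type u1} [x2 : Field x1] {x3 : Subfield x1} : CommRing ↥x3 := inferInstance
@[reducible] noncomputable def a15.{u1} {x1 : Type u1} [x2 : Field x1] {x3 : Subfield x1} : Algebra (↥x3) (Polynomial ↥x3) := inferInstance
@[reducible] def a16.{u1} {x1 : Type u1} [x2 : Field x1] {x3 : Subfield x1} : Semiring ↥x3 := inferInstance
@[reducible] def a17.{u1} {x1 : Type u1} [x2 : Field x1] {x3 : Subfield x1} : Zero ↥x3 := inferInstance
@[reducible] noncomputable def a18.{u1} {x1 : Type u1} [x2 : Field x1] {x3 : ValuationSubring x1} : MulZeroClass x3.ValueGroup := inferInstance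
@[reducible] noncomputable def a19.{u1} {x1 : Type u1} [x2 : Field x1] {x3 : ValuationSubring x1} : Zero x3.ValueGroup := inferInstance
@[reducible] noncomputable def a20.{u1} {x1 : Type u1} [x2 : Field x1] {x3 : ValuationSubring x1} : SemilatticeInf x3.ValueGroup := inferInstance
@[reducible] noncomputable def a21.{u1} {x1 : Type u1} [x2 : Field x1] {x3 : ValuationSubring x1} : LE x3.ValueGroup := inferInstance
@[reducible] noncomputable def a22.{u1} {x1 : Type u1} [x2 : Field x1] {x3 : ValuationSubring x1} : Lattice x3.ValueGroup := inferInstance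
theorem a23.{u1} {x1 : Type u1} [x2 : Field x1] {x3 : ValuationSubring x1} : PosMulMono x3.ValueGroup := inferInstance
theorem a24.{u1} {x1 : ℕ} {x2 : Type u1} [x3 : Field x2] [x4 : Fact (Nat.Prime x1)] : AddMonoidHomClass (Vale.Agent.P019.V x1 x2 →ₗ[ZMod x1] ZMod x1) (Vale.Agent.P019.V x1 x2) (ZMod x1) := inferInstance
theorem a25.{u1} {x1 : Type u1} [x2 : Field x1] {x3 : ValuationSubring x1} : Nontrivial x3.ValueGroup := inferInstance
@[reducible] noncomputable def a26.{u1} {x1 : Type u1} [x2 : Field x1] {x3 : Subfield x1} {x4 : x1} : Module (↥(Vale.Agent.P019.adj x3 x4)) (Polynomial ↥(Vale.Agent.P019.adj x3 x4)) := inferInstance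
theorem a27.{u1} {x1 : Type u1} [x2 : Field x1] {x3 : Subfield x1} : NoZeroDivisors (Polynomial ↥x3) := inferInstance
@[reducible] noncomputable def a28.{u1} {x1 : ℕ} {x2 : Type u1} [x3 : Field x2] : Zero (Vale.Agent.P019.V x1 x2) := inferInstance
@[reducible] noncomputable def a29.{u1} {x1 : Type u1} [x2 : Field x1] {x3 : ValuationSubring x1} : MulZeroOneClass x3.ValueGroup := inferInstance
theorem a30.{u1} {x1 : Type u1} [x2 : Field x1] {x3 : Subfield x1} : Nontrivial ↥x3 := inferInstance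
@[reducible] noncomputable def a32.{u1} {x1 : ℕ} {x2 : Type u1} [x3 : Field x2] : AddZero (Vale.Agent.P019.V x1 x2) := inferInstance
@[reducible] noncomputable def a33.{u1} {x1 : ℕ} {x2 : Type u1} [x3 : Field x2] : AddZeroClass (Vale.Agent.P019.V x1 x2) := inferInstance
theorem a34.{u1} {x1 : Type u1} [x2 : Field x1] {x3 : Subfield x1} : AddMonoidHomClass (Polynomial ↥x3 →ₐ[↥x3] x1) (Polynomial ↥x3) x1 := inferInstance
@[reducible] noncomputable def a35.{u1} {x1 : Type u1} [x2 : Field x1] {x3 : ValuationSubring x1} : Mul x3.ValueGroup := inferInstance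
@[reducible] noncomputable def a36.{u1} {x1 : ℕ} {x2 : Type u1} [x3 : Field x2] : AddMonoid (Vale.Agent.P019.V x1 x2) := inferInstance
@[reducible] noncomputable def a37.{u1} {x1 : Type u1} [x2 : Field x1] {x3 : Subfield x1} : AddGroup (Polynomial ↥x3) := inferInstance
@[reducible] noncomputable def a38.{u1} {x1 : Type u1} [x2 : Field x1] {x3 : Subfield x1} : AddGroupWithOne (Polynomial ↥x3) := inferInstance
theorem a39.{u1} {x1 : Type u1} [x2 : Field x1] {x3 : Subfield x1} : IsDomain ↥x3 := inferInstance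
@[reducible] noncomputable def a40.{u1} {x1 : Type u1} [x2 : Field x1] {x3 : ValuationSubring x1} : MonoidWithZero x3.ValueGroup := inferInstance
theorem a41.{u1} {x1 : Type u1} [x2 : Field x1] {x3 : ValuationSubring x1} : MonoidHomClass (Valuation x1 x3.ValueGroup) x1 x3.ValueGroup := inferInstance
@[reducible] def a42.{u1} {x1 : Type u1} [x2 : Field x1] {x3 : Subfield x1} : NonAssocSemiring ↥x3 := inferInstance
theorem a43.{u1} {x1 : Type u1} [x2 : Field x1] {x3 : Subfield x1} : MonoidWithZeroHomClass (Polynomial ↥x3 →ₐ[↥x3] x1) (Polynomial ↥x3) x1 := inferInstance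
theorem a44.{u1} {x1 : Type u1} [x2 : Field x1] {x3 : ValuationSubring x1} : MulLeftMono x3.ValueGroup := inferInstance
theorem a45.{u1} {x1 : Type u1} [x2 : Field x1] {x3 : Subfield x1} : ZeroHomClass (Polynomial ↥x3 →ₐ[↥x3] x1) (Polynomial ↥x3) x1 := inferInstance
theorem a46.{u1} {x1 : Type u1} [x2 : Field x1] {x3 : Subfield x1} : DistribMulActionSemiHomClass (Polynomial ↥x3 →ₐ[↥x3] x1) (⇑(MonoidHom.id ↥x3)) (Polynomial ↥x3) x1 := inferInstance
theorem a47.{u1} {x1 : Type u1} [x2 : Field x1] {x3 : Subfield x1} : Nontrivial (Polynomial ↥x3) := inferInstance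
theorem a48.{u1} {x1 : Type u1} [x2 : Field x1] {x3 : Subfield x1} : NoZeroDivisors ↥x3 := inferInstance
theorem a49.{u1} {x1 : Type u1} [x2 : Field x1] {x3 : Subfield x1} : NonUnitalAlgHomClass (Polynomial ↥x3 →ₐ[↥x3] x1) (↥x3) (Polynomial ↥x3) x1 := inferInstance
@[reducible] noncomputable def a50.{u1} {x1 : Type u1} [x2 : Field x1] {x3 : Subfield x1} : AddZeroClass (Polynomial (Polynomial ↥x3)) := inferInstance
@[reducible] noncomputable def a51.{u1} {x1 : Type u1} [x2 : Field x1] {x3 : Subfield x1} : AddMonoid (Polynomial (Polynomial ↥x3)) := inferInstance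
@[reducible] noncomputable def a52.{u1} {x1 : Type u1} [x2 : Field x1] {x3 : Subfield x1} : AddMonoidWithOne (Polynomial (Polynomial ↥x3)) := inferInstance
@[reducible] noncomputable def a53.{u1} {x1 : Type u1} [x2 : Field x1] {x3 : ValuationSubring x1} {x4 : Subfield x1} {x5 : Vale.Agent.P019.TrivOn x3 x4} : CommSemiring ↥(Vale.Agent.P019.bar x5) := inferInstance
@[reducible] noncomputable def a54.{u1} {x1 : Type u1} [x2 : Field x1] {x3 : ValuationSubring x1} : MulOneClass x3.ValueGroup := inferInstance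
theorem a55.{u1} {x1 : Type u1} [x2 : Field x1] {x3 : ValuationSubring x1} : Nontrivial (IsLocalRing.ResidueField ↥x3) := inferInstance
@[reducible] noncomputable def a56.{u1} {x1 : ℕ} {x2 : Type u1} [x3 : Field x2] : Add (Vale.Agent.P019.V x1 x2) := inferInstance
theorem a57.{u1} {x1 : Type u1} [x2 : Field x1] {x3 : ValuationSubring x1} : SubsemiringClass (Subfield (IsLocalRing.ResidueField ↥x3)) (IsLocalRing.ResidueField ↥x3) := inferInstance
@[reducible] noncomputable def a58.{u1} {x1 : ℕ} {x2 : Type u1} [x3 : Field x2] : SubNegMonoid (Vale.Agent.P019.V x1 x2) := inferInstance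
@[reducible] noncomputable def a59.{u1} {x1 : ℕ} {x2 : Type u1} [x3 : Field x2] : AddCommMagma (Vale.Agent.P019.V x1 x2) := inferInstance
theorem a60.{u1} {x1 : Type u1} [x2 : Field x1] {x3 : Subfield x1} : MonoidHomClass (Polynomial ↥x3 →ₐ[↥x3] x1) (Polynomial ↥x3) x1 := inferInstance
theorem a61.{u1} {x1 : Type u1} [x2 : Field x1] {x3 : Subfield x1} : MulHomClass (Polynomial ↥x3 →ₐ[↥x3] x1) (Polynomial ↥x3) x1 := inferInstance
theorem a62.{u1} {x1 : Type u1} [x2 : Field x1] {x3 : ValuationSubring x1} : PosMulReflectLT x3.ValueGroup := inferInstance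
@[reducible] noncomputable def a63.{u1} {x1 : ℕ} {x2 : Type u1} [x3 : Field x2] : AddCommSemigroup (Vale.Agent.P019.V x1 x2) := inferInstance
theorem a64.{u1} {x1 : Type u1} [x2 : Field x1] : ZeroMemClass (Subfield x1) x1 := inferInstance
@[reducible] noncomputable def a65.{u1} {x1 : ℕ} {x2 : Type u1} [x3 : Field x2] : AddGroup (Vale.Agent.P019.V x1 x2) := inferInstance
theorem a66.{u1} {x1 : Type u1} [x2 : Field x1] {x3 : Subfield x1} : OneHomClass (Polynomial ↥x3 →ₐ[↥x3] x1) (Polynomial ↥x3) x1 := inferInstance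
@[reducible] def a67.{u1} {x1 : Type u1} [x2 : Field x1] {x3 : Subfield x1} : Monoid ↥x3 := inferInstance
theorem a68.{u1} {x1 : Type u1} [x2 : Field x1] {x3 : ValuationSubring x1} : IsRegularLocalRing (IsLocalRing.ResidueField ↥x3) := inferInstance
theorem a69.{u1} {x1 : Type u1} [x2 : Field x1] : AddSubmonoidClass (Subfield x1) x1 := inferInstance
theorem a70.{u1} {x1 : Type u1} [x2 : Field x1] {x3 : Subfield x1} : RingHomClass (Polynomial ↥x3 →ₐ[↥x3] x1) (Polynomial ↥x3) x1 := inferInstance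
@[reducible] noncomputable def a71.{u1} {x1 : Type u1} [x2 : Field x1] {x3 : Subfield x1} : SubNegMonoid (Polynomial ↥x3) := inferInstance
@[reducible] def a72.{u1} {x1 : Type u1} [x2 : Field x1] {x3 : Subfield x1} {x4 : x1} : CommSemiring ↥(Vale.Agent.P019.adj x3 x4) := inferInstance
@[reducible] noncomputable def a73.{u1} {x1 : Type u1} [x2 : Field x1] {x3 : ValuationSubring x1} : MulOne x3.ValueGroup := inferInstance
@[reducible] noncomputable def a74.{u1} {x1 : Type u1} [x2 : Field x1] {x3 : ValuationSubring x1} : Pow x3.ValueGroup ℕ := inferInstance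
@[reducible] noncomputable def a75.{u1} {x1 : Type u1} [x2 : Field x1] {x3 : ValuationSubring x1} : NPow x3.ValueGroup := inferInstance
@[reducible] noncomputable def a76.{u1} {x1 : Type u1} [x2 : Field x1] {x3 : ValuationSubring x1} : Monoid x3.ValueGroup := inferInstance
@[reducible] def a77.{u1} {x1 : Type u1} [x2 : Field x1] {x3 : Subfield x1} {x4 : IntermediateField (↥x3) x1} : SetLike (IntermediateField (↥x4) x1) x1 := inferInstance
theorem a78.{u1} {x1 : Type u1} [x2 : Field x1] {x3 : ValuationSubring x1} : IsDomain (IsLocalRing.ResidueField ↥x3) := inferInstance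
theorem a79.{u1} {x1 : Type u1} [x2 : Field x1] : SubmonoidClass (Subfield x1) x1 := inferInstance
theorem a80.{u1} {x1 : Type u1} [x2 : Field x1] {x3 : Subfield x1} {x4 : x1} : MulHomClass (Polynomial ↥x3 →+* ↥(Vale.Agent.P019.adj x3 x4)) (Polynomial ↥x3) ↥(Vale.Agent.P019.adj x3 x4) := inferInstance
theorem a82.{u1} {x1 : Type u1} [x2 : Field x1] : SubsemiringClass (ValuationSubring x1) x1 := inferInstance
end AFast9e249ax8a
attribute [local instance] AFast9e249ax8a.a0 AFast9e249ax8a.a1 AFast9e249ax8a.a2 AFast9e249ax8a.a3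
  AFast9e249ax8a.a4 AFast9e249ax8a.a5 AFast9e249ax8a.a6 AFast9e249ax8a.a7 AFast9e249ax8a.a8
  AFast9e249ax8a.a9 AFast9e249ax8a.a10 AFast9e249ax8a.a11 AFast9e249ax8a.a12 AFast9e249ax8a.a13
  AFast9e249ax8a.a14 AFast9e249ax8a.a15 AFast9e249ax8a.a16 AFast9e249ax8a.a17 AFast9e249ax8a.a18
  AFast9e249ax8a.a19 AFast9e249ax8a.a20 AFast9e249ax8a.a21 AFast9e249ax8a.a22 AFast9e249ax8a.a23
  AFast9e249ax8a.a24 AFast9e249ax8a.a25 AFast9e249ax8a.a26 AFast9e249ax8a.a27 AFast9e249ax8a.a28
  AFast9e249ax8a.a29 AFast9e249ax8a.a30 AFast9e249ax8a.a32 AFast9e249ax8a.a33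
  AFast9e249ax8a.a34 AFast9e249ax8a.a35 AFast9e249ax8a.a36 AFast9e249ax8a.a37 AFast9e249ax8a.a38
  AFast9e249ax8a.a39 AFast9e249ax8a.a40 AFast9e249ax8a.a41 AFast9e249ax8a.a42 AFast9e249ax8a.a43
  AFast9e249ax8a.a44 AFast9e249ax8a.a45 AFast9e249ax8a.a46 AFast9e249ax8a.a47 AFast9e249ax8a.a48
  AFast9e249ax8a.a49 AFast9e249ax8a.a50 AFast9e249ax8a.a51 AFast9e249ax8a.a52 AFast9e249ax8a.a53
  AFast9e249ax8a.a54 AFast9e249ax8a.a55 AFast9e249ax8a.a56 AFast9e249ax8a.a57 AFast9e249ax8a.a58
  AFast9e249ax8a.a59 AFast9e249ax8a.a60 AFast9e249ax8a.a61 AFast9e249ax8a.a62 AFast9e249ax8a.a63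
  AFast9e249ax8a.a64 AFast9e249ax8a.a65 AFast9e249ax8a.a66 AFast9e249ax8a.a67 AFast9e249ax8a.a68
  AFast9e249ax8a.a69 AFast9e249ax8a.a70 AFast9e249ax8a.a71 AFast9e249ax8a.a72 AFast9e249ax8a.a73
  AFast9e249ax8a.a74 AFast9e249ax8a.a75 AFast9e249ax8a.a76 AFast9e249ax8a.a77 AFast9e249ax8a.a78
  AFast9e249ax8a.a79 AFast9e249ax8a.a80 AFast9e249ax8a.a82
namespace AFast9e249ax8b
theorem a0.{u1} {x1 : Type u1} [x2 : Field x1] : MulActionSemiHomClass ((x1 × x1) ≃ₗ[x1] x1 × x1) (⇑(RingHom.id x1)) (x1 × x1) (x1 × x1) := inferInstance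
theorem a1.{u1} {x1 : Type u1} [x2 : Field x1] : SemilinearMapClass ((x1 × x1) ≃ₗ[x1] x1 × x1) (RingHom.id x1) (x1 × x1) (x1 × x1) := inferInstance
@[reducible] noncomputable def a2.{u1} {x1 : Type u1} [x2 : Field x1] {x3 : Subfield x1} {x4 : IntermediateField (↥x3) x1} : Algebra (↥x4) (Polynomial ↥x4) := inferInstance
@[reducible] noncomputable def a3.{u1} {x1 : Type u1} [x2 : Field x1] {x3 : Subfield x1} {x4 : IntermediateField (↥x3) x1} : Module (↥x4) (Polynomial ↥x4) := inferInstance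
theorem a4.{u1} {x1 : Type u1} [x2 : Field x1] {x3 : Subfield x1} : AddHomClass (Polynomial (Polynomial ↥x3) →+* x1) (Polynomial (Polynomial ↥x3)) x1 := inferInstance
theorem a5.{u1} {x1 : Type u1} [x2 : Field x1] {x3 : Subfield x1} [x4 : IsAlgClosed ↥x3] : PerfectField ↥x3 := inferInstance
theorem a6.{u1} {x1 : Type u1} [x2 : Field x1] {x3 : Subfield x1} : AddMonoidHomClass (Polynomial (Polynomial ↥x3) →+* x1) (Polynomial (Polynomial ↥x3)) x1 := inferInstance
theorem a7.{u1} {x1 : Type u1} [x2 : Field x1] {x3 : Subfield x1} : AddHomClass (Polynomial ↥x3 →ₐ[↥x3] x1) (Polynomial ↥x3) x1 := inferInstance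
theorem a8.{u1} {x1 : Type u1} [x2 : Field x1] {x3 : Subfield x1} : LinearMapClass (Polynomial ↥x3 →ₐ[↥x3] x1) (↥x3) (Polynomial ↥x3) x1 := inferInstance
theorem a9.{u1} {x1 : Type u1} [x2 : Field x1] : AddHomClass ((x1 × x1) ≃ₗ[x1] x1 × x1) (x1 × x1) (x1 × x1) := inferInstance
theorem a10.{u1} {x1 : Type u1} [x2 : Field x1] {x3 : Subfield x1} : IsReduced (Polynomial ↥x3) := inferInstance
theorem a11.{u1} {x1 : Type u1} [x2 : Field x1] {x3 : ValuationSubring x1} : NoZeroDivisors (IsLocalRing.ResidueField ↥x3) := inferInstance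
end AFast9e249ax8b
attribute [local instance] AFast9e249ax8b.a0 AFast9e249ax8b.a1 AFast9e249ax8b.a2 AFast9e249ax8b.a3
  AFast9e249ax8b.a4 AFast9e249ax8b.a5 AFast9e249ax8b.a6 AFast9e249ax8b.a7 AFast9e249ax8b.a8
  AFast9e249ax8b.a9 AFast9e249ax8b.a10 AFast9e249ax8b.a11
attribute [local instance] O19.fr O19.tf O19.pj O19.fl

section

section

/-!
# Rational function subfields
-/

namespace Vale.Agent.P019

set_option linter.style.haveILetI false

open Polynomial

section line

variable {K : Type*} [Field K] [CharZero K] {ℓ : ℕ} [Fact ℓ.Prime]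

theorem line_transc {K : Type*} [Field K] {k : Subfield K} (hk : IsAlgClosed k) {x : K}
    (hx : x ∉ k) : Function.Injective (aeval x : k[X] →ₐ[k] K) := by
  have h1 : Transcendental k x := fun h => hx (RAC_of_isAlgClosed k hk x h)
  exact transcendental_iff_injective.1 h1

theorem line_aeval_ne {K : Type*} [Field K] {k : Subfield K} (hk : IsAlgClosed k) {x : K}
    (hx : x ∉ k) {p : k[X]} (hp : p ≠ 0) : aeval x p ≠ 0 := by
  intro h
  exact hp (line_transc hk hx (by rw [h, map_zero]))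

theorem line_mem {K : Type*} [Field K] {k : Subfield K} {x z : K}
    (hz : z ∈ adj k x) : ∃ p q : k[X], z = aeval x p / aeval x q := by
  have h1 : adj k x ≤ (IntermediateField.adjoin k {x}).toSubfield := by
    refine adj_le ?_ ?_
    · intro a ha
      exact (IntermediateField.adjoin k {x}).algebraMap_mem ⟨a, ha⟩
    · exact IntermediateField.mem_adjoin_simple_self k x
  have h2 : z ∈ IntermediateField.adjoin k {x} := h1 hz
  rw [IntermediateField.mem_adjoin_simple_iff] at h2
  exact h2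

theorem line_cl_const {K : Type*} [Field K] {ℓ : ℕ} [Fact ℓ.Prime] {k : Subfield K}
    (hk : IsAlgClosed k) {c : K} (hc : c ∈ k) : cl ℓ c = 0 := by
  by_cases h0 : c = 0
  · rw [h0, cl_zero]
  · obtain ⟨w, hw⟩ := IsAlgClosed.exists_pow_nat_eq (⟨c, hc⟩ : k) (Fact.out : ℓ.Prime).pos
    rw [cl_eq_zero_iff ℓ h0]
    refine ⟨(w : K), ?_, ?_⟩
    · intro h
      apply h0
      have h2 := congrArg (Subtype.val : k → K) hw
      have h3 : (w : K) ^ ℓ = c := h2
      rw [h, zero_pow (Fact.out : ℓ.Prime).ne_zero] at h3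
      exact h3.symm
    · have h2 := congrArg (Subtype.val : k → K) hw
      simpa using h2

theorem line_cl_aeval {K : Type*} [Field K] {ℓ : ℕ} [Fact ℓ.Prime] {k : Subfield K}
    (hk : IsAlgClosed k) {x : K} (hx : x ∉ k) {p : k[X]} (hp : p ≠ 0) :
    cl ℓ (aeval x p) ∈ Submodule.span (ZMod ℓ) (Set.range fun c : k => cl ℓ (x - (c : K))) := by
  have hsub : ∀ c : k, x - (c : K) ≠ 0 := by
    intro c h
    apply hx
    rw [sub_eq_zero] at h
    rw [h]
    exact c.2
  have key : ∀ m : Multiset k, cl ℓ (aeval x (m.map fun a => X - C a).prod) ∈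
      Submodule.span (ZMod ℓ) (Set.range fun c : k => cl ℓ (x - (c : K))) ∧
      aeval x (m.map fun a => X - C a).prod ≠ 0 := by
    intro m
    induction m using Multiset.induction_on with
    | empty =>
      refine ⟨?_, ?_⟩
      · simp [cl_one]
      · simp
    | cons a m ih =>
      have e : aeval x (((a ::ₘ m).map fun a => X - C a).prod : k[X]) =
          (x - (a : K)) * aeval x ((m.map fun a => X - C a).prod : k[X]) := by
        rw [Multiset.map_cons, Multiset.prod_cons, map_mul, map_sub, aeval_X, aeval_C]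
        rfl
      rw [e]
      refine ⟨?_, mul_ne_zero (hsub a) ih.2⟩
      rw [cl_mul ℓ (hsub a) ih.2]
      exact Submodule.add_mem _ (Submodule.subset_span ⟨a, rfl⟩) ih.1
  have h1 : p = C p.leadingCoeff * (p.roots.map fun a => X - C a).prod :=
    (IsAlgClosed.splits p).eq_prod_roots
  have h2 : aeval x p = ((p.leadingCoeff : k) : K) *
      aeval x ((p.roots.map fun a => X - C a).prod : k[X]) := by
    conv_lhs => rw [h1]
    rw [map_mul, aeval_C]
    rfl
  have h3 : ((p.leadingCoeff : k) : K) ≠ 0 := by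
    intro h
    exact hp (leadingCoeff_eq_zero.1 (Subtype.ext h))
  rw [h2, cl_mul ℓ h3 (key p.roots).2, line_cl_const hk (p.leadingCoeff).2, zero_add]
  exact (key p.roots).1

theorem line_VS_le {K : Type*} [Field K] {ℓ : ℕ} [Fact ℓ.Prime] {k : Subfield K}
    (hk : IsAlgClosed k) {x : K} (hx : x ∉ k) : VS ℓ (adj k x) ≤
      Submodule.span (ZMod ℓ) (Set.range fun c : k => cl ℓ (x - (c : K))) := by
  intro v hv
  obtain ⟨z, hz, hz0, rfl⟩ := mem_VS.1 hv
  obtain ⟨p, q, rfl⟩ := line_mem hz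
  have hp : p ≠ 0 := by
    rintro rfl
    simp at hz0
  have hq : q ≠ 0 := by
    rintro rfl
    simp at hz0
  rw [cl_div ℓ (line_aeval_ne hk hx hp) (line_aeval_ne hk hx hq)]
  exact Submodule.sub_mem _ (line_cl_aeval hk hx hp) (line_cl_aeval hk hx hq)

end line

end Vale.Agent.P019
end
end

section

section

/-!
# Bertini
-/

namespace Vale.Agent.P019

set_option linter.style.haveILetI false

open Polynomial

/-- `K` is essentially of finite type over any subfield containing `k`. -/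
theorem bert_ess {K : Type*} [Field K] {k F : Subfield K} (hkF : k ≤ F)
    (hfg : FG k (⊤ : Subfield K)) : Algebra.EssFiniteType F K := by
  obtain ⟨S, hS⟩ := hfg
  have h1 : (IntermediateField.adjoin F (S : Set K)) = ⊤ := by
    rw [← top_le_iff]
    intro z _
    have hz : z ∈ (k ⊔ Subfield.closure (S : Set K) : Subfield K) := by rw [← hS]; trivial
    have h2 : (k ⊔ Subfield.closure (S : Set K) : Subfield K) ≤
        (IntermediateField.adjoin F (S : Set K)).toSubfield := by
      refine sup_le ?_ (Subfield.closure_le.2 (IntermediateField.subset_adjoin _ _))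
      intro a ha
      exact (IntermediateField.adjoin F (S : Set K)).algebraMap_mem ⟨a, hkF ha⟩
    exact h2 hz
  rw [← IntermediateField.fg_top_iff]
  exact ⟨S, h1⟩

end Vale.Agent.P019
end
end

section

section

/-!
# Rationality of functions that are constant on fibres
-/

namespace Vale.Agent.P019

open Polynomial Filter

variable {N : Type*} [Field N]

/-- the elements which become polynomial in `h` after multiplication by a power of `u`. -/
def locRing (B : Subring N) (u : N) (hu : u ∈ B) : Subring N where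
  carrier := {x | ∃ m : ℕ, x * u ^ m ∈ B}
  mul_mem' := by
    rintro x y ⟨m, hm⟩ ⟨k, hk⟩
    refine ⟨m + k, ?_⟩
    have : x * y * u ^ (m + k) = (x * u ^ m) * (y * u ^ k) := by ring
    rw [this]
    exact B.mul_mem hm hk
  one_mem' := ⟨0, by simp⟩
  add_mem' := by
    rintro x y ⟨m, hm⟩ ⟨k, hk⟩
    refine ⟨m + k, ?_⟩
    have : (x + y) * u ^ (m + k) = (x * u ^ m) * u ^ k + (y * u ^ k) * u ^ m := by ring
    rw [this]
    exact B.add_mem (B.mul_mem hm (B.pow_mem hu k)) (B.mul_mem hk (B.pow_mem hu m))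
  zero_mem' := ⟨0, by simp⟩
  neg_mem' := by
    rintro x ⟨m, hm⟩
    refine ⟨m, ?_⟩
    rw [neg_mul]
    exact B.neg_mem hm

/-- if all valuations over `σ = b` kill `h - c` then a power of `h - c` is divisible by
`σ - b` in `G[σ, h]`. -/
theorem exists_pow_eq {G : Subfield N} {σ h b c : N} (B : Subring N) (hG : ∀ g ∈ G, g ∈ B)
    (hσ : σ ∈ B) (hh : h ∈ B) (hb : b ∈ G) (hc : c ∈ G)
    (hW : ∀ W : ValuationSubring N, Over W G σ b → W.valuation (h - c) < 1) :
    ∃ m : ℕ, ∃ β ∈ B, (h - c) ^ m = (σ - b) * β := by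
  by_cases h0 : h - c = 0
  · exact ⟨1, 0, B.zero_mem, by rw [h0]; simp⟩
  have hu : h - c ∈ B := B.sub_mem hh (hG c hc)
  let A := locRing B (h - c) hu
  have hBA : ∀ x ∈ B, x ∈ A := fun x hx => ⟨0, by simpa using hx⟩
  have hsb : σ - b ∈ A := hBA _ (B.sub_mem hσ (hG b hb))
  by_cases hI : Ideal.span {(⟨σ - b, hsb⟩ : A)} = ⊤
  · rw [Ideal.eq_top_iff_one, Ideal.mem_span_singleton'] at hI
    obtain ⟨⟨a, m, ha⟩, h1⟩ := hI
    have h2 : a * (σ - b) = 1 := congrArg Subtype.val h1
    refine ⟨m, a * (h - c) ^ m, ha, ?_⟩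
    rw [← mul_assoc, mul_comm (σ - b) a, h2, one_mul]
  · exfalso
    obtain ⟨W, hW1, hW2⟩ := exists_val_of_proper A _ hI
    have hov : Over W G σ b :=
      ⟨fun g hg => hW1 g (hBA g (hG g hg)), hW2 ⟨σ - b, hsb⟩ (Ideal.mem_span_singleton_self _)⟩
    have h3 := hW W hov
    have h4 : (h - c)⁻¹ ∈ A := ⟨1, by
      rw [pow_one, inv_mul_cancel₀ h0]; exact B.one_mem⟩
    have h5 := (W.valuation_le_one_iff _).2 (hW1 _ h4)
    rw [map_inv₀] at h5
    have h6 : 0 < W.valuation (h - c) := zero_lt_iff.2 ((Valuation.ne_zero_iff _).2 h0)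
    exact absurd h3 (not_lt.2 ((inv_le_one₀ h6).1 h5))

theorem residue_eq_zero {W : ValuationSubring N} (x : W) :
    IsLocalRing.residue W x = 0 ↔ W.valuation (x : N) < 1 := by
  rw [IsLocalRing.residue_eq_zero_iff, W.valuation_lt_one_iff]

/-- monic divisors of a power of `T - c`. -/
theorem eq_pow_of_dvd {κ : Type*} [Field κ] {Φ : κ[X]} (hΦ : Φ.Monic) {c : κ} {m : ℕ}
    (h : Φ ∣ (X - C c) ^ m) : Φ = (X - C c) ^ Φ.natDegree := by
  obtain ⟨i, _, hi⟩ := (dvd_prime_pow (prime_X_sub_C c) m).1 h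
  have h1 : Φ = (X - C c) ^ i :=
    eq_of_monic_of_associated hΦ ((monic_X_sub_C c).pow i) hi
  have h2 : Φ.natDegree = i := by
    rw [h1, natDegree_pow, natDegree_X_sub_C, mul_one]
  rw [h2]; exact h1

end Vale.Agent.P019
end
end

section

section

/-!
# Lueroth's theorem for subfields
-/

namespace Vale.Agent.P019

open Polynomial

set_option linter.unusedVariables false in
theorem luroth_sub {N : Type*} [Field N] {k E : Subfield N} {σ : N} (hσ : ¬ IsAlgebraic k σ)
    (hkE : k ≤ E) (hE : E ≤ adj k σ) (hne : ¬ E ≤ k) : ∃ u ∈ E, E = adj k u := by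
  have hinj : Function.Injective (aeval σ : k[X] →ₐ[k] N) := by
    rw [injective_iff_map_eq_zero]
    intro p hp
    by_contra h
    exact hσ ⟨p, h, hp⟩
  let φ : RatFunc k →ₐ[k] N := RatFunc.liftAlgHom (aeval σ : k[X] →ₐ[k] N)
    (nonZeroDivisors_le_comap_nonZeroDivisors_of_injective _ hinj)
  let E1 : IntermediateField k N :=
    { E with algebraMap_mem' := fun x => hkE x.2 }
  let A : N → IntermediateField k N := fun u =>
    { adj k u with algebraMap_mem' := fun x => le_adj k u x.2 }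
  let E' : IntermediateField k (RatFunc k) := E1.comap φ
  have hmemE' : ∀ z, z ∈ E' ↔ φ z ∈ E := fun z => Iff.rfl
  refine ⟨φ (RatFunc.Luroth.generator E'), (hmemE' _).1 RatFunc.Luroth.generator_mem, ?_⟩
  apply le_antisymm
  · intro z hz
    obtain ⟨r, s, hrs⟩ := Gn.mem_adj_frac (hE hz)
    have h1 : φ (algebraMap k[X] (RatFunc k) r / algebraMap k[X] (RatFunc k) s) = z := by
      rw [hrs]
      exact RatFunc.liftAlgHom_apply_div _ _ _ _
    have h2 : algebraMap k[X] (RatFunc k) r / algebraMap k[X] (RatFunc k) s ∈ E' := by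
      rw [hmemE', h1]
      exact hz
    rw [RatFunc.Luroth.eq_adjoin_generator (E := E')] at h2
    have h3 : IntermediateField.adjoin k {RatFunc.Luroth.generator E'} ≤
        (A (φ (RatFunc.Luroth.generator E'))).comap φ := by
      rw [IntermediateField.adjoin_le_iff]
      rintro _ rfl
      exact mem_adj k _
    have h4 : φ (algebraMap k[X] (RatFunc k) r / algebraMap k[X] (RatFunc k) s) ∈
        adj k (φ (RatFunc.Luroth.generator E')) := h3 h2
    rw [h1] at h4
    exact h4
  · exact adj_le hkE ((hmemE' _).1 RatFunc.Luroth.generator_mem)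

end Vale.Agent.P019
end
end

section

section

/-!
# Finite kernels and ranks modulo `U1`
-/

namespace Vale.Agent.P019

open Polynomial Filter

variable {K : Type*} [Field K] {ℓ : ℕ} [Fact ℓ.Prime]

theorem Nice.finite [CharZero K] {k F E : Subfield K} (hk : IsAlgClosed k) (hkF : k ≤ F)
    (hfg : FG k F) {W : ValuationSubring K} {π θ : K} (hW : Nice W F π θ) (hkE : k ≤ E)
    (hEW : TrivOn W E) :
    ((U1 ℓ W ⊓ VS ℓ E : Submodule (ZMod ℓ) (V ℓ K)) : Set (V ℓ K)).Finite := by
  have hkW : TrivOn W k := hW.triv.mono hkF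
  have := rs_charZero hEW
  have hfgN : FG (bar hkW) (⊤ : Subfield (IsLocalRing.ResidueField W)) :=
    hW.fg hkF hfg hkW
  have hfgE : FG (bar hEW) (⊤ : Subfield (IsLocalRing.ResidueField W)) :=
    hfgN.mono (bar_mono hkW hEW hkE) le_top
  obtain ⟨ζ, hζk, hζ⟩ := finK_prim (bar_isAlgClosed hkW hk) ℓ
  obtain ⟨N, hN⟩ := fk ℓ hfgE (bar_mono hkW hEW hkE hζk) hζ
  by_contra hinf
  have hinf' : ((U1 ℓ W ⊓ VS ℓ E : Submodule (ZMod ℓ) (V ℓ K)) : Set (V ℓ K)).Infinite := hinf
  let f := hinf'.natEmbedding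
  have hf : ∀ n : ℕ, ∃ e ∈ E, e ≠ 0 ∧ ((f n : V ℓ K)) = cl ℓ e ∧ cl ℓ e ∈ U1 ℓ W := by
    intro n
    obtain ⟨h1, h2⟩ := Submodule.mem_inf.1 (f n).2
    obtain ⟨e, he, he0, h⟩ := mem_VS.1 h2
    exact ⟨e, he, he0, h, h ▸ h1⟩
  choose e heE he0 hfe heU using hf
  have hval : ∀ n, W.valuation (e n) = 1 := fun n => hEW.eq_one (heE n) (he0 n)
  obtain ⟨i, j, hij, y, hy, hy0, hxy⟩ := hN (fun i => rs W (e i)) (by
    intro i
    have h1 : rs W (e i) ≠ 0 := (rs_ne_zero (hEW _ (heE i))).2 (hval i)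
    refine ⟨rs_mem_bar hEW (heE i), h1, ?_⟩
    obtain ⟨w, _, hw⟩ := (cl_eq_zero_iff ℓ h1).1 ((cl_mem_U1_iff (hval i)).1 (heU i))
    exact ⟨w, Subfield.mem_top w, hw⟩)
  obtain ⟨e', he', rfl⟩ := (mem_bar hEW).1 hy
  have he'0 : e' ≠ 0 := by
    rintro rfl
    exact hy0 rs_zero
  have h1 : e i = e j * e' ^ ℓ := by
    apply rs_injOn hEW (heE i) (E.mul_mem (heE j) (E.pow_mem he' ℓ))
    rw [rs_mul (hEW _ (heE j)) (hEW _ (E.pow_mem he' ℓ)), rs_pow (hEW _ he')]
    exact hxy
  have h2 : cl ℓ (e i) = cl ℓ (e j) := (cl_eq_iff ℓ (he0 i) (he0 j)).2 ⟨e', he'0, h1⟩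
  apply hij
  apply Fin.ext
  apply f.injective
  apply Subtype.ext
  rw [hfe, hfe, h2]

theorem rk2_of_finite {A U : Submodule (ZMod ℓ) (V ℓ K)} (hA : (A : Set (V ℓ K)).Infinite)
    (h : ((U ⊓ A : Submodule (ZMod ℓ) (V ℓ K)) : Set (V ℓ K)).Finite) : Rk2 A U := by
  have : NeZero ℓ := ⟨(Fact.out : ℓ.Prime).ne_zero⟩
  obtain ⟨u, huA, hu⟩ := hA.exists_notMem_finite h
  have huU : u ∉ U := fun h' => hu ⟨h', huA⟩
  have h2 : (⋃ i : ZMod ℓ, (fun w => i • u + w) ''
      ((U ⊓ A : Submodule (ZMod ℓ) (V ℓ K)) : Set (V ℓ K))).Finite :=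
    Set.finite_iUnion fun i => h.image _
  obtain ⟨v, hvA, hv⟩ := hA.exists_notMem_finite h2
  refine ⟨u, huA, v, hvA, fun i j hij => ?_⟩
  have hj : j = 0 := by
    by_contra hj
    apply hv
    rw [Set.mem_iUnion]
    refine ⟨-(j⁻¹ * i), v + (j⁻¹ * i) • u, ⟨?_, ?_⟩, ?_⟩
    · have h3 := U.smul_mem j⁻¹ hij
      rw [smul_add, smul_smul, smul_smul, inv_mul_cancel₀ hj, one_smul, add_comm] at h3
      exact h3
    · exact A.add_mem hvA (A.smul_mem _ huA)
    · simp only [neg_smul]
      abel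
  refine ⟨?_, hj⟩
  by_contra hi
  apply huU
  rw [hj, zero_smul, add_zero] at hij
  have h3 := U.smul_mem i⁻¹ hij
  rw [smul_smul, inv_mul_cancel₀ hi, one_smul] at h3
  exact h3

theorem Rk2.mono {A B U : Submodule (ZMod ℓ) (V ℓ K)} (h : Rk2 A U) (hAB : A ≤ B ⊔ U) :
    Rk2 B U := by
  obtain ⟨u, hu, v, hv, huv⟩ := h
  obtain ⟨b, hb, w, hw, rfl⟩ := Submodule.mem_sup.1 (hAB hu)
  obtain ⟨b', hb', w', hw', rfl⟩ := Submodule.mem_sup.1 (hAB hv)
  refine ⟨b, hb, b', hb', fun i j hij => huv i j ?_⟩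
  have h1 : i • (b + w) + j • (b' + w') = (i • b + j • b') + (i • w + j • w') := by
    rw [smul_add, smul_add]
    abel
  rw [h1]
  exact U.add_mem hij (U.add_mem (U.smul_mem _ hw) (U.smul_mem _ hw'))

theorem finB_cl_neg {k : Subfield K} (hk : IsAlgClosed k) (x : K) : cl ℓ (-x) = cl ℓ x := by
  by_cases hx : x = 0
  · rw [hx, neg_zero]
  · have h1 : -x = (-1) * x := by ring
    rw [h1, cl_mul ℓ (by simp) hx, line_cl_const hk (k.neg_mem k.one_mem), zero_add]

end Vale.Agent.P019
end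
end

section

section

/-!
# Rational function subfields
-/

namespace Vale.Agent.P019P

open Vale.Agent.P019

set_option linter.style.haveILetI false

open Polynomial

section line

variable {K : Type*} [Field K] [PerfectField K] {ℓ : ℕ} [Fact ℓ.Prime] [NeZero (ℓ : K)]

theorem line_VS_le {K : Type*} [Field K] {ℓ : ℕ} [Fact ℓ.Prime] [NeZero (ℓ : K)] {k : Subfield K}
    (hk : IsAlgClosed k) {x : K} (hx : x ∉ k) : VS ℓ (adj k x) ≤
      Submodule.span (ZMod ℓ) (Set.range fun c : k => cl ℓ (x - (c : K))) := by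
  rw [adj, VS_pf]
  exact Vale.Agent.P019.line_VS_le hk hx


/-- S17 linear independence of the classes of `x - c` for good `x`. -/
theorem good_independent {k : Subfield K} (hk : IsAlgClosed k) {x : K} (hx : Good k x)
    (s : Finset K) (hs : ∀ c ∈ s, c ∈ k) (n : K → ZMod ℓ)
    (h : ∑ c ∈ s, n c • cl ℓ (x - c) = 0) : ∀ c ∈ s, n c = 0 := by
  classical
  have hℓ : ℓ.Prime := Fact.out
  have hsub : ∀ c ∈ s, x - c ≠ 0 := by
    intro c hc h
    apply hx.1
    rw [sub_eq_zero] at h
    rw [h]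
    exact hs c hc
  -- product
  have e1 : ∀ t : Finset K, t ⊆ s → (∏ c ∈ t, (x - c) ^ (n c).val) ≠ 0 ∧
      cl ℓ (∏ c ∈ t, (x - c) ^ (n c).val) = ∑ c ∈ t, n c • cl ℓ (x - c) := by
    intro t
    induction t using Finset.induction_on with
    | empty =>
      intro _
      simp [cl_one]
    | insert a t ha ih =>
      intro ht
      have ih' := ih (fun c hc => ht (Finset.mem_insert_of_mem hc))
      have ha' : x - a ≠ 0 := hsub a (ht (Finset.mem_insert_self a t))
      rw [Finset.prod_insert ha, Finset.sum_insert ha]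
      refine ⟨mul_ne_zero (pow_ne_zero _ ha') ih'.1, ?_⟩
      rw [cl_mul ℓ (pow_ne_zero _ ha') ih'.1, ih'.2, cl_pow]
      congr 1
      rw [← Nat.cast_smul_eq_nsmul (ZMod ℓ), ZMod.natCast_zmod_val]
  obtain ⟨hne, hcl⟩ := e1 s (Finset.Subset.refl s)
  rw [h] at hcl
  obtain ⟨w, hw0, hw⟩ := (cl_eq_zero_iff ℓ hne).1 hcl
  -- the product as the value of a polynomial
  set P : k[X] := ∏ c ∈ s.attach, (X - C (⟨c.1, hs c.1 c.2⟩ : k)) ^ (n c.1).val with hP
  have hPx : aeval x P = ∏ c ∈ s, (x - c) ^ (n c).val := by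
    rw [hP, map_prod, ← Finset.prod_attach s]
    refine Finset.prod_congr rfl ?_
    intro c _
    rw [map_pow, map_sub, aeval_X, aeval_C]
    rfl
  have hPmem : aeval x P ∈ adj k x := by
    have : aeval x P = ∏ c ∈ s, (x - c) ^ (n c).val := hPx
    rw [this]
    refine Subfield.prod_mem _ ?_
    intro c hc
    exact Subfield.pow_mem _ (Subfield.sub_mem _ (mem_adj k x) (le_adj k x (hs c hc))) _
  have hwalg : IsAlgebraic (adj k x) w := by
    refine ⟨X ^ ℓ - C ⟨aeval x P, hPmem⟩, ?_, ?_⟩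
    · exact (monic_X_pow_sub_C _ hℓ.ne_zero).ne_zero
    · rw [map_sub, map_pow, aeval_X, aeval_C, hw, ← hPx]
      exact sub_self _
  have hwmem : w ∈ adj k x := hx.2 w hwalg
  obtain ⟨j, hj⟩ := mem_adj_iff.1 hwmem
  set Q := ringExpChar K ^ j with hQ
  have hQ0 : Q ≠ 0 := (pow_pos (expChar_pos K _) j).ne'
  obtain ⟨p, q, hpq⟩ := line_mem hj
  have hp : p ≠ 0 := by
    rintro rfl
    rw [map_zero, zero_div] at hpq
    exact pow_ne_zero _ hw0 hpq
  have hq : q ≠ 0 := by
    rintro rfl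
    rw [map_zero, div_zero] at hpq
    exact pow_ne_zero _ hw0 hpq
  have hqx := line_aeval_ne hk hx.1 hq
  have hpoly : P ^ Q * q ^ ℓ = p ^ ℓ := by
    apply line_transc hk hx.1
    rw [map_mul, map_pow, map_pow, map_pow, hPx, ← hw, ← pow_mul, mul_comm ℓ Q, pow_mul, hpq,
      div_pow, div_mul_cancel₀ _ (pow_ne_zero _ hqx)]
  have hP0 : P ≠ 0 := by
    intro h0
    rw [h0, zero_pow hQ0, zero_mul] at hpoly
    exact pow_ne_zero _ hp hpoly.symm
  intro c hc
  have hm : rootMultiplicity (⟨c, hs c hc⟩ : k) (P ^ Q * q ^ ℓ) =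
      rootMultiplicity (⟨c, hs c hc⟩ : k) (p ^ ℓ) := by rw [hpoly]
  have hcP : ∀ t : Finset s, rootMultiplicity (⟨c, hs c hc⟩ : k)
      (∏ c ∈ t, (X - C (⟨c.1, hs c.1 c.2⟩ : k)) ^ (n c.1).val) =
      if (⟨c, hc⟩ : s) ∈ t then (n c).val else 0 := by
    intro t
    induction t using Finset.induction_on with
    | empty => simp
    | insert a t ha ih =>
      have hne1 : ∀ u : Finset s, (∏ c ∈ u, (X - C (⟨c.1, hs c.1 c.2⟩ : k)) ^ (n c.1).val) ≠ 0 := by
        intro u
        exact Finset.prod_ne_zero_iff.2 (fun b _ => pow_ne_zero _ (X_sub_C_ne_zero _))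
      have hne2 : (∏ c ∈ insert a t, (X - C (⟨c.1, hs c.1 c.2⟩ : k)) ^ (n c.1).val) ≠ 0 := hne1 _
      rw [Finset.prod_insert ha] at hne2 ⊢
      rw [rootMultiplicity_mul hne2, ih]
      by_cases hac : a = ⟨c, hc⟩
      · subst hac
        rw [if_neg ha, if_pos (Finset.mem_insert_self _ _), add_zero, rootMultiplicity_X_sub_C_pow]
      · have h4 : (⟨c, hc⟩ : s) ∈ insert a t ↔ (⟨c, hc⟩ : s) ∈ t := by
          rw [Finset.mem_insert]
          constructor
          · rintro (h5 | h5)
            · exact absurd h5.symm hac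
            · exact h5
          · exact Or.inr
        have h5 : rootMultiplicity (⟨c, hs c hc⟩ : k)
            ((X - C (⟨a.1, hs a.1 a.2⟩ : k)) ^ (n a.1).val) = 0 := by
          apply rootMultiplicity_eq_zero
          rw [IsRoot, eval_pow, eval_sub, eval_X, eval_C]
          apply pow_ne_zero
          rw [Ne, sub_eq_zero]
          intro h6
          apply hac
          have h7 := congrArg (Subtype.val : k → K) h6
          exact Subtype.ext h7.symm
        rw [h5, zero_add]
        simp only [h4]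
  have hpowm : ∀ (r : k[X]) (m : ℕ), rootMultiplicity (⟨c, hs c hc⟩ : k) (r ^ m) =
      m * rootMultiplicity (⟨c, hs c hc⟩ : k) r := by
    intro r m
    rw [← count_roots, ← count_roots, roots_pow, Multiset.count_nsmul]
  rw [rootMultiplicity_mul (mul_ne_zero (pow_ne_zero _ hP0) (pow_ne_zero _ hq)), hpowm q,
    hpowm p, hpowm P, hP, hcP s.attach, if_pos (Finset.mem_attach _ _)] at hm
  have hdvd : ℓ ∣ (n c).val := by
    have h8 : ℓ ∣ Q * (n c).val + ℓ * rootMultiplicity (⟨c, hs c hc⟩ : k) q := by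
      rw [hm]; exact dvd_mul_right _ _
    have h9 : ℓ ∣ Q * (n c).val := (Nat.dvd_add_left (dvd_mul_right _ _)).1 h8
    refine (hℓ.dvd_mul.1 h9).resolve_left ?_
    intro h10
    exact q_pow_ne_zero ℓ K j ((ZMod.natCast_eq_zero_iff _ _).2 h10)
  have hlt : (n c).val < ℓ := ZMod.val_lt _
  have h0 : (n c).val = 0 := Nat.eq_zero_of_dvd_of_lt hdvd hlt
  exact (ZMod.val_eq_zero _).1 h0


/-- S18 factorization in the rational function field. -/
theorem adj_factor {k : Subfield K} (hk : IsAlgClosed k) {x : K} (hx : x ∉ k) {v : V ℓ K}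
    (hv : v ∈ VS ℓ (adj k x)) :
    ∃ (s : Finset K) (n : K → ZMod ℓ), (∀ c ∈ s, c ∈ k) ∧ v = ∑ c ∈ s, n c • cl ℓ (x - c) := by
  classical
  have h1 := line_VS_le hk hx hv
  obtain ⟨f, hf⟩ := (Finsupp.mem_span_range_iff_exists_finsupp).1 h1
  refine ⟨f.support.map ⟨Subtype.val, Subtype.val_injective⟩,
    fun c => if h : c ∈ k then f ⟨c, h⟩ else 0, ?_, ?_⟩
  · intro c hc
    obtain ⟨a, _, rfl⟩ := Finset.mem_map.1 hc
    exact a.2
  · rw [← hf, Finsupp.sum, Finset.sum_map]
    refine Finset.sum_congr rfl ?_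
    intro a _
    have : (a : K) ∈ k := a.2
    simp

/-- S19 the line subspaces are isotropic. -/
theorem adj_isotropic {k : Subfield K} (hk : IsAlgClosed k) {x : K} (hx : x ∉ k) :
    Isotropic (VS ℓ (adj k x)) := by
  have hsub : ∀ c : k, x - (c : K) ≠ 0 := by
    intro c h
    apply hx
    rw [sub_eq_zero] at h
    rw [h]
    exact c.2
  have hneg1 : ∃ i : K, i ^ ℓ = -1 := by
    obtain ⟨w, hw⟩ := IsAlgClosed.exists_pow_nat_eq (-1 : k) (Fact.out : ℓ.Prime).pos
    refine ⟨(w : K), ?_⟩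
    have h2 := congrArg (Subtype.val : k → K) hw
    simpa using h2
  have hself : ∀ a : K, Orth (cl ℓ a) (cl ℓ a) := by
    intro a
    by_cases ha0 : a = 0
    · rw [ha0, cl_zero]; exact orth_zero_left _
    by_cases ha1 : a = 1
    · rw [ha1, cl_one]; exact orth_zero_left _
    have h1 : (1 - a) ≠ 0 := sub_ne_zero.2 (Ne.symm ha1)
    have h2 : (1 - a⁻¹) ≠ 0 := by
      rw [sub_ne_zero]
      intro h
      exact ha1 (by rw [eq_comm, inv_eq_one] at h; exact h)
    have h3 : -a = (1 - a) / (1 - a⁻¹) := by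
      rw [eq_div_iff h2]
      field_simp
      ring
    have h4 : cl ℓ a = cl ℓ (1 - a) - cl ℓ (1 - a⁻¹) := by
      rw [← cl_neg ℓ hneg1 a, h3, cl_div ℓ h1 h2]
    have h5 : Orth (cl ℓ a) (cl ℓ (1 - a)) := orth_one_sub a
    have h6 : Orth (cl ℓ a) (cl ℓ (1 - a⁻¹)) := by
      have h7 : Orth (cl ℓ a⁻¹) (cl ℓ (1 - a⁻¹)) := orth_one_sub a⁻¹
      have h8 := h7.neg_left
      rw [cl_inv, neg_neg] at h8
      exact h8
    have h9 := h5.sub_right h6
    rw [← h4] at h9
    exact h9
  have hpair : ∀ c d : k, Orth (cl ℓ (x - (c : K))) (cl ℓ (x - (d : K))) := by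
    intro c d
    by_cases hcd : c = d
    · subst hcd
      exact hself _
    have hdc : (d : K) - c ≠ 0 := by
      rw [sub_ne_zero]
      intro h
      exact hcd (Subtype.ext h.symm)
    have hcd' : (c : K) - d ≠ 0 := by
      rw [sub_ne_zero]
      intro h
      exact hcd (Subtype.ext h)
    have h1 : Orth (cl ℓ ((x - c) / ((d : K) - c))) (cl ℓ (1 - (x - c) / ((d : K) - c))) :=
      orth_one_sub _
    have h2 : 1 - (x - c) / ((d : K) - c) = (x - d) / ((c : K) - d) := by
      rw [eq_div_iff hcd', sub_mul, div_mul_eq_mul_div, sub_eq_iff_eq_add]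
      field_simp
      ring
    rw [h2, cl_div ℓ (hsub c) hdc, cl_div ℓ (hsub d) hcd',
      line_cl_const hk (Subfield.sub_mem _ d.2 c.2), line_cl_const hk (Subfield.sub_mem _ c.2 d.2),
      sub_zero, sub_zero] at h1
    exact h1
  have key1 : ∀ c : k, ∀ w ∈ Submodule.span (ZMod ℓ) (Set.range fun c : k => cl ℓ (x - (c : K))),
      Orth (cl ℓ (x - (c : K))) w := by
    intro c w hw
    refine Submodule.span_induction (p := fun w _ => Orth (cl ℓ (x - (c : K))) w) ?_ ?_ ?_ ?_ hw
    · rintro _ ⟨d, rfl⟩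
      exact hpair c d
    · exact orth_zero_right _
    · intro a b _ _ ha hb
      exact ha.add_right hb
    · intro r a _ ha
      exact ha.smul_right r
  have key2 : ∀ u ∈ Submodule.span (ZMod ℓ) (Set.range fun c : k => cl ℓ (x - (c : K))),
      ∀ w ∈ Submodule.span (ZMod ℓ) (Set.range fun c : k => cl ℓ (x - (c : K))), Orth u w := by
    intro u hu w hw
    refine Submodule.span_induction (p := fun u _ => Orth u w) ?_ ?_ ?_ ?_ hu
    · rintro _ ⟨c, rfl⟩
      exact key1 c w hw
    · exact orth_zero_left _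
    · intro a b _ _ ha hb
      exact ha.add_left hb
    · intro r a _ ha
      exact ha.smul_left r
  intro u hu w hw
  exact key2 u (line_VS_le hk hx hu) w (line_VS_le hk hx hw)

end line

end Vale.Agent.P019P
end
end

section

section

/-!
# Residue fields (perfect version)

`rs`, `bar`, `barEquiv`, `rs_aeval`, ... are those of the old file.
-/

namespace Vale.Agent.P019P

open Vale.Agent.P019

set_option linter.style.haveILetI false
set_option linter.unusedSectionVars false
set_option linter.unusedVariables false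

open Polynomial Filter

variable {K : Type*} [Field K] {W : ValuationSubring K} {E : Subfield K}

theorem rs_ringExpChar (h : TrivOn W E) :
    ringExpChar (IsLocalRing.ResidueField W) = ringExpChar K := by
  haveI h1 : ExpChar E (ringExpChar K) := expChar_sub E
  haveI h2 : ExpChar E (ringExpChar (IsLocalRing.ResidueField W)) :=
    (barHom h).expChar (barHom h).injective _
  exact ExpChar.eq h2 h1

theorem rs_perfect [PerfectField K] (h : TrivOn W E) :
    PerfectField (IsLocalRing.ResidueField W) := by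
  haveI : PerfectRing (IsLocalRing.ResidueField W)
      (ringExpChar (IsLocalRing.ResidueField W)) := PerfectRing.ofSurjective _ _ fun c => by
    obtain ⟨z, hz, rfl⟩ := rs_surj c
    obtain ⟨y, -, hy⟩ := exists_root_q (⊤ : Subfield K) (Subfield.mem_top z) 1
    rw [pow_one] at hy
    have hyW : y ∈ W := by
      rw [← W.valuation_le_one_iff]
      have h1 : W.valuation y ^ ringExpChar K ≤ 1 := by
        rw [← map_pow, hy]
        exact (W.valuation_le_one_iff z).2 hz
      exact (pow_le_one_iff_of_nonneg zero_le (expChar_pos K _).ne').1 h1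
    refine ⟨rs W y, ?_⟩
    change rs W y ^ ringExpChar (IsLocalRing.ResidueField W) = _
    rw [rs_ringExpChar h, ← rs_pow hyW, hy]
  exact PerfectRing.toPerfectField _ (ringExpChar (IsLocalRing.ResidueField W))

theorem rs_neZero {ℓ : ℕ} [NeZero (ℓ : K)] (h : TrivOn W E) :
    NeZero (ℓ : IsLocalRing.ResidueField W) := by
  refine ⟨?_⟩
  intro h0
  have h1 : barHom h (ℓ : E) = 0 := by rw [map_natCast, h0]
  have h2 : (ℓ : E) = 0 := (map_eq_zero _).1 h1
  have h3 := congrArg (algebraMap E K) h2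
  rw [map_natCast, map_zero] at h3
  exact NeZero.ne ((ℓ : ℕ) : K) h3

theorem bar_perfect [PerfectField E] (h : TrivOn W E) : PerfectField (bar h) := by
  refine perfect_of_root ?_
  intro z hz
  obtain ⟨e, he, rfl⟩ := (mem_bar h).1 hz
  obtain ⟨y, hy, hye⟩ := exists_root_q E he 1
  rw [pow_one] at hye
  refine ⟨rs W y, rs_mem_bar h hy, ?_⟩
  rw [rs_ringExpChar h, ← rs_pow (h _ hy), hye]

theorem bar_adj [PerfectField K] (h : TrivOn W E) {x : K} (hx : TrivOn W (adj E x)) :
    bar hx = adj (bar h) (rs W x) := by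
  have hx0 : TrivOn W (Vale.Agent.P019.adj E x) := hx.mono (adj0_le_adj E x)
  apply le_antisymm
  · intro c hc
    obtain ⟨e, he, rfl⟩ := (mem_bar hx).1 hc
    obtain ⟨n, hn⟩ := mem_adj_iff.1 he
    refine mem_adj_iff.2 ⟨n, ?_⟩
    rw [rs_ringExpChar h, ← rs_pow (hx _ he), ← Vale.Agent.P019.bar_adj h hx0]
    exact rs_mem_bar hx0 hn
  · haveI : PerfectField (bar hx) := bar_perfect hx
    exact adj_le (bar_mono h hx (le_adj E x)) (rs_mem_bar hx (mem_adj E x))

theorem isAlgebraic_of_bar (h : TrivOn W E) {z : K} (hz : TrivOn W (adj E z))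
    (halg : IsAlgebraic (bar h) (rs W z)) : IsAlgebraic E z :=
  Vale.Agent.P019.isAlgebraic_of_bar h (hz.mono (adj0_le_adj E z)) halg

end Vale.Agent.P019P
end
end

section

section

/-!
# Frames and generic valuations (perfect version)

`mem_adjoin_simple`, `isAlgebraic_adjoin_simple` (for the plain `adj`), `frb_ae`, `exists_over`,
`Over.trivOn` are those of the old file.
-/

namespace Vale.Agent.P019P

open Vale.Agent.P019

set_option linter.style.haveILetI false
set_option linter.unusedSectionVars false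

open Polynomial Filter

variable {K : Type*} [Field K]

theorem isAlgebraic_adjoin_simple' {F : Subfield K} {x z : K} :
    IsAlgebraic (IntermediateField.adjoin F {x}) z ↔ IsAlgebraic (adj F x) z := by
  rw [isAlgebraic_adj]
  exact isAlgebraic_adjoin_simple

/-- a subfield algebraic over a perfect subfield is perfect. -/
theorem frp_perfect {F E : Subfield K} [PerfectField F] (h : F ≤ E)
    (halg : ∀ z ∈ E, IsAlgebraic F z) : PerfectField E := by
  letI : Algebra F E := (Subfield.inclusion h).toAlgebra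
  haveI : Algebra.IsAlgebraic F E := ⟨fun z => by
    obtain ⟨P, hP0, hP⟩ := halg z z.2
    refine ⟨P, hP0, ?_⟩
    apply Subtype.ext
    have e : ((aeval z P : E) : K) = aeval (z : K) P := by
      have h1 : algebraMap F K = (algebraMap E K).comp (algebraMap F E) := rfl
      rw [aeval_def, aeval_def, h1]
      exact hom_eval₂ P (algebraMap F E) (algebraMap E K) z
    rw [e, hP]
    rfl⟩
  exact Algebra.IsAlgebraic.perfectField (K := F) (L := E)

/-- primitive elements. -/
theorem exists_prim [PerfectField K] {k F : Subfield K} [PerfectField F] (hkF : k ≤ F)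
    (hfg : FG k (⊤ : Subfield K)) (halg : ∀ z : K, IsAlgebraic F z) :
    ∃ θ : K, ∀ z, z ∈ Vale.Agent.P019.adj F θ := by
  obtain ⟨S, hS⟩ := hfg
  set F' : Subfield K := F ⊔ Subfield.closure (S : Set K) with hF'
  haveI : PerfectField F' := frp_perfect (le_sup_left : F ≤ F') fun z _ => halg z
  have htop : (⊤ : Subfield K) = F' := by
    apply le_antisymm _ le_top
    rw [hS]
    exact pf_le (sup_le_sup_right hkF _)
  have hfg' : Vale.Agent.P019.FG F (⊤ : Subfield K) := ⟨S, htop⟩
  have : Algebra.EssFiniteType F K := bert_ess le_rfl hfg'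
  have : Algebra.IsAlgebraic F K := ⟨halg⟩
  have : Module.Finite F K := Algebra.finite_of_essFiniteType_of_isAlgebraic
  obtain ⟨θ, hθ⟩ := Field.exists_primitive_element F K
  refine ⟨θ, fun z => mem_adjoin_simple.1 ?_⟩
  rw [hθ]
  exact IntermediateField.mem_top

attribute [-instance] AFast9e249ax8a.a0 AFast9e249ax8a.a1 AFast9e249ax8a.a2 AFast9e249ax8a.a3 AFast9e249ax8a.a4 AFast9e249ax8a.a5 AFast9e249ax8a.a6 AFast9e249ax8a.a7 AFast9e249ax8a.a8 AFast9e249ax8a.a9 AFast9e249ax8a.a10 AFast9e249ax8a.a11 AFast9e249ax8a.a12 AFast9e249ax8a.a13 AFast9e249ax8a.a14 AFast9e249ax8a.a15 AFast9e249ax8a.a16 AFast9e249ax8a.a17 AFast9e249ax8a.a18 AFast9e249ax8a.a19 AFast9e249ax8a.a20 AFast9e249ax8a.a21 AFast9e249ax8a.a22 AFast9e249ax8a.a23 AFast9e249ax8a.a24 AFast9e249ax8a.a25 AFast9e249ax8a.a26 AFast9e249ax8a.a27 AFast9e249ax8a.a28 AFast9e249ax8a.a29 AFast9e249ax8a.a30 AFast9e249ax8a.a32 AFast9e249ax8a.a33 AFast9e249ax8a.a34 AFast9e249ax8a.a35 AFast9e249ax8a.a36 AFast9e249ax8a.a37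 AFast9e249ax8a.a38 AFast9e249ax8a.a39 AFast9e249ax8a.a40 AFast9e249ax8a.a41 AFast9e249ax8a.a42 AFast9e249ax8a.a43 AFast9e249ax8a.a44 AFast9e249ax8a.a45 AFast9e249ax8a.a46 AFast9e249ax8a.a47 AFast9e249ax8a.a48 AFast9e249ax8a.a49 AFast9e249ax8a.a50 AFast9e249ax8a.a51 AFast9e249ax8a.a52 AFast9e249ax8a.a53 AFast9e249ax8a.a54 AFast9e249ax8a.a55 AFast9e249ax8a.a56 AFast9e249ax8a.a57 AFast9e249ax8a.a58 AFast9e249ax8a.a59 AFast9e249ax8a.a60 AFast9e249ax8a.a61 AFast9e249ax8a.a62 AFast9e249ax8a.a63 AFast9e249ax8a.a64 AFast9e249ax8a.a65 AFast9e249ax8a.a66 AFast9e249ax8a.a67 AFast9e249ax8a.a68 AFast9e249ax8a.a69 AFast9e249ax8a.a70 AFast9e249ax8a.a71 AFast9e249ax8a.a72 AFast9e249ax8a.a73 AFast9e249ax8a.a74 AFast9e249ax8a.a75 AFast9e249ax8a.a76 AFast9e249ax8a.a77 AFast9e249ax8a.a78 AFast9e249ax8a.a79 AFast9e249ax8a.a80 AFast9e249ax8a.a82 AFast9e249ax8b.a0 AFast9e249ax8b.a1 AFast9e249ax8b.a2 AFast9e249ax8b.a3 AFast9e249ax8b.a4 AFast9e249ax8b.a5 AFast9e249ax8b.a6 AFast9e249ax8b.a7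 AFast9e249ax8b.a8 AFast9e249ax8b.a9 AFast9e249ax8b.a10 AFast9e249ax8b.a11 in
theorem exists_frame [PerfectField K] {k : Subfield K} (hfg : FG k (⊤ : Subfield K)) {t s : K}
    (hs : ¬ IsAlgebraic k s) (ht : ¬ IsAlgebraic (adj k s) t) : ∃ G, Frame k G t s := by
  classical
  obtain ⟨S, hS⟩ := hfg
  let GT : Finset K → Subfield K := fun T => pf (k ⊔ Subfield.closure (T : Set K))
  let 𝒯 : Finset (Finset K) := S.powerset.filter
    (fun T => ¬ IsAlgebraic (GT T) s ∧ ¬ IsAlgebraic (adj (GT T) s) t)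
  have hne : 𝒯.Nonempty := by
    refine ⟨∅, Finset.mem_filter.2 ⟨Finset.mem_powerset.2 (Finset.empty_subset _), ?_⟩⟩
    have : GT ∅ = pf k := by
      change pf (k ⊔ Subfield.closure ((∅ : Finset K) : Set K)) = pf k
      rw [Finset.coe_empty, Subfield.closure_empty, sup_bot_eq]
    rw [this]
    refine ⟨fun h => hs (isAlgebraic_pf.1 h), fun h => ht ?_⟩
    refine isAlgebraic_mono ?_ h
    exact adj_le ((pf_mono (Vale.Agent.P019.le_adj k s))) (mem_adj k s)
  obtain ⟨T, hT, hmax⟩ := 𝒯.exists_max_image Finset.card hne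
  rw [Finset.mem_filter, Finset.mem_powerset] at hT
  obtain ⟨hTS, hTs, hTt⟩ := hT
  refine ⟨GT T, (le_sup_left : k ≤ k ⊔ _).trans (le_pf _), ⟨T, rfl⟩, hTt, hTs, ?_⟩
  set H : Subfield K := adj (adj (GT T) s) t with hH
  have hkH : k ≤ H := ((le_sup_left : k ≤ k ⊔ Subfield.closure (T : Set K)).trans (le_pf _)).trans
    ((le_adj _ _).trans (le_adj _ _))
  have hgen : ∀ z ∈ S, IsAlgebraic H z := by
    intro z hz
    by_contra hcon
    have hzT : z ∉ T := by
      intro h
      apply hcon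
      have h1 : z ∈ GT T := le_pf _ ((le_sup_right : Subfield.closure (T : Set K) ≤ _)
        (Subfield.subset_closure h))
      exact isAlgebraic_of_mem (le_adj _ t (le_adj _ s h1))
    have hG' : GT (insert z T) = adj (GT T) z := by
      have e1 : k ⊔ Subfield.closure ((insert z T : Finset K) : Set K) =
        (k ⊔ Subfield.closure (T : Set K)) ⊔ Subfield.closure {z} := by
        rw [Finset.coe_insert, Set.insert_eq, Subfield.closure_union, sup_assoc]
        congr 1
        exact sup_comm _ _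
      change pf (k ⊔ Subfield.closure ((insert z T : Finset K) : Set K)) = _
      rw [e1]
      apply le_antisymm
      · exact pf_mono (sup_le_sup_right (le_pf _) _)
      · refine adj_le (pf_mono le_sup_left) ?_
        exact le_pf _ ((le_sup_right : Subfield.closure {z} ≤ _)
          (Subfield.subset_closure rfl))
    have h1 : insert z T ∈ 𝒯 := by
      refine Finset.mem_filter.2 ⟨Finset.mem_powerset.2 (Finset.insert_subset hz hTS), ?_, ?_⟩
      · rw [hG']
        intro h
        exact hcon (isAlgebraic_mono (le_adj _ t) (exchange hTs h))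
      · rw [hG', adj_comm]
        intro h
        exact hcon (exchange hTt h)
    have h2 := hmax _ h1
    rw [Finset.card_insert_of_notMem hzT] at h2
    omega
  intro z
  have h1 : (⊤ : Subfield K) ≤ rac H := by
    rw [hS]
    refine pf_le (sup_le (hkH.trans (le_rac H)) (Subfield.closure_le.2 ?_))
    intro w hw
    exact mem_rac.2 (hgen w hw)
  exact mem_rac.1 (h1 (Subfield.mem_top z))

theorem Frame.perfect [PerfectField K] {k G : Subfield K} {t s : K} (h : Frame k G t s) :
    PerfectField G := h.fg.perfect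

theorem Frame.swap [PerfectField K] {k G : Subfield K} {t s : K} (h : Frame k G t s) :
    Frame k G s t where
  le := h.le
  fg := h.fg
  tt := fun h' => h.tt (exchange h.ss h')
  ss := fun h' => h.tt (isAlgebraic_mono (le_adj _ _) h')
  alg := fun z => by
    rw [adj_comm]
    exact h.alg z

/-- a valuation over `t = b` is over `y = c` for roots `y`, `c` of `t`, `b`. -/
theorem Over.root {F : Subfield K} [PerfectField F] {W : ValuationSubring K} {t b y : K} {n : ℕ}
    (hb : b ∈ F) (hy : y ^ (ringExpChar K) ^ n = t) (h : Over W F t b) :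
    ∃ c ∈ F, c ^ (ringExpChar K) ^ n = b ∧ Over W F y c := by
  obtain ⟨c, hc, hcb⟩ := exists_root_q F hb n
  refine ⟨c, hc, hcb, h.triv, ?_⟩
  have h1 := h.lt
  rw [← hy, ← hcb, ← sub_pow_q, map_pow] at h1
  by_contra hcon
  exact absurd h1 (not_lt.2 (one_le_pow₀ (not_lt.1 hcon)))

/-- generic description of the valuations, for elements of a plain field `F(y, θ)`. -/
theorem frp_core {F : Subfield K} {X θ : K} {W : ValuationSubring K} (hX0 : X ≠ 0)
    (hWF : TrivOn W F) (hWX : W.valuation X < 1) (F' : IntermediateField F K)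
    (hF' : F' = IntermediateField.adjoin F {X}) (Φ : F'[X]) (hmon : Φ.Monic)
    (hint : IntCoeff W Φ) (hroot : aeval θ Φ = 0)
    (hder : W.valuation (aeval θ (derivative Φ)) = 1) :
    θ ∈ W ∧
    (∀ z ∈ IntermediateField.adjoin F' {θ}, z ≠ 0 → ∃ n : ℤ, W.valuation (z * X ^ n) = 1) ∧
    (∀ z ∈ IntermediateField.adjoin F' {θ}, W.valuation z ≤ 1 → ∃ P Q : F[X],
      W.valuation (aeval θ Q) = 1 ∧ W.valuation (z * aeval θ Q - aeval θ P) < 1) ∧
    ∃ P : F[X], P.Monic ∧ W.valuation (aeval θ P) < 1 := by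
  let π : F' := ⟨X, by rw [hF']; exact IntermediateField.mem_adjoin_simple_self F X⟩
  have hπ0 : π ≠ 0 := fun h => hX0 (congrArg Subtype.val h)
  have hFrep : ∀ z : F', z ≠ 0 → ∃ n : ℤ, W.valuation (algebraMap F' K (z * π ^ n)) = 1 := by
    intro z hz
    have hzF : (z : K) ∈ IntermediateField.adjoin F {X} := by rw [← hF']; exact z.2
    obtain ⟨n, c, hc, hc0, h⟩ := exists_residue hWF hWX hX0 hzF
      (fun h => hz (Subtype.ext h))
    refine ⟨n, ?_⟩
    rw [map_mul, map_zpow₀]
    exact val_of_sub (hWF.eq_one hc hc0) h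
  have hcore := fun z (hz : z ∈ IntermediateField.adjoin F' {θ}) (hz0 : z ≠ 0) =>
    unr_core W π hπ0 hWX hFrep θ Φ hmon hint hroot hder z hz hz0
  have hθW : θ ∈ W := mem_of_root hmon hint hroot
  have hred : ∀ P : F'[X], IntCoeff W P → ∃ r : ℕ → F, ∀ i,
      W.valuation ((P.coeff i : K) - (r i : K)) < 1 := by
    intro P hP
    have hPF : ∀ i : ℕ, ((P.coeff i : F') : K) ∈ IntermediateField.adjoin F {X} := by
      intro i; rw [← hF']; exact (P.coeff i).2
    choose r hr using fun i : ℕ => exists_residue_of_le hWF hWX hX0 (hPF i)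
      ((W.valuation_le_one_iff _).2 (hP i))
    exact ⟨r, hr⟩
  refine ⟨hθW, ?_, ?_, ?_⟩
  · intro z hz hz0
    obtain ⟨n, G, H, -, -, hH, hG, h⟩ := hcore z hz hz0
    refine ⟨n, ?_⟩
    have := congrArg W.valuation h
    rw [map_mul, hH, hG, mul_one] at this
    exact this
  · intro z hz hz1
    rcases hz1.lt_or_eq with hlt | heq
    · exact ⟨0, 1, by rw [map_one, map_one], by rw [map_one, map_zero, sub_zero, mul_one]; exact hlt⟩
    have hz0 : z ≠ 0 := by rintro rfl; rw [map_zero] at heq; exact zero_ne_one heq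
    obtain ⟨n, G, H, hGi, hHi, hH, hG, h⟩ := hcore z hz hz0
    have hn : n = 0 := by
      have h1 := congrArg W.valuation h
      rw [map_mul, map_mul, hH, hG, heq, mul_one, one_mul, map_zpow₀] at h1
      by_contra hn
      have hpos : 0 < W.valuation X := zero_lt_iff.2 ((Valuation.ne_zero_iff _).2 hX0)
      have h1' : W.valuation X ^ n = 1 := h1
      rcases lt_or_gt_of_ne hn with hn | hn
      · have := zpow_lt_zpow_right_of_lt_one₀ hpos hWX hn
        rw [h1', zpow_zero] at this; exact lt_irrefl _ this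
      · have := zpow_lt_zpow_right_of_lt_one₀ hpos hWX hn
        rw [h1', zpow_zero] at this; exact lt_irrefl _ this
    rw [hn, zpow_zero, mul_one] at h
    have hred' : ∀ P : F'[X], IntCoeff W P → ∃ P₀ : F[X],
        W.valuation (aeval θ P - aeval θ P₀) < 1 := by
      intro P hP
      obtain ⟨r, hr⟩ := hred P hP
      refine ⟨∑ i ∈ Finset.range (P.natDegree + 1), C (r i) * Polynomial.X ^ i, ?_⟩
      have e : aeval θ P - aeval θ (∑ i ∈ Finset.range (P.natDegree + 1),
          C (r i) * Polynomial.X ^ i) =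
          ∑ i ∈ Finset.range (P.natDegree + 1), ((P.coeff i : K) - (r i : K)) * θ ^ i := by
        rw [map_sum, aeval_eq_sum_range, ← Finset.sum_sub_distrib]
        refine Finset.sum_congr rfl fun i _ => ?_
        rw [map_mul, aeval_C, map_pow, aeval_X, Algebra.smul_def, sub_mul]
        rfl
      rw [e]
      refine Valuation.map_sum_lt _ one_ne_zero fun i _ => ?_
      rw [map_mul, map_pow]
      exact lt_of_le_of_lt (mul_le_of_le_one_right' (pow_le_one₀ zero_le
        ((W.valuation_le_one_iff _).2 hθW))) (hr i)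
    obtain ⟨G₀, hG₀⟩ := hred' G hGi
    obtain ⟨H₀, hH₀⟩ := hred' H hHi
    refine ⟨G₀, H₀, ?_, ?_⟩
    · refine val_of_sub hH ?_
      rw [← Valuation.map_neg, neg_sub]; exact hH₀
    · have e : z * aeval θ H₀ - aeval θ G₀ =
          -(z * (aeval θ H - aeval θ H₀)) + (aeval θ G - aeval θ G₀) := by
        rw [← h]; ring
      rw [e]
      refine Valuation.map_add_lt _ ?_ hG₀
      rw [Valuation.map_neg, map_mul, heq, one_mul]
      exact hH₀
  · obtain ⟨r, hr⟩ := hred Φ hint
    refine ⟨Polynomial.X ^ Φ.natDegree +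
      ∑ i ∈ Finset.range Φ.natDegree, C (r i) * Polynomial.X ^ i, ?_, ?_⟩
    · refine monic_X_pow_add ?_
      refine lt_of_le_of_lt (degree_sum_le _ _) ?_
      rw [Finset.sup_lt_iff (by exact WithBot.bot_lt_coe _)]
      intro i hi
      refine lt_of_le_of_lt (degree_C_mul_X_pow_le _ _) ?_
      exact_mod_cast Finset.mem_range.1 hi
    · have e : aeval θ (Polynomial.X ^ Φ.natDegree +
          ∑ i ∈ Finset.range Φ.natDegree, C (r i) * Polynomial.X ^ i : F[X]) =
          ∑ i ∈ Finset.range Φ.natDegree, ((r i : K) - (Φ.coeff i : K)) * θ ^ i := by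
        have h4 : aeval θ Φ = θ ^ Φ.natDegree +
            ∑ i ∈ Finset.range Φ.natDegree, (Φ.coeff i : K) * θ ^ i := by
          rw [aeval_eq_sum_range, Finset.sum_range_succ, hmon.coeff_natDegree, one_smul, add_comm]
          rfl
        rw [hroot] at h4
        have h5 : θ ^ Φ.natDegree =
            -∑ i ∈ Finset.range Φ.natDegree, (Φ.coeff i : K) * θ ^ i :=
          eq_neg_of_add_eq_zero_left h4.symm
        rw [map_add, map_pow, aeval_X, map_sum, h5, neg_add_eq_sub, ← Finset.sum_sub_distrib]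
        refine Finset.sum_congr rfl fun i _ => ?_
        rw [map_mul, aeval_C, map_pow, aeval_X, sub_mul]
        rfl
      rw [e]
      refine Valuation.map_sum_lt _ one_ne_zero fun i _ => ?_
      rw [map_mul, map_pow]
      refine lt_of_le_of_lt (mul_le_of_le_one_right' (pow_le_one₀ zero_le
        ((W.valuation_le_one_iff _).2 hθW))) ?_
      rw [← Valuation.map_neg, neg_sub]
      exact hr i

theorem frp_int_ae {G : Subfield K} {σ : K} (F' : IntermediateField G K)
    (hF' : F' = IntermediateField.adjoin G {σ}) (p : F'[X]) :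
    ∀ᶠ b : G in cofinite, ∀ W : ValuationSubring K, Over W G σ b → IntCoeff W p := by
  subst hF'
  have h1 : ∀ᶠ b : G in cofinite, ∀ i ∈ p.support, ∀ W : ValuationSubring K, Over W G σ b →
      W.valuation (p.coeff i : K) = 1 := by
    rw [Filter.eventually_all_finset]
    intro i hi
    refine unit_ae_of_mem (p.coeff i).2 ?_
    intro h; exact (mem_support_iff.1 hi) (Subtype.ext h)
  filter_upwards [h1] with b hb W hW i
  by_cases hi : i ∈ p.support
  · change (p.coeff i : K) ∈ W
    rw [← W.valuation_le_one_iff]; exact (hb i hi W hW).le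
  · rw [notMem_support_iff.1 hi, map_zero]; exact zero_mem _

theorem frp_alg_aeval {F L : Type*} [Field F] [Field L] [Algebra F L] {θ : L}
    (hθ : IsAlgebraic F θ) (P : F[X]) : IsAlgebraic F (aeval θ P) := by
  induction P using Polynomial.induction_on' with
  | add p q hp hq =>
    rw [map_add]
    exact hp.add hq
  | monomial n a =>
    rw [aeval_monomial]
    exact (isAlgebraic_algebraMap a).mul (hθ.pow n)

/-- the generic valuations over `y = c`. -/
theorem frp_core_ae {F : Subfield K} {y θ : K} (hy : ¬ IsAlgebraic F y)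
    (F' : IntermediateField F K) (hF' : F' = IntermediateField.adjoin F {y})
    (Φ : F'[X]) (hmon : Φ.Monic) (hroot : aeval θ Φ = 0)
    (hsep : Φ.Separable) :
    ∀ᶠ c in ae F, ∀ W : ValuationSubring K, Over W F y c →
      θ ∈ W ∧
      (∀ z ∈ Vale.Agent.P019.adj (Vale.Agent.P019.adj F y) θ, z ≠ 0 →
        ∃ n : ℤ, W.valuation (z * (y - c) ^ n) = 1) ∧
      (∀ z ∈ Vale.Agent.P019.adj (Vale.Agent.P019.adj F y) θ, W.valuation z ≤ 1 →
        ∃ P Q : F[X], W.valuation (aeval θ Q) = 1 ∧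
          W.valuation (z * aeval θ Q - aeval θ P) < 1) ∧
      ∃ P : F[X], P.Monic ∧ W.valuation (aeval θ P) < 1 := by
  have hθ : IsAlgebraic F' θ := ⟨Φ, hmon.ne_zero, hroot⟩
  have hder0 : aeval θ (derivative Φ) ≠ 0 := hsep.aeval_derivative_ne_zero hroot
  have halg : IsAlgebraic F' (aeval θ (derivative Φ)) := frp_alg_aeval hθ _
  have halg' : IsAlgebraic (IntermediateField.adjoin F {y}) (aeval θ (derivative Φ)) := by
    rw [← hF']
    exact halg
  refine frb_ae ?_
  filter_upwards [frp_int_ae F' hF' Φ, unit_ae halg' hder0] with b hb1 hb2 W hW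
  have hX0 : y - (b : K) ≠ 0 := by
    intro h
    rw [sub_eq_zero] at h
    apply hy
    rw [h]
    exact isAlgebraic_algebraMap b
  have h1 := frp_core (θ := θ) hX0 hW.triv hW.lt F' (by rw [hF', adjoin_sub]) Φ hmon
    (hb1 W hW) hroot (hb2 W hW)
  have hmem : ∀ z, z ∈ Vale.Agent.P019.adj (Vale.Agent.P019.adj F y) θ ↔
      z ∈ IntermediateField.adjoin F' {θ} := by
    intro z
    rw [adj_eq F y, hF']
    exact mem_adjoin_simple.symm
  refine ⟨h1.1, fun z hz => h1.2.1 z ((hmem z).1 hz), fun z hz => h1.2.2.1 z ((hmem z).1 hz),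
    h1.2.2.2⟩

theorem frp_aeval_mem {L : Type*} [Field L] {E : Subfield L} (a : L) (r : E[X]) :
    aeval a r ∈ Vale.Agent.P019.adj E a := by
  rw [aeval_eq_sum_range]
  refine Subfield.sum_mem _ (fun i _ => ?_)
  rw [Algebra.smul_def]
  exact Subfield.mul_mem _ (Vale.Agent.P019.le_adj E a (SetLike.coe_mem _))
    (pow_mem (Vale.Agent.P019.mem_adj E a) i)

/-- residues. -/
theorem frp_res [PerfectField K] {F : Subfield K} [PerfectField F] {θ : K}
    {W : ValuationSubring K} (hF : TrivOn W F) (hθ : θ ∈ W)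
    (halg : ∃ P : F[X], P.Monic ∧ W.valuation (aeval θ P) < 1) {z : K}
    (hz : W.valuation z ≤ 1) {n : ℕ}
    (h : ∃ P Q : F[X], W.valuation (aeval θ Q) = 1 ∧
      W.valuation (z ^ (ringExpChar K) ^ n * aeval θ Q - aeval θ P) < 1) :
    ∃ P Q : F[X], W.valuation (aeval θ Q) = 1 ∧
      W.valuation (z * aeval θ Q - aeval θ P) < 1 := by
  have hzW : z ∈ W := (W.valuation_le_one_iff z).1 hz
  have hmemW : ∀ Q : F[X], aeval θ Q ∈ W := fun Q => aeval_mem hθ (fun i => hF _ (Q.coeff i).2)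
  haveI : PerfectField (bar hF) := bar_perfect hF
  have hθalg : IsAlgebraic (bar hF) (rs W θ) := by
    obtain ⟨P, hPm, hP⟩ := halg
    refine ⟨P.map (barEquiv hF).toRingHom, (hPm.map _).ne_zero, ?_⟩
    rw [← rs_aeval hF hθ]
    exact (rs_eq_zero (hmemW P)).2 hP
  -- the residue field generated by `θ` is perfect
  set R : Subfield (IsLocalRing.ResidueField W) := Vale.Agent.P019.adj (bar hF) (rs W θ) with hR
  have hRrac : R ≤ rac (bar hF) :=
    Vale.Agent.P019.adj_le (le_rac _) (mem_rac.2 hθalg)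
  haveI : PerfectField R := frp_perfect (Vale.Agent.P019.le_adj _ _)
    fun z hz => mem_rac.1 (hRrac hz)
  have haevR : ∀ Q : F[X], rs W (aeval θ Q) ∈ R := by
    intro Q
    rw [rs_aeval hF hθ]
    exact frp_aeval_mem _ _
  obtain ⟨P, Q, hQ, hPQ⟩ := h
  have hzR : rs W z ∈ R := by
    apply mem_of_pow_q (n := n)
    rw [rs_ringExpChar hF, ← rs_pow hzW]
    have hQ0 : rs W (aeval θ Q) ≠ 0 := (rs_ne_zero (hmemW Q)).2 hQ
    have h1 : rs W (z ^ (ringExpChar K) ^ n) * rs W (aeval θ Q) = rs W (aeval θ P) := by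
      rw [← rs_mul (pow_mem hzW _) (hmemW Q), rs_eq (mul_mem (pow_mem hzW _) (hmemW Q)) (hmemW P)]
      exact hPQ
    rw [eq_div_of_mul_eq hQ0 h1]
    exact R.div_mem (haevR P) (haevR Q)
  obtain ⟨A, B, hAB⟩ := (IntermediateField.mem_adjoin_simple_iff _ _).1
    (mem_adjoin_simple.2 hzR)
  -- lift the polynomials
  have hlift : ∀ A : (bar hF)[X], ∃ A' : F[X], rs W (aeval θ A') = aeval (rs W θ) A := by
    intro A
    refine ⟨A.map (barEquiv hF).symm.toRingHom, ?_⟩
    rw [rs_aeval hF hθ, Polynomial.map_map]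
    have : (barEquiv hF).toRingHom.comp (barEquiv hF).symm.toRingHom = RingHom.id _ := by
      ext x; simp
    rw [this, Polynomial.map_id]
  obtain ⟨A', hA'⟩ := hlift A
  obtain ⟨B', hB'⟩ := hlift B
  by_cases hB0 : aeval (rs W θ) B = 0
  · rw [hB0, div_zero] at hAB
    refine ⟨0, 1, by rw [map_one, map_one], ?_⟩
    rw [map_one, map_zero, sub_zero, mul_one]
    exact (rs_eq_zero hzW).1 hAB
  · refine ⟨A', B', ?_, ?_⟩
    · rw [← rs_ne_zero (hmemW B'), hB']
      exact hB0
    · rw [← rs_eq (mul_mem hzW (hmemW B')) (hmemW A'), rs_mul hzW (hmemW B'), hB', hA', hAB,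
        div_mul_cancel₀ _ hB0]

/-- for almost all `a`, every valuation subring over `t = a` is nice. -/
theorem Frame.nice [PerfectField K] {k G : Subfield K} {t s : K} (h : Frame k G t s)
    (hfg : FG k (⊤ : Subfield K)) :
    ∃ θ : K, ∀ᶠ a in ae (adj G s), ∀ W : ValuationSubring K, Over W (adj G s) t a →
      Nice W (adj G s) (t - a) θ := by
  classical
  set F : Subfield K := adj G s with hF
  haveI : PerfectField F := perfect_adj _ _
  haveI : PerfectField (adj F t) := perfect_adj _ _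
  obtain ⟨θ, hθ⟩ := exists_prim (h.le.trans ((le_adj _ s).trans (le_adj _ t))) hfg h.alg
  refine ⟨θ, ?_⟩
  have hθalg : IsAlgebraic (adj F t) θ := h.alg θ
  set Ψ := minpoly (adj F t) θ with hΨ
  have hΨm : Ψ.Monic := minpoly.monic hθalg.isIntegral
  have hΨs : Ψ.Separable := PerfectField.separable_of_irreducible
    (minpoly.irreducible hθalg.isIntegral)
  obtain ⟨m, y, hy, hcoef⟩ := exists_common_root (E := F) (t := t)
    (Ψ.support.image (fun i => ((Ψ.coeff i : adj F t) : K))) (by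
      intro z hz
      obtain ⟨i, -, rfl⟩ := Finset.mem_image.1 hz
      exact (Ψ.coeff i).2)
  have hcoef' : ∀ i, ((Ψ.coeff i : adj F t) : K) ∈ Vale.Agent.P019.adj F y := by
    intro i
    by_cases hi : i ∈ Ψ.support
    · exact hcoef _ (Finset.mem_image_of_mem _ hi)
    · rw [notMem_support_iff.1 hi]
      exact Subfield.zero_mem _
  have hyF : ¬ IsAlgebraic F y := by
    intro h'
    apply h.tt
    rw [← hy]
    exact h'.pow _
  -- descend the minimal polynomial
  set F' := IntermediateField.adjoin F {y} with hF'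
  have hle : Vale.Agent.P019.adj F y ≤ adj F t := by
    rw [← hy, adj_pow]
    exact adj0_le_adj F y
  have hF'le : ∀ z : F', (z : K) ∈ adj F t := fun z => hle (mem_adjoin_simple.1 z.2)
  let j : F' →+* adj F t :=
    { toFun := fun z => ⟨z, hF'le z⟩
      map_one' := rfl
      map_mul' := fun _ _ => rfl
      map_zero' := rfl
      map_add' := fun _ _ => rfl }
  have hl : Ψ ∈ Polynomial.lifts j := by
    rw [Polynomial.lifts_iff_coeff_lifts]
    intro n
    exact ⟨⟨Ψ.coeff n, mem_adjoin_simple.2 (hcoef' n)⟩, rfl⟩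
  obtain ⟨Φ, hΦ⟩ := hl
  have hΦ' : Φ.map j = Ψ := hΦ
  have hΦm : Φ.Monic := by
    rw [← hΦ'] at hΨm
    exact Polynomial.monic_of_injective j.injective hΨm
  have hΦs : Φ.Separable := by
    rw [← hΦ'] at hΨs
    exact (Polynomial.separable_map j).1 hΨs
  have hΦr : aeval θ Φ = 0 := by
    have h1 : aeval θ Ψ = 0 := minpoly.aeval _ _
    rw [← hΦ', aeval_def, eval₂_map] at h1
    rw [aeval_def]
    exact h1
  have hcore := frp_core_ae hyF F' hF' Φ hΦm hΦr hΦs
  -- every element has a power in the plain field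
  set N0 : Subfield K := Vale.Agent.P019.adj (Vale.Agent.P019.adj F y) θ with hN0
  have hall : ∀ z : K, ∃ n : ℕ, z ^ (ringExpChar K) ^ n ∈ N0 := by
    intro z
    rw [← mem_pf]
    have h1 : Vale.Agent.P019.adj (adj F t) θ ≤ pf N0 := by
      refine Vale.Agent.P019.adj_le ?_ (le_pf _ (Vale.Agent.P019.mem_adj _ _))
      refine pf_mono ?_
      refine Vale.Agent.P019.adj_le ((Vale.Agent.P019.le_adj F y).trans
        (Vale.Agent.P019.le_adj _ θ)) ?_
      rw [← hy]
      exact Subfield.pow_mem _ (Vale.Agent.P019.le_adj _ θ (Vale.Agent.P019.mem_adj F y)) _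
    exact h1 (hθ z)
  rw [ae_iff] at hcore ⊢
  refine (hcore.image (fun c => c ^ (ringExpChar K) ^ m)).subset ?_
  rintro a ⟨haF, ha⟩
  obtain ⟨c, hcF, hca⟩ := exists_root_q F haF m
  refine ⟨c, ⟨hcF, ?_⟩, hca⟩
  intro hc
  apply ha
  intro W hW
  obtain ⟨c', hc'F, hc'a, hWc⟩ := Over.root haF hy hW
  have hcc : c' = c := pow_q_inj (hc'a.trans hca.symm)
  rw [hcc] at hWc
  obtain ⟨h1, h2, h3, h4⟩ := hc W hWc
  have hπ : (y - c) ^ (ringExpChar K) ^ m = t - a := by
    rw [sub_pow_q, hy, hca]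
  have hne : t - a ≠ 0 := by
    intro h0
    apply h.tt
    rw [sub_eq_zero.1 h0]
    exact isAlgebraic_of_mem haF
  refine ⟨inferInstance, ⟨hne, hW.lt, ?_⟩, hW.triv, h1, ?_, h4⟩
  · intro z hz0
    obtain ⟨n, hn⟩ := hall z
    obtain ⟨i, hi⟩ := h2 _ hn (pow_ne_zero _ hz0)
    refine ⟨n + m, i, ?_⟩
    have e2 : ((y - c) ^ (ringExpChar K) ^ m) ^ i = ((y - c) ^ i) ^ (ringExpChar K) ^ m := by
      rw [← zpow_natCast, ← zpow_natCast, ← zpow_mul, ← zpow_mul, mul_comm]
    have e : z ^ (ringExpChar K) ^ (n + m) * (t - a) ^ i =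
        (z ^ (ringExpChar K) ^ n * (y - c) ^ i) ^ (ringExpChar K) ^ m := by
      rw [← hπ, e2, pow_add, pow_mul, mul_pow]
    rw [e, map_pow, hi, one_pow]
  · intro z hz
    obtain ⟨n, hn⟩ := hall z
    refine frp_res hW.triv h1 h4 hz (n := n) (h3 _ hn ?_)
    rw [map_pow]
    exact pow_le_one₀ zero_le hz

/-- nonzero elements are units over `t = a` for almost all `a`. -/
theorem unit_over {F : Subfield K} {t z : K} (hz : z ≠ 0) (halg : IsAlgebraic (adj F t) z) :
    ∀ᶠ a in ae F, ∀ W : ValuationSubring K, Over W F t a → W.valuation z = 1 := by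
  exact frb_ae (unit_ae (isAlgebraic_adjoin_simple'.2 halg) hz)

/-- nonzero elements are units over `t = a` for almost all `a`. -/
theorem Frame.unit {k G : Subfield K} {t s : K} (h : Frame k G t s) {z : K} (hz : z ≠ 0) :
    ∀ᶠ a in ae (adj G s), ∀ W : ValuationSubring K, Over W (adj G s) t a →
      W.valuation z = 1 :=
  unit_over hz (h.alg z)

end Vale.Agent.P019P
end
end

section

section

/-!
# Rationality of functions that are constant on fibres (perfect version)
-/

namespace Vale.Agent.P019P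

open Vale.Agent.P019

set_option linter.style.haveILetI false
set_option linter.unusedSectionVars false

open Polynomial Filter

variable {N : Type*} [Field N]

/-- the reduction argument over one point `b` : the minimal polynomial of `h` reduces to a power
of `X - c`. -/
theorem lemZ_point {G : Subfield N} {σ h b c : N} {W : ValuationSubring N}
    (F' : Subfield N) (hGF : G ≤ F') (hσF : σ ∈ F') (hh : IsAlgebraic F' h) (hb : b ∈ G)
    (hc : c ∈ G) (hov : Over W G σ b) (hint : IntCoeff W (minpoly F' h))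
    (hW : ∀ W : ValuationSubring N, Over W G σ b → W.valuation (h - c) < 1)
    (hn : 2 ≤ (minpoly F' h).natDegree) :
    W.valuation (aeval h (derivative (minpoly F' h))) < 1 := by
  set Φ := minpoly F' h with hΦdef
  have hmon : Φ.Monic := minpoly.monic hh.isIntegral
  set n := Φ.natDegree with hndef
  -- the ring of `W`-integral elements of `F'`
  let O : Subring F' := W.toSubring.comap F'.subtype
  let ψ : O →+* W := (F'.subtype.comp O.subtype).codRestrict W.toSubring (fun x => x.2)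
  let ρ : O →+* IsLocalRing.ResidueField W := (IsLocalRing.residue W).comp ψ
  have hρ : ∀ x : O, ρ x = 0 ↔ W.valuation ((x : F') : N) < 1 := fun x => residue_eq_zero (ψ x)
  let ι : O →+* F' := O.subtype
  have hι : Function.Injective ι := Subtype.val_injective
  let jj : O →+* N := F'.subtype.comp ι
  let B : Subring N := (eval₂RingHom jj h).range
  have hσW : σ ∈ W := hov.mem hb
  have hGB : ∀ g ∈ G, g ∈ B := by
    intro g hg
    refine ⟨C (⟨⟨g, hGF hg⟩, hov.triv g hg⟩ : O), ?_⟩
    simp [jj, ι]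
  have hσB : σ ∈ B := by
    refine ⟨C (⟨⟨σ, hσF⟩, hσW⟩ : O), ?_⟩
    simp [jj, ι]
  have hhB : h ∈ B := ⟨X, by simp⟩
  obtain ⟨m, β, ⟨P, hP⟩, hm⟩ := exists_pow_eq B hGB hσB hhB hb hc hW
  let σO : O := ⟨⟨σ - b, F'.sub_mem hσF (hGF hb)⟩, (W.valuation_le_one_iff _).1 hov.lt.le⟩
  let cO : O := ⟨⟨c, hGF hc⟩, hov.triv c hc⟩
  let Ψ : O[X] := (X - C cO) ^ m - C σO * P
  have hΨ : aeval h (Ψ.map ι) = 0 := by
    rw [aeval_def, eval₂_map]
    have e1 : (algebraMap F' N).comp ι = jj := rfl
    rw [e1]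
    have e2 : eval₂ jj h P = β := hP
    have e3 : jj σO = σ - b := rfl
    have e4 : jj cO = c := rfl
    simp only [Ψ, eval₂_sub, eval₂_pow, eval₂_X, eval₂_C, eval₂_mul, e2, e3, e4, hm, sub_self]
  have hdvd : Φ ∣ Ψ.map ι := minpoly.dvd F' h hΨ
  -- lift of the minimal polynomial
  obtain ⟨Φ0, hΦ0, hΦ0m⟩ : ∃ Φ0 : O[X], Φ0.map ι = Φ ∧ Φ0.Monic := by
    have h1 : Φ ∈ lifts ι := by
      rw [lifts_iff_coeff_lifts]
      intro i
      exact ⟨⟨Φ.coeff i, hint i⟩, rfl⟩
    obtain ⟨Q, hQ1, _, hQ3⟩ := lifts_and_natDegree_eq_and_monic h1 hmon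
    exact ⟨Q, hQ1, hQ3⟩
  have hdvd0 : Φ0 ∣ Ψ := by
    rw [← hΦ0] at hdvd
    exact (map_dvd_map ι hι hΦ0m).1 hdvd
  have hred : Φ0.map ρ ∣ (X - C (ρ cO)) ^ m := by
    have h1 := Polynomial.map_dvd ρ hdvd0
    have h2 : Ψ.map ρ = (X - C (ρ cO)) ^ m := by
      have h3 : ρ σO = 0 := (hρ σO).2 hov.lt
      simp only [Ψ, Polynomial.map_sub, Polynomial.map_pow, Polynomial.map_mul, map_X, map_C, h3,
        map_zero, zero_mul, sub_zero]
    rwa [h2] at h1
  have hmρ : (Φ0.map ρ).Monic := hΦ0m.map ρ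
  have hn0 : Φ0.natDegree = n := by
    rw [hndef, ← hΦ0, hΦ0m.natDegree_map]
  have hdeg : (Φ0.map ρ).natDegree = n := by rw [hΦ0m.natDegree_map, hn0]
  have hpow := eq_pow_of_dvd hmρ hred
  rw [hdeg] at hpow
  -- the element `h` is integral with residue that of `c`
  have hcW : c ∈ W := hov.triv c hc
  have hhW : h ∈ W := by
    have h1 : h = (h - c) + c := by ring
    rw [h1]
    exact add_mem ((W.valuation_le_one_iff _).1 (hW W hov).le) hcW
  have hres : IsLocalRing.residue W ⟨h, hhW⟩ = ρ cO := by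
    have h1 : IsLocalRing.residue W ((⟨h, hhW⟩ : W) - ⟨c, hcW⟩) = 0 :=
      (residue_eq_zero _).2 (hW W hov)
    rw [map_sub, sub_eq_zero] at h1
    exact h1
  -- the derivative at `h`
  have hval : aeval h (derivative Φ) = ((eval₂ ψ ⟨h, hhW⟩ (derivative Φ0) : W) : N) := by
    rw [← hΦ0, Polynomial.derivative_map, aeval_def, eval₂_map]
    have e1 : (algebraMap F' N).comp ι = W.subtype.comp ψ := rfl
    rw [e1]
    have e2 := Polynomial.hom_eval₂ (derivative Φ0) ψ W.subtype ⟨h, hhW⟩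
    exact e2.symm
  rw [hval, ← residue_eq_zero, Polynomial.hom_eval₂, hres]
  have e3 : eval₂ ((IsLocalRing.residue W).comp ψ) (ρ cO) (derivative Φ0) =
      eval (ρ cO) (derivative (Φ0.map ρ)) := by
    rw [Polynomial.derivative_map, eval_map]
  rw [e3, hpow, derivative_X_sub_C_pow, eval_mul, eval_pow, eval_sub, eval_X, eval_C, eval_C, sub_self,
    zero_pow (by omega), mul_zero]

theorem lemZ [PerfectField N] {G : Subfield N} [PerfectField G] {σ h : N}
    (hσ : ¬ IsAlgebraic G σ) (hh : IsAlgebraic (adj G σ) h)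
    (hinf : {b : N | b ∈ G ∧ ∃ c ∈ G, ∀ W : ValuationSubring N, Over W G σ b →
      W.valuation (h - c) < 1}.Infinite) : h ∈ adj G σ := by
  classical
  set P := adj G σ with hP
  have hPsep : (minpoly P h).Separable :=
    (PerfectField.separable_iff_squarefree).2
      (minpoly.irreducible hh.isIntegral).squarefree
  -- a plain field containing the coefficients
  obtain ⟨m, y, hy, hcoef⟩ := exists_common_root (E := G) (t := σ)
    ((minpoly P h).support.image fun i => ((minpoly P h).coeff i : N)) (by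
      intro z hz
      obtain ⟨i, _, rfl⟩ := Finset.mem_image.1 hz
      exact ((minpoly P h).coeff i).2)
  have hcoef' : ∀ i, ((minpoly P h).coeff i : N) ∈ Vale.Agent.P019.adj G y := by
    intro i
    by_cases hi : i ∈ (minpoly P h).support
    · exact hcoef _ (Finset.mem_image_of_mem _ hi)
    · rw [Polynomial.notMem_support_iff.1 hi]
      exact (Vale.Agent.P019.adj G y).zero_mem
  set F' := IntermediateField.adjoin G {y} with hF'
  have hFP : ∀ z ∈ F', z ∈ P := by
    intro z hz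
    rw [mem_adjoin_simple] at hz
    have h1 : adj G (y ^ ringExpChar N ^ m) = adj G y := adj_pow G y m
    rw [hP, ← hy, h1]
    exact adj0_le_adj G y hz
  -- the minimal polynomial descends
  obtain ⟨Q, hQ⟩ : ∃ Q : F'[X], Q.map (algebraMap F' N) = (minpoly P h).map (algebraMap P N) := by
    have h1 : (minpoly P h).map (algebraMap P N) ∈ lifts (algebraMap F' N) := by
      rw [lifts_iff_coeff_lifts]
      intro i
      rw [coeff_map]
      exact ⟨⟨_, mem_adjoin_simple.2 (hcoef' i)⟩, rfl⟩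
    exact (mem_lifts _).1 h1
  have hQ0 : Q ≠ 0 := by
    intro h0
    rw [h0, Polynomial.map_zero] at hQ
    exact (Polynomial.map_ne_zero (minpoly.ne_zero hh.isIntegral)) hQ.symm
  have hQroot : aeval h Q = 0 := by
    have h1 : aeval h Q = eval h (Q.map (algebraMap F' N)) := by
      rw [eval_map, aeval_def]
    rw [h1, hQ, eval_map, ← aeval_def, minpoly.aeval]
  have hh' : IsAlgebraic F' h := ⟨Q, hQ0, hQroot⟩
  have hQsep : Q.Separable := by
    have h1 : (Q.map (algebraMap F' N)).Separable := by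
      rw [hQ]
      exact hPsep.map
    exact (Polynomial.separable_map _).1 h1
  set Φ := minpoly F' h with hΦdef
  have hΦsep : Φ.Separable := hQsep.of_dvd (minpoly.dvd F' h hQroot)
  have hΦpos : 0 < Φ.natDegree := minpoly.natDegree_pos hh'.isIntegral
  by_cases hn : 2 ≤ Φ.natDegree
  · exfalso
    have hder : aeval h (derivative Φ) ≠ 0 := hΦsep.aeval_derivative_ne_zero (minpoly.aeval F' h)
    have hyG : ¬ IsAlgebraic G y := by
      intro h1
      apply hσ
      rw [← hy]
      exact h1.pow _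
    have halg : IsAlgebraic F' (aeval h (derivative Φ)) := by
      have h1 : aeval h (derivative Φ) ∈ Algebra.adjoin F' {h} := aeval_mem_adjoin_singleton F' h
      have h2 : Algebra.adjoin F' {h} ≤ integralClosure F' N :=
        Algebra.adjoin_le (Set.singleton_subset_iff.2 hh'.isIntegral)
      exact (h2 h1 : IsIntegral F' (aeval h (derivative Φ))).isAlgebraic
    have h1 := (int_ae hh').and (unit_ae halg hder)
    have h2 : {b : G | ∃ c ∈ G, ∀ W : ValuationSubring N, Over W G y b →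
      W.valuation (h - c) < 1}.Infinite := by
      intro hfin
      apply hinf
      refine (hfin.image (fun b : G => (b : N) ^ ringExpChar N ^ m)).subset ?_
      rintro b ⟨hb, c, hc, hcW⟩
      obtain ⟨b', hb', hbb⟩ := exists_root_q G hb m
      refine ⟨⟨b', hb'⟩, ⟨c, hc, fun W hW => hcW W ⟨hW.triv, ?_⟩⟩, hbb⟩
      rw [← hy, ← hbb, ← sub_pow_q, map_pow]
      exact pow_lt_one₀ zero_le hW.lt (pow_pos (expChar_pos N _) m).ne'
    obtain ⟨b, ⟨c, hc, hcW⟩, h3, h4⟩ :=
      ((frequently_cofinite_iff_infinite.2 h2).and_eventually h1).exists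
    obtain ⟨W, hW⟩ := exists_over hyG b.2
    have h5 := lemZ_point (W := W) F'.toSubfield (fun g hg => F'.algebraMap_mem ⟨g, hg⟩)
      (IntermediateField.mem_adjoin_simple_self G y) hh' b.2 hc hW (h3 W hW) hcW hn
    exact absurd (h4 W hW) (ne_of_lt h5)
  · have hn1 : Φ.natDegree = 1 := by omega
    apply hFP
    have h1 : h ∈ (algebraMap F' N).range := by
      rw [← minpoly.natDegree_eq_one_iff]
      exact hn1
    obtain ⟨z, rfl⟩ := h1
    exact z.2

end Vale.Agent.P019P
end
end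

section

section

/-!
# Rational functions with many values in a smaller field, Lueroth (perfect version)
-/

namespace Vale.Agent.P019P

open Vale.Agent.P019

set_option linter.style.haveILetI false
set_option linter.unusedSectionVars false

open Polynomial Filter

variable {N : Type*} [Field N]

theorem rat_descent [PerfectField N] {k G : Subfield N} [PerfectField k] [PerfectField G]
    (hkG : k ≤ G) {σ h : N} (hσ : ¬ IsAlgebraic G σ) (hh : h ∈ adj G σ)
    (hinf : {b : N | b ∈ k ∧ ∃ c ∈ k, ∀ W : ValuationSubring N, Over W G σ b →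
      W.valuation (h - c) < 1}.Infinite) : h ∈ adj k σ := by
  obtain ⟨m, y, hy, hhy⟩ := mem_adj_root.1 hh
  have hqm : 0 < ringExpChar N ^ m := pow_pos (expChar_pos N _) m
  have hyG : ¬ IsAlgebraic G y := by
    intro h0
    apply hσ
    rw [← hy]
    exact h0.pow _
  refine mem_adj_root.2 ⟨m, y, hy, Vale.Agent.P019.rat_descent hkG hyG hhy ?_⟩
  intro hfin
  apply hinf
  refine (hfin.image fun x => x ^ ringExpChar N ^ m).subset ?_
  rintro b ⟨hb, c, hc, hW⟩
  obtain ⟨b0, hb0, hbb⟩ := exists_root_q k hb m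
  refine ⟨b0, ⟨hb0, c, hc, fun W hover => hW W ⟨hover.triv, ?_⟩⟩, hbb⟩
  have e : σ - b = (y - b0) ^ ringExpChar N ^ m := by
    rw [sub_pow_q, hy, hbb]
  rw [e, map_pow]
  exact pow_lt_one₀ zero_le hover.lt hqm.ne'

theorem luroth_sub [PerfectField N] {k E : Subfield N} [PerfectField k] [PerfectField E] {σ : N}
    (hσ : ¬ IsAlgebraic k σ) (hkE : k ≤ E) (hE : E ≤ adj k σ) (hne : ¬ E ≤ k) :
    ∃ u ∈ E, E = adj k u := by
  have hnot : ¬ E ⊓ Vale.Agent.P019.adj k σ ≤ k := by
    intro hle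
    apply hne
    intro z hz
    obtain ⟨n, hn⟩ := mem_adj_iff.1 (hE hz)
    exact mem_of_pow_q (hle (Subfield.mem_inf.2 ⟨E.pow_mem hz _, hn⟩))
  obtain ⟨u, hu, hEu⟩ := Vale.Agent.P019.luroth_sub (E := E ⊓ Vale.Agent.P019.adj k σ) hσ
    (le_inf hkE (Vale.Agent.P019.le_adj k σ)) inf_le_right hnot
  refine ⟨u, (Subfield.mem_inf.1 hu).1, le_antisymm ?_ (adj_le hkE (Subfield.mem_inf.1 hu).1)⟩
  intro z hz
  obtain ⟨n, hn⟩ := mem_adj_iff.1 (hE hz)
  refine mem_adj_iff.2 ⟨n, ?_⟩
  rw [← hEu]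
  exact Subfield.mem_inf.2 ⟨E.pow_mem hz _, hn⟩

end Vale.Agent.P019P
end
end

section

section

/-!
# Elements with all translates in a rational subspace (perfect version)
-/

namespace Vale.Agent.P019P

open Vale.Agent.P019

set_option linter.style.haveILetI false
set_option linter.unusedSectionVars false

open Polynomial Filter

/-- the value of a class on the order functional of a fibre. -/
theorem lemX_fn {N : Type*} [Field N] {ℓ : ℕ} [Fact ℓ.Prime] [NeZero (ℓ : N)] {k : Subfield N}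
    {W : ValuationSubring N} (hW : TrivOn W k) {σ b : N} (hb : b ∈ k)
    (hU : IsUnif W (σ - b)) (s : Finset N) (hs : ∀ c ∈ s, c ∈ k) (n : N → ZMod ℓ)
    (hbs : b ∈ s) : hU.fn ℓ (∑ c ∈ s, n c • cl ℓ (σ - c)) = n b := by
  classical
  rw [map_sum, Finset.sum_eq_single b]
  · rw [map_smul, hU.fn_self ℓ, smul_eq_mul, mul_one]
  · intro c hc hcb
    rw [map_smul]
    have h1 : W.valuation (σ - c) = 1 := by
      have h2 : σ - c = (b - c) + (σ - b) := by ring
      have h3 : W.valuation (b - c) = 1 :=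
        hW.eq_one (k.sub_mem hb (hs c hc)) (sub_ne_zero.2 (Ne.symm hcb))
      rw [h2, Valuation.map_add_eq_of_lt_left, h3]
      rw [h3]
      exact hU.lt
    rw [hU.fn_unit ℓ _ h1, smul_zero]
  · intro h
    exact absurd hbs h

/-- a separable generator up to `q`-powers. -/
theorem lemX_gen {N : Type*} [Field N] {k G : Subfield N} (hkG : k ≤ G)
    (hfg : FG k (⊤ : Subfield N)) {σ : N} (halg : ∀ z : N, IsAlgebraic (adj G σ) z) :
    ∃ θ : N, IsSeparable (IntermediateField.adjoin G {σ}) θ ∧ ∀ z : N, ∃ m : ℕ,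
      z ^ ringExpChar N ^ m ∈
        IntermediateField.adjoin (IntermediateField.adjoin G {σ}) {θ} := by
  classical
  obtain ⟨S, hS⟩ := hfg
  set F' := IntermediateField.adjoin G {σ} with hF'
  have hsep : ∀ s : N, ∃ n : ℕ, IsSeparable F' (s ^ ringExpChar N ^ n) := by
    intro s
    have h1 : IsAlgebraic F'.toSubfield s :=
      isAlgebraic_adjoin_simple.2 (isAlgebraic_adj.1 (halg s))
    exact exists_sep_pow h1
  choose e he using hsep
  set n := S.sup e with hn
  have hsep' : ∀ s ∈ S, IsSeparable F' (s ^ ringExpChar N ^ n) := by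
    intro s hs
    have h1 : e s ≤ n := Finset.le_sup hs
    obtain ⟨d, hd⟩ := Nat.exists_eq_add_of_le h1
    rw [hd, pow_add, pow_mul]
    have h2 := mem_separableClosure_iff.2 (he s)
    exact mem_separableClosure_iff.1 (pow_mem h2 _)
  set T : Finset N := S.image (fun s => s ^ ringExpChar N ^ n) with hT
  have hTsep : ∀ x ∈ (T : Set N), IsSeparable F' x := by
    intro x hx
    rw [hT, Finset.coe_image] at hx
    obtain ⟨s, hs, rfl⟩ := hx
    exact hsep' s hs
  set L := IntermediateField.adjoin F' (T : Set N) with hL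
  haveI : Algebra.IsSeparable F' L :=
    (IntermediateField.isSeparable_adjoin_iff_isSeparable F' N).2 hTsep
  haveI : FiniteDimensional F' L :=
    IntermediateField.finiteDimensional_adjoin fun x hx => (hTsep x hx).isIntegral
  obtain ⟨α, hα⟩ := Field.exists_primitive_element F' L
  have hLα : IntermediateField.adjoin F' {(α : N)} = L := by
    rw [← IntermediateField.lift_adjoin_simple, hα, IntermediateField.lift_top]
  refine ⟨α, ?_, fun z => ?_⟩
  · refine (IntermediateField.isSeparable_adjoin_iff_isSeparable F' N (S := {(α : N)})).1 ?_ α rfl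
    rw [hLα]
    infer_instance
  · rw [hLα]
    have hz : z ∈ pf (k ⊔ Subfield.closure (S : Set N)) := by
      rw [← hS]
      exact Subfield.mem_top z
    obtain ⟨m, hm⟩ := mem_pf.1 hz
    have h1 : k ⊔ Subfield.closure (S : Set N) ≤
        L.toSubfield.comap (iterateFrobenius N (ringExpChar N) n) := by
      refine sup_le ?_ (Subfield.closure_le.2 ?_)
      · intro x hx
        rw [Subfield.mem_comap, iterateFrobenius_def]
        refine pow_mem ?_ _
        exact L.algebraMap_mem ⟨x, F'.algebraMap_mem ⟨x, hkG hx⟩⟩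
      · intro x hx
        rw [SetLike.mem_coe, Subfield.mem_comap, iterateFrobenius_def]
        refine IntermediateField.subset_adjoin _ _ ?_
        rw [hT, Finset.coe_image]
        exact ⟨x, hx, rfl⟩
    have h2 := h1 hm
    rw [Subfield.mem_comap, iterateFrobenius_def, ← pow_mul, ← pow_add] at h2
    exact ⟨m + n, h2⟩

/-- for almost all `b`, every valuation over `σ = b` has uniformizer `σ - b` up to roots. -/
theorem lemX_unif_ae {N : Type*} [Field N] {G : Subfield N} {σ θ : N}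
    (hσ : Transcendental G σ) (hsep : IsSeparable (IntermediateField.adjoin G {σ}) θ)
    (htop : ∀ z : N, ∃ m : ℕ, z ^ ringExpChar N ^ m ∈
      IntermediateField.adjoin (IntermediateField.adjoin G {σ}) {θ}) :
    ∀ᶠ b : G in cofinite, ∀ W : ValuationSubring N, Over W G σ b → IsUnif W (σ - b) := by
  set F' := IntermediateField.adjoin G {σ} with hF'
  have hθ : IsAlgebraic F' θ := hsep.isIntegral.isAlgebraic
  have hder0 : aeval θ (derivative (minpoly F' θ)) ≠ 0 :=
    Separable.aeval_derivative_ne_zero hsep (minpoly.aeval _ _)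
  have halg : IsAlgebraic F' (aeval θ (derivative (minpoly F' θ))) := by
    have := isAlgebraic_aeval (F := F'.toSubfield) (θ := θ) hθ (derivative (minpoly F' θ))
    exact this
  filter_upwards [int_ae hθ, unit_ae halg hder0] with b hb1 hb2 W hW
  have hX0 : σ - (b : N) ≠ 0 := by
    intro h
    rw [sub_eq_zero] at h
    apply hσ
    rw [h]
    exact isAlgebraic_algebraMap b
  have hFb : F' = IntermediateField.adjoin G {σ - (b : N)} := by rw [hF', adjoin_sub]
  let π : F' := ⟨σ - (b : N), by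
    rw [hFb]; exact IntermediateField.mem_adjoin_simple_self G _⟩
  have hπ0 : π ≠ 0 := fun h => hX0 (congrArg Subtype.val h)
  have hFrep : ∀ z : F', z ≠ 0 → ∃ n : ℤ, W.valuation (algebraMap F' N (z * π ^ n)) = 1 := by
    intro z hz
    have hzF : (z : N) ∈ IntermediateField.adjoin G {σ - (b : N)} := by rw [← hFb]; exact z.2
    obtain ⟨n, c, hc, hc0, h⟩ := exists_residue hW.triv hW.lt hX0 hzF
      (fun h => hz (Subtype.ext h))
    refine ⟨n, ?_⟩
    rw [map_mul, map_zpow₀]
    exact val_of_sub (hW.triv.eq_one hc hc0) h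
  refine ⟨hX0, hW.lt, fun z hz0 => ?_⟩
  obtain ⟨m, hm⟩ := htop z
  obtain ⟨n, P, Q, -, -, hQ, hP, h⟩ := unr_core W π hπ0 hW.lt hFrep θ (minpoly F' θ)
    (minpoly.monic hθ.isIntegral) (hb1 W hW) (minpoly.aeval _ _) (hb2 W hW)
    (z ^ ringExpChar N ^ m) hm (pow_ne_zero _ hz0)
  refine ⟨m, n, ?_⟩
  have := congrArg W.valuation h
  rw [map_mul, hQ, hP, mul_one] at this
  exact this

theorem lemX {N : Type*} [Field N] [PerfectField N] {ℓ : ℕ} [Fact ℓ.Prime] [NeZero (ℓ : N)]
    {k G : Subfield N} [PerfectField G] (hk : IsAlgClosed k) (hkG : k ≤ G)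
    (hfg : FG k (⊤ : Subfield N)) {σ h : N}
    (hσ : ¬ IsAlgebraic G σ) (halg : ∀ z : N, IsAlgebraic (adj G σ) z) (hh : h ∉ k)
    (hcl : ∀ c ∈ k, cl ℓ (h - c) ∈ VS ℓ (adj k σ)) : h ∈ adj k σ := by
  classical
  haveI := hk
  haveI : PerfectField k := inferInstance
  have hσk : σ ∉ k := fun h => hσ (isAlgebraic_of_mem (hkG h))
  obtain ⟨θ, hθ, hθ'⟩ := lemX_gen hkG hfg halg
  have hhalg : IsAlgebraic (IntermediateField.adjoin G {σ}) h :=
    isAlgebraic_adjoin_simple.2 (isAlgebraic_adj.1 (halg h))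
  have hB := (lemX_unif_ae hσ hθ hθ').and (mem_ae hhalg)
  rw [eventually_cofinite] at hB
  set bad : Set N := Subtype.val '' {b : G | ¬ ((∀ W : ValuationSubring N, Over W G σ b →
      IsUnif W (σ - b)) ∧
      ∀ W : ValuationSubring N, Over W G σ b → h ∈ W)} with hbad
  have hbadfin : bad.Finite := hB.image _
  have hgood : ∀ b ∈ G, b ∉ bad → ∀ W : ValuationSubring N, Over W G σ b →
      IsUnif W (σ - b) ∧ h ∈ W := by
    intro b hb hbb W hW
    by_contra hcon
    apply hbb
    refine ⟨⟨b, hb⟩, ?_, rfl⟩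
    intro h1
    exact hcon ⟨h1.1 W hW, h1.2 W hW⟩
  -- factorizations
  have hfac : ∀ c : N, ∃ (s : Finset N) (n : N → ZMod ℓ), c ∈ k → (∀ b ∈ s, b ∈ k) ∧
      cl ℓ (h - c) = ∑ b ∈ s, n b • cl ℓ (σ - b) := by
    intro c
    by_cases hc : c ∈ k
    · obtain ⟨s, n, h1, h2⟩ := adj_factor hk hσk (hcl c hc)
      exact ⟨s, n, fun _ => ⟨h1, h2⟩⟩
    · exact ⟨∅, 0, fun h => absurd h hc⟩
  choose s n hsn using hfac
  -- exceptional constants
  set D : Set N := {c : N | c ∈ k ∧ ∀ b ∈ s c, n c b ≠ 0 → b ∈ bad} with hD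
  have hDfin : D.Finite := by
    have : NeZero ℓ := ⟨(Fact.out : ℓ.Prime).ne_zero⟩
    let Φ : (hbadfin.toFinset → ZMod ℓ) → V ℓ N := fun m => ∑ b, m b • cl ℓ (σ - (b : N))
    have hT : (Set.range Φ).Finite := Set.finite_range Φ
    refine (hT.biUnion (fun v _ => dist_top (ℓ := ℓ) hk hfg hh v)).subset ?_
    intro c hc
    rw [hD, Set.mem_ofPred_eq] at hc
    rw [Set.mem_iUnion₂]
    refine ⟨cl ℓ (h - c), ⟨fun b => if (b : N) ∈ s c then n c b else 0, ?_⟩, hc.1, rfl⟩
    change ∑ b : hbadfin.toFinset, (if (b : N) ∈ s c then n c b else 0) • cl ℓ (σ - (b : N)) = _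
    rw [(hsn c hc.1).2, Finset.sum_coe_sort hbadfin.toFinset
      (fun b => (if b ∈ s c then n c b else 0) • cl ℓ (σ - b))]
    have h1 : ∑ b ∈ s c, n c b • cl ℓ (σ - b) =
        ∑ b ∈ (s c).filter (fun b => b ∈ hbadfin.toFinset), n c b • cl ℓ (σ - b) := by
      rw [Finset.sum_filter]
      refine Finset.sum_congr rfl (fun b hb => ?_)
      split_ifs with h2
      · rfl
      · have h3 : n c b = 0 := by
          by_contra h4
          exact h2 (hbadfin.mem_toFinset.2 (hc.2 b hb h4))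
        rw [h3, zero_smul]
    rw [h1]
    have h2 : ∀ b, (if b ∈ s c then n c b else 0) • cl ℓ (σ - b) =
        if b ∈ s c then n c b • cl ℓ (σ - b) else 0 := by
      intro b
      split_ifs
      · rfl
      · rw [zero_smul]
    simp only [h2]
    rw [← Finset.sum_filter]
    refine Finset.sum_congr ?_ (fun _ _ => rfl)
    ext b
    rw [Finset.mem_filter, Finset.mem_filter, and_comm]
  have hkinf : (k : Set N).Infinite := infinite_of_isAlgClosed hk
  have hinf : ((k : Set N) \ D).Infinite := hkinf.sdiff hDfin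
  -- the points
  have hpt : ∀ c : N, ∃ b : N, c ∈ (k : Set N) \ D → b ∈ k ∧
      ∀ W : ValuationSubring N, Over W G σ b → W.valuation (h - c) < 1 := by
    intro c
    by_cases hc : c ∈ (k : Set N) \ D
    · have hck : c ∈ k := hc.1
      have h1 : ∃ b ∈ s c, n c b ≠ 0 ∧ b ∉ bad := by
        by_contra hcon
        apply hc.2
        refine ⟨hck, fun b hb hnb => ?_⟩
        by_contra hbb
        exact hcon ⟨b, hb, hnb, hbb⟩
      obtain ⟨b, hb, hnb, hbb⟩ := h1
      have hbk := (hsn c hck).1 b hb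
      refine ⟨b, fun _ => ⟨hbk, fun W hW => ?_⟩⟩
      obtain ⟨hU, hhW⟩ := hgood b (hkG hbk) hbb W hW
      have h2 : h - c ∈ W := sub_mem hhW (hW.triv c (hkG hck))
      rcases lt_or_eq_of_le ((W.valuation_le_one_iff _).2 h2) with h3 | h3
      · exact h3
      · exfalso
        have h4 := hU.fn_unit ℓ _ h3
        rw [(hsn c hck).2, lemX_fn (hW.triv.mono hkG) hbk hU (s c) (hsn c hck).1 (n c) hb] at h4
        exact hnb h4
    · exact ⟨0, fun h => absurd h hc⟩
  choose β hβ using hpt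
  have hSinf : {b : N | b ∈ k ∧ ∃ c ∈ k, ∀ W : ValuationSubring N, Over W G σ b →
      W.valuation (h - c) < 1}.Infinite := by
    refine Set.infinite_of_injOn_mapsTo (f := β) ?_ ?_ hinf
    · intro c hc c' hc' hcc
      obtain ⟨W, hW⟩ := exists_over hσ (hkG (hβ c hc).1)
      have h1 := (hβ c hc).2 W hW
      rw [hcc] at hW
      have h2 := (hβ c' hc').2 W hW
      have h3 : W.valuation (c - c') < 1 := by
        have h4 : c - c' = (h - c') - (h - c) := by ring
        rw [h4]
        exact lt_of_le_of_lt (W.valuation.map_sub _ _) (max_lt h2 h1)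
      have h4 := hW.triv.eq_zero (hkG (k.sub_mem hc.1 hc'.1)) h3
      exact sub_eq_zero.1 h4
    · intro c hc
      exact ⟨(hβ c hc).1, c, hc.1, (hβ c hc).2⟩
  refine rat_descent hkG hσ (lemZ hσ (halg h) (hSinf.mono ?_)) hSinf
  rintro b ⟨hb, c, hc, hW⟩
  exact ⟨hkG hb, c, hkG hc, hW⟩

end Vale.Agent.P019P
end
end

section

section

/-!
# The core rationality lemma (perfect version)

`cl_mem_U1_iff`, `rs_aeval_mem`, `aeval_mem_W` are those of the old file.
-/

namespace Vale.Agent.P019P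

open Vale.Agent.P019

set_option linter.style.haveILetI false
set_option linter.unusedSectionVars false

open Polynomial Filter

variable {K : Type*} [Field K]

theorem FG.adj_right [PerfectField K] {k G : Subfield K} (h : FG k G) (s : K) :
    FG k (adj G s) := by
  classical
  obtain ⟨S, hS⟩ := h
  refine ⟨S ∪ {s}, ?_⟩
  have h1 : k ⊔ Subfield.closure (S : Set K) ≤ G := by
    rw [hS]
    exact le_pf _
  rw [Finset.coe_union, Finset.coe_singleton, Subfield.closure_union, ← sup_assoc]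
  apply le_antisymm
  · rw [← pf_pf (k ⊔ Subfield.closure (S : Set K) ⊔ Subfield.closure {s})]
    refine pf_mono (sup_le ?_ (le_sup_right.trans (le_pf _)))
    conv_lhs => rw [hS]
    exact pf_mono le_sup_left
  · exact pf_mono (sup_le_sup_right h1 _)

/-- residues are quotients of values of polynomials at the residue of `θ`. -/
theorem Nice.rs_eq_div {F : Subfield K} {W : ValuationSubring K} {π θ : K}
    (hW : Nice W F π θ) (c : IsLocalRing.ResidueField W) :
    ∃ P Q : F[X], rs W (aeval θ Q) ≠ 0 ∧ c = rs W (aeval θ P) / rs W (aeval θ Q) := by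
  obtain ⟨z, hz, rfl⟩ := rs_surj c
  obtain ⟨P, Q, hQ, hPQ⟩ := hW.res z ((W.valuation_le_one_iff _).2 hz)
  have hP' := aeval_mem_W hW.triv hW.mem P
  have hQ' := aeval_mem_W hW.triv hW.mem Q
  have hQ0 : rs W (aeval θ Q) ≠ 0 := (rs_ne_zero hQ').2 hQ
  refine ⟨P, Q, hQ0, ?_⟩
  rw [eq_div_iff hQ0, ← rs_mul hz hQ']
  exact (rs_eq (mul_mem hz hQ') hP').2 hPQ

/-- finite generation of the residue field. -/
theorem Nice.fg [PerfectField K] {k F : Subfield K} (hkF : k ≤ F) (hfg : FG k F)
    {W : ValuationSubring K} {π θ : K} (hW : Nice W F π θ) (hk : TrivOn W k) :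
    FG (bar hk) (⊤ : Subfield (IsLocalRing.ResidueField W)) := by
  classical
  obtain ⟨S, hS⟩ := hfg
  refine ⟨(insert θ S).image (rs W), ?_⟩
  set R := bar hk ⊔ Subfield.closure (((insert θ S).image (rs W) : Finset _) : Set _) with hR
  have hSR : ∀ z ∈ insert θ S, rs W z ∈ R := by
    intro z hz
    refine (le_sup_right : Subfield.closure _ ≤ R) (Subfield.subset_closure ?_)
    exact Finset.mem_coe.2 (Finset.mem_image_of_mem _ hz)
  have hkSF : k ⊔ Subfield.closure (S : Set K) ≤ F := by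
    rw [hS]
    exact le_pf _
  have h1 : bar hW.triv ≤ P019P.pf R := by
    intro c hc
    obtain ⟨e, he, rfl⟩ := (mem_bar hW.triv).1 hc
    have h3 : k ⊔ Subfield.closure (S : Set K) ≤
        (R.comap (barHom hW.triv)).map F.subtype := by
      refine sup_le ?_ (Subfield.closure_le.2 ?_)
      · intro c hc
        exact ⟨⟨c, hkF hc⟩, (le_sup_left : bar hk ≤ R) (rs_mem_bar hk hc), rfl⟩
      · intro c hc
        have hcF : c ∈ F := hkSF
          ((le_sup_right : Subfield.closure _ ≤ k ⊔ Subfield.closure (S : Set K))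
            (Subfield.subset_closure hc))
        exact ⟨⟨c, hcF⟩, hSR c (Finset.mem_insert_of_mem hc), rfl⟩
    have he' : e ∈ P019P.pf (k ⊔ Subfield.closure (S : Set K)) := by
      rw [← hS]
      exact he
    obtain ⟨n, hn⟩ := mem_pf.1 he'
    obtain ⟨⟨c, hc'⟩, hc'', hce⟩ := h3 hn
    refine mem_pf.2 ⟨n, ?_⟩
    rw [rs_ringExpChar hk, ← rs_pow (hW.triv _ he), ← hce]
    exact hc''
  have hθ : rs W θ ∈ P019P.pf R := le_pf R (hSR θ (Finset.mem_insert_self _ _))
  symm
  rw [eq_top_iff]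
  intro c _
  obtain ⟨P, Q, -, rfl⟩ := hW.rs_eq_div c
  exact div_mem (rs_aeval_mem hW.triv hW.mem h1 hθ P) (rs_aeval_mem hW.triv hW.mem h1 hθ Q)

/-- the residue field is algebraic over the image of `F`. -/
theorem Nice.alg_bar {F : Subfield K} {W : ValuationSubring K} {π θ : K}
    (hW : Nice W F π θ) (c : IsLocalRing.ResidueField W) : IsAlgebraic (bar hW.triv) c := by
  obtain ⟨P, hP, hPW⟩ := hW.alg
  have h1 : IsAlgebraic (bar hW.triv) (rs W θ) := by
    refine ⟨P.map (barEquiv hW.triv).toRingHom, (hP.map _).ne_zero, ?_⟩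
    rw [← rs_aeval hW.triv hW.mem]
    exact (rs_eq_zero (aeval_mem_W hW.triv hW.mem P)).2 hPW
  obtain ⟨P, Q, -, rfl⟩ := hW.rs_eq_div c
  rw [rs_aeval hW.triv hW.mem, rs_aeval hW.triv hW.mem, div_eq_mul_inv]
  exact (isAlgebraic_aeval h1 _).mul (isAlgebraic_aeval h1 _).inv

attribute [-instance] AFast9e249ax8a.a0 AFast9e249ax8a.a1 AFast9e249ax8a.a2 AFast9e249ax8a.a3 AFast9e249ax8a.a4 AFast9e249ax8a.a5 AFast9e249ax8a.a6 AFast9e249ax8a.a7 AFast9e249ax8a.a8 AFast9e249ax8a.a9 AFast9e249ax8a.a10 AFast9e249ax8a.a11 AFast9e249ax8a.a12 AFast9e249ax8a.a13 AFast9e249ax8a.a14 AFast9e249ax8a.a15 AFast9e249ax8a.a16 AFast9e249ax8a.a17 AFast9e249ax8a.a18 AFast9e249ax8a.a19 AFast9e249ax8a.a20 AFast9e249ax8a.a21 AFast9e249ax8a.a22 AFast9e249ax8a.a23 AFast9e249ax8a.a24 AFast9e249ax8a.a25 AFast9e249ax8a.a26 AFast9e249ax8a.a27 AFast9e249ax8a.a28 AFast9e249ax8a.a29 AFast9e249ax8a.a30 AFast9e249ax8a.a32 AFast9e249ax8a.a33 AFast9e249ax8a.a34 AFast9e249ax8a.a35 AFast9e249ax8a.a36 AFast9e249ax8a.a37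 AFast9e249ax8a.a38 AFast9e249ax8a.a39 AFast9e249ax8a.a40 AFast9e249ax8a.a41 AFast9e249ax8a.a42 AFast9e249ax8a.a43 AFast9e249ax8a.a44 AFast9e249ax8a.a45 AFast9e249ax8a.a46 AFast9e249ax8a.a47 AFast9e249ax8a.a48 AFast9e249ax8a.a49 AFast9e249ax8a.a50 AFast9e249ax8a.a51 AFast9e249ax8a.a52 AFast9e249ax8a.a53 AFast9e249ax8a.a54 AFast9e249ax8a.a55 AFast9e249ax8a.a56 AFast9e249ax8a.a57 AFast9e249ax8a.a58 AFast9e249ax8a.a59 AFast9e249ax8a.a60 AFast9e249ax8a.a61 AFast9e249ax8a.a62 AFast9e249ax8a.a63 AFast9e249ax8a.a64 AFast9e249ax8a.a65 AFast9e249ax8a.a66 AFast9e249ax8a.a67 AFast9e249ax8a.a68 AFast9e249ax8a.a69 AFast9e249ax8a.a70 AFast9e249ax8a.a71 AFast9e249ax8a.a72 AFast9e249ax8a.a73 AFast9e249ax8a.a74 AFast9e249ax8a.a75 AFast9e249ax8a.a76 AFast9e249ax8a.a77 AFast9e249ax8a.a78 AFast9e249ax8a.a79 AFast9e249ax8a.a80 AFast9e249ax8a.a82 AFast9e249ax8b.a0 AFast9e249ax8b.a1 AFast9e249ax8b.a2 AFast9e249ax8b.a3 AFast9e249ax8b.a4 AFast9e249ax8b.a5 AFast9e249ax8b.a6 AFast9e249ax8b.a7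 AFast9e249ax8b.a8 AFast9e249ax8b.a9 AFast9e249ax8b.a10 AFast9e249ax8b.a11 in
theorem core [PerfectField K] {ℓ : ℕ} [Fact ℓ.Prime] [NeZero (ℓ : K)] {k G : Subfield K}
    (hk : IsAlgClosed k)
    (hkG : k ≤ G) (hfg : FG k G) {s : K} (hs : ¬ IsAlgebraic G s) {W : ValuationSubring K}
    {π θ : K} (hW : Nice W (adj G s) π θ) {E : Subfield K} (hkE : k ≤ E) (hEW : TrivOn W E)
    (hV : VS ℓ E ≤ VS ℓ (adj k s) ⊔ U1 ℓ W) :
    ∀ h ∈ E, ∃ e ∈ adj k s, W.valuation (h - e) < 1 := by
  intro h hhE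
  by_cases hhk : h ∈ k
  · exact ⟨h, le_adj k s hhk, by rw [sub_self, map_zero]; exact zero_lt_one⟩
  have hF := hW.triv
  have hG : TrivOn W G := hF.mono (le_adj G s)
  have hkW : TrivOn W k := hG.mono hkG
  have hks : TrivOn W (adj k s) := hF.mono (adj_mono hkG s)
  haveI : PerfectField (IsLocalRing.ResidueField W) := rs_perfect hG
  haveI : NeZero (ℓ : IsLocalRing.ResidueField W) := rs_neZero hG
  haveI : PerfectField G := hfg.perfect
  haveI : PerfectField (bar hG) := bar_perfect hG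
  have hk' : IsAlgClosed (bar hkW) := bar_isAlgClosed hkW hk
  have hfg' : FG (bar hkW) (⊤ : Subfield (IsLocalRing.ResidueField W)) :=
    hW.fg (hkG.trans (le_adj G s)) (hfg.adj_right s) hkW
  have hσ : ¬ IsAlgebraic (bar hG) (rs W s) := fun h' => hs (isAlgebraic_of_bar hG hF h')
  have halg : ∀ z : IsLocalRing.ResidueField W, IsAlgebraic (adj (bar hG) (rs W s)) z := by
    intro z
    rw [← bar_adj hG hF]
    exact hW.alg_bar z
  have hh : rs W h ∉ bar hkW := by
    intro h'
    obtain ⟨c, hc, hc'⟩ := (mem_bar hkW).1 h'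
    have := rs_injOn hEW (hkE hc) hhE hc'
    rw [this] at hc
    exact hhk hc
  have hcl : ∀ c ∈ bar hkW, cl ℓ (rs W h - c) ∈ VS ℓ (adj (bar hkW) (rs W s)) := by
    intro c' hc'
    obtain ⟨c, hc, rfl⟩ := (mem_bar hkW).1 hc'
    have hhc : h - c ∈ E := sub_mem hhE (hkE hc)
    have hhc0 : h - c ≠ 0 := by
      intro h0
      rw [sub_eq_zero] at h0
      rw [h0] at hhk
      exact hhk hc
    obtain ⟨y, ⟨e, he, he0, rfl⟩, z, hz, hyz⟩ := Submodule.mem_sup.1
      (hV (cl_mem_VS (ℓ := ℓ) hhc))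
    have h1 : cl ℓ ((h - c) / e) ∈ U1 ℓ W := by
      rw [cl_div ℓ hhc0 he0, ← hyz, add_sub_cancel_left]
      exact hz
    have hWhc : W.valuation (h - c) = 1 := hEW.eq_one hhc hhc0
    have hWe : W.valuation e = 1 := hks.eq_one he he0
    have hWei : W.valuation e⁻¹ = 1 := by rw [map_inv₀, hWe, inv_one]
    have hWd : W.valuation ((h - c) / e) = 1 := by rw [map_div₀, hWhc, hWe, div_one]
    rw [cl_mem_U1_iff hWd, div_eq_mul_inv, rs_mul (mem_of_val hWhc) (mem_of_val hWei),
      rs_inv hWe, rs_sub (hEW _ hhE) (hEW _ (hkE hc))] at h1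
    have hre : rs W e ≠ 0 := (rs_ne_zero (mem_of_val hWe)).2 hWe
    have hrh : rs W h - rs W c ≠ 0 := by
      rw [← rs_sub (hEW _ hhE) (hEW _ (hkE hc))]
      exact (rs_ne_zero (mem_of_val hWhc)).2 hWhc
    rw [← div_eq_mul_inv, cl_div ℓ hrh hre, sub_eq_zero] at h1
    rw [h1, ← bar_adj hkW hks]
    exact cl_mem_VS (rs_mem_bar hks he)
  have hmem := lemX hk' (bar_mono hkW hG hkG) hfg' hσ halg hh hcl
  rw [← bar_adj hkW hks] at hmem
  obtain ⟨e, he, he'⟩ := (mem_bar hks).1 hmem
  exact ⟨e, he, (rs_eq (hEW _ hhE) (hks _ he)).1 he'.symm⟩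

theorem core_rat [PerfectField K] {ℓ : ℕ} [Fact ℓ.Prime] [NeZero (ℓ : K)] {k G : Subfield K}
    (hk : IsAlgClosed k)
    (hkG : k ≤ G) (hfg : FG k G) {s : K} (hs : ¬ IsAlgebraic G s) {W : ValuationSubring K}
    {π θ : K} (hW : Nice W (adj G s) π θ) {E : Subfield K} [PerfectField E] (hkE : k ≤ E)
    (hEW : TrivOn W E) (hV : VS ℓ E ≤ VS ℓ (adj k s) ⊔ U1 ℓ W) (hE : ¬ E ≤ k) :
    ∃ u ∈ E, E = adj k u := by
  have hF := hW.triv
  have hG : TrivOn W G := hF.mono (le_adj G s)
  have hkW : TrivOn W k := hG.mono hkG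
  have hks : TrivOn W (adj k s) := hF.mono (adj_mono hkG s)
  haveI : PerfectField (IsLocalRing.ResidueField W) := rs_perfect hG
  haveI : IsAlgClosed (bar hkW) := bar_isAlgClosed hkW hk
  haveI : PerfectField (bar hEW) := bar_perfect hEW
  have hσ : ¬ IsAlgebraic (bar hkW) (rs W s) := fun h' => hs (isAlgebraic_of_bar hG hF
    (isAlgebraic_mono (bar_mono hkW hG hkG) h'))
  have h1 : bar hEW ≤ adj (bar hkW) (rs W s) := by
    intro c hc
    obtain ⟨h, hh, rfl⟩ := (mem_bar hEW).1 hc
    obtain ⟨e, he, he'⟩ := core hk hkG hfg hs hW hkE hEW hV h hh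
    rw [(rs_eq (hEW _ hh) (hks _ he)).2 he', ← bar_adj hkW hks]
    exact rs_mem_bar hks he
  have h2 : ¬ bar hEW ≤ bar hkW := by
    intro h'
    apply hE
    intro e he
    obtain ⟨c, hc, hc'⟩ := (mem_bar hkW).1 (h' (rs_mem_bar hEW he))
    rw [← rs_injOn hEW (hkE hc) he hc']
    exact hc
  obtain ⟨u', hu', hEu⟩ := luroth_sub hσ (bar_mono hkW hEW hkE) h1 h2
  obtain ⟨u, hu, rfl⟩ := (mem_bar hEW).1 hu'
  refine ⟨u, hu, le_antisymm ?_ (adj_le hkE hu)⟩
  intro z hz
  have hku : TrivOn W (adj k u) := hEW.mono (adj_le hkE hu)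
  have h3 : rs W z ∈ bar hku := by
    rw [bar_adj hkW hku, ← hEu]
    exact rs_mem_bar hEW hz
  obtain ⟨z', hz', hzz⟩ := (mem_bar hku).1 h3
  rw [← rs_injOn hEW (adj_le hkE hu hz') hz hzz]
  exact hz'

end Vale.Agent.P019P
end
end

section

section

/-!
# Finiteness (perfect version)

`rk2_of_finite`, `Rk2.mono`, `finB_cl_neg` are those of the old file.
-/

namespace Vale.Agent.P019P

open Vale.Agent.P019

set_option linter.style.haveILetI false
set_option linter.unusedSectionVars false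

open Polynomial Filter

variable {K : Type*} [Field K] [PerfectField K] {ℓ : ℕ} [Fact ℓ.Prime] [NeZero (ℓ : K)]

theorem Nice.finite {k F E : Subfield K} (hk : IsAlgClosed k) (hkF : k ≤ F)
    (hfg : FG k F) {W : ValuationSubring K} {π θ : K} (hW : Nice W F π θ) (hkE : k ≤ E)
    (hEW : TrivOn W E) :
    ((U1 ℓ W ⊓ VS ℓ E : Submodule (ZMod ℓ) (V ℓ K)) : Set (V ℓ K)).Finite := by
  have hkW : TrivOn W k := hW.triv.mono hkF
  haveI : PerfectField k := inferInstance
  haveI : PerfectField (IsLocalRing.ResidueField W) := rs_perfect hkW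
  haveI : NeZero (ℓ : IsLocalRing.ResidueField W) := rs_neZero hkW
  have hfgN : FG (bar hkW) (⊤ : Subfield (IsLocalRing.ResidueField W)) :=
    hW.fg hkF hfg hkW
  have hfgE : FG (bar hEW) (⊤ : Subfield (IsLocalRing.ResidueField W)) :=
    hfgN.mono (bar_mono hkW hEW hkE) le_top
  obtain ⟨ζ, hζk, hζ⟩ := finK_prim (bar_isAlgClosed hkW hk) ℓ
  obtain ⟨N, hN⟩ := fk ℓ hfgE (bar_mono hkW hEW hkE hζk) hζ
  by_contra hinf
  have hinf' : ((U1 ℓ W ⊓ VS ℓ E : Submodule (ZMod ℓ) (V ℓ K)) : Set (V ℓ K)).Infinite := hinf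
  let f := hinf'.natEmbedding
  have hf : ∀ n : ℕ, ∃ e ∈ E, e ≠ 0 ∧ ((f n : V ℓ K)) = cl ℓ e ∧ cl ℓ e ∈ U1 ℓ W := by
    intro n
    obtain ⟨h1, h2⟩ := Submodule.mem_inf.1 (f n).2
    obtain ⟨e, he, he0, h⟩ := mem_VS.1 h2
    exact ⟨e, he, he0, h, h ▸ h1⟩
  choose e heE he0 hfe heU using hf
  have hval : ∀ n, W.valuation (e n) = 1 := fun n => hEW.eq_one (heE n) (he0 n)
  obtain ⟨i, j, hij, y, hy, hy0, hxy⟩ := hN (fun i => rs W (e i)) (by
    intro i
    have h1 : rs W (e i) ≠ 0 := (rs_ne_zero (hEW _ (heE i))).2 (hval i)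
    refine ⟨rs_mem_bar hEW (heE i), h1, ?_⟩
    obtain ⟨w, _, hw⟩ := (cl_eq_zero_iff ℓ h1).1 ((cl_mem_U1_iff (hval i)).1 (heU i))
    exact ⟨w, Subfield.mem_top w, hw⟩)
  obtain ⟨e', he', rfl⟩ := (mem_bar hEW).1 hy
  have he'0 : e' ≠ 0 := by
    rintro rfl
    exact hy0 rs_zero
  have h1 : e i = e j * e' ^ ℓ := by
    apply rs_injOn hEW (heE i) (E.mul_mem (heE j) (E.pow_mem he' ℓ))
    rw [rs_mul (hEW _ (heE j)) (hEW _ (E.pow_mem he' ℓ)), rs_pow (hEW _ he')]
    exact hxy
  have h2 : cl ℓ (e i) = cl ℓ (e j) := (cl_eq_iff ℓ (he0 i) (he0 j)).2 ⟨e', he'0, h1⟩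
  apply hij
  apply Fin.ext
  apply f.injective
  apply Subtype.ext
  rw [hfe, hfe, h2]

theorem VS_infinite {k E : Subfield K} (hk : IsAlgClosed k)
    (hfg : FG k (⊤ : Subfield K)) (hkE : k ≤ E) (hE : ¬ E ≤ k) :
    ((VS ℓ E : Submodule (ZMod ℓ) (V ℓ K)) : Set (V ℓ K)).Infinite := by
  intro hfin
  obtain ⟨x, hxE, hxk⟩ := SetLike.not_le_iff_exists.1 hE
  have h1 : {c : K | c ∈ k} ⊆ ⋃ v ∈ ((VS ℓ E : Submodule (ZMod ℓ) (V ℓ K)) : Set (V ℓ K)),
      {c : K | c ∈ k ∧ cl ℓ (x - c) = v} := by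
    intro c hc
    refine Set.mem_biUnion (cl_mem_VS (E.sub_mem hxE (hkE hc))) ?_
    exact ⟨hc, rfl⟩
  have h2 : {c : K | c ∈ k}.Finite :=
    (hfin.biUnion fun v _ => dist_top (ℓ := ℓ) hk hfg hxk v).subset h1
  exact infinite_of_isAlgClosed hk h2

theorem exists_nr {k : Subfield K} (hk : IsAlgClosed k) {y : K} (hy : Good k y)
    {U : Submodule (ZMod ℓ) (V ℓ K)}
    (hfin : ((U ⊓ VS ℓ (adj k y) : Submodule (ZMod ℓ) (V ℓ K)) : Set (V ℓ K)).Finite) :
    ∃ g₀ ∈ adj k y, ∀ i j : ZMod ℓ, i • cl ℓ g₀ + j • cl ℓ (1 - g₀) ∈ U → i = 0 ∧ j = 0 := by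
  classical
  by_contra hcon
  push Not at hcon
  have hyc : ∀ c ∈ k, y - c ≠ 0 := by
    intro c hc h0
    apply hy.1
    rw [sub_eq_zero.1 h0]
    exact hc
  -- the relation for a pair of constants
  have key : ∀ b₁ ∈ k, ∀ b₂ ∈ k, b₁ ≠ b₂ → ∃ i j : ZMod ℓ,
      i • cl ℓ (y - b₁) + j • cl ℓ (y - b₂) ∈ U ∧ (i = 0 → j ≠ 0) := by
    intro b₁ h1 b₂ h2 h12
    have hd : b₂ - b₁ ≠ 0 := sub_ne_zero.2 h12.symm
    have hg : (y - b₁) / (b₂ - b₁) ∈ adj k y :=
      (adj k y).div_mem ((adj k y).sub_mem (mem_adj k y) (le_adj k y h1))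
        (le_adj k y (k.sub_mem h2 h1))
    obtain ⟨i, j, hU, hne⟩ := hcon _ hg
    have e1 : cl ℓ ((y - b₁) / (b₂ - b₁)) = cl ℓ (y - b₁) := by
      rw [cl_div ℓ (hyc _ h1) hd, line_cl_const hk (k.sub_mem h2 h1), sub_zero]
    have e2 : cl ℓ (1 - (y - b₁) / (b₂ - b₁)) = cl ℓ (y - b₂) := by
      have h3 : 1 - (y - b₁) / (b₂ - b₁) = (-(y - b₂)) / (b₂ - b₁) := by
        field_simp
        ring
      rw [h3, cl_div ℓ (neg_ne_zero.2 (hyc _ h2)) hd, line_cl_const hk (k.sub_mem h2 h1),
        sub_zero, finB_cl_neg hk]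
    rw [e1, e2] at hU
    exact ⟨i, j, hU, hne⟩
  haveI : Infinite k := Set.infinite_coe_iff.2 (infinite_of_isAlgClosed hk)
  let g : ℕ ↪ k := Infinite.natEmbedding k
  let φ : ℕ ↪ K := ⟨fun n => (g n : K), fun a b h => g.injective (Subtype.ext h)⟩
  have hφ : Function.Injective φ := φ.injective
  have hnat : ∀ n : ℕ, φ n ∈ k := fun n => (g n).2
  have key2 : ∀ n : ℕ, ∃ i j : ZMod ℓ,
      i • cl ℓ (y - φ (2 * n)) + j • cl ℓ (y - φ (2 * n + 1)) ∈ U ∧
        (i = 0 → j ≠ 0) := by
    intro n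
    apply key _ (hnat _) _ (hnat _)
    intro h
    have := hφ h
    omega
  choose a b hab hne using key2
  set w : ℕ → V ℓ K := fun n =>
    a n • cl ℓ (y - φ (2 * n)) + b n • cl ℓ (y - φ (2 * n + 1)) with hw
  have hinj : Function.Injective w := by
    intro n m hnm
    by_contra hne'
    have hrel : ∑ c ∈ ({2 * n, 2 * n + 1, 2 * m, 2 * m + 1} : Finset ℕ).map
        φ,
        (fun c : K => if c = φ (2 * n) then a n else if c = φ (2 * n + 1) then b n
          else if c = φ (2 * m) then - a m else - b m) c • cl ℓ (y - c) = 0 := by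
      rw [Finset.sum_map]
      have d1 : 2 * n ∉ ({2 * n + 1, 2 * m, 2 * m + 1} : Finset ℕ) := by
        simp only [Finset.mem_insert, Finset.mem_singleton]
        omega
      have d2 : 2 * n + 1 ∉ ({2 * m, 2 * m + 1} : Finset ℕ) := by
        simp only [Finset.mem_insert, Finset.mem_singleton]
        omega
      have d3 : 2 * m ∉ ({2 * m + 1} : Finset ℕ) := by
        simp only [Finset.mem_singleton]
        omega
      rw [Finset.sum_insert d1, Finset.sum_insert d2, Finset.sum_insert d3, Finset.sum_singleton]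
      have c1 : (2 * n + 1 = 2 * n) = False := by simp
      have c2 : (2 * m = 2 * n) = False := by
        apply propext
        constructor
        · intro h; omega
        · intro h; exact h.elim
      have c3 : (2 * m = 2 * n + 1) = False := by
        apply propext
        constructor
        · intro h; omega
        · intro h; exact h.elim
      have c4 : (2 * m + 1 = 2 * n) = False := by
        apply propext
        constructor
        · intro h; omega
        · intro h; exact h.elim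
      have c5 : (2 * m + 1 = 2 * n + 1) = False := by
        apply propext
        constructor
        · intro h; omega
        · intro h; exact h.elim
      have c6 : (2 * m + 1 = 2 * m) = False := by simp
      simp only [hφ.eq_iff, if_true, c1, c2, c3, c4, c5, c6,
        if_false]
      have h1 : w n - w m = 0 := sub_eq_zero.2 hnm
      rw [hw] at h1
      simp only at h1
      rw [neg_smul, neg_smul, ← h1]
      abel
    have h0 := good_independent hk hy _ (by
      intro c hc
      rw [Finset.mem_map] at hc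
      obtain ⟨t, _, rfl⟩ := hc
      exact hnat t) _ hrel
    have m1 : φ (2 * n) ∈ ({2 * n, 2 * n + 1, 2 * m, 2 * m + 1} : Finset ℕ).map
        φ :=
      Finset.mem_map.2 ⟨2 * n, by simp, rfl⟩
    have m2 : φ (2 * n + 1) ∈ ({2 * n, 2 * n + 1, 2 * m, 2 * m + 1} : Finset ℕ).map
        φ :=
      Finset.mem_map.2 ⟨2 * n + 1, by simp, rfl⟩
    have r1 := h0 _ m1
    have r2 := h0 _ m2
    have c1 : (2 * n + 1 = 2 * n) = False := by simp
    simp only [hφ.eq_iff, if_true, c1, if_false] at r1 r2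
    exact hne n r1 r2
  refine Set.infinite_of_injective_forall_mem hinj (fun n => ?_) hfin
  refine ⟨hab n, ?_⟩
  exact (VS ℓ (adj k y)).add_mem
    ((VS ℓ (adj k y)).smul_mem _
      (cl_mem_VS ((adj k y).sub_mem (mem_adj k y) (le_adj k y (hnat _)))))
    ((VS ℓ (adj k y)).smul_mem _
      (cl_mem_VS ((adj k y).sub_mem (mem_adj k y) (le_adj k y (hnat _)))))

end Vale.Agent.P019P
end
end

section

section

/-!
# Valuations that are nontrivial on curves
-/

namespace Vale.Agent.P019

open Polynomial Filter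

variable {K : Type*} [Field K]

theorem Crv.alg {k E : Subfield K} (hk : RAC k) (h : Crv k E) {y : K} (hy : y ∈ E)
    (hyk : y ∉ k) : ∀ z ∈ E, IsAlgebraic (adj k y) z := by
  obtain ⟨y0, hy0, -, hall⟩ := h.ex
  intro z hz
  have h1 : ¬ IsAlgebraic k y := fun h' => hyk (hk y h')
  have h2 : IsAlgebraic (adj k y) y0 := exchange h1 (hall y hy)
  have h3 : adj k y0 ≤ Vale.Agent.P019.rac (adj k y) :=
    adj_le ((le_adj k y).trans (le_rac _)) (mem_rac.2 h2)
  exact isAlgebraic_rac (isAlgebraic_mono h3 (hall z hz))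

theorem exists_const {k E : Subfield K} (hk : IsAlgClosed k) (hE : Crv k E)
    {O : ValuationSubring K} (hOk : TrivOn O k) (hOE : ¬ TrivOn O E) {w : K} (hw : w ∈ E)
    (hw1 : O.valuation w = 1) : ∃ c ∈ k, O.valuation (w - c) < 1 := by
  by_contra hcon
  push Not at hcon
  have hone : ∀ c ∈ k, O.valuation (w - c) = 1 := by
    intro c hc
    refine le_antisymm ?_ (hcon c hc)
    refine (O.valuation.map_sub _ _).trans (max_le hw1.le (hOk.le_one hc))
  have hwk : w ∉ k := by
    intro h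
    have h1 := hone w h
    rw [sub_self, map_zero] at h1
    exact zero_ne_one h1
  have hms : ∀ m : Multiset k,
      O.valuation (aeval w (m.map fun a => X - C a).prod) = 1 := by
    intro m
    induction m using Multiset.induction_on with
    | empty => simp
    | cons a m ih =>
      have e : aeval w (((a ::ₘ m).map fun a => X - C a).prod : k[X]) =
          (w - (a : K)) * aeval w ((m.map fun a => X - C a).prod : k[X]) := by
        rw [Multiset.map_cons, Multiset.prod_cons, map_mul, map_sub, aeval_X, aeval_C]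
        rfl
      rw [e, map_mul, ih, mul_one]
      exact hone a a.2
  have hpoly : ∀ P : k[X], P ≠ 0 → O.valuation (aeval w P) = 1 := by
    intro P hP
    have h1 := (IsAlgClosed.splits P).eq_prod_roots
    rw [h1, map_mul, aeval_C, map_mul, hms, mul_one]
    exact hOk.eq_one (P.leadingCoeff).2 (fun h => hP (leadingCoeff_eq_zero.1 (Subtype.ext h)))
  have htriv : TrivOn O (adj k w) := by
    intro z hz
    obtain ⟨p, q, rfl⟩ := line_mem hz
    rw [← O.valuation_le_one_iff, map_div₀]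
    by_cases hq : q = 0
    · rw [hq, map_zero, map_zero, div_zero]; exact zero_le_one
    · rw [hpoly q hq, div_one]
      by_cases hp : p = 0
      · rw [hp, map_zero, map_zero]; exact zero_le_one
      · exact (hpoly p hp).le
  apply hOE
  intro z hz
  exact htriv.mem_of_isAlgebraic (hE.alg (RAC_of_isAlgClosed k hk) hw hwk z hz)

/-- a vanishing sum has two terms of equal nonzero valuation. -/
theorem exists_pair_of_sum_zero {ι : Type*} [DecidableEq ι] (O : ValuationSubring K)
    (s : Finset ι) (f : ι → K) (hs : s.Nonempty) (hf : ∀ i ∈ s, f i ≠ 0)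
    (h0 : ∑ i ∈ s, f i = 0) :
    ∃ i ∈ s, ∃ j ∈ s, i ≠ j ∧ O.valuation (f i) = O.valuation (f j) := by
  obtain ⟨j, hj, hmax⟩ := s.exists_max_image (fun i => O.valuation (f i)) hs
  by_contra hcon
  push Not at hcon
  have hlt : ∀ i ∈ s.erase j, O.valuation (f i) < O.valuation (f j) := by
    intro i hi
    exact lt_of_le_of_ne (hmax i (Finset.mem_of_mem_erase hi))
      (hcon i (Finset.mem_of_mem_erase hi) j hj (Finset.ne_of_mem_erase hi))
  have hvj : O.valuation (f j) ≠ 0 := (Valuation.ne_zero_iff _).2 (hf j hj)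
  have h1 : O.valuation (∑ i ∈ s.erase j, f i) < O.valuation (f j) :=
    Valuation.map_sum_lt _ hvj hlt
  have h2 := Finset.add_sum_erase s f hj
  rw [h0] at h2
  have h3 : f j = - ∑ i ∈ s.erase j, f i := eq_neg_of_add_eq_zero_left h2
  rw [← Valuation.map_neg, ← h3] at h1
  exact lt_irrefl _ h1

theorem triv_of_rk2 {ℓ : ℕ} [Fact ℓ.Prime] {k E : Subfield K} (hk : IsAlgClosed k)
    (hE : Crv k E) {O : ValuationSubring K} (hOk : TrivOn O k)
    (h : Rk2 (VS ℓ E) (U1 ℓ O)) : TrivOn O E := by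
  by_contra hOE
  have hex : ∃ c ∈ E, c ∉ O := by
    unfold TrivOn at hOE
    push Not at hOE
    exact hOE
  obtain ⟨c, hc, hcO⟩ := hex
  have hc1 : 1 < O.valuation c := by
    rw [← not_le, O.valuation_le_one_iff]; exact hcO
  have hc0 : c ≠ 0 := by rintro rfl; exact hcO O.zero_mem
  set y : K := c⁻¹ with hy
  have hyE : y ∈ E := E.inv_mem hc
  have hy0 : y ≠ 0 := inv_ne_zero hc0
  have hy1 : O.valuation y < 1 := by
    rw [hy, map_inv₀]; exact inv_lt_one_of_one_lt₀ hc1
  have hyk : y ∉ k := by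
    intro h'
    exact hy0 (hOk.eq_zero h' hy1)
  have hRk := RAC_of_isAlgClosed k hk
  -- elements of k(y)
  have hky : ∀ a ∈ adj k y, a ≠ 0 → ∃ n : ℤ, O.valuation a * O.valuation y ^ n = 1 := by
    intro a ha ha0
    have ha' : a ∈ IntermediateField.adjoin k {y} := by
      have : a ∈ (IntermediateField.adjoin k {y}).toSubfield := by rw [← adj_eq]; exact ha
      exact this
    obtain ⟨n, d, hd, hd0, hlt⟩ := exists_residue hOk hy1 hy0 ha' ha0
    have h1 := val_of_sub (hOk.eq_one hd hd0) hlt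
    refine ⟨n, ?_⟩
    rwa [map_mul, map_zpow₀] at h1
  have hvy : O.valuation y ≠ 0 := (Valuation.ne_zero_iff _).2 hy0
  -- the claim for one element
  have hclaim : ∀ u ∈ E, u ≠ 0 → ∃ n m : ℤ, n ≠ 0 ∧
      O.valuation u ^ n * O.valuation y ^ m = 1 := by
    intro u hu hu0
    obtain ⟨P, hP0, hP⟩ := hE.alg hRk hyE hyk u hu
    have hvu : O.valuation u ≠ 0 := (Valuation.ne_zero_iff _).2 hu0
    rw [aeval_eq_sum_range] at hP
    have hsum : ∑ i ∈ P.support, ((P.coeff i : adj k y) : K) * u ^ i = 0 := by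
      rw [← hP, ← Polynomial.aeval_eq_sum_range, aeval_eq_sum_range' (n := P.natDegree + 1)
        (Nat.lt_succ_self _)]
      rw [← Finset.sum_subset (Polynomial.supp_subset_range (Nat.lt_succ_self _))]
      · refine Finset.sum_congr rfl fun i _ => ?_
        rw [Algebra.smul_def]
        rfl
      · intro i _ hi
        rw [notMem_support_iff.1 hi, zero_smul]
    obtain ⟨i, hi, j, hj, hij, hval⟩ := exists_pair_of_sum_zero O P.support
      (fun i => ((P.coeff i : adj k y) : K) * u ^ i) (Polynomial.nonempty_support_iff.2 hP0)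
      (fun i hi => mul_ne_zero (fun h0 => mem_support_iff.1 hi (Subtype.ext h0))
        (pow_ne_zero _ hu0)) hsum
    simp only [map_mul, map_pow] at hval
    obtain ⟨n, hn⟩ := hky _ (P.coeff i).2 (fun h0 => mem_support_iff.1 hi (Subtype.ext h0))
    obtain ⟨m, hm⟩ := hky _ (P.coeff j).2 (fun h0 => mem_support_iff.1 hj (Subtype.ext h0))
    refine ⟨(i : ℤ) - j, m - n, sub_ne_zero.2 (by exact_mod_cast hij), ?_⟩
    have hn' : O.valuation ((P.coeff i : adj k y) : K) = (O.valuation y ^ n)⁻¹ :=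
      eq_inv_of_mul_eq_one_left hn
    have hm' : O.valuation ((P.coeff j : adj k y) : K) = (O.valuation y ^ m)⁻¹ :=
      eq_inv_of_mul_eq_one_left hm
    rw [hn', hm'] at hval
    rw [zpow_sub₀ hvu, zpow_sub₀ hvy, zpow_natCast, zpow_natCast]
    have e1 : O.valuation y ^ n ≠ 0 := zpow_ne_zero _ hvy
    have e2 : O.valuation y ^ m ≠ 0 := zpow_ne_zero _ hvy
    have e3 : O.valuation u ^ i ≠ 0 := pow_ne_zero _ hvu
    have e4 : O.valuation u ^ j ≠ 0 := pow_ne_zero _ hvu
    have h5 : O.valuation u ^ i * O.valuation y ^ m = O.valuation u ^ j * O.valuation y ^ n := by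
      field_simp at hval
      rw [hval, mul_comm]
    rw [div_mul_div_comm, h5]
    exact div_self (mul_ne_zero e4 e1)
  obtain ⟨u0, hu0, v0, hv0, hind⟩ := h
  obtain ⟨u, hu, hu0', rfl⟩ := hu0
  obtain ⟨v, hv, hv0', rfl⟩ := hv0
  have hvu : O.valuation u ≠ 0 := (Valuation.ne_zero_iff _).2 hu0'
  have hvv : O.valuation v ≠ 0 := (Valuation.ne_zero_iff _).2 hv0'
  obtain ⟨n, m, hn0, hnm⟩ := hclaim u hu hu0'
  obtain ⟨n', m', hn0', hnm'⟩ := hclaim v hv hv0'
  -- a relation between u and v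
  have hrel : ∃ p q : ℤ, (p ≠ 0 ∨ q ≠ 0) ∧ O.valuation u ^ p * O.valuation v ^ q = 1 := by
    by_cases hm : m = 0
    · refine ⟨n, 0, Or.inl hn0, ?_⟩
      rw [hm, zpow_zero, mul_one] at hnm
      rw [hnm, zpow_zero, mul_one]
    · refine ⟨n * m', -(n' * m), Or.inr (neg_ne_zero.2 (mul_ne_zero hn0' hm)), ?_⟩
      have h1 : O.valuation u ^ (n * m') * O.valuation y ^ (m * m') = 1 := by
        rw [zpow_mul, zpow_mul, ← mul_zpow, hnm, one_zpow]
      have h2 : O.valuation v ^ (n' * m) * O.valuation y ^ (m' * m) = 1 := by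
        rw [zpow_mul, zpow_mul, ← mul_zpow, hnm', one_zpow]
      rw [mul_comm m' m] at h2
      rw [zpow_neg, eq_inv_of_mul_eq_one_left h1, eq_inv_of_mul_eq_one_left h2, inv_inv]
      exact inv_mul_cancel₀ (zpow_ne_zero _ hvy)
  obtain ⟨p, q, hpq, hrel⟩ := hrel
  -- divide by the gcd
  have hg : 0 < Int.gcd p q := Int.gcd_pos_iff.2 hpq
  obtain ⟨p', q', hcop, hp', hq'⟩ := Int.exists_gcd_one hg
  have hrel' : O.valuation u ^ p' * O.valuation v ^ q' = 1 := by
    have h1 : (O.valuation u ^ p' * O.valuation v ^ q') ^ (Int.gcd p q) = 1 := by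
      rw [mul_pow, ← zpow_natCast, ← zpow_natCast, ← zpow_mul, ← zpow_mul, ← hp', ← hq']
      exact hrel
    exact (pow_eq_one_iff_of_nonneg zero_le hg.ne').1 h1
  have hwE : u ^ p' * v ^ q' ∈ E := E.mul_mem (zpow_mem hu _) (zpow_mem hv _)
  have hw1 : O.valuation (u ^ p' * v ^ q') = 1 := by
    rw [map_mul, map_zpow₀, map_zpow₀]; exact hrel'
  obtain ⟨d, hd, hlt⟩ := exists_const hk hE hOk hOE hwE hw1
  have hd0 : d ≠ 0 := by
    rintro rfl
    rw [sub_zero, hw1] at hlt
    exact lt_irrefl _ hlt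
  have h1 := cl_sub_cl_mem_U1 (ℓ := ℓ) (hOk.eq_one hd hd0) hlt
  rw [line_cl_const hk hd, sub_zero, cl_mul ℓ (zpow_ne_zero _ hu0') (zpow_ne_zero _ hv0'),
    cl_zpow, cl_zpow, ← Int.cast_smul_eq_zsmul (ZMod ℓ), ← Int.cast_smul_eq_zsmul (ZMod ℓ)] at h1
  obtain ⟨h2, h3⟩ := hind _ _ h1
  rw [ZMod.intCast_zmod_eq_zero_iff_dvd] at h2 h3
  have h4 : (ℓ : ℤ) ∣ (Int.gcd p' q' : ℤ) := Int.dvd_coe_gcd h2 h3
  rw [hcop] at h4
  have h5 : (ℓ : ℤ) ∣ 1 := by exact_mod_cast h4
  have h6 : ℓ ∣ 1 := by exact_mod_cast h5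
  exact (Fact.out : ℓ.Prime).one_lt.ne' (Nat.dvd_one.1 h6)

end Vale.Agent.P019
end
end

section

section

/-!
# The functionals of the points of a rational curve (perfect version)
-/

namespace Vale.Agent.P019P

open Vale.Agent.P019

set_option linter.style.haveILetI false
set_option linter.unusedSectionVars false

open Polynomial Filter

variable {K : Type*} [Field K] [PerfectField K] {ℓ : ℕ} [Fact ℓ.Prime] [NeZero (ℓ : K)]
  {k : Subfield K}

theorem cl_sub_independent (hk : IsAlgClosed k) {s : K} (hs : Good k s) :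
    LinearIndependent (ZMod ℓ) (fun c : k => cl ℓ (s - (c : K))) := by
  classical
  rw [linearIndependent_iff']
  intro T g hg c hc
  let n : K → ZMod ℓ := fun a => if h : a ∈ k then g ⟨a, h⟩ else 0
  have hn : ∀ a : k, n a = g a := by
    intro a
    change (if h : (a : K) ∈ k then g ⟨a, h⟩ else 0) = g a
    rw [dif_pos a.2]
  have h1 := good_independent (ℓ := ℓ) hk hs (T.map ⟨Subtype.val, Subtype.val_injective⟩)
    (by
      intro a ha
      obtain ⟨a', _, rfl⟩ := Finset.mem_map.1 ha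
      exact a'.2) n
    (by
      rw [Finset.sum_map]
      rw [← hg]
      refine Finset.sum_congr rfl ?_
      intro a _
      change n a • cl ℓ (s - (a : K)) = _
      rw [hn])
  have h2 := h1 c (Finset.mem_map.2 ⟨c, hc, rfl⟩)
  rw [hn] at h2
  exact h2

theorem exists_del (hk : IsAlgClosed k) {s : K} (hs : Good k s) {b : K} (hb : b ∈ k) :
    ∃ f : V ℓ K →ₗ[ZMod ℓ] ZMod ℓ, f (cl ℓ (s - b)) = 1 ∧
      ∀ c ∈ k, c ≠ b → f (cl ℓ (s - c)) = 0 := by
  classical
  have hli := cl_sub_independent (ℓ := ℓ) hk hs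
  obtain ⟨g, hg⟩ := LinearMap.exists_extend
    ((Finsupp.lapply (⟨b, hb⟩ : k)).comp hli.repr :
      Submodule.span (ZMod ℓ) (Set.range fun c : k => cl ℓ (s - (c : K))) →ₗ[ZMod ℓ] ZMod ℓ)
  have key : ∀ c : k, g (cl ℓ (s - (c : K))) = if c = ⟨b, hb⟩ then 1 else 0 := by
    intro c
    have hmem : cl ℓ (s - (c : K)) ∈
        Submodule.span (ZMod ℓ) (Set.range fun c : k => cl ℓ (s - (c : K))) :=
      Submodule.subset_span ⟨c, rfl⟩
    have h1 := LinearMap.congr_fun hg ⟨_, hmem⟩
    have h2 : hli.repr ⟨cl ℓ (s - (c : K)), hmem⟩ = Finsupp.single c 1 :=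
      hli.repr_eq_single c _ rfl
    change g (cl ℓ (s - (c : K))) = (hli.repr ⟨cl ℓ (s - (c : K)), hmem⟩) ⟨b, hb⟩ at h1
    rw [h1, h2, Finsupp.single_apply]
  refine ⟨g, ?_, ?_⟩
  · have := key ⟨b, hb⟩
    rw [if_pos rfl] at this
    exact this
  · intro c hc hcb
    have := key ⟨c, hc⟩
    rw [if_neg (fun h => hcb (congrArg Subtype.val h))] at this
    exact this

theorem del_spec (hk : IsAlgClosed k) {s : K} (hs : Good k s) {b : K} (hb : b ∈ k) :
    del ℓ k s b (cl ℓ (s - b)) = 1 ∧ ∀ c ∈ k, c ≠ b → del ℓ k s b (cl ℓ (s - c)) = 0 := by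
  have h := exists_del (ℓ := ℓ) hk hs hb
  unfold del
  rw [dif_pos h]
  exact h.choose_spec

theorem del_self (hk : IsAlgClosed k) {s : K} (hs : Good k s) {b : K} (hb : b ∈ k) :
    del ℓ k s b (cl ℓ (s - b)) = 1 := (del_spec hk hs hb).1

theorem del_ne (hk : IsAlgClosed k) {s : K} (hs : Good k s) {b c : K} (hb : b ∈ k) (hc : c ∈ k)
    (hcb : c ≠ b) : del ℓ k s b (cl ℓ (s - c)) = 0 := (del_spec hk hs hb).2 c hc hcb

open Classical in
theorem del_eval (hk : IsAlgClosed k) {s : K} (hs : Good k s) (T : Finset K)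
    (hT : ∀ c ∈ T, c ∈ k) (n : K → ZMod ℓ) {b : K} (hb : b ∈ k) :
    del ℓ k s b (∑ c ∈ T, n c • cl ℓ (s - c)) = if b ∈ T then n b else 0 := by
  rw [map_sum]
  have h1 : ∀ c ∈ T, del ℓ k s b (n c • cl ℓ (s - c)) = if b = c then n c else 0 := by
    intro c hc
    rw [map_smul]
    by_cases h : b = c
    · subst h
      rw [del_self hk hs hb, if_pos rfl, smul_eq_mul, mul_one]
    · rw [del_ne hk hs hb (hT c hc) (Ne.symm h), if_neg h, smul_zero]
  rw [Finset.sum_congr rfl h1, Finset.sum_ite_eq]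

theorem del_ae (hk : IsAlgClosed k) {s : K} (hs : Good k s) {v : V ℓ K}
    (hv : v ∈ VS ℓ (adj k s)) : ∀ᶠ b in ae k, del ℓ k s b v = 0 := by
  classical
  obtain ⟨T, n, hT, rfl⟩ := adj_factor hk hs.1 hv
  rw [ae_iff]
  refine T.finite_toSet.subset ?_
  rintro b ⟨hb, hne⟩
  rw [del_eval hk hs T hT n hb] at hne
  by_contra h
  exact hne (if_neg h)

theorem del_sum (hk : IsAlgClosed k) {s : K} (hs : Good k s) {v : V ℓ K}
    (hv : v ∈ VS ℓ (adj k s)) (S : Finset K) (hSk : ∀ b ∈ S, b ∈ k)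
    (hS : ∀ b ∈ k, b ∉ S → del ℓ k s b v = 0) :
    v = ∑ b ∈ S, del ℓ k s b v • cl ℓ (s - b) := by
  classical
  obtain ⟨T, n, hT, rfl⟩ := adj_factor hk hs.1 hv
  have hTS : ∀ b ∈ T, b ∉ S → n b = 0 := by
    intro b hb hbS
    have h1 := hS b (hT b hb) hbS
    rw [del_eval hk hs T hT n (hT b hb), if_pos hb] at h1
    exact h1
  have h1 : ∀ b ∈ S, del ℓ k s b (∑ c ∈ T, n c • cl ℓ (s - c)) • cl ℓ (s - b) =
      if b ∈ T then n b • cl ℓ (s - b) else 0 := by
    intro b hb
    rw [del_eval hk hs T hT n (hSk b hb)]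
    split_ifs
    · rfl
    · exact zero_smul _ _
  rw [Finset.sum_congr rfl h1, ← Finset.sum_filter]
  symm
  refine Finset.sum_subset (fun b hb => (Finset.mem_filter.1 hb).2) ?_
  intro b hb hb'
  have h2 : b ∉ S := fun h => hb' (Finset.mem_filter.2 ⟨h, hb⟩)
  rw [hTS b hb h2, zero_smul]

theorem del_finite (hk : IsAlgClosed k) {s : K} (hs : Good k s) (S : Finset K)
    (hSk : ∀ b ∈ S, b ∈ k) :
    {v : V ℓ K | v ∈ VS ℓ (adj k s) ∧ ∀ b ∈ k, b ∉ S → del ℓ k s b v = 0}.Finite := by
  classical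
  have : NeZero ℓ := ⟨(Fact.out : ℓ.Prime).ne_zero⟩
  have hfin : (Set.range fun g : S → ZMod ℓ => ∑ b : S, g b • cl ℓ (s - (b : K))).Finite :=
    Set.finite_range _
  refine hfin.subset ?_
  rintro v ⟨hv, hvS⟩
  refine ⟨fun b => del ℓ k s b v, ?_⟩
  have h1 := del_sum hk hs hv S hSk hvS
  conv_rhs => rw [h1]
  rw [← Finset.sum_coe_sort S]

/-- functionals that kill the units of a valuation, at finite distance. -/
theorem del_of_kills (hk : IsAlgClosed k) {s : K} (hs : Good k s) {O : ValuationSubring K}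
    (hOk : TrivOn O k) {b : K} (hb : b ∈ k) (hsb : O.valuation (s - b) < 1)
    (f : V ℓ K →ₗ[ZMod ℓ] ZMod ℓ) (hf : ∀ z, O.valuation z = 1 → f (cl ℓ z) = 0) {v : V ℓ K}
    (hv : v ∈ VS ℓ (adj k s)) : f v = f (cl ℓ (s - b)) * del ℓ k s b v := by
  classical
  obtain ⟨T, n, hT, rfl⟩ := adj_factor hk hs.1 hv
  rw [del_eval hk hs T hT n hb, map_sum]
  have h1 : ∀ c ∈ T, f (n c • cl ℓ (s - c)) = if b = c then n c * f (cl ℓ (s - b)) else 0 := by
    intro c hc
    rw [map_smul]
    by_cases h : b = c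
    · subst h
      rw [if_pos rfl, smul_eq_mul]
    · have h2 : O.valuation (b - c) = 1 :=
        hOk.eq_one (Subfield.sub_mem _ hb (hT c hc)) (sub_ne_zero.2 h)
      have h3 : O.valuation (s - c) = 1 := by
        have h4 : s - c = (s - b) + (b - c) := by ring
        rw [h4, Valuation.map_add_eq_of_lt_right _ (by rw [h2]; exact hsb), h2]
      rw [hf _ h3, if_neg h, smul_zero]
  rw [Finset.sum_congr rfl h1, Finset.sum_ite_eq]
  split_ifs
  · ring
  · rw [mul_zero]

/-- a valuation that is nontrivial on `k(s)` has a centre. -/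
theorem exists_centre (hk : IsAlgClosed k) {s : K} (hs : Good k s) {O : ValuationSubring K}
    (hOk : TrivOn O k) (hO : ¬ TrivOn O (adj k s)) :
    (∃ b ∈ k, O.valuation (s - b) < 1) ∨ 1 < O.valuation s := by
  by_contra hcon
  push Not at hcon
  obtain ⟨h1, h2⟩ := hcon
  have hunit : ∀ c ∈ k, O.valuation (s - c) = 1 := by
    intro c hc
    refine le_antisymm ?_ (h1 c hc)
    refine (Valuation.map_sub _ _ _).trans (max_le h2 (hOk.le_one hc))
  have hpoly : ∀ p : k[X], p ≠ 0 → O.valuation (aeval s p) = 1 := by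
    intro p hp
    have e1 : p = C p.leadingCoeff * (p.roots.map fun a => X - C a).prod :=
      (IsAlgClosed.splits p).eq_prod_roots
    have h3 : ((p.leadingCoeff : k) : K) ≠ 0 := by
      intro h
      exact hp (leadingCoeff_eq_zero.1 (Subtype.ext h))
    have key : ∀ m : Multiset k,
        O.valuation (aeval s ((m.map fun a => X - C a).prod : k[X])) = 1 := by
      intro m
      induction m using Multiset.induction_on with
      | empty => simp
      | cons a m ih =>
        have e : aeval s (((a ::ₘ m).map fun a => X - C a).prod : k[X]) =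
            (s - (a : K)) * aeval s ((m.map fun a => X - C a).prod : k[X]) := by
          rw [Multiset.map_cons, Multiset.prod_cons, map_mul, map_sub, aeval_X, aeval_C]
          rfl
        rw [e, map_mul, ih, hunit a a.2, one_mul]
    have e2 : aeval s p = ((p.leadingCoeff : k) : K) *
        aeval s ((p.roots.map fun a => X - C a).prod : k[X]) := by
      conv_lhs => rw [e1]
      rw [map_mul, aeval_C]
      rfl
    rw [e2, map_mul, key, mul_one, hOk.eq_one (p.leadingCoeff).2 h3]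
  apply hO
  intro z hz
  obtain ⟨N, hN⟩ := mem_adj_iff.1 hz
  rw [← O.valuation_le_one_iff]
  have hNle : O.valuation (z ^ (ringExpChar K) ^ N) ≤ 1 := by
    by_cases hz0 : z ^ (ringExpChar K) ^ N = 0
    · rw [hz0, map_zero]
      exact zero_le_one
    obtain ⟨p, q, hpq⟩ := line_mem hN
    rw [hpq] at hz0 ⊢
    have hp : p ≠ 0 := by
      rintro rfl
      simp at hz0
    have hq : q ≠ 0 := by
      rintro rfl
      simp at hz0
    rw [map_div₀, hpoly p hp, hpoly q hq, div_one]
  rw [map_pow] at hNle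
  exact (pow_le_one_iff (qn_ne_zero K N)).1 hNle

/-- twisting the coordinate by Frobenius multiplies the functional. -/
theorem del_pow (hk : IsAlgClosed k) {s : K} (hs : Good k s) {b : K} (hb : b ∈ k) (n : ℕ)
    {v : V ℓ K} (hv : v ∈ VS ℓ (adj k s)) :
    (((ringExpChar K) ^ n : ℕ) : ZMod ℓ) *
      del ℓ k (s ^ (ringExpChar K) ^ n) (b ^ (ringExpChar K) ^ n) v = del ℓ k s b v := by
  classical
  haveI : IsAlgClosed k := hk
  haveI : PerfectField k := inferInstance
  obtain ⟨T, m, hT, rfl⟩ := adj_factor hk hs.1 hv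
  have hs' : Good k (s ^ (ringExpChar K) ^ n) := good_pow.2 hs
  have hb' : b ^ (ringExpChar K) ^ n ∈ k := k.pow_mem hb _
  rw [del_eval hk hs T hT m hb, map_sum, Finset.mul_sum]
  have h1 : ∀ c ∈ T, (((ringExpChar K) ^ n : ℕ) : ZMod ℓ) *
      del ℓ k (s ^ (ringExpChar K) ^ n) (b ^ (ringExpChar K) ^ n) (m c • cl ℓ (s - c)) =
      if b = c then m c else 0 := by
    intro c hc
    have h2 : (((ringExpChar K) ^ n : ℕ) : ZMod ℓ) *
        del ℓ k (s ^ (ringExpChar K) ^ n) (b ^ (ringExpChar K) ^ n) (m c • cl ℓ (s - c)) =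
        m c * del ℓ k (s ^ (ringExpChar K) ^ n) (b ^ (ringExpChar K) ^ n)
          (cl ℓ (s ^ (ringExpChar K) ^ n - c ^ (ringExpChar K) ^ n)) := by
      rw [← sub_pow_q, cl_pow_q, map_smul, map_smul, smul_eq_mul, smul_eq_mul]
      ring
    rw [h2]
    by_cases h : b = c
    · subst h
      rw [del_self hk hs' hb', if_pos rfl, mul_one]
    · rw [del_ne hk hs' hb' (k.pow_mem (hT c hc) _) (fun h' => h (pow_q_inj h').symm),
        if_neg h, mul_zero]
  rw [Finset.sum_congr rfl h1, Finset.sum_ite_eq]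

end Vale.Agent.P019P
end
end

section

section

/-!
# Valuations of surfaces
-/

namespace Vale.Agent.P019P

open Vale.Agent.P019

set_option linter.style.haveILetI false
set_option linter.unusedSectionVars false

open Polynomial Filter

section rsb

variable {F : Type*} [Field F]

/-- two terms of equal nonzero value in a vanishing sum. -/
theorem rsb_two {O : ValuationSubring F} {ι : Type*} [DecidableEq ι] (s : Finset ι) (f : ι → F)
    (h : ∑ i ∈ s, f i = 0) (hne : ∃ i ∈ s, f i ≠ 0) :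
    ∃ i ∈ s, ∃ j ∈ s, i ≠ j ∧ f i ≠ 0 ∧ O.valuation (f i) = O.valuation (f j) := by
  obtain ⟨i0, hi0, hf0⟩ := hne
  obtain ⟨i, hi, hmax⟩ := s.exists_max_image (fun i => O.valuation (f i)) ⟨i0, hi0⟩
  have hfi : f i ≠ 0 := by
    intro h0
    have h1 := hmax i0 hi0
    rw [h0, map_zero] at h1
    exact hf0 ((Valuation.zero_iff _).1 (le_antisymm h1 zero_le))
  by_contra hcon
  push Not at hcon
  have h2 : ∀ j ∈ s.erase i, O.valuation (f j) < O.valuation (f i) := by
    intro j hj
    rw [Finset.mem_erase] at hj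
    exact lt_of_le_of_ne (hmax j hj.2) fun h3 => hcon i hi j hj.2 (Ne.symm hj.1) hfi h3.symm
  have h3 := Valuation.map_sum_lt O.valuation ((Valuation.ne_zero_iff _).2 hfi) h2
  rw [← Finset.add_sum_erase _ _ hi] at h
  rw [← neg_eq_of_add_eq_zero_right h, Valuation.map_neg] at h3
  exact lt_irrefl _ h3

variable {E : Subfield F} {O : ValuationSubring F} {X : F}

/-- the values of `E(X)`. -/
theorem rsb_val (hO : TrivOn O E) (hX0 : X ≠ 0) (hX : O.valuation X < 1) {a : F}
    (ha : a ∈ IntermediateField.adjoin E {X}) (ha0 : a ≠ 0) :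
    ∃ r : ℤ, O.valuation a = O.valuation X ^ r := by
  obtain ⟨n, c, hc, hc0, h⟩ := exists_residue hO hX hX0 ha ha0
  have h1 := val_of_sub (hO.eq_one hc hc0) h
  refine ⟨-n, ?_⟩
  rw [map_mul, map_zpow₀] at h1
  rw [zpow_neg]
  exact eq_inv_of_mul_eq_one_left h1

/-- independence of the elements whose residues are independent. -/
theorem rsb_indep (hO : TrivOn O E) (hX0 : X ≠ 0) (hX : O.valuation X < 1) {ι : Type*}
    [Fintype ι] {z : ι → F} (hz : ∀ i, z i ∈ O)
    (h : LinearIndependent (bar hO) fun i => rs O (z i)) :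
    LinearIndependent (IntermediateField.adjoin E {X}) z := by
  rw [Fintype.linearIndependent_iff] at h ⊢
  intro a ha
  by_contra hcon
  push Not at hcon
  obtain ⟨i1, hi1⟩ := hcon
  obtain ⟨i0, -, hmax⟩ := Finset.univ.exists_max_image (fun i => O.valuation (a i : F))
    ⟨i1, Finset.mem_univ _⟩
  have ha0 : (a i0 : F) ≠ 0 := by
    intro h0
    have h1 := hmax i1 (Finset.mem_univ _)
    rw [h0, map_zero] at h1
    exact hi1 (Subtype.ext ((Valuation.zero_iff _).1 (le_antisymm h1 zero_le)))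
  have hv0 : 0 < O.valuation (a i0 : F) := zero_lt_iff.2 ((Valuation.ne_zero_iff _).2 ha0)
  have hb : ∀ i, ∃ c : E, O.valuation ((a i : F) / a i0 - c) < 1 := by
    intro i
    refine exists_residue_of_le hO hX hX0 (div_mem (a i).2 (a i0).2) ?_
    rw [map_div₀]
    exact (div_le_one₀ hv0).2 (hmax i (Finset.mem_univ _))
  choose c hc using hb
  have hsum : ∑ i, ((a i : F) / a i0) * z i = 0 := by
    have h1 : ∑ i, ((a i : F) / a i0) * z i = (∑ i, (a i : F) * z i) / a i0 := by
      rw [Finset.sum_div]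
      exact Finset.sum_congr rfl fun i _ => by ring
    rw [h1]
    have h2 : ∑ i, (a i : F) * z i = 0 := ha
    rw [h2, zero_div]
  have hcz : ∀ i, (c i : F) * z i ∈ O := fun i => mul_mem (hO _ (c i).2) (hz i)
  have hlt : O.valuation (∑ i, (c i : F) * z i) < 1 := by
    have h1 : ∑ i, (c i : F) * z i = -∑ i, ((a i : F) / a i0 - c i) * z i := by
      have h2 : ∑ i, ((a i : F) / a i0 - c i) * z i =
          ∑ i, ((a i : F) / a i0) * z i - ∑ i, (c i : F) * z i := by
        rw [← Finset.sum_sub_distrib]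
        exact Finset.sum_congr rfl fun i _ => by ring
      rw [h2, hsum, zero_sub, neg_neg]
    rw [h1, Valuation.map_neg]
    refine Valuation.map_sum_lt _ one_ne_zero fun i _ => ?_
    rw [map_mul]
    exact lt_of_le_of_lt (mul_le_of_le_one_right' ((O.valuation_le_one_iff _).2 (hz i))) (hc i)
  have hrs : ∀ s : Finset ι, ∑ i ∈ s, (c i : F) * z i ∈ O ∧
      rs O (∑ i ∈ s, (c i : F) * z i) = ∑ i ∈ s, rs O (c i : F) * rs O (z i) := by
    classical
    intro s
    induction s using Finset.induction_on with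
    | empty => simp [rs_zero, zero_mem]
    | insert i s hi ih =>
      rw [Finset.sum_insert hi, Finset.sum_insert hi]
      exact ⟨add_mem (hcz i) ih.1, by
        rw [rs_add (hcz i) ih.1, ih.2, rs_mul (hO _ (c i).2) (hz i)]⟩
  have h0 := (rs_eq_zero (hrs Finset.univ).1).2 hlt
  rw [(hrs Finset.univ).2] at h0
  have h1 := h (fun i => ⟨rs O (c i : F), rs_mem_bar hO (c i).2⟩) h0 i0
  have h2 : rs O (c i0 : F) = 0 := congrArg Subtype.val h1
  have h3 := hc i0
  rw [div_self ha0, ← rs_eq (one_mem O) (hO _ (c i0).2), rs_one, h2] at h3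
  exact one_ne_zero h3

/-- the image of a subfield in the residue field. -/
noncomputable def rsbK (hO : TrivOn O E) {L : Subfield F} (hL : E ≤ L) :
    Subalgebra (bar hO) (IsLocalRing.ResidueField O) where
  carrier := {c | ∃ z ∈ L, z ∈ O ∧ rs O z = c}
  mul_mem' := by
    rintro _ _ ⟨x, hx, hxO, rfl⟩ ⟨y, hy, hyO, rfl⟩
    exact ⟨x * y, mul_mem hx hy, mul_mem hxO hyO, rs_mul hxO hyO⟩
  add_mem' := by
    rintro _ _ ⟨x, hx, hxO, rfl⟩ ⟨y, hy, hyO, rfl⟩
    exact ⟨x + y, add_mem hx hy, add_mem hxO hyO, rs_add hxO hyO⟩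
  algebraMap_mem' := by
    rintro ⟨c, hc⟩
    obtain ⟨e, he, rfl⟩ := (mem_bar hO).1 hc
    exact ⟨e, hL he, hO e he, rfl⟩

theorem fin_of_rank_lt {K V : Type*} [Field K] [AddCommGroup V] [Module K V]
    (h : Module.rank K V < Cardinal.aleph0) : Module.Finite K V :=
  Module.rank_lt_aleph0_iff.1 h

/-- the image is finite. -/
theorem rsb_fin (hO : TrivOn O E) (hX0 : X ≠ 0) (hX : O.valuation X < 1)
    (L : IntermediateField (IntermediateField.adjoin E {X}) F)
    [FiniteDimensional (IntermediateField.adjoin E {X}) L] (hL : E ≤ L.toSubfield) :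
    (Subalgebra.toSubmodule (rsbK hO hL)).FG := by
  classical
  have h1 : Module.rank (bar hO) (Subalgebra.toSubmodule (rsbK hO hL)) ≤
      (Module.finrank (IntermediateField.adjoin E {X}) L : ℕ) := by
    refine rank_le fun s hs => ?_
    have hex : ∀ i : s, ∃ z ∈ L, z ∈ O ∧
        rs O z = ((i : Subalgebra.toSubmodule (rsbK hO hL)) : IsLocalRing.ResidueField O) :=
      fun i => (i : Subalgebra.toSubmodule (rsbK hO hL)).2
    choose w hwL hwO hw using hex
    have h2 : LinearIndependent (bar hO) fun i => rs O (w i) := by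
      have h3 := hs.map' (Subalgebra.toSubmodule (rsbK hO hL)).subtype (Submodule.ker_subtype _)
      have h4 : (fun i => rs O (w i)) = (Subalgebra.toSubmodule (rsbK hO hL)).subtype ∘
          fun i : s => (i : Subalgebra.toSubmodule (rsbK hO hL)) := by
        funext i
        exact hw i
      rw [h4]
      exact h3
    have h5 := rsb_indep hO hX0 hX hwO h2
    have h6 : LinearIndependent (IntermediateField.adjoin E {X}) (fun i => (⟨w i, hwL i⟩ : L)) :=
      LinearIndependent.of_comp L.val.toLinearMap h5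
    have h7 := h6.fintype_card_le_finrank
    rwa [Fintype.card_coe] at h7
  have h8 : Module.rank (bar hO) (Subalgebra.toSubmodule (rsbK hO hL)) < Cardinal.aleph0 :=
    lt_of_le_of_lt h1 (Cardinal.natCast_lt_aleph0)
  exact Module.Finite.iff_fg.1 (fin_of_rank_lt h8)

theorem rsb_cancel {x y z : F} (hy : y ≠ 0) (hz : z ≠ 0) {i j : ℕ} (hij : i < j)
    (h : O.valuation (x * z ^ i) = O.valuation (y * z ^ j)) :
    O.valuation z ^ (j - i) = O.valuation (x / y) := by
  have hy' : O.valuation y ≠ 0 := (Valuation.ne_zero_iff _).2 hy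
  have hz' : O.valuation z ≠ 0 := (Valuation.ne_zero_iff _).2 hz
  rw [map_mul, map_mul, map_pow, map_pow] at h
  rw [map_div₀, eq_div_iff hy']
  refine mul_right_cancel₀ (pow_ne_zero i hz') ?_
  rw [h, mul_comm _ (O.valuation y), mul_assoc, ← pow_add, Nat.sub_add_cancel hij.le]

/-- the values of the elements of a finite extension of `E(X)`. -/
theorem rsb_pow (hO : TrivOn O E) (hX0 : X ≠ 0) (hX : O.valuation X < 1)
    (L : IntermediateField (IntermediateField.adjoin E {X}) F)
    [FiniteDimensional (IntermediateField.adjoin E {X}) L] {z : F} (hz : z ∈ L) (hz0 : z ≠ 0) :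
    ∃ r : ℤ, O.valuation z ^ (Module.finrank (IntermediateField.adjoin E {X}) L).factorial =
      O.valuation X ^ r := by
  set P := minpoly (IntermediateField.adjoin E {X}) (⟨z, hz⟩ : L) with hP
  have hint : IsIntegral (IntermediateField.adjoin E {X}) (⟨z, hz⟩ : L) :=
    IsIntegral.of_finite _ _
  haveI : Module.Free (IntermediateField.adjoin E {X}) L := Module.Free.of_divisionRing _ _
  have hdeg : P.natDegree ≤ Module.finrank (IntermediateField.adjoin E {X}) L :=
    minpoly.natDegree_le _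
  have hmon : P.Monic := minpoly.monic hint
  have hroot : ∑ i ∈ Finset.range (P.natDegree + 1), (P.coeff i : F) * z ^ i = 0 := by
    have h1 : aeval (⟨z, hz⟩ : L) P = 0 := minpoly.aeval _ _
    rw [aeval_eq_sum_range] at h1
    have h2 := congrArg (fun x : L => (x : F)) h1
    simpa [IntermediateField.coe_sum, Algebra.smul_def] using h2
  have key : ∀ i j : ℕ, i < j → j ≤ P.natDegree → (P.coeff i : F) ≠ 0 → (P.coeff j : F) ≠ 0 →
      O.valuation ((P.coeff i : F) * z ^ i) = O.valuation ((P.coeff j : F) * z ^ j) →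
      ∃ r : ℤ, O.valuation z ^ (Module.finrank (IntermediateField.adjoin E {X}) L).factorial =
        O.valuation X ^ r := by
    intro i j hij hj hi0 hj0 h
    have h1 := rsb_cancel hj0 hz0 hij h
    obtain ⟨r, hr⟩ := rsb_val hO hX0 hX (div_mem (P.coeff i).2 (P.coeff j).2)
      (div_ne_zero hi0 hj0)
    have hdvd : j - i ∣ (Module.finrank (IntermediateField.adjoin E {X}) L).factorial :=
      Nat.dvd_factorial (by omega) (by omega)
    obtain ⟨k, hk⟩ := hdvd
    refine ⟨r * k, ?_⟩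
    rw [hk, pow_mul, h1, hr, zpow_mul, zpow_natCast]
  obtain ⟨i, hi, j, hj, hij, hi0, h⟩ := rsb_two (O := O) (Finset.range (P.natDegree + 1))
    (fun i => (P.coeff i : F) * z ^ i) hroot ⟨P.natDegree, Finset.self_mem_range_succ _, by
      rw [hmon.coeff_natDegree]
      exact mul_ne_zero one_ne_zero (pow_ne_zero _ hz0)⟩
  rw [Finset.mem_range, Nat.lt_succ_iff] at hi hj
  have hj0 : (P.coeff j : F) * z ^ j ≠ 0 := by
    intro h0
    rw [h0, map_zero] at h
    exact hi0 ((Valuation.zero_iff _).1 h)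
  have hi1 : (P.coeff i : F) ≠ 0 := left_ne_zero_of_mul hi0
  have hj1 : (P.coeff j : F) ≠ 0 := left_ne_zero_of_mul hj0
  rcases lt_or_gt_of_ne hij with hlt | hgt
  · exact key i j hlt hj hi1 hj1 h
  · exact key j i hgt hi hj1 hi1 h.symm

/-- values are discrete. -/
theorem rsb_unif {L : Subfield F} (hX0 : X ≠ 0) (hX : O.valuation X < 1) (hXL : X ∈ L) {M : ℕ}
    (hM : 0 < M) (h : ∀ z ∈ L, z ≠ 0 → ∃ r : ℤ, O.valuation z ^ M = O.valuation X ^ r) :
    ∃ π ∈ L, π ≠ 0 ∧ O.valuation π < 1 ∧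
      ∀ z ∈ L, z ≠ 0 → ∃ k : ℤ, O.valuation (z * π ^ k) = 1 := by
  have hx0 : O.valuation X ≠ 0 := (Valuation.ne_zero_iff _).2 hX0
  have hxp : 0 < O.valuation X := zero_lt_iff.2 hx0
  let H : AddSubgroup ℤ :=
    { carrier := {r | ∃ z ∈ L, z ≠ 0 ∧ O.valuation z ^ M = O.valuation X ^ r}
      zero_mem' := ⟨1, one_mem _, one_ne_zero, by simp⟩
      add_mem' := by
        rintro a b ⟨z, hz, hz0, hza⟩ ⟨w, hw, hw0, hwb⟩
        exact ⟨z * w, mul_mem hz hw, mul_ne_zero hz0 hw0, by
          rw [map_mul, mul_pow, hza, hwb, zpow_add₀ hx0]⟩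
      neg_mem' := by
        rintro a ⟨z, hz, hz0, hza⟩
        exact ⟨z⁻¹, inv_mem hz, inv_ne_zero hz0, by
          rw [map_inv₀, inv_pow, hza, zpow_neg]⟩ }
  obtain ⟨d, hd⟩ := Int.subgroup_cyclic H
  have hMH : (M : ℤ) ∈ H := ⟨X, hXL, hX0, by rw [zpow_natCast]⟩
  have hmem : ∀ r ∈ H, ∃ k : ℤ, r = k * d := by
    intro r hr
    rw [hd, AddSubgroup.mem_closure_singleton] at hr
    obtain ⟨k, hk⟩ := hr
    exact ⟨k, by rw [← hk, smul_eq_mul]⟩
  have hdH : d ∈ H := by
    rw [hd]
    exact AddSubgroup.subset_closure rfl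
  have hd0 : d ≠ 0 := by
    rintro rfl
    obtain ⟨k, hk⟩ := hmem _ hMH
    rw [mul_zero] at hk
    omega
  obtain ⟨e, he, heH, hme⟩ : ∃ e : ℤ, 0 < e ∧ e ∈ H ∧ ∀ r ∈ H, ∃ k : ℤ, r = k * e := by
    rcases lt_or_gt_of_ne hd0 with hlt | hgt
    · refine ⟨-d, by omega, H.neg_mem hdH, fun r hr => ?_⟩
      obtain ⟨k, hk⟩ := hmem r hr
      exact ⟨-k, by rw [hk]; ring⟩
    · exact ⟨d, hgt, hdH, hmem⟩
  obtain ⟨π, hπL, hπ0, hπ⟩ := heH
  have hlt1 : O.valuation X ^ e < 1 := by
    obtain ⟨a, rfl⟩ := Int.eq_ofNat_of_zero_le he.le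
    rw [zpow_natCast]
    exact pow_lt_one₀ zero_le hX (by rintro rfl; simp at he)
  refine ⟨π, hπL, hπ0, ?_, fun z hz hz0 => ?_⟩
  · by_contra hcon
    have h1 := one_le_pow₀ (n := M) (not_lt.1 hcon)
    rw [hπ] at h1
    exact absurd hlt1 (not_lt.2 h1)
  · obtain ⟨r, hr⟩ := h z hz hz0
    obtain ⟨k, hk⟩ := hme r ⟨z, hz, hz0, hr⟩
    refine ⟨-k, ?_⟩
    have h1 : O.valuation (z * π ^ (-k)) ^ M = 1 := by
      rw [map_mul, mul_pow, hr, map_zpow₀, ← zpow_natCast (O.valuation π ^ (-k)), ← zpow_mul,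
        mul_comm (-k), zpow_mul, zpow_natCast, hπ, ← zpow_mul, ← zpow_add₀ hx0, hk]
      have : k * e + e * -k = 0 := by ring
      rw [this, zpow_zero]
    exact (pow_eq_one_iff_of_nonneg zero_le hM.ne').1 h1

theorem rsb_exists_small (hne : O ≠ ⊤) : ∃ X : F, X ≠ 0 ∧ O.valuation X < 1 := by
  obtain ⟨w, hw⟩ : ∃ w, w ∉ O := by
    by_contra hcon
    push Not at hcon
    exact hne (top_unique fun x _ => hcon x)
  refine ⟨w⁻¹, inv_ne_zero (by rintro rfl; exact hw O.zero_mem), ?_⟩
  rw [map_inv₀]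
  exact inv_lt_one_of_one_lt₀ (not_le.1 fun h => hw ((O.valuation_le_one_iff w).1 h))

/-- every element of small value is a transcendence basis. -/
theorem rsb_alg [PerfectField F] (hO : TrivOn O E) (hX0 : X ≠ 0) (hX : O.valuation X < 1) {y : F}
    (halg : ∀ z : F, IsAlgebraic (adj E y) z) (z : F) :
    IsAlgebraic (IntermediateField.adjoin E {X}) z := by
  have hXE : ¬ IsAlgebraic E X := fun h => by
    rw [hO.eq_one_of_isAlgebraic h hX0] at hX
    exact lt_irrefl _ hX
  have hyX : IsAlgebraic (adj E X) y := exchange hXE (halg X)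
  have h1 : adj E y ≤ rac (adj E X) := adj_le ((le_adj E X).trans (le_rac _)) (mem_rac.2 hyX)
  exact isAlgebraic_adjoin_simple'.2 (isAlgebraic_rac (isAlgebraic_mono h1 (halg z)))

/-- the residue field, from a finite extension of `E(X)`. -/
theorem rsb_res [PerfectField F] (hO : TrivOn O E) (hX0 : X ≠ 0) (hX : O.valuation X < 1)
    (L : IntermediateField (IntermediateField.adjoin E {X}) F)
    [FiniteDimensional (IntermediateField.adjoin E {X}) L] (hL : E ≤ L.toSubfield)
    (hpow : ∀ z : F, ∃ m : ℕ, z ^ ringExpChar F ^ m ∈ L) :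
    (∀ c : IsLocalRing.ResidueField O, IsAlgebraic (bar hO) c) ∧
      FG (bar hO) (⊤ : Subfield (IsLocalRing.ResidueField O)) := by
  have hfin := rsb_fin hO hX0 hX L hL
  have hq : ringExpChar (IsLocalRing.ResidueField O) = ringExpChar F := rs_ringExpChar hO
  have hpow' : ∀ c : IsLocalRing.ResidueField O, ∃ m : ℕ,
      c ^ ringExpChar (IsLocalRing.ResidueField O) ^ m ∈ rsbK hO hL := by
    intro c
    obtain ⟨z, hz, rfl⟩ := rs_surj c
    obtain ⟨m, hm⟩ := hpow z
    refine ⟨m, z ^ ringExpChar F ^ m, hm, pow_mem hz _, ?_⟩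
    rw [rs_pow hz, hq]
  constructor
  · intro c
    obtain ⟨m, hm⟩ := hpow' c
    have h1 : IsIntegral (bar hO) (c ^ ringExpChar (IsLocalRing.ResidueField O) ^ m) :=
      IsIntegral.of_mem_of_fg _ hfin _ hm
    exact IsAlgebraic.of_pow (pow_pos (expChar_pos (IsLocalRing.ResidueField O) _) _) h1.isAlgebraic
  · obtain ⟨T, hT⟩ := hfin
    refine ⟨T, (top_unique ?_).symm⟩
    intro c _
    obtain ⟨m, hm⟩ := hpow' c
    refine mem_pf.2 ⟨m, ?_⟩
    have h2 : c ^ ringExpChar (IsLocalRing.ResidueField O) ^ m ∈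
        Submodule.span (bar hO) (T : Set (IsLocalRing.ResidueField O)) := by
      rw [hT]
      exact hm
    refine Submodule.span_induction ?_ ?_ ?_ ?_ h2
    · intro x hx
      exact (le_sup_right : Subfield.closure _ ≤ _) (Subfield.subset_closure hx)
    · exact zero_mem _
    · intro x y _ _ hx hy
      exact add_mem hx hy
    · intro a x _ hx
      rw [Algebra.smul_def]
      exact mul_mem ((le_sup_left : bar hO ≤ _) a.2) hx

end rsb

variable {F : Type*} [Field F] [PerfectField F] {ℓ : ℕ} [Fact ℓ.Prime] [NeZero (ℓ : F)]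

/-- valuations of a function field of one variable over `E`. -/
theorem val_struct {E : Subfield F} [PerfectField E] (hfg : FG E (⊤ : Subfield F)) {y : F}
    (hy : ¬ IsAlgebraic E y) (halg : ∀ z : F, IsAlgebraic (adj E y) z) {O : ValuationSubring F}
    (hO : TrivOn O E) (hne : O ≠ ⊤) :
    (∃ π, IsUnif O π) ∧ (∀ c : IsLocalRing.ResidueField O, IsAlgebraic (bar hO) c) ∧
      FG (bar hO) (⊤ : Subfield (IsLocalRing.ResidueField O)) := by
  have _ := hy
  obtain ⟨X, hX0, hX⟩ := rsb_exists_small hne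
  have hXalg := fun z => rsb_alg hO hX0 hX halg z
  obtain ⟨S, hS⟩ := hfg
  set L := IntermediateField.adjoin (IntermediateField.adjoin E {X}) (S : Set F) with hLdef
  haveI : FiniteDimensional (IntermediateField.adjoin E {X}) L :=
    IntermediateField.finiteDimensional_adjoin fun x _ => (hXalg x).isIntegral
  have hAL : ∀ z ∈ IntermediateField.adjoin E {X}, z ∈ L := fun z hz =>
    L.algebraMap_mem (⟨z, hz⟩ : IntermediateField.adjoin E {X})
  have hL : E ≤ L.toSubfield := fun z hz =>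
    hAL z ((IntermediateField.adjoin E {X}).algebraMap_mem (⟨z, hz⟩ : E))
  have hXL : X ∈ L := hAL X (IntermediateField.mem_adjoin_simple_self E X)
  have hSL : E ⊔ Subfield.closure (S : Set F) ≤ L.toSubfield :=
    sup_le hL (Subfield.closure_le.2 fun z hz => IntermediateField.subset_adjoin _ _ hz)
  have hpow : ∀ z : F, ∃ m : ℕ, z ^ ringExpChar F ^ m ∈ L := by
    intro z
    have h1 : z ∈ pf (E ⊔ Subfield.closure (S : Set F)) := hS ▸ Subfield.mem_top z
    obtain ⟨m, hm⟩ := mem_pf.1 h1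
    exact ⟨m, hSL hm⟩
  refine ⟨?_, rsb_res hO hX0 hX L hL hpow⟩
  obtain ⟨π, hπL, hπ0, hπ, hrep⟩ := rsb_unif (L := L.toSubfield) hX0 hX hXL
    (Nat.factorial_pos (Module.finrank (IntermediateField.adjoin E {X}) L))
    (fun z hz hz0 => rsb_pow hO hX0 hX L hz hz0)
  refine ⟨π, hπ0, hπ, fun z hz0 => ?_⟩
  obtain ⟨m, hm⟩ := hpow z
  obtain ⟨k, hk⟩ := hrep _ hm (pow_ne_zero _ hz0)
  exact ⟨m, k, hk⟩

/-- the residue fields of places of a curve. -/
theorem Cv.place {k : Subfield F} (h : Cv k) {O : ValuationSubring F} (hO : O ∈ Plc k) :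
    (∃ π, IsUnif O π) ∧ ∀ c : IsLocalRing.ResidueField O, c ∈ bar hO.1 := by
  haveI := h.ac
  obtain ⟨x, hx, hxalg⟩ := h.ex
  have hx' : ¬ IsAlgebraic k x := fun h' => hx (RAC_of_isAlgClosed k h.ac x h')
  obtain ⟨h1, h2, -⟩ := val_struct h.fg hx' hxalg hO.1 hO.2
  exact ⟨h1, fun c => RAC_of_isAlgClosed _ (bar_isAlgClosed hO.1 h.ac) c (h2 c)⟩

section rk1

/-- valuation rings with a uniformizer have rank one. -/
theorem rsb_rank {O : ValuationSubring F} {π : F} (h : IsUnif O π) {O' : ValuationSubring F}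
    (hle : O ≤ O') : O' = O ∨ O' = ⊤ := by
  by_cases hOO : O' ≤ O
  · exact Or.inl (le_antisymm hOO hle)
  right
  obtain ⟨w, hwO', hwO⟩ := Set.not_subset.1 hOO
  have hw0 : w ≠ 0 := by rintro rfl; exact hwO O.zero_mem
  have hπ : O.valuation π ≠ 0 := (Valuation.ne_zero_iff _).2 h.ne
  have hπp : 0 < O.valuation π := zero_lt_iff.2 hπ
  -- the inverse of the uniformizer
  have hunit : ∀ u : F, O.valuation u = 1 → u ∈ O' := fun u hu => hle (mem_of_val hu)
  have hπO : π ∈ O' := hle ((O.valuation_le_one_iff π).1 h.lt.le)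
  have hπinv : π⁻¹ ∈ O' := by
    obtain ⟨m, n, hmn⟩ := h.rep w hw0
    have hvw : 1 < O.valuation w := not_le.1 fun h' => hwO ((O.valuation_le_one_iff w).1 h')
    have hn : 0 < n := by
      by_contra hcon
      have h1 : 1 < O.valuation w ^ ringExpChar F ^ m := one_lt_pow₀ hvw (qpow_pos F m).ne'
      have h2 : 1 ≤ O.valuation π ^ n := by
        obtain ⟨a, ha⟩ := Int.eq_ofNat_of_zero_le (show 0 ≤ -n by omega)
        have : n = -(a : ℤ) := by omega
        rw [this, zpow_neg, zpow_natCast]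
        exact (one_le_inv₀ (pow_pos hπp a)).2 (pow_le_one₀ zero_le h.lt.le)
      rw [map_mul, map_pow, map_zpow₀] at hmn
      have h3 : 1 < O.valuation w ^ ringExpChar F ^ m * O.valuation π ^ n :=
        one_lt_mul_of_lt_of_le h1 h2
      exact absurd hmn h3.ne'
    obtain ⟨a, rfl⟩ := Int.eq_ofNat_of_zero_le hn.le
    have ha : a ≠ 0 := by rintro rfl; simp at hn
    rw [zpow_natCast] at hmn
    have h4 : (w ^ ringExpChar F ^ m * π ^ a)⁻¹ ∈ O' := hunit _ (by rw [map_inv₀, hmn, inv_one])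
    have h5 : π⁻¹ = (w ^ ringExpChar F ^ m * π ^ a)⁻¹ * w ^ ringExpChar F ^ m * π ^ (a - 1) := by
      have h6 : π ^ a = π ^ (a - 1) * π := by
        rw [← pow_succ, Nat.sub_add_cancel (Nat.pos_of_ne_zero ha)]
      have h7 : w ^ ringExpChar F ^ m ≠ 0 := pow_ne_zero _ hw0
      have h8 : π ^ (a - 1) ≠ 0 := pow_ne_zero _ h.ne
      have h9 := h.ne
      rw [h6]
      field_simp
    rw [h5]
    exact mul_mem (mul_mem h4 (pow_mem hwO' _)) (pow_mem hπO _)
  have hπz : ∀ n : ℤ, π ^ n ∈ O' := by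
    intro n
    cases n with
    | ofNat a => rw [Int.ofNat_eq_natCast, zpow_natCast]; exact pow_mem hπO a
    | negSucc a => rw [zpow_negSucc, ← inv_pow]; exact pow_mem hπinv _
  refine top_unique fun u _ => ?_
  by_cases hu0 : u = 0
  · rw [hu0]; exact O'.zero_mem
  obtain ⟨m, n, hmn⟩ := h.rep u hu0
  have h1 : u ^ ringExpChar F ^ m ∈ O' := by
    have h2 : u ^ ringExpChar F ^ m = (u ^ ringExpChar F ^ m * π ^ n) * π ^ (-n) := by
      rw [mul_assoc, ← zpow_add₀ h.ne, add_neg_cancel, zpow_zero, mul_one]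
    rw [h2]
    exact mul_mem (hunit _ hmn) (hπz _)
  rw [← O'.valuation_le_one_iff, map_pow] at h1
  exact (O'.valuation_le_one_iff u).1
    ((pow_le_one_iff_of_nonneg zero_le (qpow_pos F m).ne').1 h1)

/-- `O` is trivial on `k(y)` if the residue of `y` is transcendental. -/
theorem rsb_triv {k : Subfield F} {O : ValuationSubring F} (hO : TrivOn O k) {y : F} (hy : y ∈ O)
    (htr : ¬ IsAlgebraic (bar hO) (rs O y)) : TrivOn O (adj k y) := by
  have hplain : ∀ z ∈ Vale.Agent.P019.adj k y, z ∈ O := by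
    intro z hz
    obtain ⟨P, Q, hPQ⟩ := (IntermediateField.mem_adjoin_simple_iff _ _).1 (mem_adjoin_simple.2 hz)
    by_cases hQ : Q = 0
    · rw [hQ, map_zero, div_zero] at hPQ
      rw [hPQ]
      exact O.zero_mem
    have hQO := aeval_mem_W hO hy Q
    have hPO := aeval_mem_W hO hy P
    have h1 : rs O (aeval y Q) ≠ 0 := by
      rw [rs_aeval hO hy]
      intro h0
      exact htr ⟨Q.map (barEquiv hO).toRingHom, by
        rwa [Ne, Polynomial.map_eq_zero_iff (RingEquiv.injective _)], h0⟩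
    have h2 := (rs_ne_zero hQO).1 h1
    rw [hPQ, ← O.valuation_le_one_iff, map_div₀, h2, div_one, O.valuation_le_one_iff]
    exact hPO
  intro z hz
  obtain ⟨n, hn⟩ := mem_adj_iff.1 hz
  have h1 := hplain _ hn
  rw [← O.valuation_le_one_iff, map_pow] at h1
  exact (O.valuation_le_one_iff z).1
    ((pow_le_one_iff_of_nonneg zero_le (qpow_pos F n).ne').1 h1)

theorem rsb_alg_le {K : Type*} [Field K] {A B : Subfield K} (h : A ≤ rac B) {z : K}
    (hz : IsAlgebraic A z) : IsAlgebraic B z := isAlgebraic_rac (isAlgebraic_mono h hz)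

attribute [-instance] AFast9e249ax8a.a0 AFast9e249ax8a.a1 AFast9e249ax8a.a2 AFast9e249ax8a.a3 AFast9e249ax8a.a4 AFast9e249ax8a.a5 AFast9e249ax8a.a6 AFast9e249ax8a.a7 AFast9e249ax8a.a8 AFast9e249ax8a.a9 AFast9e249ax8a.a10 AFast9e249ax8a.a11 AFast9e249ax8a.a12 AFast9e249ax8a.a13 AFast9e249ax8a.a14 AFast9e249ax8a.a15 AFast9e249ax8a.a16 AFast9e249ax8a.a17 AFast9e249ax8a.a18 AFast9e249ax8a.a19 AFast9e249ax8a.a20 AFast9e249ax8a.a21 AFast9e249ax8a.a22 AFast9e249ax8a.a23 AFast9e249ax8a.a24 AFast9e249ax8a.a25 AFast9e249ax8a.a26 AFast9e249ax8a.a27 AFast9e249ax8a.a28 AFast9e249ax8a.a29 AFast9e249ax8a.a30 AFast9e249ax8a.a32 AFast9e249ax8a.a33 AFast9e249ax8a.a34 AFast9e249ax8a.a35 AFast9e249ax8a.a36 AFast9e249ax8a.a37 AFast9e249ax8a.a38 AFast9e249ax8a.a39 AFast9e249ax8a.a40 AFast9e249ax8a.a41 AFast9e249ax8a.a42 AFast9e249ax8a.a43 AFast9e249ax8a.a44 AFast9e249ax8a.a45 AFast9e249ax8a.a46 AFast9e249ax8a.a47 AFast9e249ax8a.a48 AFast9e249ax8a.a49 AFast9e249ax8a.a50 AFast9e249ax8a.a51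 AFast9e249ax8a.a52 AFast9e249ax8a.a53 AFast9e249ax8a.a54 AFast9e249ax8a.a55 AFast9e249ax8a.a56 AFast9e249ax8a.a57 AFast9e249ax8a.a58 AFast9e249ax8a.a59 AFast9e249ax8a.a60 AFast9e249ax8a.a61 AFast9e249ax8a.a62 AFast9e249ax8a.a63 AFast9e249ax8a.a64 AFast9e249ax8a.a65 AFast9e249ax8a.a66 AFast9e249ax8a.a67 AFast9e249ax8a.a68 AFast9e249ax8a.a69 AFast9e249ax8a.a70 AFast9e249ax8a.a71 AFast9e249ax8a.a72 AFast9e249ax8a.a73 AFast9e249ax8a.a74 AFast9e249ax8a.a75 AFast9e249ax8a.a76 AFast9e249ax8a.a77 AFast9e249ax8a.a78 AFast9e249ax8a.a79 AFast9e249ax8a.a80 AFast9e249ax8a.a82 AFast9e249ax8b.a0 AFast9e249ax8b.a1 AFast9e249ax8b.a2 AFast9e249ax8b.a3 AFast9e249ax8b.a4 AFast9e249ax8b.a5 AFast9e249ax8b.a6 AFast9e249ax8b.a7 AFast9e249ax8b.a8 AFast9e249ax8b.a9 AFast9e249ax8b.a10 AFast9e249ax8b.a11 in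
/-- exchange for surfaces. -/
theorem rsb_exch {k : Subfield F} {t s : F} (hS : Srf k t s) {y : F}
    (hy : ¬ IsAlgebraic k y) :
    ∃ y' : F, ¬ IsAlgebraic (adj k y) y' ∧ ∀ z : F, IsAlgebraic (adj (adj k y) y') z := by
  by_cases h1 : IsAlgebraic (adj k s) y
  · have h2 : IsAlgebraic (adj k y) s := exchange hy h1
    have h3 : adj k y ≤ rac (adj k s) := adj_le ((le_adj k s).trans (le_rac _)) (mem_rac.2 h1)
    have h4 : adj k s ≤ rac (adj k y) := adj_le ((le_adj k y).trans (le_rac _)) (mem_rac.2 h2)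
    refine ⟨t, fun h => hS.tt (rsb_alg_le h3 h), fun z => rsb_alg_le ?_ (hS.alg z)⟩
    refine adj_le (h4.trans (rac_mono (le_adj _ _))) (le_rac _ (mem_adj _ _))
  · have h2 : IsAlgebraic (adj (adj k s) y) t := exchange h1 (hS.alg y)
    refine ⟨s, fun h => h1 (exchange hS.ss h), fun z => rsb_alg_le ?_ (hS.alg z)⟩
    rw [adj_comm] at h2
    refine adj_le (adj_le (((le_adj k y).trans (le_adj _ _)).trans (le_rac _))
      (le_rac _ (mem_adj _ _))) (mem_rac.2 h2)

end rk1

/-- valuations of rank one with residue field of transcendence degree one on surfaces. -/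
theorem Srf.val {k : Subfield F} (hk : IsAlgClosed k) (hfg : FG k (⊤ : Subfield F)) {t s : F}
    (hS : Srf k t s) {O : ValuationSubring F} (hO : TrivOn O k) (hne : O ≠ ⊤)
    (hr : ∃ c : IsLocalRing.ResidueField O, c ∉ bar hO) :
    (∃ π, IsUnif O π) ∧ Cv (bar hO) ∧ ∀ O' : ValuationSubring F, O ≤ O' → O' = O ∨ O' = ⊤ := by
  obtain ⟨c, hc⟩ := hr
  obtain ⟨y, hyO, rfl⟩ := rs_surj c
  have hac := bar_isAlgClosed hO hk
  have htr : ¬ IsAlgebraic (bar hO) (rs O y) := fun h => hc (RAC_of_isAlgClosed _ hac _ h)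
  have hyk : ¬ IsAlgebraic k y := fun h => htr (isAlgebraic_bar hO hyO h)
  have hE : TrivOn O (adj k y) := rsb_triv hO hyO htr
  obtain ⟨y', hy', halg⟩ := rsb_exch hS hyk
  haveI : PerfectField (adj k y) := perfect_adj _ _
  obtain ⟨h1, h2, h3⟩ := val_struct (hfg.mono (le_adj k y) le_top) hy' halg hE hne
  haveI : PerfectField (IsLocalRing.ResidueField O) := rs_perfect hO
  obtain ⟨π, hπ⟩ := h1
  have hbar := bar_adj hO hE
  refine ⟨⟨π, hπ⟩, ⟨hac, ?_, rs O y, hc, fun z => ?_⟩, fun O' h => rsb_rank hπ h⟩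
  · rw [hbar] at h3
    refine FG.trans ?_ h3
    have h4 : FG (bar hO) (bar hO) := ⟨∅, by
      haveI : IsAlgClosed (bar hO) := hac
      rw [Finset.coe_empty, Subfield.closure_empty, sup_bot_eq, pf_eq]⟩
    exact h4.adj_right _
  · rw [← hbar]
    exact h2 z

end Vale.Agent.P019P
end
end

section

section

/-!
# Purely transcendental extensions
-/

namespace Vale.Agent.P019P

open Vale.Agent.P019

set_option linter.style.haveILetI false
set_option linter.unusedSectionVars false

open Polynomial Filter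

/-- `F` is the perfect closure of a purely transcendental extension of `k`. -/
inductive RatF {K : Type*} [Field K] (k : Subfield K) : Subfield K → Prop
  | base : RatF k k
  | step {F : Subfield K} {y : K} : RatF k F → ¬ IsAlgebraic F y → RatF k (adj F y)

theorem RatF.le {K : Type*} [Field K] {k F : Subfield K} (h : RatF k F) : k ≤ F := by
  induction h with
  | base => exact le_rfl
  | step _ _ ih => exact ih.trans (le_adj _ _)

theorem RatF.fg {K : Type*} [Field K] [PerfectField K] {k F : Subfield K} [PerfectField k]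
    (h : RatF k F) : FG k F := by
  induction h with
  | base => exact ⟨∅, by rw [Finset.coe_empty, Subfield.closure_empty, sup_bot_eq, pf_eq]⟩
  | step _ _ ih => exact ih.adj_right _

theorem RatF.perfect {K : Type*} [Field K] [PerfectField K] {k F : Subfield K} [PerfectField k]
    (h : RatF k F) : PerfectField F := h.fg.perfect

end Vale.Agent.P019P
end
end

section

section

/-!
# Transcendence bases
-/

namespace Vale.Agent.P019P

open Vale.Agent.P019

set_option linter.style.haveILetI false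
set_option linter.unusedSectionVars false

open Polynomial Filter

section e0

variable {K : Type*} [Field K]

/-- the perfect closure of `k(B)`. -/
noncomputable def gsp (k : Subfield K) (B : Finset K) : Subfield K :=
  pf (k ⊔ Subfield.closure (B : Set K))

theorem le_gsp (k : Subfield K) (B : Finset K) : k ≤ gsp k B := le_sup_left.trans (le_pf _)

theorem mem_gsp {k : Subfield K} {B : Finset K} {x : K} (hx : x ∈ B) : x ∈ gsp k B :=
  (le_sup_right.trans (le_pf _) : Subfield.closure (B : Set K) ≤ gsp k B)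
    (Subfield.subset_closure hx)

theorem gsp_perfect [PerfectField K] (k : Subfield K) (B : Finset K) :
    PerfectField (gsp k B) := perfect_of_pf_le (by unfold gsp; rw [pf_pf])

theorem gsp_le {k F : Subfield K} [PerfectField F] {B : Finset K} (h : k ≤ F)
    (hB : ∀ x ∈ B, x ∈ F) : gsp k B ≤ F :=
  pf_le (sup_le h (Subfield.closure_le.2 fun x hx => hB x hx))

theorem gsp_mono [PerfectField K] (k : Subfield K) {B B' : Finset K} (h : B ⊆ B') :
    gsp k B ≤ gsp k B' := by
  haveI := gsp_perfect k B'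
  exact gsp_le (le_gsp k B') fun x hx => mem_gsp (h hx)

theorem gsp_empty (k : Subfield K) [PerfectField k] : gsp k ∅ = k := by
  unfold gsp
  rw [Finset.coe_empty, Subfield.closure_empty, sup_bot_eq, pf_eq]

theorem gsp_insert [PerfectField K] [DecidableEq K] (k : Subfield K) (B : Finset K) (v : K) :
    gsp k (insert v B) = adj (gsp k B) v := by
  haveI := gsp_perfect k (insert v B)
  haveI : PerfectField (adj (gsp k B) v) := perfect_of_pf_le (by unfold adj; rw [pf_pf])
  apply le_antisymm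
  · refine gsp_le ((le_gsp k B).trans (le_adj _ _)) fun x hx => ?_
    rcases Finset.mem_insert.1 hx with rfl | hx
    · exact mem_adj _ _
    · exact le_adj _ _ (mem_gsp hx)
  · exact adj_le (gsp_mono k (Finset.subset_insert v B)) (mem_gsp (Finset.mem_insert_self v B))

theorem gsp_fg [PerfectField K] (k : Subfield K) (B : Finset K) : FG k (gsp k B) := ⟨B, rfl⟩

/-- the elements of `B` are algebraically independent over `k`. -/
def Indp (k : Subfield K) (B : Finset K) : Prop :=
  ∀ S ⊆ B, ∀ v ∈ B, v ∉ S → ¬ IsAlgebraic (gsp k S) v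

theorem Indp.mono {k : Subfield K} {B B' : Finset K} (h : Indp k B) (hB : B' ⊆ B) :
    Indp k B' := fun S hS v hv hvS => h S (hS.trans hB) v (hB hv) hvS

/-- transcendence degree. -/
def Td (k : Subfield K) (n : ℕ) : Prop :=
  ∃ B : Finset K, B.card = n ∧ Indp k B ∧ ∀ z : K, IsAlgebraic (gsp k B) z

variable [PerfectField K]

/-- elements algebraic over `k(B)` are algebraic over any field over which `B` is algebraic. -/
theorem e0_alg_trans {k E : Subfield K} {B : Finset K} (hk : k ≤ E)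
    (hB : ∀ z ∈ B, IsAlgebraic E z) {x : K} (hx : IsAlgebraic (gsp k B) x) : IsAlgebraic E x := by
  refine isAlgebraic_trans (le_rac E) (fun z hz => mem_rac.1 hz) (isAlgebraic_mono ?_ hx)
  exact gsp_le (hk.trans (le_rac E)) fun z hz => mem_rac.2 (hB z hz)

theorem Indp.insert [DecidableEq K] {k : Subfield K} {B : Finset K} (h : Indp k B) {v : K}
    (hv : ¬ IsAlgebraic (gsp k B) v) : Indp k (insert v B) := by
  intro S hS w hw hwS hal
  by_cases hvS : v ∈ S
  · have hwv : w ≠ v := fun h1 => hwS (h1 ▸ hvS)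
    have hwB : w ∈ B := (Finset.mem_insert.1 hw).resolve_left hwv
    have hS' : S.erase v ⊆ B := fun x hx => by
      rw [Finset.mem_erase] at hx
      exact (Finset.mem_insert.1 (hS hx.2)).resolve_left hx.1
    have hw' : ¬ IsAlgebraic (gsp k (S.erase v)) w :=
      h _ hS' w hwB fun h1 => hwS (Finset.mem_of_mem_erase h1)
    have h1 : S = Insert.insert v (S.erase v) := (Finset.insert_erase hvS).symm
    rw [h1, gsp_insert] at hal
    have h2 := exchange hw' hal
    rw [← gsp_insert] at h2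
    exact hv (isAlgebraic_mono (gsp_mono k (Finset.insert_subset hwB hS')) h2)
  · have hSB : S ⊆ B := fun x hx =>
      (Finset.mem_insert.1 (hS hx)).resolve_left fun h1 => hvS (h1 ▸ hx)
    rcases Finset.mem_insert.1 hw with rfl | hw
    · exact hv (isAlgebraic_mono (gsp_mono k hSB) hal)
    · exact h S hSB w hw hwS hal

theorem Indp.ratF {k : Subfield K} [PerfectField k] {B : Finset K} (h : Indp k B) :
    RatF k (gsp k B) := by
  classical
  induction B using Finset.induction_on with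
  | empty =>
    rw [gsp_empty]
    exact RatF.base
  | insert v B hvB ih =>
    rw [gsp_insert]
    exact RatF.step (ih (h.mono (Finset.subset_insert v B)))
      (h B (Finset.subset_insert v B) v (Finset.mem_insert_self v B) hvB)

theorem e0_extend {k : Subfield K} {B : Finset K} (h : Indp k B) (S : Finset K) :
    ∃ B', B ⊆ B' ∧ Indp k B' ∧ ∀ z ∈ S, IsAlgebraic (gsp k B') z := by
  classical
  induction S using Finset.induction_on with
  | empty => exact ⟨B, subset_rfl, h, by simp⟩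
  | insert v S hvS ih =>
    obtain ⟨B', h1, h2, h3⟩ := ih
    by_cases hv : IsAlgebraic (gsp k B') v
    · refine ⟨B', h1, h2, fun z hz => ?_⟩
      rcases Finset.mem_insert.1 hz with rfl | hz
      · exact hv
      · exact h3 z hz
    · refine ⟨Insert.insert v B', h1.trans (Finset.subset_insert _ _), h2.insert hv,
        fun z hz => ?_⟩
      rcases Finset.mem_insert.1 hz with rfl | hz
      · exact isAlgebraic_of_mem (mem_gsp (Finset.mem_insert_self _ _))
      · exact isAlgebraic_mono (gsp_mono k (Finset.subset_insert _ _)) (h3 z hz)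

/-- extension of independent sets to transcendence bases. -/
theorem Indp.extend {k : Subfield K} (hfg : FG k (⊤ : Subfield K)) {B : Finset K}
    (h : Indp k B) : ∃ B', B ⊆ B' ∧ Indp k B' ∧ ∀ z : K, IsAlgebraic (gsp k B') z := by
  obtain ⟨S, hS⟩ := hfg
  obtain ⟨B', h1, h2, h3⟩ := e0_extend h S
  refine ⟨B', h1, h2, fun z => e0_alg_trans (le_gsp k B') h3 (isAlgebraic_of_mem ?_)⟩
  change z ∈ pf (k ⊔ Subfield.closure (S : Set K))
  rw [← hS]
  exact Subfield.mem_top z

theorem e0_first [DecidableEq K] {k : Subfield K} {C : Finset K} {v : K}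
    (hC : ¬ IsAlgebraic (gsp k C) v) (T : Finset K) (hT : IsAlgebraic (gsp k (C ∪ T)) v) :
    ∃ w ∈ T, ∃ D, C ⊆ D ∧ D ⊆ C ∪ T ∧ w ∉ D ∧ ¬ IsAlgebraic (gsp k D) v ∧
      IsAlgebraic (gsp k (Insert.insert w D)) v := by
  induction T using Finset.induction_on with
  | empty =>
    rw [Finset.union_empty] at hT
    exact absurd hT hC
  | insert w T hwT ih =>
    by_cases h1 : IsAlgebraic (gsp k (C ∪ T)) v
    · obtain ⟨w', hw', D, h2, h3, h4⟩ := ih h1
      exact ⟨w', Finset.mem_insert_of_mem hw', D, h2,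
        h3.trans (Finset.union_subset_union_right (Finset.subset_insert w T)), h4⟩
    · refine ⟨w, Finset.mem_insert_self w T, C ∪ T, Finset.subset_union_left,
        Finset.union_subset_union_right (Finset.subset_insert w T), ?_, h1, ?_⟩
      · intro h2
        apply h1
        rwa [Finset.union_insert, Finset.insert_eq_of_mem h2] at hT
      · rwa [Finset.union_insert] at hT

/-- one exchange step. -/
theorem e0_step [DecidableEq K] {k : Subfield K} {B B' : Finset K} (h : Indp k B)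
    (h' : ∀ z ∈ B, IsAlgebraic (gsp k B') z) {v : K} (hv : v ∈ B) (hv' : v ∉ B') :
    ∃ w ∈ B', w ∉ B ∧
      ∀ z ∈ B, IsAlgebraic (gsp k (Insert.insert v (B'.erase w))) z := by
  have h0 : B ∩ B' ∪ B' = B' := Finset.union_eq_right.2 Finset.inter_subset_right
  obtain ⟨w, hw, D, h1, h2, h3, h4, h5⟩ := e0_first
    (h (B ∩ B') Finset.inter_subset_left v hv fun h1 => hv' (Finset.mem_inter.1 h1).2) B'
    (by rw [h0]; exact h' v hv)
  rw [h0] at h2
  have hwB : w ∉ B := fun h6 => h3 (h1 (Finset.mem_inter.2 ⟨h6, hw⟩))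
  refine ⟨w, hw, hwB, fun z hz => ?_⟩
  rw [gsp_insert] at h5
  have h6 := exchange h4 h5
  rw [← gsp_insert] at h6
  have h7 : D ⊆ B'.erase w := fun x hx => Finset.mem_erase.2 ⟨fun h8 => h3 (h8 ▸ hx), h2 hx⟩
  have h8 : IsAlgebraic (gsp k (Insert.insert v (B'.erase w))) w :=
    isAlgebraic_mono (gsp_mono k (Finset.insert_subset_insert v h7)) h6
  refine e0_alg_trans (le_gsp k _) (fun x hx => ?_) (h' z hz)
  by_cases hxw : x = w
  · rw [hxw]
    exact h8
  · exact isAlgebraic_of_mem (mem_gsp (Finset.mem_insert_of_mem (Finset.mem_erase.2 ⟨hxw, hx⟩)))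

theorem e0_card_le [DecidableEq K] {k : Subfield K} {B : Finset K} (h : Indp k B) (n : ℕ) :
    ∀ B' : Finset K, (B \ B').card = n → (∀ z ∈ B, IsAlgebraic (gsp k B') z) →
      B.card ≤ B'.card := by
  induction n with
  | zero =>
    intro B' hn _
    exact Finset.card_le_card (Finset.sdiff_eq_empty_iff_subset.1 (Finset.card_eq_zero.1 hn))
  | succ n ih =>
    intro B' hn h'
    obtain ⟨v, hv⟩ : (B \ B').Nonempty := Finset.card_pos.1 (by omega)
    rw [Finset.mem_sdiff] at hv
    obtain ⟨w, hw, hwB, h1⟩ := e0_step h h' hv.1 hv.2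
    have h2 : B \ Insert.insert v (B'.erase w) = (B \ B').erase v := by
      ext x
      simp only [Finset.mem_sdiff, Finset.mem_insert, Finset.mem_erase]
      constructor
      · rintro ⟨h3, h4⟩
        have h5 : x ≠ w := fun h6 => hwB (h6 ▸ h3)
        exact ⟨fun h6 => h4 (Or.inl h6), h3, fun h6 => h4 (Or.inr ⟨h5, h6⟩)⟩
      · rintro ⟨h3, h4, h5⟩
        exact ⟨h4, fun h6 => h6.elim h3 fun h7 => h5 h7.2⟩
    have h3 : (B \ Insert.insert v (B'.erase w)).card = n := by
      rw [h2, Finset.card_erase_of_mem (Finset.mem_sdiff.2 hv), hn, Nat.add_sub_cancel]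
    refine (ih _ h3 h1).trans ?_
    rw [Finset.card_insert_of_notMem fun h4 => hv.2 (Finset.mem_of_mem_erase h4),
      Finset.card_erase_add_one hw]

/-- exchange: an independent set is not larger than a transcendence basis. -/
theorem Indp.card_le {k : Subfield K} {B B' : Finset K} (h : Indp k B)
    (h' : ∀ z ∈ B, IsAlgebraic (gsp k B') z) : B.card ≤ B'.card := by
  classical
  exact e0_card_le h _ B' rfl h'

theorem Td.le {k : Subfield K} {n : ℕ} (h : Td k n) {B : Finset K} (hB : Indp k B) :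
    B.card ≤ n := by
  obtain ⟨B', h1, -, h2⟩ := h
  rw [← h1]
  exact hB.card_le fun z _ => h2 z

theorem Td.unique {k : Subfield K} {n m : ℕ} (h : Td k n) (h' : Td k m) : n = m := by
  obtain ⟨B, h1, h2, -⟩ := id h
  obtain ⟨B', h1', h2', -⟩ := id h'
  exact le_antisymm (h1 ▸ h'.le h2) (h1' ▸ h.le h2')

attribute [-instance] AFast9e249ax8a.a0 AFast9e249ax8a.a1 AFast9e249ax8a.a2 AFast9e249ax8a.a3 AFast9e249ax8a.a4 AFast9e249ax8a.a5 AFast9e249ax8a.a6 AFast9e249ax8a.a7 AFast9e249ax8a.a8 AFast9e249ax8a.a9 AFast9e249ax8a.a10 AFast9e249ax8a.a11 AFast9e249ax8a.a12 AFast9e249ax8a.a13 AFast9e249ax8a.a14 AFast9e249ax8a.a15 AFast9e249ax8a.a16 AFast9e249ax8a.a17 AFast9e249ax8a.a18 AFast9e249ax8a.a19 AFast9e249ax8a.a20 AFast9e249ax8a.a21 AFast9e249ax8a.a22 AFast9e249ax8a.a23 AFast9e249ax8a.a24 AFast9e249ax8a.a25 AFast9e249ax8a.a26 AFast9e249ax8a.a27 AFast9e249ax8a.a28 AFast9e249ax8a.a29 AFast9e249ax8a.a30 AFast9e249ax8a.a32 AFast9e249ax8a.a33 AFast9e249ax8a.a34 AFast9e249ax8a.a35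 AFast9e249ax8a.a36 AFast9e249ax8a.a37 AFast9e249ax8a.a38 AFast9e249ax8a.a39 AFast9e249ax8a.a40 AFast9e249ax8a.a41 AFast9e249ax8a.a42 AFast9e249ax8a.a43 AFast9e249ax8a.a44 AFast9e249ax8a.a45 AFast9e249ax8a.a46 AFast9e249ax8a.a47 AFast9e249ax8a.a48 AFast9e249ax8a.a49 AFast9e249ax8a.a50 AFast9e249ax8a.a51 AFast9e249ax8a.a52 AFast9e249ax8a.a53 AFast9e249ax8a.a54 AFast9e249ax8a.a55 AFast9e249ax8a.a56 AFast9e249ax8a.a57 AFast9e249ax8a.a58 AFast9e249ax8a.a59 AFast9e249ax8a.a60 AFast9e249ax8a.a61 AFast9e249ax8a.a62 AFast9e249ax8a.a63 AFast9e249ax8a.a64 AFast9e249ax8a.a65 AFast9e249ax8a.a66 AFast9e249ax8a.a67 AFast9e249ax8a.a68 AFast9e249ax8a.a69 AFast9e249ax8a.a70 AFast9e249ax8a.a71 AFast9e249ax8a.a72 AFast9e249ax8a.a73 AFast9e249ax8a.a74 AFast9e249ax8a.a75 AFast9e249ax8a.a76 AFast9e249ax8a.a77 AFast9e249ax8a.a78 AFast9e249ax8a.a79 AFast9e249ax8a.a80 AFast9e249ax8a.a82 AFast9e249ax8b.a0 AFast9e249ax8b.a1 AFast9e249ax8b.a2 AFast9e249ax8b.a3 AFast9e249ax8b.a4 AFast9e249ax8b.a5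 AFast9e249ax8b.a6 AFast9e249ax8b.a7 AFast9e249ax8b.a8 AFast9e249ax8b.a9 AFast9e249ax8b.a10 AFast9e249ax8b.a11 in
/-- a transcendence basis containing a given good element. -/
theorem Td.exists_basis {k : Subfield K} (hk : IsAlgClosed k) (hfg : FG k (⊤ : Subfield K))
    {n : ℕ} (h : Td k (n + 1)) {t : K} (ht : t ∉ k) :
    ∃ B : Finset K, B.card = n ∧ Indp k B ∧ ¬ IsAlgebraic (gsp k B) t ∧
      (∀ z : K, IsAlgebraic (adj (gsp k B) t) z) ∧ t ∉ B := by
  classical
  have hr : RAC k := RAC_of_isAlgClosed k hk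
  haveI : PerfectField k := perfect_of_RAC hr
  have h0 : Indp k (∅ : Finset K) := fun S _ v hv _ => absurd hv (Finset.notMem_empty v)
  have h1 : ¬ IsAlgebraic (gsp k (∅ : Finset K)) t := by
    rw [gsp_empty]
    exact fun h2 => ht (hr t h2)
  obtain ⟨B', h2, h3, h4⟩ := (h0.insert h1).extend hfg
  have htB : t ∈ B' := h2 (Finset.mem_insert_self t ∅)
  have hc : B'.card = n + 1 := Td.unique (K := K) (k := k) ⟨B', rfl, h3, h4⟩ h
  refine ⟨B'.erase t, ?_, h3.mono (Finset.erase_subset t B'),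
    h3 _ (Finset.erase_subset t B') t htB (Finset.notMem_erase t B'), fun z => ?_,
    Finset.notMem_erase t B'⟩
  · rw [Finset.card_erase_of_mem htB, hc, Nat.add_sub_cancel]
  · rw [← gsp_insert, Finset.insert_erase htB]
    exact h4 z

end e0

end Vale.Agent.P019P
end
end
namespace AFast9e249ax3539a
@[reducible] noncomputable def a0.{u1} {x1 : Type u1} [x2 : Field x1] {x3 : Subfield x1} {x4 : Finset x1} : CommRing ↥(Vale.Agent.P019P.gsp x3 x4) := inferInstance
end AFast9e249ax3539a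
attribute [local instance] AFast9e249ax3539a.a0

section

section

/-!
# Injective rational functions are Moebius transformations
-/

namespace Vale.Agent.P019

open Polynomial

section MobHelpers

variable {l : Type*} [Field l]

theorem mob_not_both_root {P Q : l[X]} (hcop : IsCoprime P Q) {x : l} (hQ : Q.eval x = 0) :
    P.eval x ≠ 0 := by
  intro hP
  obtain ⟨a, b, hab⟩ := hcop
  have := congrArg (Polynomial.eval x) hab
  simp [hP, hQ] at this

theorem mob_fibre_ne_zero {P Q : l[X]} (hcop : IsCoprime P Q)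
    (hnc : P.natDegree ≠ 0 ∨ Q.natDegree ≠ 0) (c : l) : P - C c * Q ≠ 0 := by
  intro h
  have hP : P = C c * Q := sub_eq_zero.mp h
  have hQ : IsUnit Q := by
    refine hcop.isUnit_of_dvd' ?_ dvd_rfl
    exact ⟨C c, by rw [hP]; ring⟩
  have hQ0 : Q.natDegree = 0 := natDegree_eq_zero_of_isUnit hQ
  have hP0 : P.natDegree = 0 := by
    have h1 : P.natDegree ≤ Q.natDegree := by
      rw [hP]; exact natDegree_C_mul_le c Q
    omega
  rcases hnc with h1 | h1 <;> contradiction

theorem mob_value {P Q : l[X]} (hcop : IsCoprime P Q) {c x : l}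
    (h : (P - C c * Q).eval x = 0) : Q.eval x ≠ 0 ∧ P.eval x / Q.eval x = c := by
  have h1 : P.eval x = c * Q.eval x := by
    have : P.eval x - c * Q.eval x = 0 := by simpa using h
    linear_combination this
  have h2 : Q.eval x ≠ 0 := by
    intro h0
    exact mob_not_both_root hcop h0 (by rw [h1, h0, mul_zero])
  exact ⟨h2, by rw [h1]; field_simp⟩

theorem mob_wronskian {P Q : l[X]} [CharZero l] (hcop : IsCoprime P Q)
    (hnc : P.natDegree ≠ 0 ∨ Q.natDegree ≠ 0) : wronskian P Q ≠ 0 := by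
  intro h
  rw [hcop.wronskian_eq_zero_iff] at h
  have hP : P.natDegree = 0 := derivative_eq_zero.mp h.1
  have hQ : Q.natDegree = 0 := derivative_eq_zero.mp h.2
  rcases hnc with h1 | h1 <;> contradiction

end MobHelpers

end Vale.Agent.P019
end
end

section

section

/-!
# Injective rational functions, twisted Moebius transformations
-/

namespace Vale.Agent.P019P

open Vale.Agent.P019

set_option linter.style.haveILetI false
set_option linter.unusedSectionVars false

open Polynomial Filter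

theorem mob_nc_of_wronskian {l : Type*} [Field l] {P Q : l[X]} (hw : wronskian P Q ≠ 0) :
    P.natDegree ≠ 0 ∨ Q.natDegree ≠ 0 := by
  by_contra hcon
  push Not at hcon
  obtain ⟨hP, hQ⟩ := hcon
  apply hw
  rw [eq_C_of_natDegree_eq_zero hP, eq_C_of_natDegree_eq_zero hQ]
  simp [wronskian]

/-- multiplicities of generic fibres are one, for separable rational functions. -/
theorem rootMultiplicity_fibre {l : Type*} [Field l] [IsAlgClosed l] (P Q : l[X])
    (hcop : IsCoprime P Q) (hw : wronskian P Q ≠ 0) :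
    {c : l | ∃ x, (P - C c * Q).eval x = 0 ∧ (P - C c * Q).rootMultiplicity x ≠ 1}.Finite := by
  classical
  have hnc := mob_nc_of_wronskian hw
  refine ((wronskian P Q).roots.toFinset.finite_toSet.image
    (fun x => P.eval x / Q.eval x)).subset ?_
  rintro c ⟨x, hx, hm⟩
  refine ⟨x, ?_, (mob_value hcop hx).2⟩
  have hne := mob_fibre_ne_zero hcop hnc c
  have hpos : 0 < (P - C c * Q).rootMultiplicity x :=
    (rootMultiplicity_pos hne).mpr hx
  have h2 : 1 < (P - C c * Q).rootMultiplicity x := by omega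
  have hd : (derivative (P - C c * Q)).IsRoot x :=
    ((one_lt_rootMultiplicity_iff_isRoot hne).mp h2).2
  have hd' : (derivative P).eval x = c * (derivative Q).eval x := by
    have h3 : (derivative P).eval x - c * (derivative Q).eval x = 0 := by
      have := hd
      simpa [IsRoot, derivative_sub, derivative_C_mul] using this
    linear_combination h3
  have hP : P.eval x = c * Q.eval x := by
    have h3 : P.eval x - c * Q.eval x = 0 := by simpa using hx
    linear_combination h3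
  have hw0 : (wronskian P Q).eval x = 0 := by
    simp only [wronskian, eval_sub, eval_mul, hP, hd']
    ring
  simp only [Finset.mem_coe, Multiset.mem_toFinset]
  rw [mem_roots hw]
  exact hw0

/-- injective separable rational functions are Moebius transformations. -/
theorem mob_of_inj_sep {l : Type*} [Field l] [IsAlgClosed l] (P Q : l[X])
    (hcop : IsCoprime P Q) (hw : wronskian P Q ≠ 0) (S : Set l) (hS : Sᶜ.Finite)
    (hinj : ∀ x ∈ S, ∀ y ∈ S, P.eval x * Q.eval y = P.eval y * Q.eval x → x = y) :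
    ∃ A B C' D : l, A * D - B * C' ≠ 0 ∧ P = C A * X + C B ∧ Q = C C' * X + C D := by
  classical
  have : Infinite l := IsAlgClosed.instInfinite
  have hnc := mob_nc_of_wronskian hw
  set d := max P.natDegree Q.natDegree with hd
  have hdpos : 0 < d := by
    rcases hnc with h | h
    · exact lt_of_lt_of_le (Nat.pos_of_ne_zero h) (le_max_left _ _)
    · exact lt_of_lt_of_le (Nat.pos_of_ne_zero h) (le_max_right _ _)
  -- bad values
  have hB1 := rootMultiplicity_fibre P Q hcop hw
  have hB2 : ((fun x => P.eval x / Q.eval x) '' Sᶜ).Finite := hS.image _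
  have hB3 : {c : l | P.coeff d = c * Q.coeff d}.Finite := by
    refine (Set.finite_singleton (P.coeff d / Q.coeff d)).subset ?_
    intro c hc
    simp only [Set.mem_ofPred_eq] at hc
    have hQd : Q.coeff d ≠ 0 := by
      intro h0
      have hPd : P.coeff d = 0 := by rw [hc, h0, mul_zero]
      rcases le_total P.natDegree Q.natDegree with h | h
      · have hdq : d = Q.natDegree := max_eq_right h
        rw [hdq] at h0
        have hQz : Q = 0 := leadingCoeff_eq_zero.mp h0
        have : Q.natDegree = 0 := by rw [hQz]; simp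
        omega
      · have hdp : d = P.natDegree := max_eq_left h
        rw [hdp] at hPd
        have hPz : P = 0 := leadingCoeff_eq_zero.mp hPd
        have : P.natDegree = 0 := by rw [hPz]; simp
        omega
    simp only [Set.mem_singleton_iff]
    rw [hc]
    field_simp
  obtain ⟨c, hc⟩ := ((hB1.union hB2).union hB3).infinite_compl.nonempty
  simp only [Set.mem_compl_iff, Set.mem_union, not_or] at hc
  obtain ⟨⟨hc1, hc2⟩, hc3⟩ := hc
  set R := P - C c * Q with hR
  have hRne : R ≠ 0 := mob_fibre_ne_zero hcop hnc c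
  have hRd : R.natDegree = d := by
    apply le_antisymm
    · refine (natDegree_sub_le _ _).trans ?_
      exact max_le_max le_rfl (natDegree_C_mul_le c Q)
    · apply le_natDegree_of_ne_zero
      intro h0
      apply hc3
      have : P.coeff d - c * Q.coeff d = 0 := by simpa [hR] using h0
      simp only [Set.mem_ofPred_eq]
      linear_combination this
  have hcount : ∀ x ∈ R.roots, R.roots.count x = 1 := by
    intro x hx
    rw [count_roots]
    by_contra hne
    exact hc1 ⟨x, (mem_roots hRne).mp hx, hne⟩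
  have hnodup : R.roots.Nodup := by
    rw [Multiset.nodup_iff_count_eq_one]
    exact hcount
  have hcard : R.roots.card = d := by
    rw [← hRd]
    exact (splits_iff_card_roots.mp (IsAlgClosed.splits R))
  have hrootS : ∀ x ∈ R.roots, x ∈ S := by
    intro x hx
    by_contra hxS
    exact hc2 ⟨x, hxS, (mob_value hcop ((mem_roots hRne).mp hx)).2⟩
  have hle : d ≤ 1 := by
    rw [← hcard]
    by_contra hlt
    push Not at hlt
    have hfc : R.roots.toFinset.card = R.roots.card := Multiset.toFinset_card_of_nodup hnodup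
    rw [← hfc] at hlt
    obtain ⟨x, hx, y, hy, hxy⟩ := Finset.one_lt_card.mp hlt
    rw [Multiset.mem_toFinset] at hx hy
    apply hxy
    apply hinj x (hrootS x hx) y (hrootS y hy)
    have h1 := mob_value hcop ((mem_roots hRne).mp hx)
    have h2 := mob_value hcop ((mem_roots hRne).mp hy)
    have h3 : P.eval x = c * Q.eval x := by
      rw [← h1.2]; field_simp [h1.1]
    have h4 : P.eval y = c * Q.eval y := by
      rw [← h2.2]; field_simp [h2.1]
    rw [h3, h4]; ring
  have hPd : P.natDegree ≤ 1 := (le_max_left _ _).trans hle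
  have hQd : Q.natDegree ≤ 1 := (le_max_right _ _).trans hle
  have hPe : P = C (P.coeff 1) * X + C (P.coeff 0) := eq_X_add_C_of_natDegree_le_one hPd
  have hQe : Q = C (Q.coeff 1) * X + C (Q.coeff 0) := eq_X_add_C_of_natDegree_le_one hQd
  refine ⟨P.coeff 1, P.coeff 0, Q.coeff 1, Q.coeff 0, ?_, hPe, hQe⟩
  intro hdet
  have hPev : ∀ x, P.eval x = P.coeff 1 * x + P.coeff 0 := by
    intro x
    conv_lhs => rw [hPe]
    simp
  have hQev : ∀ x, Q.eval x = Q.coeff 1 * x + Q.coeff 0 := by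
    intro x
    conv_lhs => rw [hQe]
    simp
  by_cases hC : Q.coeff 1 = 0
  · have hA : P.coeff 1 ≠ 0 := by
      intro hA
      rcases hnc with h | h
      · apply h
        rw [hPe, hA]; simp
      · apply h
        rw [hQe, hC]; simp
    have hD : Q.coeff 0 = 0 := by
      rw [hC, mul_zero, sub_zero] at hdet
      exact (mul_eq_zero.mp hdet).resolve_left hA
    have hQ0 : Q.eval (-(P.coeff 0) / P.coeff 1) = 0 := by rw [hQev, hC, hD]; simp
    apply mob_not_both_root hcop hQ0
    rw [hPev]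
    field_simp
    ring
  · have hQ0 : Q.eval (-(Q.coeff 0) / Q.coeff 1) = 0 := by
      rw [hQev]
      field_simp
      ring
    apply mob_not_both_root hcop hQ0
    rw [hPev]
    field_simp
    linear_combination -hdet

theorem mob_nc_of_inj {l : Type*} [Field l] [IsAlgClosed l] {P Q : l[X]} {S : Set l}
    (hS : Sᶜ.Finite)
    (hinj : ∀ x ∈ S, ∀ y ∈ S, P.eval x * Q.eval y = P.eval y * Q.eval x → x = y) :
    P.natDegree ≠ 0 ∨ Q.natDegree ≠ 0 := by
  have : Infinite l := IsAlgClosed.instInfinite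
  have hSinf : S.Infinite := by
    intro hfin
    have : (Set.univ : Set l).Finite := by
      rw [← Set.union_compl_self S]
      exact hfin.union hS
    exact Set.infinite_univ this
  by_contra hcon
  push Not at hcon
  obtain ⟨hP, hQ⟩ := hcon
  obtain ⟨x, hx, y, hy, hxy⟩ := hSinf.nontrivial
  apply hxy
  apply hinj x hx y hy
  rw [eq_C_of_natDegree_eq_zero hP, eq_C_of_natDegree_eq_zero hQ]
  simp

/-- injective rational functions are Moebius transformations up to Frobenius. -/
theorem mob_of_inj {l : Type*} [Field l] [IsAlgClosed l] (P Q : l[X])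
    (hcop : IsCoprime P Q) (S : Set l) (hS : Sᶜ.Finite)
    (hinj : ∀ x ∈ S, ∀ y ∈ S, P.eval x * Q.eval y = P.eval y * Q.eval x → x = y) :
    ∃ (j : ℕ) (A B C' D : l), A * D - B * C' ≠ 0 ∧
      P = C A * X ^ (ringExpChar l) ^ j + C B ∧ Q = C C' * X ^ (ringExpChar l) ^ j + C D := by
  obtain ⟨p, hp⟩ := ExpChar.exists l
  rw [ringExpChar.eq l p]
  rcases hp with _ | hprime
  · -- characteristic zero
    have hnc := mob_nc_of_inj hS hinj
    obtain ⟨A, B, C', D, h1, h2, h3⟩ :=
      mob_of_inj_sep P Q hcop (mob_wronskian hcop hnc) S hS hinj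
    exact ⟨0, A, B, C', D, h1, by simpa using h2, by simpa using h3⟩
  · -- characteristic p
    rename_i hchar
    have hp0 : p ≠ 0 := hprime.ne_zero
    haveI : Fact p.Prime := ⟨hprime⟩
    haveI : ExpChar l p := ExpChar.prime hprime
    haveI : PerfectField l := IsAlgClosed.perfectField l
    haveI : PerfectRing l p := PerfectField.toPerfectRing p
    have key : ∀ (n : ℕ) (P Q : l[X]) (S : Set l), P.natDegree + Q.natDegree ≤ n →
        IsCoprime P Q → Sᶜ.Finite →
        (∀ x ∈ S, ∀ y ∈ S, P.eval x * Q.eval y = P.eval y * Q.eval x → x = y) →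
        ∃ (j : ℕ) (A B C' D : l), A * D - B * C' ≠ 0 ∧
          P = C A * X ^ p ^ j + C B ∧ Q = C C' * X ^ p ^ j + C D := by
      intro n
      induction n with
      | zero =>
        intro P Q S hn hcop hS hinj
        exfalso
        rcases mob_nc_of_inj hS hinj with h | h <;> omega
      | succ n ih =>
        intro P Q S hn hcop hS hinj
        have hnc := mob_nc_of_inj hS hinj
        by_cases hw : wronskian P Q = 0
        · rw [hcop.wronskian_eq_zero_iff] at hw
          have hPe := expand_contract p hw.1 hp0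
          have hQe := expand_contract p hw.2 hp0
          set P1 := contract p P with hP1
          set Q1 := contract p Q with hQ1
          have hcop1 : IsCoprime P1 Q1 := by
            rw [← isCoprime_expand hp0, hPe, hQe]
            exact hcop
          have hdP : P.natDegree = P1.natDegree * p := by
            rw [← hPe]
            exact natDegree_expand p P1
          have hdQ : Q.natDegree = Q1.natDegree * p := by
            rw [← hQe]
            exact natDegree_expand p Q1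
          have hdeg : P1.natDegree + Q1.natDegree ≤ n := by
            have h2 := hprime.two_le
            have h3 : 2 * P1.natDegree ≤ P.natDegree := by
              rw [hdP, mul_comm 2]; exact Nat.mul_le_mul_left _ h2
            have h4 : 2 * Q1.natDegree ≤ Q.natDegree := by
              rw [hdQ, mul_comm 2]; exact Nat.mul_le_mul_left _ h2
            rcases hnc with h | h <;> omega
          have hbij : Function.Bijective (frobenius l p) := bijective_frobenius l p
          have hS1 : ((frobenius l p) '' S)ᶜ.Finite := by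
            rw [← Set.image_compl_eq hbij]
            exact hS.image _
          obtain ⟨j, A, B, C', D, h1, h2, h3⟩ := ih P1 Q1 ((frobenius l p) '' S) hdeg hcop1 hS1 (by
            rintro _ ⟨x, hx, rfl⟩ _ ⟨y, hy, rfl⟩ hxy
            have : x = y := by
              apply hinj x hx y hy
              rw [← hPe, ← hQe, expand_eval, expand_eval, expand_eval, expand_eval]
              simpa [frobenius_def] using hxy
            rw [this])
          refine ⟨j + 1, A, B, C', D, h1, ?_, ?_⟩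
          · rw [← hPe, h2, map_add, map_mul, map_pow, expand_C, expand_C, expand_X, ← pow_mul,
              pow_succ, mul_comm p]
          · rw [← hQe, h3, map_add, map_mul, map_pow, expand_C, expand_C, expand_X, ← pow_mul,
              pow_succ, mul_comm p]
        · obtain ⟨A, B, C', D, h1, h2, h3⟩ := mob_of_inj_sep P Q hcop hw S hS hinj
          exact ⟨0, A, B, C', D, h1, by simpa using h2, by simpa using h3⟩
    exact key _ P Q S le_rfl hcop hS hinj

/-- uniqueness of twisted Moebius transformations. -/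
theorem twist_mob {L : Type*} [Field L] {i j : ℕ} {u v A B C D : L} (hu : u ≠ 0)
    (hdet : A * D - B * C ≠ 0)
    (h : {x : L | (u * x ^ (ringExpChar L) ^ i + v) * (C * x ^ (ringExpChar L) ^ j + D) =
      A * x ^ (ringExpChar L) ^ j + B}.Infinite) :
    (ringExpChar L) ^ i = (ringExpChar L) ^ j ∧ C = 0 ∧ A = u * D ∧ B = v * D := by
  have hq : 0 < ringExpChar L := by
    obtain ⟨p, hp⟩ := ExpChar.exists L
    rw [ringExpChar.eq L p]
    exact expChar_pos L p
  set a := (ringExpChar L) ^ i with ha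
  set b := (ringExpChar L) ^ j with hb
  have ha0 : 0 < a := pow_pos hq i
  have hb0 : 0 < b := pow_pos hq j
  have hpoly : (Polynomial.C u * X ^ a + Polynomial.C v) * (Polynomial.C C * X ^ b +
      Polynomial.C D) = Polynomial.C A * X ^ b + Polynomial.C B := by
    apply eq_of_infinite_eval_eq
    refine h.mono ?_
    intro x hx
    simpa using hx
  have hexp : Polynomial.C (u * C) * X ^ (a + b) + Polynomial.C (u * D) * X ^ a +
      Polynomial.C (v * C) * X ^ b + Polynomial.C (v * D) =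
      Polynomial.C A * X ^ b + Polynomial.C B := by
    rw [← hpoly]
    simp only [map_mul, pow_add]
    ring
  have c1 := congrArg (fun P => Polynomial.coeff P (a + b)) hexp
  have c2 := congrArg (fun P => Polynomial.coeff P 0) hexp
  have n1 : a + b ≠ a := by omega
  have n2 : a + b ≠ b := by omega
  have n3 : a + b ≠ 0 := by omega
  have n4 : (0 : ℕ) ≠ a := by omega
  have n5 : (0 : ℕ) ≠ b := by omega
  have n6 : (0 : ℕ) ≠ a + b := by omega
  simp only [coeff_add, coeff_C_mul, coeff_X_pow, coeff_C, n1, n2, n3, if_true, if_false,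
    mul_one, mul_zero, add_zero] at c1
  simp only [coeff_add, coeff_C_mul, coeff_X_pow, coeff_C, n4, n5, n6, if_true, if_false,
    mul_zero, zero_add] at c2
  have hC : C = 0 := (mul_eq_zero.mp c1).resolve_left hu
  have hAD : A * D ≠ 0 := by simpa [hC] using hdet
  have hD : D ≠ 0 := right_ne_zero_of_mul hAD
  have c3 := congrArg (fun P => Polynomial.coeff P a) hexp
  have n7 : a ≠ a + b := by omega
  have n8 : a ≠ 0 := by omega
  by_cases hab : a = b
  · simp only [coeff_add, coeff_C_mul, coeff_X_pow, coeff_C, n8, if_true, if_false,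
      mul_one, mul_zero, zero_mul, add_zero, zero_add, hC, ← hab] at c3
    exact ⟨hab, hC, c3.symm, c2.symm⟩
  · exfalso
    simp only [coeff_add, coeff_C_mul, coeff_X_pow, coeff_C, n7, n8, if_true, if_false,
      mul_one, mul_zero, add_zero, zero_add, hC, hab] at c3
    exact mul_ne_zero hu hD c3

end Vale.Agent.P019P
end
end

section

section

/-!
# A companion matrix
-/

namespace Vale.Agent.P019P

open Polynomial

theorem zm_exists_matrix (N : ℕ) (f : ℤ[X]) (hf : f.natDegree ≤ N) (h0 : f.coeff 0 = 1) :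
    ∃ M : Matrix (Fin N) (Fin N) ℤ, M.charpolyRev = f ∧ M.det = (-1) ^ N * f.coeff N := by
  set p : ℤ[X] := reflect N f with hp
  have hpc : p.coeff N = 1 := by
    rw [hp, coeff_reflect, revAt_le (le_refl N), Nat.sub_self, h0]
  have hpd : p.natDegree ≤ N := by
    rw [natDegree_le_iff_coeff_eq_zero]
    intro k hk
    rw [hp, coeff_reflect, revAt_eq_self_of_lt hk]
    exact coeff_eq_zero_of_natDegree_lt (lt_of_le_of_lt hf hk)
  have hpN : p.natDegree = N :=
    le_antisymm hpd (le_natDegree_of_ne_zero (by rw [hpc]; exact one_ne_zero))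
  have hm : p.Monic := by
    rw [Monic, leadingCoeff, hpN, hpc]
  let pb := AdjoinRoot.powerBasis' hm
  have hdim : pb.dim = N := by
    rw [AdjoinRoot.powerBasis'_dim, hpN]
  let b : Module.Basis (Fin N) ℤ (AdjoinRoot p) := pb.basis.reindex (finCongr hdim)
  have : Module.Free ℤ (AdjoinRoot p) := Module.Free.of_basis b
  have : Module.Finite ℤ (AdjoinRoot p) := Module.Finite.of_basis b
  let T : AdjoinRoot p →ₗ[ℤ] AdjoinRoot p := Algebra.lmul ℤ (AdjoinRoot p) (AdjoinRoot.root p)
  have hTm : T.charpoly.Monic := T.charpoly_monic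
  have hTd : T.charpoly.natDegree = N := by
    rw [LinearMap.charpoly_natDegree, Module.finrank_eq_card_basis b, Fintype.card_fin]
  have hT0 : aeval T T.charpoly = 0 := LinearMap.aeval_self_charpoly T
  have hdvd : p ∣ T.charpoly := by
    rw [← AdjoinRoot.mk_eq_zero]
    have h1 : aeval T T.charpoly = Algebra.lmul ℤ (AdjoinRoot p)
        (aeval (AdjoinRoot.root p) T.charpoly) := by
      rw [← aeval_algHom_apply]
    have h2 : aeval (AdjoinRoot.root p) T.charpoly = 0 := by
      have h3 := congrArg (fun g : AdjoinRoot p →ₗ[ℤ] AdjoinRoot p => g 1) (h1.symm.trans hT0)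
      simpa using h3
    rw [← h2, AdjoinRoot.aeval_eq]
  have heq : T.charpoly = p := by
    refine eq_of_monic_of_dvd_of_natDegree_le hm hTm hdvd ?_
    rw [hTd, hpN]
  let M := LinearMap.toMatrix b b T
  have hM : M.charpoly = p := by
    rw [← heq]
    exact LinearMap.charpoly_toMatrix T b
  refine ⟨M, ?_, ?_⟩
  · rw [← Matrix.reverse_charpoly, hM, reverse, hpN, hp, reflect_reflect]
  · rw [Matrix.det_eq_sign_charpoly_coeff, hM, Fintype.card_fin, hp, coeff_reflect,
      revAt_le (Nat.zero_le N), Nat.sub_zero]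

end Vale.Agent.P019P
end
end

section

section

/-!
# P019: Moebius transformations along translations and dilations give a field isomorphism

Main result `sigma_exists`.
-/

namespace Vale.Agent.P019

open Filter

/-- `y = m(x)` for the Moebius map with matrix entries `A B C D`. -/
def MobRel {l : Type*} [Field l] (A B C D x y : l) : Prop := y * (C * x + D) = A * x + B

namespace Sg

variable {k l : Type*} [Field k] [Field l]

/-- `y = g(x)` for the Moebius map of the linear automorphism `g` of `l × l`. -/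
def Act (g : (l × l) ≃ₗ[l] (l × l)) (x y : l) : Prop :=
  ∃ t : l, t ≠ 0 ∧ g (x, 1) = t • ((y, 1) : l × l)

/-- determinant of two vectors -/
def dt (v w : l × l) : l := v.1 * w.2 - v.2 * w.1

theorem Act.comp {g h : (l × l) ≃ₗ[l] (l × l)} {x y z : l} (h1 : Act g x y) (h2 : Act h y z) :
    Act (g.trans h) x z := by
  obtain ⟨t, ht, h1⟩ := h1
  obtain ⟨s, hs, h2⟩ := h2
  refine ⟨t * s, mul_ne_zero ht hs, ?_⟩
  rw [LinearEquiv.trans_apply, h1, map_smul, h2, smul_smul]

theorem Act.symm {g : (l × l) ≃ₗ[l] (l × l)} {x y : l} (h1 : Act g x y) : Act g.symm y x := by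
  obtain ⟨t, ht, h1⟩ := h1
  refine ⟨t⁻¹, inv_ne_zero ht, ?_⟩
  rw [LinearEquiv.symm_apply_eq, map_smul, h1, smul_smul, inv_mul_cancel₀ ht, one_smul]

theorem Act.eq_right {g : (l × l) ≃ₗ[l] (l × l)} {x y z : l} (h1 : Act g x y) (h2 : Act g x z) :
    y = z := by
  obtain ⟨t, ht, h1⟩ := h1
  obtain ⟨s, hs, h2⟩ := h2
  rw [h1] at h2
  have e2 : t = s := by simpa using congrArg Prod.snd h2
  have e1 : t * y = s * z := by simpa using congrArg Prod.fst h2
  rw [e2] at e1
  exact mul_left_cancel₀ hs e1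

theorem Act.eq_left {g : (l × l) ≃ₗ[l] (l × l)} {x y z : l} (h1 : Act g x z) (h2 : Act g y z) :
    x = y := h1.symm.eq_right h2.symm

theorem dt_self (v : l × l) : dt v v = 0 := by simp [dt, mul_comm]

theorem exists_smul_of_dt {v w : l × l} (hv : v ≠ 0) (h : dt v w = 0) : ∃ s : l, w = s • v := by
  unfold dt at h
  by_cases h1 : v.1 = 0
  · have h2 : v.2 ≠ 0 := by
      intro h2; exact hv (Prod.ext h1 h2)
    refine ⟨w.2 / v.2, ?_⟩
    rw [h1] at h
    have h3 : w.1 = 0 := by
      rcases mul_eq_zero.1 (by linear_combination -h : v.2 * w.1 = 0) with h' | h'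
      · exact absurd h' h2
      · exact h'
    ext
    · simp [h1, h3]
    · simp [h2]
  · refine ⟨w.1 / v.1, ?_⟩
    ext
    · simp [h1]
    · simp only [Prod.smul_snd, smul_eq_mul]
      field_simp
      linear_combination h

/-- expansion in a basis -/
theorem dt_expand (v w u : l × l) : dt v w • u = dt u w • v + dt v u • w := by
  ext
  · simp only [dt, Prod.smul_fst, Prod.fst_add, smul_eq_mul]; ring
  · simp only [dt, Prod.smul_snd, Prod.snd_add, smul_eq_mul]; ring

theorem scalar_of_two {f : (l × l) →ₗ[l] (l × l)} {v w : l × l} (h : dt v w ≠ 0) {a : l}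
    (hv : f v = a • v) (hw : f w = a • w) (u : l × l) : f u = a • u := by
  have h1 := dt_expand v w u
  have h2 := congrArg f h1
  rw [map_smul, map_add, map_smul, map_smul, hv, hw] at h2
  have h3 : dt v w • f u = dt v w • (a • u) := by
    rw [h2, smul_comm (dt v w) a u, h1, smul_add]
    simp only [smul_smul, mul_comm]
  exact smul_right_injective _ h h3

theorem scal3 {f : (l × l) →ₗ[l] (l × l)} {v₁ v₂ v₃ : l × l} {a₁ a₂ a₃ : l}
    (h12 : dt v₁ v₂ ≠ 0) (h13 : dt v₁ v₃ ≠ 0) (h32 : dt v₃ v₂ ≠ 0)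
    (h1 : f v₁ = a₁ • v₁) (h2 : f v₂ = a₂ • v₂) (h3 : f v₃ = a₃ • v₃) :
    a₁ = a₂ ∧ ∀ u, f u = a₁ • u := by
  have e := dt_expand v₁ v₂ v₃
  have e2 := congrArg f e
  rw [map_smul, map_add, map_smul, map_smul, h1, h2, h3] at e2
  have e3 : dt v₁ v₂ • (a₃ • v₃) = a₃ • (dt v₃ v₂ • v₁ + dt v₁ v₃ • v₂) := by
    rw [← e, smul_comm]
  rw [e3] at e2
  -- compare determinants with `v₁` and `v₂`
  have f1 := congrArg (fun z => dt v₁ z) e2
  have f2 := congrArg (fun z => dt z v₂) e2
  have g1 : a₃ * (dt v₁ v₃ * dt v₁ v₂) = a₂ * (dt v₁ v₃ * dt v₁ v₂) := by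
    simp only [dt, Prod.smul_fst, Prod.smul_snd, Prod.fst_add, Prod.snd_add, smul_eq_mul] at f1 ⊢
    linear_combination f1
  have g2 : a₃ * (dt v₃ v₂ * dt v₁ v₂) = a₁ * (dt v₃ v₂ * dt v₁ v₂) := by
    simp only [dt, Prod.smul_fst, Prod.smul_snd, Prod.fst_add, Prod.snd_add, smul_eq_mul] at f2 ⊢
    linear_combination f2
  have k1 : a₃ = a₂ := mul_right_cancel₀ (mul_ne_zero h13 h12) g1
  have k2 : a₃ = a₁ := mul_right_cancel₀ (mul_ne_zero h32 h12) g2
  have k3 : a₁ = a₂ := by rw [← k2, k1]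
  refine ⟨k3, ?_⟩
  exact scalar_of_two h12 h1 (by rw [h2, k3])

theorem dt_pts (x y : l) : dt ((x, 1) : l × l) (y, 1) = x - y := by simp [dt]

/-- two automorphisms with the same Moebius values at three points are proportional -/
theorem Act.unique {g g' : (l × l) ≃ₗ[l] (l × l)} {x₁ x₂ x₃ y₁ y₂ y₃ : l}
    (h12 : x₁ ≠ x₂) (h13 : x₁ ≠ x₃) (h32 : x₃ ≠ x₂)
    (g1 : Act g x₁ y₁) (g2 : Act g x₂ y₂) (g3 : Act g x₃ y₃)
    (g1' : Act g' x₁ y₁) (g2' : Act g' x₂ y₂) (g3' : Act g' x₃ y₃) :
    ∃ u : l, u ≠ 0 ∧ ∀ v, g v = u • g' v := by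
  obtain ⟨t₁, ht₁, e₁⟩ := g1.comp g1'.symm
  obtain ⟨t₂, ht₂, e₂⟩ := g2.comp g2'.symm
  obtain ⟨t₃, ht₃, e₃⟩ := g3.comp g3'.symm
  have key := scal3 (f := (g.trans g'.symm).toLinearMap) (v₁ := (x₁, 1)) (v₂ := (x₂, 1))
    (v₃ := (x₃, 1)) (by rw [dt_pts]; exact sub_ne_zero.2 h12)
    (by rw [dt_pts]; exact sub_ne_zero.2 h13) (by rw [dt_pts]; exact sub_ne_zero.2 h32) e₁ e₂ e₃
  refine ⟨t₁, ht₁, fun v => ?_⟩
  have := key.2 v
  simp only [LinearEquiv.coe_coe, LinearEquiv.trans_apply] at this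
  rw [LinearEquiv.symm_apply_eq, map_smul] at this
  exact this

section ae

variable {φ : k → l}

omit [Field k] [Field l] in
theorem three_pts [Infinite k] {P : k → Prop} (hinj : ∃ S : Set k, S.Finite ∧ Set.InjOn φ Sᶜ)
    (hP : ∀ᶠ b in cofinite, P b) :
    ∃ b₁ b₂ b₃, P b₁ ∧ P b₂ ∧ P b₃ ∧ φ b₁ ≠ φ b₂ ∧ φ b₁ ≠ φ b₃ ∧ φ b₃ ≠ φ b₂ := by
  classical
  obtain ⟨S, hS, hinj⟩ := hinj
  have h1 : ∀ᶠ b in cofinite, P b ∧ b ∈ Sᶜ := by
    refine hP.and ?_
    exact hS.compl_mem_cofinite
  have h2 : {b | P b ∧ b ∈ Sᶜ}.Infinite := by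
    have h3 : {b | P b ∧ b ∈ Sᶜ}ᶜ.Finite := h1
    exact Set.infinite_of_finite_compl h3
  obtain ⟨T, hT, hc⟩ := h2.exists_subset_card_eq 3
  obtain ⟨b₁, b₂, b₃, n12, n13, n23, rfl⟩ := Finset.card_eq_three.1 hc
  have m1 : b₁ ∈ {b | P b ∧ b ∈ Sᶜ} := hT (by simp)
  have m2 : b₂ ∈ {b | P b ∧ b ∈ Sᶜ} := hT (by simp)
  have m3 : b₃ ∈ {b | P b ∧ b ∈ Sᶜ} := hT (by simp)
  refine ⟨b₁, b₂, b₃, m1.1, m2.1, m3.1, ?_, ?_, ?_⟩
  · intro h; exact n12 (hinj m1.2 m2.2 h)
  · intro h; exact n13 (hinj m1.2 m3.2 h)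
  · intro h; exact n23 (hinj m3.2 m2.2 h).symm

theorem unique_ae [Infinite k] (hinj : ∃ S : Set k, S.Finite ∧ Set.InjOn φ Sᶜ) {φ' : k → l}
    {g g' : (l × l) ≃ₗ[l] (l × l)}
    (h : ∀ᶠ b in cofinite, Act g (φ b) (φ' b)) (h' : ∀ᶠ b in cofinite, Act g' (φ b) (φ' b)) :
    ∃ u : l, u ≠ 0 ∧ ∀ v, g v = u • g' v := by
  obtain ⟨b₁, b₂, b₃, ⟨p1, q1⟩, ⟨p2, q2⟩, ⟨p3, q3⟩, n12, n13, n32⟩ := three_pts hinj (h.and h')
  exact Act.unique n12 n13 n32 p1 p2 p3 q1 q2 q3

theorem ae_add {P : k → Prop} (c : k) (hP : ∀ᶠ b in cofinite, P b) :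
    ∀ᶠ b in cofinite, P (b + c) :=
  (add_left_injective c).tendsto_cofinite.eventually hP

theorem ae_mul {P : k → Prop} {c : k} (hc : c ≠ 0) (hP : ∀ᶠ b in cofinite, P b) :
    ∀ᶠ b in cofinite, P (c * b) :=
  (mul_right_injective₀ hc).tendsto_cofinite.eventually hP

/-- an automorphism fixing the line of `(1,0)` is affine -/
theorem affine_of_fix {g : (l × l) ≃ₗ[l] (l × l)} {s : l} (hg : g (1, 0) = s • (1, 0)) :
    ∃ α β : l, α ≠ 0 ∧ ∀ x y, Act g x y → y = α * x + β := by
  have hs : s ≠ 0 := by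
    intro hs
    rw [hs, zero_smul] at hg
    have := (LinearEquiv.map_eq_zero_iff g).1 hg
    simp at this
  have hd : (g (0, 1)).2 ≠ 0 := by
    intro hd
    have h1 : g (0, 1) = ((g (0, 1)).1 / s) • g (1, 0) := by
      rw [hg]
      ext
      · simp [hs]
      · simp [hd]
    rw [← map_smul] at h1
    have h2 := g.injective h1
    have := congrArg Prod.snd h2
    simp at this
  refine ⟨s / (g (0, 1)).2, (g (0, 1)).1 / (g (0, 1)).2, div_ne_zero hs hd, ?_⟩
  rintro x y ⟨t, ht, h⟩
  have h0 : ((x, 1) : l × l) = x • (1, 0) + (0, 1) := by ext <;> simp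
  rw [h0, map_add, map_smul, hg] at h
  have e2 := congrArg Prod.snd h
  have e1 := congrArg Prod.fst h
  simp only [Prod.snd_add, Prod.smul_snd, smul_eq_mul, mul_zero, zero_add, mul_one,
    Prod.fst_add, Prod.smul_fst] at e1 e2
  rw [e2]
  field_simp
  linear_combination -e1

/-- an automorphism moving a vector to the line of `(1,0)` -/
theorem exists_move {v : l × l} (hv : v ≠ 0) :
    ∃ (M : (l × l) ≃ₗ[l] (l × l)) (s : l), s ≠ 0 ∧ M v = s • (1, 0) := by
  by_cases h2 : v.2 = 0
  · refine ⟨LinearEquiv.refl l (l × l), v.1, ?_, ?_⟩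
    · intro h1; exact hv (Prod.ext h1 h2)
    · ext <;> simp [h2]
  · let r : l := v.1 / v.2
    let M : (l × l) ≃ₗ[l] (l × l) :=
      { toFun := fun w => (w.2, w.1 - r * w.2)
        invFun := fun w => (w.2 + r * w.1, w.1)
        map_add' := by
          intro x y
          ext
          · simp
          · simp only [Prod.fst_add, Prod.snd_add]; ring
        map_smul' := by
          intro c x
          ext
          · simp
          · simp only [Prod.smul_fst, Prod.smul_snd, smul_eq_mul, RingHom.id_apply]; ring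
        left_inv := by
          intro x
          ext
          · simp
          · simp
        right_inv := by
          intro x
          ext
          · simp
          · simp }
    refine ⟨M, v.2, h2, ?_⟩
    change (v.2, v.1 - r * v.2) = v.2 • ((1, 0) : l × l)
    ext
    · simp
    · simp only [r, Prod.smul_snd, smul_zero]
      field_simp
      ring

/-- an automorphism of the plane from a matrix -/
theorem exists_of_matrix {A B C D : l} (h : A * D - B * C ≠ 0) :
    ∃ g : (l × l) ≃ₗ[l] (l × l), ∀ x y, MobRel A B C D x y → Act g x y := by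
  let g : (l × l) ≃ₗ[l] (l × l) :=
    { toFun := fun w => (A * w.1 + B * w.2, C * w.1 + D * w.2)
      invFun := fun w => ((A * D - B * C)⁻¹ * (D * w.1 - B * w.2),
        (A * D - B * C)⁻¹ * (A * w.2 - C * w.1))
      map_add' := by
        intro x y
        ext
        · simp only [Prod.fst_add, Prod.snd_add]; ring
        · simp only [Prod.fst_add, Prod.snd_add]; ring
      map_smul' := by
        intro c x
        ext
        · simp only [Prod.smul_fst, Prod.smul_snd, smul_eq_mul, RingHom.id_apply]; ring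
        · simp only [Prod.smul_fst, Prod.smul_snd, smul_eq_mul, RingHom.id_apply]; ring
      left_inv := by
        intro x
        ext
        · simp only
          rw [show D * (A * x.1 + B * x.2) - B * (C * x.1 + D * x.2) =
            (A * D - B * C) * x.1 by ring, inv_mul_cancel_left₀ h]
        · simp only
          rw [show A * (C * x.1 + D * x.2) - C * (A * x.1 + B * x.2) =
            (A * D - B * C) * x.2 by ring, inv_mul_cancel_left₀ h]
      right_inv := by
        intro x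
        ext
        · simp only
          rw [show A * ((A * D - B * C)⁻¹ * (D * x.1 - B * x.2)) +
            B * ((A * D - B * C)⁻¹ * (A * x.2 - C * x.1)) =
            (A * D - B * C)⁻¹ * ((A * D - B * C) * x.1) by ring, inv_mul_cancel_left₀ h]
        · simp only
          rw [show C * ((A * D - B * C)⁻¹ * (D * x.1 - B * x.2)) +
            D * ((A * D - B * C)⁻¹ * (A * x.2 - C * x.1)) =
            (A * D - B * C)⁻¹ * ((A * D - B * C) * x.2) by ring, inv_mul_cancel_left₀ h] }
  refine ⟨g, ?_⟩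
  intro x y hxy
  unfold MobRel at hxy
  have hg : g (x, 1) = (A * x + B, C * x + D) := by
    change (A * x + B * 1, C * x + D * 1) = _
    simp
  refine ⟨C * x + D, ?_, ?_⟩
  · intro h0
    rw [h0, mul_zero] at hxy
    have : ((x, 1) : l × l) = 0 := by
      apply (LinearEquiv.map_eq_zero_iff g).1
      rw [hg, h0, ← hxy]
      rfl
    simp at this
  · rw [hg]
    ext
    · simp only [Prod.smul_fst, smul_eq_mul]
      linear_combination -hxy
    · simp

/-- a matrix from an automorphism of the plane -/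
theorem exists_matrix (g : (l × l) ≃ₗ[l] (l × l)) :
    ∃ A B C D : l, A * D - B * C ≠ 0 ∧ ∀ x y, Act g x y → MobRel A B C D x y := by
  refine ⟨(g (1, 0)).1, (g (0, 1)).1, (g (1, 0)).2, (g (0, 1)).2, ?_, ?_⟩
  · intro h
    have h1 : dt (g (1, 0)) (g (0, 1)) = 0 := by
      unfold dt
      linear_combination h
    have h0 : g (1, 0) ≠ 0 := by
      intro h0
      have := (LinearEquiv.map_eq_zero_iff g).1 h0
      simp at this
    obtain ⟨s, hs⟩ := exists_smul_of_dt h0 h1
    rw [← map_smul] at hs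
    have := congrArg Prod.snd (g.injective hs)
    simp at this
  · rintro x y ⟨t, ht, h⟩
    have h0 : ((x, 1) : l × l) = x • (1, 0) + (0, 1) := by ext <;> simp
    rw [h0, map_add, map_smul] at h
    have e2 := congrArg Prod.snd h
    have e1 := congrArg Prod.fst h
    simp only [Prod.snd_add, Prod.smul_snd, smul_eq_mul, mul_one,
      Prod.fst_add, Prod.smul_fst] at e1 e2
    unfold MobRel
    linear_combination y * e2 - e1

end ae

end Sg

end Vale.Agent.P019
end
end

section

section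

/-!
# The existence of a common fixed point on the projective line, any characteristic
-/

namespace Vale.Agent.P019P

open Vale.Agent.P019

set_option linter.style.haveILetI false
set_option linter.unusedSectionVars false

open Filter

section alg

variable {k l : Type*} [Field k] [Field l]

open Sg in
/-- the existence of a common fixed point on the projective line, any characteristic. -/
theorem exists_common [IsAlgClosed k] [IsAlgClosed l] (φ : k → l)
    (hinj : ∃ S : Set k, S.Finite ∧ Set.InjOn φ Sᶜ)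
    (g h : k → ((l × l) ≃ₗ[l] (l × l)))
    (hg : ∀ c, ∀ᶠ b in cofinite, Act (g c) (φ b) (φ (b + c)))
    (hh : ∀ c, c ≠ 0 → ∀ᶠ b in cofinite, Act (h c) (φ b) (φ (c * b))) :
    ∃ v : l × l, v ≠ 0 ∧ (∀ c, ∃ s : l, g c v = s • v) ∧
      ∀ c, c ≠ 0 → ∃ s : l, h c v = s • v := by
  -- multiplicativity up to scalars
  have gmul : ∀ c c', ∃ u : l, u ≠ 0 ∧ ∀ v, g c (g c' v) = u • g (c + c') v := by
    intro c c'
    have h1 : ∀ᶠ b in cofinite, Act ((g c').trans (g c)) (φ b) (φ (b + (c + c'))) := by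
      filter_upwards [hg c', ae_add c' (hg c)] with b e1 e2
      have := e1.comp e2
      rwa [add_assoc, add_comm c' c] at this
    exact unique_ae hinj h1 (hg (c + c'))
  have hmul : ∀ c c', c ≠ 0 → c' ≠ 0 → ∃ u : l, u ≠ 0 ∧ ∀ v, h c (h c' v) = u • h (c * c') v := by
    intro c c' hc hc'
    have h1 : ∀ᶠ b in cofinite, Act ((h c').trans (h c)) (φ b) (φ ((c * c') * b)) := by
      filter_upwards [hh c' hc', ae_mul hc' (hh c hc)] with b e1 e2
      have := e1.comp e2
      rwa [← mul_assoc] at this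
    exact unique_ae hinj h1 (hh (c * c') (mul_ne_zero hc hc'))
  have hconj : ∀ m c, m ≠ 0 → ∃ u : l, u ≠ 0 ∧ ∀ v, h m (g c v) = u • g (m * c) (h m v) := by
    intro m c hm
    have h1 : ∀ᶠ b in cofinite, Act ((g c).trans (h m)) (φ b) (φ (m * (b + c))) := by
      filter_upwards [hg c, ae_add c (hh m hm)] with b e1 e2
      exact e1.comp e2
    have h2 : ∀ᶠ b in cofinite, Act ((h m).trans (g (m * c))) (φ b) (φ (m * (b + c))) := by
      filter_upwards [hh m hm, ae_mul hm (hg (m * c))] with b e1 e2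
      have := e1.comp e2
      rwa [← mul_add] at this
    exact unique_ae hinj h1 h2
  -- the translations commute
  have hcomm0 : ∀ c c', ∃ u : l, u ^ 2 = 1 ∧ ∀ v, g c (g c' v) = u • g c' (g c v) := by
    intro c c'
    obtain ⟨u1, hu1, e1⟩ := gmul c c'
    obtain ⟨u2, hu2, e2⟩ := gmul c' c
    have e3 : ∀ v, g c (g c' v) = (u1 * u2⁻¹) • g c' (g c v) := by
      intro v
      rw [e1, e2, add_comm c' c, smul_smul, mul_assoc, inv_mul_cancel₀ hu2, mul_one]
    refine ⟨u1 * u2⁻¹, ?_, e3⟩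
    have e4 : (g c).toLinearMap ∘ₗ (g c').toLinearMap =
        (u1 * u2⁻¹) • ((g c').toLinearMap ∘ₗ (g c).toLinearMap) := by
      apply LinearMap.ext
      intro v
      exact e3 v
    have e5 := congrArg LinearMap.det e4
    rw [LinearMap.det_smul, LinearMap.det_comp, LinearMap.det_comp] at e5
    have e6 : Module.finrank l (l × l) = 2 := by simp
    rw [e6] at e5
    have e7 : LinearMap.det (g c).toLinearMap ≠ 0 := (LinearEquiv.isUnit_det' (g c)).ne_zero
    have e8 : LinearMap.det (g c').toLinearMap ≠ 0 := (LinearEquiv.isUnit_det' (g c')).ne_zero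
    have e9 : (u1 * u2⁻¹) ^ 2 * (LinearMap.det (g c').toLinearMap *
        LinearMap.det (g c).toLinearMap) = 1 * (LinearMap.det (g c').toLinearMap *
        LinearMap.det (g c).toLinearMap) := by
      rw [← e5]; ring
    exact mul_right_cancel₀ (mul_ne_zero e8 e7) e9
  have hcomm : ∀ c c' v, g c (g c' v) = g c' (g c v) := by
    choose μ hμ2 hμ using hcomm0
    have hne : ∀ c (v : l × l), v ≠ 0 → g c v ≠ 0 := fun c v hv h0 =>
      hv ((LinearEquiv.map_eq_zero_iff _).1 h0)
    have hv1 : ((1, 1) : l × l) ≠ 0 := fun h0 => one_ne_zero (congrArg Prod.fst h0)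
    have hμu : ∀ c c' u, (∀ v, g c (g c' v) = u • g c' (g c v)) → μ c c' = u := by
      intro c c' u hu
      have e1 := hμ c c' (1, 1)
      rw [hu] at e1
      exact (smul_left_injective l (hne _ _ (hne _ _ hv1)) e1).symm
    have hμ0 : ∀ c c', μ c c' ≠ 0 := fun c c' h0 => by
      have := hμ2 c c'
      rw [h0] at this
      simp at this
    -- it is enough to prove `μ = 1`
    suffices hone : ∀ c c', μ c c' = 1 by
      intro c c' v
      rw [hμ c c' v, hone, one_smul]
    -- bimultiplicativity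
    have hadd' : ∀ x y y', μ x (y + y') = μ x y * μ x y' := by
      intro x y y'
      apply hμu
      intro v
      obtain ⟨u, hu, e⟩ := gmul y y'
      have h1 : u • g x (g (y + y') v) = u • ((μ x y * μ x y') • g (y + y') (g x v)) := by
        rw [← map_smul, ← e, hμ x y, hμ x y', map_smul, e, smul_smul, smul_comm]
      exact smul_right_injective _ hu h1
    have hsym : ∀ x y, μ y x = μ x y := by
      intro x y
      apply hμu
      intro v
      rw [hμ x y v, smul_smul, ← pow_two, hμ2, one_smul]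
    have hself : ∀ x, μ x x = 1 := fun x => hμu x x 1 fun v => by rw [one_smul]
    have hdil : ∀ m x y, m ≠ 0 → μ (m * x) (m * y) = μ x y := by
      intro m x y hm
      apply hμu
      intro v
      obtain ⟨w, rfl⟩ := (h m).surjective v
      obtain ⟨u1, hu1, e1⟩ := hconj m x hm
      obtain ⟨u2, hu2, e2⟩ := hconj m y hm
      have h1 : (u1 * u2) • g (m * x) (g (m * y) (h m w)) =
          (u1 * u2) • (μ x y • g (m * y) (g (m * x) (h m w))) := by
        have a1 : h m (g x (g y w)) = (u1 * u2) • g (m * x) (g (m * y) (h m w)) := by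
          rw [e1, e2, map_smul, smul_smul]
        have a2 : h m (g y (g x w)) = (u1 * u2) • g (m * y) (g (m * x) (h m w)) := by
          rw [e2, e1, map_smul, smul_smul, mul_comm u2 u1]
        rw [← a1, smul_comm, ← a2, hμ x y w, map_smul]
      exact smul_right_injective _ (mul_ne_zero hu1 hu2) h1
    by_cases hl2 : (2 : l) = 0
    · -- characteristic two
      intro c c'
      have h1 : (μ c c' - 1) ^ 2 = 0 := by
        linear_combination hμ2 c c' - (μ c c' - 1) * hl2
      exact sub_eq_zero.1 (pow_eq_zero_iff (two_ne_zero)|>.1 h1)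
    by_cases hk2 : (2 : k) = 0
    swap
    · intro c c'
      have h1 : μ c' c = μ c' (c / 2) * μ c' (c / 2) := by
        rw [← hadd']
        congr 1
        field_simp
        ring
      rw [hsym c' c, h1, ← pow_two, hμ2]
    -- characteristic two in `k`
    have hμz : ∀ x, μ x 0 = 1 := by
      intro x
      have h1 := hadd' x 0 0
      rw [add_zero] at h1
      have h2 : μ x 0 * 1 = μ x 0 * μ x 0 := by rw [mul_one]; exact h1
      exact (mul_left_cancel₀ (hμ0 x 0) h2).symm
    have hinv : ∀ y, y ≠ 0 → μ 1 y⁻¹ = μ 1 y := by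
      intro y hy
      have h1 := hdil y⁻¹ 1 y (inv_ne_zero hy)
      rw [mul_one, inv_mul_cancel₀ hy, hsym] at h1
      exact h1
    have hβ : ∀ y, μ 1 y = 1 := by
      intro y
      by_cases hy : y = 0
      · rw [hy, hμz]
      obtain ⟨x, hx⟩ : ∃ x : k, x ^ 2 + x = y := by
        have hdeg : (Polynomial.X ^ 2 + Polynomial.X - Polynomial.C y : Polynomial k).degree ≠ 0 := by
          have : (Polynomial.X ^ 2 + Polynomial.X - Polynomial.C y : Polynomial k).degree = 2 := by
            compute_degree!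
          rw [this]
          decide
        obtain ⟨x, hx⟩ := IsAlgClosed.exists_root _ hdeg
        refine ⟨x, ?_⟩
        simp only [Polynomial.IsRoot.def, Polynomial.eval_sub, Polynomial.eval_add,
          Polynomial.eval_pow, Polynomial.eval_X, Polynomial.eval_C] at hx
        exact sub_eq_zero.1 hx
      have hx0 : x ≠ 0 := by
        rintro rfl
        exact hy (by rw [← hx]; ring)
      have hx1 : x + 1 ≠ 0 := by
        intro h0
        exact hy (by rw [← hx]; linear_combination x * h0)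
      have h1 : y⁻¹ = x⁻¹ + (x + 1)⁻¹ := by
        rw [← hx] at hy ⊢
        field_simp
        linear_combination (-x) * hk2
      rw [← hinv y hy, h1, hadd', hinv x hx0, hinv _ hx1, hadd', hself, mul_one, ← pow_two, hμ2]
    intro c c'
    by_cases hc : c = 0
    · rw [hc, ← hsym, hμz]
    · have h1 := hdil c 1 (c' / c) hc
      rw [mul_one, mul_div_cancel₀ c' hc, hβ] at h1
      exact h1
  -- `g 1` is not scalar
  have hns : ∀ a : l, ¬ (∀ u, g 1 u = a • u) := by
    intro a ha
    obtain ⟨b₁, b₂, b₃, ⟨p1, q1⟩, -⟩ := three_pts hinj ((hg 1).and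
      (show ∀ᶠ b in cofinite, φ b ≠ φ (b + 1) by
        obtain ⟨S, hS, hinj'⟩ := hinj
        have h1 : ∀ᶠ b in cofinite, b ∈ Sᶜ := hS.compl_mem_cofinite
        filter_upwards [h1, ae_add 1 h1] with b h2 h3 h4
        have := hinj' h2 h3 h4
        simp at this))
    apply q1
    obtain ⟨t, ht, e⟩ := p1
    rw [ha] at e
    have e2 : a = t := by simpa using congrArg Prod.snd e
    have e1 : a * φ b₁ = t * φ (b₁ + 1) := by simpa using congrArg Prod.fst e
    rw [e2] at e1
    exact mul_left_cancel₀ ht e1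
  -- an eigenvector
  obtain ⟨a, ha⟩ := Module.End.exists_eigenvalue ((g 1).toLinearMap : Module.End l (l × l))
  obtain ⟨v, hv⟩ := ha.exists_hasEigenvector
  have hv0 : v ≠ 0 := hv.2
  have hva : g 1 v = a • v := hv.apply_eq_smul
  have hcv : ∀ c, ∃ s : l, g c v = s • v := by
    intro c
    apply exists_smul_of_dt hv0
    by_contra hne
    have h1 : g 1 (g c v) = a • g c v := by
      rw [hcomm 1 c v, hva, map_smul]
    exact hns a (scalar_of_two (f := (g 1).toLinearMap) hne hva h1)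
  -- stability of the set of common eigenvectors under the dilations
  have hstab : ∀ (w : l × l), (∀ c, ∃ s : l, g c w = s • w) → ∀ m, m ≠ 0 →
      ∀ c, ∃ s : l, g c (h m w) = s • h m w := by
    intro w hw m hm c
    obtain ⟨u, hu, e⟩ := hconj m (c / m) hm
    obtain ⟨s, hs⟩ := hw (c / m)
    have e1 := e w
    rw [mul_div_cancel₀ c hm, hs, map_smul] at e1
    refine ⟨u⁻¹ * s, ?_⟩
    rw [mul_smul, e1, smul_smul, inv_mul_cancel₀ hu, one_smul]
  have hsq : ∀ m, m ≠ 0 → ∃ s : l, h m (h m v) = s • v := by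
    intro m hm
    have hw0 : h m v ≠ 0 := fun h0 => hv0 ((LinearEquiv.map_eq_zero_iff _).1 h0)
    have hu0 : h m (h m v) ≠ 0 := fun h0 => hw0 ((LinearEquiv.map_eq_zero_iff _).1 h0)
    by_cases h1 : dt v (h m v) = 0
    · obtain ⟨s, hs⟩ := exists_smul_of_dt hv0 h1
      refine ⟨s * s, ?_⟩
      rw [hs, map_smul, hs, smul_smul]
    by_cases h2 : dt v (h m (h m v)) = 0
    · exact exists_smul_of_dt hv0 h2
    by_cases h3 : dt (h m (h m v)) (h m v) = 0
    · obtain ⟨s, hs⟩ := exists_smul_of_dt hu0 h3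
      rw [← map_smul] at hs
      have h4 := (h m).injective hs
      have h5 : dt v (h m v) = 0 := by
        have h6 : dt (s • h m v) (h m v) = s * dt (h m v) (h m v) := by
          simp only [dt, Prod.smul_fst, Prod.smul_snd, smul_eq_mul]; ring
        rw [← h4, dt_self, mul_zero] at h6
        exact h6
      exact absurd h5 h1
    · exfalso
      obtain ⟨s1, e1⟩ := hcv 1
      obtain ⟨s2, e2⟩ := hstab v hcv m hm 1
      obtain ⟨s3, e3⟩ := hstab _ (hstab v hcv m hm) m hm 1
      exact hns s1 (scal3 (f := (g 1).toLinearMap) h1 h2 h3 e1 e2 e3).2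
  refine ⟨v, hv0, hcv, ?_⟩
  intro c hc
  obtain ⟨m, hm⟩ := IsAlgClosed.exists_eq_mul_self c
  have hm0 : m ≠ 0 := by
    rintro rfl
    exact hc (by simpa using hm)
  obtain ⟨u, hu, e⟩ := hmul m m hm0 hm0
  obtain ⟨s, hs⟩ := hsq m hm0
  refine ⟨u⁻¹ * s, ?_⟩
  have e1 := e v
  rw [← hm, hs] at e1
  rw [mul_smul, e1, smul_smul, inv_mul_cancel₀ hu, one_smul]

end alg

end Vale.Agent.P019P
end
end

section

section

/-!
# Triviality of valuations on curves (perfect version)

`exists_pair_of_sum_zero` is that of the old file.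
-/

namespace Vale.Agent.P019P

open Vale.Agent.P019

set_option linter.style.haveILetI false
set_option linter.unusedSectionVars false

open Polynomial Filter

variable {K : Type*} [Field K]

theorem Crv.perfect [PerfectField K] {k E : Subfield K} (h : Crv k E) : PerfectField E :=
  perfect_of_RAC h.rac

theorem Crv.alg {k E : Subfield K} (hk : RAC k) (h : Crv k E) {y : K} (hy : y ∈ E)
    (hyk : y ∉ k) : ∀ z ∈ E, IsAlgebraic (adj k y) z := by
  obtain ⟨y0, hy0, -, hall⟩ := h.ex
  intro z hz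
  have h1 : ¬ IsAlgebraic k y := fun h' => hyk (hk y h')
  have h2 : IsAlgebraic (adj k y) y0 := exchange h1 (hall y hy)
  rw [isAlgebraic_adj] at h2 ⊢
  have h3 : Vale.Agent.P019.adj k y0 ≤ Vale.Agent.P019.rac (Vale.Agent.P019.adj k y) :=
    Vale.Agent.P019.adj_le ((Vale.Agent.P019.le_adj k y).trans (le_rac _)) (mem_rac.2 h2)
  exact isAlgebraic_rac (isAlgebraic_mono h3 (isAlgebraic_adj.1 (hall z hz)))

theorem Crv.of_good {k : Subfield K} {t : K} (h : Good k t) : Crv k (adj k t) :=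
  ⟨le_adj k t, h.2, t, mem_adj k t, h.1, fun _ hz => isAlgebraic_of_mem hz⟩

theorem Crv.eq {k E₁ E₂ : Subfield K} (hk : RAC k) (h₁ : Crv k E₁) (h₂ : Crv k E₂) {y : K}
    (hy₁ : y ∈ E₁) (hy₂ : y ∈ E₂) (hyk : y ∉ k) : E₁ = E₂ := by
  apply le_antisymm
  · intro z hz
    exact h₂.rac z (isAlgebraic_mono (Vale.Agent.P019.adj_le h₂.le hy₂)
      (isAlgebraic_adj.1 (h₁.alg hk hy₁ hyk z hz)))
  · intro z hz
    exact h₁.rac z (isAlgebraic_mono (Vale.Agent.P019.adj_le h₁.le hy₁)
      (isAlgebraic_adj.1 (h₂.alg hk hy₂ hyk z hz)))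

/-- a curve in the new sense is one in the old sense. -/
theorem Crv.old {k E : Subfield K} (h : Crv k E) : Vale.Agent.P019.Crv k E where
  le := h.le
  rac := h.rac
  ex := by
    obtain ⟨y, hy, hyk, hall⟩ := h.ex
    exact ⟨y, hy, hyk, fun z hz => isAlgebraic_adj.1 (hall z hz)⟩

theorem triv_of_rk2 [PerfectField K] {ℓ : ℕ} [Fact ℓ.Prime] [NeZero (ℓ : K)] {k E : Subfield K}
    (hk : IsAlgClosed k)
    (hE : Crv k E) {O : ValuationSubring K} (hOk : TrivOn O k)
    (h : Rk2 (VS ℓ E) (U1 ℓ O)) : TrivOn O E :=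
  Vale.Agent.P019.triv_of_rk2 hk hE.old hOk h

end Vale.Agent.P019P
end
end

section

section

/-!
# Moebius relations between the correspondences
-/

namespace Vale.Agent.P019

set_option linter.unusedVariables false

open Polynomial Filter

section relb_ae

variable {K L : Type*} [Field K] [Field L]

theorem relb_comap {k : Subfield K} {l : Subfield L} {f : K → L} {G : K → Prop}
    (hG : ∀ᶠ a in ae k, G a) (hf : ∀ a ∈ k, G a → f a ∈ l)
    (hinj : ∀ a ∈ k, G a → ∀ b ∈ k, G b → f a = f b → a = b) {P : L → Prop}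
    (hP : ∀ᶠ β in ae l, P β) : ∀ᶠ a in ae k, P (f a) := by
  rw [ae_iff] at hG hP ⊢
  have h1 : {a : K | a ∈ k ∧ G a ∧ ¬ P (f a)}.Finite := by
    refine Set.Finite.of_finite_image (f := f) (hP.subset ?_) ?_
    · rintro _ ⟨a, ⟨ha, hGa, hPa⟩, rfl⟩
      exact ⟨hf a ha hGa, hPa⟩
    · rintro a ⟨ha, hGa, -⟩ b ⟨hb, hGb, -⟩ hab
      exact hinj a ha hGa b hb hGb hab
  refine (hG.union h1).subset ?_
  rintro a ⟨ha, hPa⟩
  by_cases hGa : G a
  · exact Or.inr ⟨ha, hGa, hPa⟩
  · exact Or.inl ⟨ha, hGa⟩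

theorem relb_aeval_mem {k : Subfield K} (x : K) (F : k[X]) : aeval x F ∈ adj k x := by
  rw [aeval_eq_sum_range]
  refine sum_mem fun i _ => ?_
  rw [Algebra.smul_def]
  exact mul_mem (le_adj k x (F.coeff i).2) (pow_mem (mem_adj k x) i)

theorem relb_coprime {k : Subfield K} (hk : IsAlgClosed k) {x z : K} (hx : x ∉ k)
    (hz : z ∈ adj k x) :
    ∃ p q : k[X], IsCoprime p q ∧ q ≠ 0 ∧ z = aeval x p / aeval x q := by
  classical
  obtain ⟨p, q, rfl⟩ := line_mem hz
  by_cases hq : q = 0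
  · refine ⟨0, 1, isCoprime_one_right, one_ne_zero, ?_⟩
    rw [hq]
    simp
  · set g := EuclideanDomain.gcd p q with hg
    have hg0 : g ≠ 0 := by
      intro h
      exact hq (EuclideanDomain.gcd_eq_zero_iff.1 h).2
    have h1 : p = g * (p / g) := (EuclideanDomain.mul_div_cancel' hg0
      (EuclideanDomain.gcd_dvd_left p q)).symm
    have h2 : q = g * (q / g) := (EuclideanDomain.mul_div_cancel' hg0
      (EuclideanDomain.gcd_dvd_right p q)).symm
    refine ⟨p / g, q / g, ?_, ?_, ?_⟩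
    · obtain ⟨u, v, h3⟩ : ∃ u v, g = p * u + q * v :=
        ⟨_, _, EuclideanDomain.gcd_eq_gcd_ab p q⟩
      refine ⟨u, v, mul_left_cancel₀ hg0 ?_⟩
      calc g * (u * (p / g) + v * (q / g)) = (g * (p / g)) * u + (g * (q / g)) * v := by ring
        _ = p * u + q * v := by rw [← h1, ← h2]
        _ = g * 1 := by rw [← h3, mul_one]
    · intro h
      rw [h, mul_zero] at h2
      exact hq h2
    · have h3 : aeval x g ≠ 0 := line_aeval_ne hk hx hg0
      conv_lhs => rw [h1, h2]
      rw [map_mul, map_mul, mul_div_mul_left _ _ h3]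

end relb_ae

section relb_psi

variable {K L : Type*} [Field K] [Field L] [CharZero K] [CharZero L] {ℓ : ℕ} [Fact ℓ.Prime]
  {k : Subfield K} {l : Subfield L} {Θ : V ℓ K ≃ₗ[ZMod ℓ] V ℓ L}

end relb_psi

section relb_poly

set_option linter.unusedSectionVars false

variable {L : Type*} [Field L] [CharZero L] {ℓ : ℕ} [Fact ℓ.Prime] {l : Subfield L}

open Classical in
/-- the polynomial `P - x Q`. -/
noncomputable def relbF (P Q : l[X]) (x : L) : l[X] :=
  P - C (if h : x ∈ l then ⟨x, h⟩ else 0) * Q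

variable (hl : IsAlgClosed l) {s' z' R : L} (hs' : s' ∉ l) (hz' : z' ∉ l)
  {W : ValuationSubring L} (hWs : TrivOn W (adj l s')) (hWz : TrivOn W (adj l z'))
  {P Q : l[X]} (hQ : Q ≠ 0) (hR : R = aeval s' P / aeval s' Q) (hW : W.valuation (z' - R) < 1)

end relb_poly

section relb_main

set_option linter.unusedSectionVars false

variable {K L : Type*} [Field K] [Field L] [CharZero K] [CharZero L] {ℓ : ℕ} [Fact ℓ.Prime]
  {k : Subfield K} {l : Subfield L} {Θ : V ℓ K ≃ₗ[ZMod ℓ] V ℓ L}

end relb_main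

variable {K L : Type*} [Field K] [Field L] [CharZero K] [CharZero L] {ℓ : ℕ} [Fact ℓ.Prime]
  {k : Subfield K} {l : Subfield L} {Θ : V ℓ K ≃ₗ[ZMod ℓ] V ℓ L}

end Vale.Agent.P019
end
end

section

section

/-!
# The isomorphism of the fields of constants
-/

namespace Vale.Agent.P019

open Polynomial Filter

section aux

variable {K : Type*} [Field K]

/-- the filter `ae k` and cofinite sets of the type `k`. -/
theorem ae_iff_sub {k : Subfield K} {P : K → Prop} :
    (∀ᶠ a in ae k, P a) ↔ ∀ᶠ a : k in cofinite, P a := by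
  rw [ae_iff, eventually_cofinite]
  constructor
  · intro h
    refine Set.Finite.of_finite_image (f := Subtype.val) (h.subset ?_)
      Subtype.val_injective.injOn
    rintro _ ⟨a, ha, rfl⟩
    exact ⟨a.2, ha⟩
  · intro h
    refine (h.image Subtype.val).subset ?_
    rintro a ⟨ha, ha'⟩
    exact ⟨⟨a, ha⟩, ha', rfl⟩

theorem ae_shift {k : Subfield K} {P : K → Prop} {c : K} (hc : c ∈ k)
    (h : ∀ᶠ a in ae k, P a) : ∀ᶠ a in ae k, P (c + a) := by
  rw [ae_iff] at h ⊢
  refine Set.Finite.of_finite_image (f := fun a => c + a) (h.subset ?_)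
    (add_right_injective c).injOn
  rintro _ ⟨a, ⟨ha, ha'⟩, rfl⟩
  exact ⟨add_mem hc ha, ha'⟩

theorem ae_scale {k : Subfield K} {P : K → Prop} {c : K} (hc : c ∈ k) (hc0 : c ≠ 0)
    (h : ∀ᶠ a in ae k, P a) : ∀ᶠ a in ae k, P (c * a) := by
  rw [ae_iff] at h ⊢
  refine Set.Finite.of_finite_image (f := fun a => c * a) (h.subset ?_)
    (mul_right_injective₀ hc0).injOn
  rintro _ ⟨a, ⟨ha, ha'⟩, rfl⟩
  exact ⟨mul_mem hc ha, ha'⟩

theorem ae_ne {k : Subfield K} (c : K) : ∀ᶠ a in ae k, a ≠ c := by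
  rw [ae_iff]
  refine (Set.finite_singleton c).subset ?_
  rintro a ⟨-, ha⟩
  exact not_not.1 ha

end aux

variable {K L : Type*} [Field K] [Field L] [CharZero K] [CharZero L] {ℓ : ℕ} [Fact ℓ.Prime]
  {k : Subfield K} {l : Subfield L} {Θ : V ℓ K ≃ₗ[ZMod ℓ] V ℓ L}

open Classical in
/-- restriction of a map to the constants. -/
noncomputable def rst (k : Subfield K) (l : Subfield L) (ψ : K → L) : k → l :=
  fun b => if h : ψ b ∈ l then ⟨ψ b, h⟩ else 0

end Vale.Agent.P019
end
end

section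

section

/-!
# Restriction of a map to the constants
-/

namespace Vale.Agent.P019P

open Vale.Agent.P019

set_option linter.style.haveILetI false
set_option linter.unusedSectionVars false

open Polynomial Filter

/-- `rst_eq` without hypotheses on the fields. -/
theorem sigb_rst_eq {K L : Type*} [Field K] [Field L] {k : Subfield K} {l : Subfield L}
    {ψ : K → L} {b : k} (h : ψ b ∈ l) : (rst k l ψ b : L) = ψ b := by
  unfold rst
  rw [dif_pos h]

/-- almost all values of an isomorphism are in any given infinite set of conditions. -/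
theorem sigb_infinite {K L : Type*} [Field K] [Field L] {k : Subfield K} {l : Subfield L}
    (hk : IsAlgClosed k) {σ : K → L} (hσ : IsoOn k l σ) {P : L → Prop}
    (h : ∀ᶠ b in ae k, P (σ b)) : {x : L | P x}.Infinite := by
  intro hfin
  rw [ae_iff] at h
  apply infinite_of_isAlgClosed hk
  have h1 : {b : K | b ∈ k ∧ P (σ b)}.Finite := by
    refine Set.Finite.of_finite_image (f := σ) (hfin.subset ?_) ?_
    · rintro _ ⟨b, hb, rfl⟩
      exact hb.2
    · intro a ha b hb hab
      exact hσ.inj ha.1 hb.1 hab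
  refine (h1.union h).subset ?_
  intro b hb
  by_cases hP : P (σ b)
  · exact Or.inl ⟨hb, hP⟩
  · exact Or.inr ⟨hb, hP⟩

end Vale.Agent.P019P
end
end

section

section

/-!
# Removal of the Frobenius twist
-/

namespace Vale.Agent.P019P

open Vale.Agent.P019

set_option linter.style.haveILetI false
set_option linter.unusedSectionVars false

open Filter

section sg1

variable {k l : Type*} [Field k] [Field l]

theorem sg1_comp {A B C D A' B' C' D' x y z : l} (h1 : MobRel A B C D x y)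
    (h2 : MobRel A' B' C' D' y z) :
    MobRel (A' * A + B' * C) (A' * B + B' * D) (C' * A + D' * C) (C' * B + D' * D) x z := by
  unfold MobRel at *
  linear_combination (C * x + D) * h2 - (z * C' - A') * h1

theorem sg1_comp_det {A B C D A' B' C' D' : l} (h1 : A * D - B * C ≠ 0)
    (h2 : A' * D' - B' * C' ≠ 0) :
    (A' * A + B' * C) * (C' * B + D' * D) - (A' * B + B' * D) * (C' * A + D' * C) ≠ 0 := by
  have : (A' * A + B' * C) * (C' * B + D' * D) - (A' * B + B' * D) * (C' * A + D' * C) =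
      (A * D - B * C) * (A' * D' - B' * C') := by ring
  rw [this]
  exact mul_ne_zero h1 h2

theorem sg1_inv {A B C D x y : l} (h1 : MobRel A B C D x y) : MobRel D (-B) (-C) A y x := by
  unfold MobRel at *
  linear_combination -h1

theorem sg1_inv_det {A B C D : l} (h1 : A * D - B * C ≠ 0) : D * A - (-B) * (-C) ≠ 0 := by
  have : D * A - (-B) * (-C) = A * D - B * C := by ring
  rwa [this]

theorem sg1_det_pow (A B C D : l) (n : ℕ) :
    A ^ (ringExpChar l) ^ n * D ^ (ringExpChar l) ^ n -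
      B ^ (ringExpChar l) ^ n * C ^ (ringExpChar l) ^ n =
      (A * D - B * C) ^ (ringExpChar l) ^ n := by
  rw [sub_pow_q, mul_pow, mul_pow]

theorem sg1_pow {A B C D x y : l} (n : ℕ) (h : MobRel A B C D x y) :
    MobRel (A ^ (ringExpChar l) ^ n) (B ^ (ringExpChar l) ^ n) (C ^ (ringExpChar l) ^ n)
      (D ^ (ringExpChar l) ^ n) (x ^ (ringExpChar l) ^ n) (y ^ (ringExpChar l) ^ n) := by
  unfold MobRel at *
  have h1 := congrArg (fun z : l => z ^ (ringExpChar l) ^ n) h
  simp only [mul_pow, add_pow_q] at h1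
  exact h1

theorem sg1_unpow {A B C D x y : l} (n : ℕ)
    (h : MobRel (A ^ (ringExpChar l) ^ n) (B ^ (ringExpChar l) ^ n) (C ^ (ringExpChar l) ^ n)
      (D ^ (ringExpChar l) ^ n) (x ^ (ringExpChar l) ^ n) (y ^ (ringExpChar l) ^ n)) :
    MobRel A B C D x y := by
  unfold MobRel at *
  apply pow_q_inj (n := n)
  simp only [mul_pow, add_pow_q]
  exact h

/-- the twisted relation between `ψ b` and `ψ' b`. -/
def Sg1R (ψ ψ' : k → l) (i j : ℕ) : Prop :=
  ∃ A B C D : l, A * D - B * C ≠ 0 ∧ ∀ᶠ b in cofinite,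
    MobRel A B C D (ψ b ^ (ringExpChar l) ^ j) (ψ' b ^ (ringExpChar l) ^ i)

theorem Sg1R.raise {ψ ψ' : k → l} {i j : ℕ} (h : Sg1R ψ ψ' i j) (n : ℕ) :
    Sg1R ψ ψ' (i + n) (j + n) := by
  obtain ⟨A, B, C, D, hd, h⟩ := h
  refine ⟨A ^ (ringExpChar l) ^ n, B ^ (ringExpChar l) ^ n, C ^ (ringExpChar l) ^ n,
    D ^ (ringExpChar l) ^ n, ?_, ?_⟩
  · rw [sg1_det_pow]
    exact pow_ne_zero _ hd
  · filter_upwards [h] with b hb
    have h1 := sg1_pow n hb
    rwa [← pow_mul, ← pow_mul, ← pow_add, ← pow_add] at h1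

theorem Sg1R.symm {ψ ψ' : k → l} {i j : ℕ} (h : Sg1R ψ ψ' i j) : Sg1R ψ' ψ j i := by
  obtain ⟨A, B, C, D, hd, h⟩ := h
  exact ⟨D, -B, -C, A, sg1_inv_det hd, h.mono fun b hb => sg1_inv hb⟩

/-- composition with matching exponents. -/
theorem Sg1R.comp0 {ψ ψ' ψ'' : k → l} {i j m : ℕ} (h : Sg1R ψ ψ' i j) (h' : Sg1R ψ' ψ'' m i) :
    Sg1R ψ ψ'' m j := by
  obtain ⟨A, B, C, D, hd, h⟩ := h
  obtain ⟨A', B', C', D', hd', h'⟩ := h'
  refine ⟨_, _, _, _, sg1_comp_det hd hd', ?_⟩
  filter_upwards [h, h'] with b hb hb'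
  exact sg1_comp hb hb'

theorem Sg1R.comp {ψ ψ' ψ'' : k → l} {i j i' j' : ℕ} (h : Sg1R ψ ψ' i j)
    (h' : Sg1R ψ' ψ'' i' j') : Sg1R ψ ψ'' (i + i') (j + j') := by
  have h1 := h.raise j'
  have h2 := h'.raise i
  rw [add_comm j' i, add_comm i' i] at h2
  exact h1.comp0 h2

theorem Sg1R.pull {ψ ψ' : k → l} {i j : ℕ} (h : Sg1R ψ ψ' i j) {τ : k → k}
    (hτ : Function.Injective τ) : Sg1R (ψ ∘ τ) (ψ' ∘ τ) i j := by
  obtain ⟨A, B, C, D, hd, h⟩ := h
  exact ⟨A, B, C, D, hd, hτ.tendsto_cofinite.eventually h⟩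

theorem Sg1R.refl (ψ : k → l) : Sg1R ψ ψ 0 0 :=
  ⟨1, 0, 0, 1, by simp, Eventually.of_forall fun b => by simp [MobRel]⟩

theorem Sg1R.descend [IsAlgClosed l] {ψ ψ' : k → l} {i : ℕ} (h : Sg1R ψ ψ' i i) :
    ∃ A B C D : l, A * D - B * C ≠ 0 ∧ ∀ᶠ b in cofinite, MobRel A B C D (ψ b) (ψ' b) := by
  obtain ⟨A, B, C, D, hd, h⟩ := h
  obtain ⟨A', rfl⟩ := exists_root A i
  obtain ⟨B', rfl⟩ := exists_root B i
  obtain ⟨C', rfl⟩ := exists_root C i
  obtain ⟨D', rfl⟩ := exists_root D i
  refine ⟨A', B', C', D', ?_, ?_⟩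
  · intro h0
    apply hd
    rw [sg1_det_pow, h0]
    exact zero_pow (qn_ne_zero l i)
  · filter_upwards [h] with b hb
    exact sg1_unpow i hb

/-- a property which holds for almost all `b` in terms of `ψ b` holds for infinitely many `x`. -/
theorem sg1_infinite [Infinite k] {ψ : k → l}
    (hinj : ∃ S : Set k, S.Finite ∧ Set.InjOn ψ Sᶜ) {P : l → Prop}
    (h : ∀ᶠ b in cofinite, P (ψ b)) : {x : l | P x}.Infinite := by
  obtain ⟨S, hS, hinj⟩ := hinj
  have h1 : {b : k | b ∈ Sᶜ ∧ P (ψ b)}.Infinite := by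
    have h2 : {b : k | b ∈ Sᶜ ∧ P (ψ b)}ᶜ.Finite := by
      have h3 : ∀ᶠ b in cofinite, b ∈ Sᶜ ∧ P (ψ b) := by
        refine Filter.Eventually.and ?_ h
        exact hS.compl_mem_cofinite
      exact h3
    exact (Set.Finite.infinite_compl h2).mono (by rw [compl_compl])
  have h4 : (ψ '' {b : k | b ∈ Sᶜ ∧ P (ψ b)}).Infinite :=
    h1.image (hinj.mono fun b hb => hb.1)
  refine h4.mono ?_
  rintro x ⟨b, hb, rfl⟩
  exact hb.2

/-- the exponent is unique. -/
theorem Sg1R.uniq0 [Infinite k] {ψ : k → l}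
    (hinj : ∃ S : Set k, S.Finite ∧ Set.InjOn ψ Sᶜ) {i j : ℕ} (h : Sg1R ψ ψ i j) :
    (ringExpChar l) ^ i = (ringExpChar l) ^ j := by
  obtain ⟨A, B, C, D, hd, h⟩ := h
  have h1 : {x : l | ((1 : l) * x ^ (ringExpChar l) ^ i + 0) * (C * x ^ (ringExpChar l) ^ j + D) =
      A * x ^ (ringExpChar l) ^ j + B}.Infinite := by
    refine sg1_infinite hinj (P := fun x => ((1 : l) * x ^ (ringExpChar l) ^ i + 0) *
      (C * x ^ (ringExpChar l) ^ j + D) = A * x ^ (ringExpChar l) ^ j + B) ?_
    filter_upwards [h] with b hb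
    unfold MobRel at hb
    rw [one_mul, add_zero]
    exact hb
  exact (twist_mob one_ne_zero hd h1).1

/-- the abstract untwisting lemma. -/
theorem sg1_main [Infinite k] [IsAlgClosed l] {G : Type*} (ψ : k → l)
    (hinj : ∃ S : Set k, S.Finite ∧ Set.InjOn ψ Sᶜ) (τ : G → k → k)
    (hτ : ∀ c, Function.Injective (τ c)) (h : ∀ c, ∃ i j, Sg1R ψ (ψ ∘ τ c) i j) (c : G)
    (hdiv : (∀ m : ℕ, 0 < m → ∃ d : G, τ c = (τ d)^[m]) ∨ ∃ m : ℕ, 0 < m ∧ (τ c)^[m] = id) :
    ∃ A B C D : l, A * D - B * C ≠ 0 ∧ ∀ᶠ b in cofinite, MobRel A B C D (ψ b) (ψ (τ c b)) := by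
  obtain ⟨i, j, hij⟩ := h c
  -- iterates
  have hiter : ∀ (d : G) (i j : ℕ), Sg1R ψ (ψ ∘ τ d) i j → ∀ m : ℕ,
      Sg1R ψ (ψ ∘ (τ d)^[m]) (m * i) (m * j) := by
    intro d i j hd m
    induction m with
    | zero => simpa using Sg1R.refl ψ
    | succ m ih =>
      have h1 := hd.comp (ih.pull (hτ d))
      rw [Function.iterate_succ]
      have e1 : (m + 1) * i = i + m * i := by ring
      have e2 : (m + 1) * j = j + m * j := by ring
      rw [e1, e2]
      exact h1
  suffices hq : (ringExpChar l) ^ i = (ringExpChar l) ^ j by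
    have h2 : Sg1R ψ (ψ ∘ τ c) i i := by
      obtain ⟨A, B, C, D, hd, h3⟩ := hij
      refine ⟨A, B, C, D, hd, ?_⟩
      rw [← hq] at h3
      exact h3
    exact h2.descend
  by_cases hq1 : ringExpChar l = 1
  · rw [hq1]; simp
  have hq2 : 1 < ringExpChar l := by
    have := expChar_pos l (ringExpChar l)
    omega
  suffices hij' : i = j by rw [hij']
  rcases hdiv with hdiv | ⟨m, hm, hmid⟩
  · -- divisible case
    by_contra hne
    obtain ⟨d, hd⟩ := hdiv (i + j + 1) (by omega)
    obtain ⟨i', j', hd'⟩ := h d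
    have h1 := hiter d i' j' hd' (i + j + 1)
    rw [← hd] at h1
    have h2 := Sg1R.uniq0 hinj (h1.comp hij.symm)
    have h3 : (i + j + 1) * i' + j = (i + j + 1) * j' + i := Nat.pow_right_injective hq2 h2
    rcases lt_trichotomy i' j' with hlt | heq | hgt
    · obtain ⟨t, rfl⟩ := Nat.exists_eq_add_of_lt hlt
      have h4 : (i + j + 1) * (i' + t + 1) = (i + j + 1) * i' + (i + j + 1) * t + (i + j + 1) := by
        ring
      rw [h4] at h3
      have h5 : 0 ≤ (i + j + 1) * t := Nat.zero_le _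
      omega
    · rw [heq] at h3
      exact hne (by omega)
    · obtain ⟨t, rfl⟩ := Nat.exists_eq_add_of_lt hgt
      have h4 : (i + j + 1) * (j' + t + 1) = (i + j + 1) * j' + (i + j + 1) * t + (i + j + 1) := by
        ring
      rw [h4] at h3
      have h5 : 0 ≤ (i + j + 1) * t := Nat.zero_le _
      omega
  · have h1 := hiter c i j hij m
    rw [hmid] at h1
    have h2 := Sg1R.uniq0 hinj h1
    have h3 : m * i = m * j := Nat.pow_right_injective hq2 h2
    exact Nat.eq_of_mul_eq_mul_left hm h3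

theorem untwist_mul [IsAlgClosed k] [IsAlgClosed l] (ψ₁ ψ₃ : k → l)
    (hinj₁ : ∃ S : Set k, S.Finite ∧ Set.InjOn ψ₁ Sᶜ) (hsurj₁ : (Set.range ψ₁)ᶜ.Finite)
    (hmul : ∀ᶠ a in cofinite, ∃ (i j : ℕ) (A B C D : l), A * D - B * C ≠ 0 ∧
      ∀ᶠ b in cofinite, MobRel A B C D (ψ₁ b ^ (ringExpChar l) ^ j)
        (ψ₃ (a * b) ^ (ringExpChar l) ^ i)) :
    ∀ c : k, c ≠ 0 → ∃ A B C D : l, A * D - B * C ≠ 0 ∧
      ∀ᶠ b in cofinite, MobRel A B C D (ψ₁ b) (ψ₁ (c * b)) := by
  intro c hc
  have hτ : ∀ c : kˣ, Function.Injective fun b : k => (c : k) * b :=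
    fun c => mul_right_injective₀ c.ne_zero
  have hit : ∀ (c : k) (m : ℕ), (fun b : k => c * b)^[m] = fun b => c ^ m * b := by
    intro c m
    induction m with
    | zero => funext b; simp
    | succ m ih =>
      rw [Function.iterate_succ, ih]
      funext b
      simp only [Function.comp]
      ring
  refine sg1_main ψ₁ hinj₁ (fun (c : kˣ) (b : k) => (c : k) * b) hτ ?_ (Units.mk0 c hc) ?_
  · intro c
    have hmul2 : ∀ᶠ a in cofinite, ∃ (i j : ℕ) (A B C D : l), A * D - B * C ≠ 0 ∧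
      ∀ᶠ b in cofinite, MobRel A B C D (ψ₁ b ^ (ringExpChar l) ^ j)
        (ψ₃ ((c : k) * a * b) ^ (ringExpChar l) ^ i) := Sg.ae_mul c.ne_zero hmul
    obtain ⟨a, ⟨i, j, h1⟩, ⟨i', j', h2⟩⟩ := (hmul.and hmul2).exists
    have h1' : Sg1R ψ₁ (ψ₃ ∘ fun b => a * b) i j := h1
    have h2' : Sg1R ψ₁ (ψ₃ ∘ fun b => (c : k) * a * b) i' j' := h2
    have h3 := h1'.pull (hτ c)
    have h4 : ((ψ₃ ∘ fun b => a * b) ∘ fun b => (c : k) * b) =
        (ψ₃ ∘ fun b => (c : k) * a * b) := by
      funext b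
      simp only [Function.comp]
      congr 1
      ring
    rw [h4] at h3
    exact ⟨_, _, h2'.comp h3.symm⟩
  · left
    intro m hm
    obtain ⟨d, hd⟩ := IsAlgClosed.exists_pow_nat_eq c hm
    have hd0 : d ≠ 0 := by
      rintro rfl
      apply hc
      rw [← hd, zero_pow (by omega)]
    refine ⟨Units.mk0 d hd0, ?_⟩
    simp only [Units.val_mk0]
    rw [hit, hd]

end sg1

end Vale.Agent.P019P
end
end

section

section

/-!
# Pencils of Moebius transformations
-/

namespace Vale.Agent.P019P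

open Vale.Agent.P019

set_option linter.style.haveILetI false
set_option linter.unusedSectionVars false

open Filter

/-- a quadratic polynomial with three different roots is zero -/
theorem pcl_quad {l : Type*} [Field l] {p q r x₁ x₂ x₃ : l} (h12 : x₁ ≠ x₂) (h13 : x₁ ≠ x₃)
    (h32 : x₃ ≠ x₂) (h1 : p * x₁ ^ 2 + q * x₁ + r = 0) (h2 : p * x₂ ^ 2 + q * x₂ + r = 0)
    (h3 : p * x₃ ^ 2 + q * x₃ + r = 0) : p = 0 ∧ q = 0 ∧ r = 0 := by
  have e1 : p * (x₁ + x₂) + q = 0 := by
    have : (x₁ - x₂) * (p * (x₁ + x₂) + q) = 0 := by linear_combination h1 - h2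
    exact (mul_eq_zero.1 this).resolve_left (sub_ne_zero.2 h12)
  have e2 : p * (x₁ + x₃) + q = 0 := by
    have : (x₁ - x₃) * (p * (x₁ + x₃) + q) = 0 := by linear_combination h1 - h3
    exact (mul_eq_zero.1 this).resolve_left (sub_ne_zero.2 h13)
  have e3 : p = 0 := by
    have : (x₃ - x₂) * p = 0 := by linear_combination e2 - e1
    exact (mul_eq_zero.1 this).resolve_left (sub_ne_zero.2 h32)
  have e4 : q = 0 := by rw [e3] at e1; linear_combination e1
  refine ⟨e3, e4, ?_⟩
  rw [e3, e4] at h1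
  linear_combination h1

/-- the matrix of a Moebius transformation is unique up to a scalar -/
theorem pcl_unique {k l : Type*} [Field k] [Field l] [Infinite k] {g y : k → l}
    (hg : ∃ S : Set k, S.Finite ∧ Set.InjOn g Sᶜ) {A B C D A' B' C' D' : l}
    (hd : A * D - B * C ≠ 0) (hd' : A' * D' - B' * C' ≠ 0)
    (h : ∀ᶠ a in cofinite, MobRel A B C D (g a) (y a) ∧ MobRel A' B' C' D' (g a) (y a)) :
    ∃ t : l, t ≠ 0 ∧ A = t * A' ∧ B = t * B' ∧ C = t * C' ∧ D = t * D' := by
  have hq : ∀ᶠ a in cofinite, (A' * C - A * C') * g a ^ 2 +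
      (A' * D + B' * C - A * D' - B * C') * g a + (B' * D - B * D') = 0 := by
    filter_upwards [h] with a ha
    obtain ⟨h1, h2⟩ := ha
    unfold MobRel at h1 h2
    linear_combination (C' * g a + D') * h1 - (C * g a + D) * h2
  obtain ⟨b₁, b₂, b₃, p1, p2, p3, n12, n13, n32⟩ := Sg.three_pts hg hq
  obtain ⟨e1, e2, e3⟩ := pcl_quad n12 n13 n32 p1 p2 p3
  obtain ⟨d, hdd⟩ : ∃ d : l, d = A' * D' - B' * C' := ⟨_, rfl⟩
  rw [← hdd] at hd'
  have f1 : A = (A * D' - B' * C) / d * A' := by
    rw [div_mul_eq_mul_div, eq_div_iff hd', hdd]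
    linear_combination B' * e1
  have f2 : B = (A * D' - B' * C) / d * B' := by
    rw [div_mul_eq_mul_div, eq_div_iff hd', hdd]
    linear_combination -A' * e3 + B' * e2
  have f3 : C = (A * D' - B' * C) / d * C' := by
    rw [div_mul_eq_mul_div, eq_div_iff hd', hdd]
    linear_combination D' * e1
  have f4 : D = (A * D' - B' * C) / d * D' := by
    rw [div_mul_eq_mul_div, eq_div_iff hd', hdd]
    linear_combination -C' * e3 + D' * e2
  refine ⟨(A * D' - B' * C) / d, ?_, f1, f2, f3, f4⟩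
  intro h0
  rw [h0, zero_mul] at f1 f2
  apply hd
  rw [f1, f2]
  ring

theorem pcl_inj {l : Type*} [Field l] {A B C D x y z : l} (hd : A * D - B * C ≠ 0)
    (h1 : MobRel A B C D x z) (h2 : MobRel A B C D y z) : x = y := by
  unfold MobRel at h1 h2
  by_contra hne
  have e1 : z * C = A := by
    have : (x - y) * (z * C - A) = 0 := by linear_combination h1 - h2
    have := (mul_eq_zero.1 this).resolve_left (sub_ne_zero.2 hne)
    linear_combination this
  have e2 : z * D = B := by
    linear_combination h1 - x * e1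
  apply hd
  rw [← e1, ← e2]
  ring

section

variable {k l : Type*} [Field k] [Field l] [Infinite k] {f g h : k → l} {X Y : Fin 4 → l}

/-- the good points -/
def PclOK (f g h : k → l) (X Y : Fin 4 → l) (b : k) : Prop :=
  (f b * X 0 + Y 0) * (f b * X 3 + Y 3) - (f b * X 1 + Y 1) * (f b * X 2 + Y 2) ≠ 0 ∧
      ∀ᶠ a in cofinite, MobRel (f b * X 0 + Y 0) (f b * X 1 + Y 1) (f b * X 2 + Y 2)
        (f b * X 3 + Y 3) (g a) (h (a + b))

theorem pcl_shift {b c : k} (hb : PclOK f g h X Y b) :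
    ∀ᶠ a in cofinite, MobRel (f b * X 0 + Y 0) (f b * X 1 + Y 1) (f b * X 2 + Y 2)
        (f b * X 3 + Y 3) (g (a + c)) (h (a + (b + c))) := by
  filter_upwards [Sg.ae_add c hb.2] with a ha
  rw [show a + c + b = a + (b + c) by ring] at ha
  exact ha

theorem pcl_indep (hg : ∃ S : Set k, S.Finite ∧ Set.InjOn g Sᶜ) {b c : k} (hc : c ≠ 0)
    (hb : PclOK f g h X Y b) (hbc : PclOK f g h X Y (b + c)) {s t : l}
    (hst : ∀ i, s * X i + t * Y i = 0) : s = 0 ∧ t = 0 := by
  by_contra hne
  obtain ⟨r, hr⟩ : ∃ r : l, r = t * f b - s := ⟨_, rfl⟩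
  obtain ⟨r', hr'⟩ : ∃ r' : l, r' = t * f (b + c) - s := ⟨_, rfl⟩
  -- the matrices are proportional
  have hp : ∀ i, r' * (f b * X i + Y i) = r * (f (b + c) * X i + Y i) := by
    intro i
    have e1 : t * (r' * (f b * X i + Y i) - r * (f (b + c) * X i + Y i)) = 0 := by
      rw [hr, hr']
      linear_combination (t * f (b + c) - t * f b) * hst i
    have e2 : s * (r' * (f b * X i + Y i) - r * (f (b + c) * X i + Y i)) = 0 := by
      rw [hr, hr']
      linear_combination (s * f (b + c) - s * f b) * hst i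
    rcases mul_eq_zero.1 e1 with h1 | h1
    · rcases mul_eq_zero.1 e2 with h2 | h2
      · exact absurd ⟨h2, h1⟩ hne
      · exact sub_eq_zero.1 h2
    · exact sub_eq_zero.1 h1
  have hr0 : r' ≠ 0 := by
    intro h0
    have e0 : ∀ i, f (b + c) * X i + Y i = 0 := by
      intro i
      have e1 : t * (f (b + c) * X i + Y i) = 0 := by
        have : t * (f (b + c) * X i + Y i) = r' * X i + (s * X i + t * Y i) := by
          rw [hr']; ring
        rw [this, h0, hst i]; ring
      have e2 : s * (f (b + c) * X i + Y i) = 0 := by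
        have : s * (f (b + c) * X i + Y i) = f (b + c) * (s * X i + t * Y i) - r' * Y i := by
          rw [hr']; ring
        rw [this, h0, hst i]; ring
      rcases mul_eq_zero.1 e1 with h1 | h1
      · rcases mul_eq_zero.1 e2 with h2 | h2
        · exact absurd ⟨h2, h1⟩ hne
        · exact h2
      · exact h1
    apply hbc.1
    rw [e0 0, e0 1]
    ring
  have hr1 : r ≠ 0 := by
    intro h0
    have e0 : ∀ i, f b * X i + Y i = 0 := by
      intro i
      have e1 := hp i
      rw [h0, zero_mul] at e1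
      exact (mul_eq_zero.1 e1).resolve_left hr0
    apply hb.1
    rw [e0 0, e0 1]
    ring
  obtain ⟨S, hS, hinj⟩ := hg
  have h1 : ∀ᶠ a in cofinite, a ∈ Sᶜ := hS.compl_mem_cofinite
  obtain ⟨a, ⟨ha1, ha2⟩, ha3, ha4⟩ :=
    ((h1.and (Sg.ae_add c h1)).and ((pcl_shift (c := c) hb).and hbc.2)).exists
  have ha5 : MobRel (f b * X 0 + Y 0) (f b * X 1 + Y 1) (f b * X 2 + Y 2)
        (f b * X 3 + Y 3) (g a) (h (a + (b + c))) := by
    unfold MobRel at ha4 ⊢
    have : r' * (h (a + (b + c)) * ((f b * X 2 + Y 2) * g a + (f b * X 3 + Y 3)) -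
        ((f b * X 0 + Y 0) * g a + (f b * X 1 + Y 1))) = 0 := by
      linear_combination r * ha4 + h (a + (b + c)) * (g a * hp 2 + hp 3) - g a * hp 0 - hp 1
    exact sub_eq_zero.1 ((mul_eq_zero.1 this).resolve_left hr0)
  have ha6 := hinj ha1 ha2 (pcl_inj hb.1 ha5 ha3)
  apply hc
  linear_combination -ha6

end

theorem pencil {k l : Type*} [Field k] [Field l] [Infinite k] (f g h : k → l)
    (hf : ∃ S : Set k, S.Finite ∧ Set.InjOn f Sᶜ) (hg : ∃ S : Set k, S.Finite ∧ Set.InjOn g Sᶜ)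
    (X Y : Fin 4 → l)
    (h1 : ∀ᶠ b in cofinite,
      (f b * X 0 + Y 0) * (f b * X 3 + Y 3) - (f b * X 1 + Y 1) * (f b * X 2 + Y 2) ≠ 0 ∧
      ∀ᶠ a in cofinite, MobRel (f b * X 0 + Y 0) (f b * X 1 + Y 1) (f b * X 2 + Y 2)
        (f b * X 3 + Y 3) (g a) (h (a + b))) :
    ∃ S : Set k, S.Finite ∧ ∀ c : k, ∃ A B C D : l, A * D - B * C ≠ 0 ∧
      ∀ b, b ∉ S → b + c ∉ S → MobRel A B C D (f b) (f (b + c)) := by
  obtain ⟨Sf, hSf, hfinj⟩ := hf
  have h1' : ∀ᶠ b in cofinite, PclOK f g h X Y b := h1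
  have hP : {b | ¬ PclOK f g h X Y b}.Finite := h1'
  refine ⟨{b | ¬ PclOK f g h X Y b} ∪ Sf, hP.union hSf, ?_⟩
  obtain ⟨S, hS⟩ : ∃ S : Set k, S = {b | ¬ PclOK f g h X Y b} ∪ Sf := ⟨_, rfl⟩
  rw [← hS]
  have hSfin : S.Finite := by rw [hS]; exact hP.union hSf
  have hok : ∀ b, b ∉ S → PclOK f g h X Y b := by
    intro b hb
    by_contra hc
    exact hb (by rw [hS]; exact Or.inl hc)
  have hinj : ∀ b b', b ∉ S → b' ∉ S → b ≠ b' → f b ≠ f b' := by
    intro b b' hb hb' hne he
    refine hne (hfinj ?_ ?_ he)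
    · intro hc; exact hb (by rw [hS]; exact Or.inr hc)
    · intro hc; exact hb' (by rw [hS]; exact Or.inr hc)
  have hev : ∀ᶠ b in cofinite, b ∉ S := hSfin.compl_mem_cofinite
  intro c
  by_cases hc : c = 0
  · refine ⟨1, 0, 0, 1, by simp, ?_⟩
    intro b _ _
    rw [hc, add_zero]
    unfold MobRel
    ring
  -- the matrix N
  obtain ⟨b₀, hb₀, hb₀c⟩ := (hev.and (Sg.ae_add c hev)).exists
  have k0 := hok _ hb₀
  have k1 := hok _ hb₀c
  obtain ⟨n0, n1, n2, n3, hnd, hn⟩ : ∃ n0 n1 n2 n3 : l, n0 * n3 - n1 * n2 ≠ 0 ∧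
      ∀ᶠ a in cofinite, MobRel n0 n1 n2 n3 (g a) (g (a + c)) := by
    refine ⟨_, _, _, _, sg1_comp_det k1.1 (sg1_inv_det k0.1), ?_⟩
    filter_upwards [k1.2, pcl_shift (c := c) k0] with a e1 e2
    exact sg1_comp e1 (sg1_inv e2)
  -- the products with N
  let xn : Fin 4 → l := ![X 0 * n0 + X 1 * n2, X 0 * n1 + X 1 * n3, X 2 * n0 + X 3 * n2,
    X 2 * n1 + X 3 * n3]
  let yn : Fin 4 → l := ![Y 0 * n0 + Y 1 * n2, Y 0 * n1 + Y 1 * n3, Y 2 * n0 + Y 3 * n2,
    Y 2 * n1 + Y 3 * n3]
  have hmul : ∀ b, b ∉ S → b + c ∉ S → ∃ μ : l, μ ≠ 0 ∧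
      ∀ i, f b * xn i + yn i = μ * (f (b + c) * X i + Y i) := by
    intro b hb hbc
    have m0 := hok _ hb
    have m1 := hok _ hbc
    have hboth : ∀ᶠ a in cofinite,
        MobRel ((f b * X 0 + Y 0) * n0 + (f b * X 1 + Y 1) * n2)
          ((f b * X 0 + Y 0) * n1 + (f b * X 1 + Y 1) * n3)
          ((f b * X 2 + Y 2) * n0 + (f b * X 3 + Y 3) * n2)
          ((f b * X 2 + Y 2) * n1 + (f b * X 3 + Y 3) * n3) (g a) (h (a + (b + c))) ∧
        MobRel (f (b + c) * X 0 + Y 0) (f (b + c) * X 1 + Y 1) (f (b + c) * X 2 + Y 2)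
          (f (b + c) * X 3 + Y 3) (g a) (h (a + (b + c))) := by
      filter_upwards [hn, pcl_shift (c := c) m0, m1.2] with a e1 e2 e3
      exact ⟨sg1_comp e1 e2, e3⟩
    obtain ⟨μ, hμ, q0, q1, q2, q3⟩ := pcl_unique hg (sg1_comp_det hnd m0.1) m1.1 hboth
    refine ⟨μ, hμ, ?_⟩
    intro i
    fin_cases i
    · simp only [xn, yn, Fin.zero_eta, Matrix.cons_val_zero]
      linear_combination q0
    · simp only [xn, yn, Fin.mk_one, Matrix.cons_val_one, Matrix.cons_val_zero]
      linear_combination q1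
    · simp only [xn, yn, Fin.reduceFinMk, Matrix.cons_val]
      linear_combination q2
    · simp only [xn, yn, Fin.reduceFinMk, Matrix.cons_val]
      linear_combination q3
  -- two different points
  obtain ⟨b, hb, hbc⟩ := (hev.and (Sg.ae_add c hev)).exists
  have hne : ∀ᶠ b' in cofinite, b' ≠ b := (Set.finite_singleton b).compl_mem_cofinite
  obtain ⟨b', ⟨hb', hbc'⟩, hbb⟩ := ((hev.and (Sg.ae_add c hev)).and hne).exists
  have e1 : f b - f b' ≠ 0 := sub_ne_zero.2 (hinj _ _ hb hb' hbb.symm)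
  have e2 : f (b + c) - f (b' + c) ≠ 0 :=
    sub_ne_zero.2 (hinj _ _ hbc hbc' fun h0 => hbb (add_right_cancel h0).symm)
  obtain ⟨μ, hμ, hμi⟩ := hmul b hb hbc
  obtain ⟨μ', hμ', hμi'⟩ := hmul b' hb' hbc'
  refine ⟨μ * f (b + c) - μ' * f (b' + c), f b * μ' * f (b' + c) - f b' * μ * f (b + c),
    μ - μ', f b * μ' - f b' * μ, ?_, ?_⟩
  · have : (μ * f (b + c) - μ' * f (b' + c)) * (f b * μ' - f b' * μ) -
        (f b * μ' * f (b' + c) - f b' * μ * f (b + c)) * (μ - μ') =
        (f b - f b') * (μ * μ' * (f (b + c) - f (b' + c))) := by ring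
    rw [this]
    exact mul_ne_zero e1 (mul_ne_zero (mul_ne_zero hμ hμ') e2)
  · intro w hw hwc
    obtain ⟨ν, hν, hνi⟩ := hmul w hw hwc
    have hst := pcl_indep (s := (μ * f (b + c) - μ' * f (b' + c)) * f w +
      (f b * μ' * f (b' + c) - f b' * μ * f (b + c)) - (f b - f b') * ν * f (w + c))
      (t := (μ - μ') * f w + (f b * μ' - f b' * μ) - (f b - f b') * ν) hg hc k0 k1 (by
        intro i
        linear_combination (f b - f b') * hνi i - (f w - f b') * hμi i - (f b - f w) * hμi' i)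
    unfold MobRel
    linear_combination f (w + c) * hst.2 - hst.1

end Vale.Agent.P019P
end
end

section

section

/-!
# Coprime pairs which are twisted Moebius transformations
-/

namespace Vale.Agent.P019P

open Vale.Agent.P019

set_option linter.style.haveILetI false
set_option linter.unusedSectionVars false

open Polynomial Filter

section pair

variable {l : Type*} [Field l]

theorem bl_add_pow (a b : l) (m j : ℕ) :
    (C a * X ^ m + C b : l[X]) ^ (ringExpChar l) ^ j =
      C (a ^ (ringExpChar l) ^ j) * X ^ (m * (ringExpChar l) ^ j) +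
        C (b ^ (ringExpChar l) ^ j) := by
  haveI : ExpChar l[X] (ringExpChar l) := expChar_of_injective_ringHom (C_injective (R := l)) _
  rw [add_pow_expChar_pow, mul_pow, ← pow_mul, C_pow, C_pow]

theorem bl_frob_inj {p r : l[X]} {j : ℕ}
    (h : p ^ (ringExpChar l) ^ j = r ^ (ringExpChar l) ^ j) : p = r := by
  haveI : ExpChar l[X] (ringExpChar l) := expChar_of_injective_ringHom (C_injective (R := l)) _
  have h1 : (p - r) ^ (ringExpChar l) ^ j = 0 := by
    rw [sub_pow_expChar_pow, h, sub_self]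
  exact sub_eq_zero.1 ((pow_eq_zero_iff (pow_pos (expChar_pos l _) j).ne').1 h1)

theorem bl_coeff (x y : l) (M e : ℕ) : (C x * X ^ M + C y : l[X]).coeff e =
    (if e = M then x else 0) + (if e = 0 then y else 0) := by
  rw [coeff_add, coeff_C_mul, coeff_X_pow, coeff_C]
  split_ifs <;> simp

theorem bl_lin_coprime {A B C' D : l} (hdet : A * D - B * C' ≠ 0) (m : ℕ) :
    IsCoprime (C A * X ^ m + C B : l[X]) (C C' * X ^ m + C D) := by
  refine ⟨C (-C' / (A * D - B * C')), C (A / (A * D - B * C')), ?_⟩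
  have h1 : (C (-C' / (A * D - B * C')) * (C A * X ^ m + C B) +
      C (A / (A * D - B * C')) * (C C' * X ^ m + C D) : l[X]) =
      C (-C' / (A * D - B * C') * A + A / (A * D - B * C') * C') * X ^ m +
      C (-C' / (A * D - B * C') * B + A / (A * D - B * C') * D) := by
    simp only [C_add, C_mul]
    ring
  rw [h1]
  have h2 : -C' / (A * D - B * C') * A + A / (A * D - B * C') * C' = 0 := by
    rw [div_mul_eq_mul_div, div_mul_eq_mul_div, ← add_div, div_eq_zero_iff]
    left
    ring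
  have h3 : -C' / (A * D - B * C') * B + A / (A * D - B * C') * D = 1 := by
    rw [div_mul_eq_mul_div, div_mul_eq_mul_div, ← add_div, div_eq_one_iff_eq hdet]
    ring
  rw [h2, h3]
  simp

theorem bl_natDegree_lin {a b : l} (ha : a ≠ 0) {m : ℕ} :
    (C a * X ^ m + C b : l[X]).natDegree = m := by
  rw [natDegree_add_C, natDegree_C_mul_X_pow m a ha]

theorem bl_pair [IsAlgClosed l] {p r : l[X]} (hcop : IsCoprime p r) {A B C' D : l}
    (hdet : A * D - B * C' ≠ 0) {n i j : ℕ}
    (h : p ^ (ringExpChar l) ^ i * (C C' * X ^ (ringExpChar l) ^ j + C D) ^ (ringExpChar l) ^ n =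
      r ^ (ringExpChar l) ^ i * (C A * X ^ (ringExpChar l) ^ j + C B) ^ (ringExpChar l) ^ n) :
    ∃ (m : ℕ) (a b c d : l), a * d - b * c ≠ 0 ∧ p = C a * X ^ (ringExpChar l) ^ m + C b ∧
      r = C c * X ^ (ringExpChar l) ^ m + C d := by
  haveI : ExpChar l[X] (ringExpChar l) := expChar_of_injective_ringHom (C_injective (R := l)) _
  have hq0 : 0 < ringExpChar l := expChar_pos l _
  -- absorb `n`
  rw [bl_add_pow, bl_add_pow, ← pow_add] at h
  have hdet' : A ^ (ringExpChar l) ^ n * D ^ (ringExpChar l) ^ n -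
      B ^ (ringExpChar l) ^ n * C' ^ (ringExpChar l) ^ n ≠ 0 := by
    rw [sg1_det_pow]
    exact pow_ne_zero _ hdet
  generalize A ^ (ringExpChar l) ^ n = A₁ at h hdet'
  generalize B ^ (ringExpChar l) ^ n = B₁ at h hdet'
  generalize C' ^ (ringExpChar l) ^ n = C₁ at h hdet'
  generalize D ^ (ringExpChar l) ^ n = D₁ at h hdet'
  generalize j + n = J at h
  set f : l[X] := C A₁ * X ^ (ringExpChar l) ^ J + C B₁ with hf
  set g : l[X] := C C₁ * X ^ (ringExpChar l) ^ J + C D₁ with hg
  have hfg : IsCoprime f g := bl_lin_coprime hdet' _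
  have hpr : IsCoprime (p ^ (ringExpChar l) ^ i) (r ^ (ringExpChar l) ^ i) := hcop.pow
  have d1 : p ^ (ringExpChar l) ^ i ∣ f := hpr.dvd_of_dvd_mul_left (Dvd.intro _ h)
  have d2 : f ∣ p ^ (ringExpChar l) ^ i := hfg.dvd_of_dvd_mul_right (Dvd.intro_left _ h.symm)
  have hf0 : f ≠ 0 := by
    intro h0
    have h1 : f.coeff ((ringExpChar l) ^ J) = 0 := by rw [h0]; simp
    have h2 : f.coeff 0 = 0 := by rw [h0]; simp
    have hJ : (ringExpChar l) ^ J ≠ 0 := (pow_pos hq0 J).ne'
    rw [hf, bl_coeff, if_pos rfl, if_neg hJ, add_zero] at h1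
    rw [hf, bl_coeff, if_pos rfl, if_neg hJ.symm, zero_add] at h2
    apply hdet'
    rw [h1, h2]
    ring
  obtain ⟨u, hu⟩ := associated_of_dvd_dvd d1 d2
  obtain ⟨e, he, heu⟩ := Polynomial.isUnit_iff.1 u.isUnit
  have he0 : e ≠ 0 := he.ne_zero
  obtain ⟨e', rfl⟩ := exists_root e i
  have hfp : f = (C e' * p) ^ (ringExpChar l) ^ i := by
    rw [mul_pow, ← C_pow, heu, mul_comm, hu]
  have hp0 : p ≠ 0 := by
    rintro rfl
    apply hf0
    rw [hfp, mul_zero, zero_pow (pow_pos hq0 i).ne']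
  have hgr : g = (C e' * r) ^ (ringExpChar l) ^ i := by
    rw [mul_pow, ← C_pow]
    apply mul_left_cancel₀ (pow_ne_zero ((ringExpChar l) ^ i) hp0)
    rw [h, hfp, mul_pow, ← C_pow]
    ring
  have he'0 : e' ≠ 0 := by
    rintro rfl
    exact he0 (zero_pow (pow_pos hq0 i).ne')
  -- degrees
  have hdeg : ∃ N : ℕ, (ringExpChar l) ^ J = (ringExpChar l) ^ i * N := by
    by_cases hA : A₁ = 0
    · have hC : C₁ ≠ 0 := by
        rintro rfl
        apply hdet'
        rw [hA]
        ring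
      have h1 := congrArg natDegree hgr
      rw [hg, bl_natDegree_lin hC, natDegree_pow] at h1
      exact ⟨_, h1⟩
    · have h1 := congrArg natDegree hfp
      rw [hf, bl_natDegree_lin hA, natDegree_pow] at h1
      exact ⟨_, h1⟩
  have hJ : (ringExpChar l) ^ J = (ringExpChar l) ^ (J - i) * (ringExpChar l) ^ i := by
    obtain ⟨N, hN⟩ := hdeg
    rcases Nat.lt_or_ge 1 (ringExpChar l) with hq | hq
    · have hij : i ≤ J := by
        apply (Nat.pow_le_pow_iff_right hq).1
        rw [hN]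
        apply Nat.le_mul_of_pos_right
        rcases Nat.eq_zero_or_pos N with h0 | h0
        · rw [h0, mul_zero] at hN
          exact absurd hN (pow_pos hq0 J).ne'
        · exact h0
      rw [← pow_add]
      congr 1
      omega
    · have hq1 : ringExpChar l = 1 := by omega
      rw [hq1]
      simp
  obtain ⟨a, ha⟩ := exists_root A₁ i
  obtain ⟨b, hb⟩ := exists_root B₁ i
  obtain ⟨c, hc⟩ := exists_root C₁ i
  obtain ⟨d, hd⟩ := exists_root D₁ i
  have e1 : C a * X ^ (ringExpChar l) ^ (J - i) + C b = C e' * p := by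
    apply bl_frob_inj (j := i)
    rw [← hfp, bl_add_pow, ha, hb, ← hJ]
  have e2 : C c * X ^ (ringExpChar l) ^ (J - i) + C d = C e' * r := by
    apply bl_frob_inj (j := i)
    rw [← hgr, bl_add_pow, hc, hd, ← hJ]
  have hdet2 : a * d - b * c ≠ 0 := by
    intro h0
    apply hdet'
    rw [← ha, ← hb, ← hc, ← hd, sg1_det_pow, h0, zero_pow (pow_pos hq0 i).ne']
  have hCe : (C e'⁻¹ * C e' : l[X]) = 1 := by
    rw [← C_mul, inv_mul_cancel₀ he'0, C_1]
  refine ⟨J - i, e'⁻¹ * a, e'⁻¹ * b, e'⁻¹ * c, e'⁻¹ * d, ?_, ?_, ?_⟩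
  · have : e'⁻¹ * a * (e'⁻¹ * d) - e'⁻¹ * b * (e'⁻¹ * c) =
        e'⁻¹ * e'⁻¹ * (a * d - b * c) := by ring
    rw [this]
    exact mul_ne_zero (mul_ne_zero (inv_ne_zero he'0) (inv_ne_zero he'0)) hdet2
  · calc p = (C e'⁻¹ * C e') * p := by rw [hCe, one_mul]
      _ = C e'⁻¹ * (C e' * p) := by ring
      _ = C e'⁻¹ * (C a * X ^ (ringExpChar l) ^ (J - i) + C b) := by rw [e1]
      _ = _ := by rw [C_mul, C_mul]; ring
  · calc r = (C e'⁻¹ * C e') * r := by rw [hCe, one_mul]
      _ = C e'⁻¹ * (C e' * r) := by ring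
      _ = C e'⁻¹ * (C c * X ^ (ringExpChar l) ^ (J - i) + C d) := by rw [e2]
      _ = _ := by rw [C_mul, C_mul]; ring

/-- the form used below: `N` is the maximal degree. -/
theorem bl_fib [IsAlgClosed l] {p r : l[X]} (hcop : IsCoprime p r) {A B C' D : l}
    (hdet : A * D - B * C' ≠ 0) {n i j N : ℕ}
    (h : p ^ (ringExpChar l) ^ i * (C C' * X ^ (ringExpChar l) ^ j + C D) ^ (ringExpChar l) ^ n =
      r ^ (ringExpChar l) ^ i * (C A * X ^ (ringExpChar l) ^ j + C B) ^ (ringExpChar l) ^ n)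
    (hp : p.natDegree ≤ N) (hr : r.natDegree ≤ N) (hN : p.coeff N ≠ 0 ∨ r.coeff N ≠ 0) :
    (∃ m : ℕ, N = (ringExpChar l) ^ m) ∧
      (∀ e, e ≠ 0 → e ≠ N → p.coeff e = 0 ∧ r.coeff e = 0) ∧
      p.coeff N * r.coeff 0 - p.coeff 0 * r.coeff N ≠ 0 := by
  obtain ⟨m, a, b, c, d, hd, rfl, rfl⟩ := bl_pair hcop hdet h
  have hM : 0 < (ringExpChar l) ^ m := pow_pos (expChar_pos l _) m
  generalize hMd : (ringExpChar l) ^ m = M at *
  have hc : ∀ (x y : l) (e : ℕ), (C x * X ^ M + C y : l[X]).coeff e =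
      (if e = M then x else 0) + (if e = 0 then y else 0) := fun x y e => bl_coeff x y M e
  have hMN : M ≤ N := by
    by_cases ha : a = 0
    · have hc0 : c ≠ 0 := by
        rintro rfl
        apply hd
        rw [ha]
        ring
      rwa [bl_natDegree_lin hc0] at hr
    · rwa [bl_natDegree_lin ha] at hp
  have hNM : N = M := by
    by_contra hne
    have h0 : N ≠ 0 := by omega
    rw [hc, hc, if_neg hne, if_neg h0, if_neg hne, if_neg h0] at hN
    simp at hN
  subst hNM
  refine ⟨⟨m, hMd.symm⟩, ?_, ?_⟩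
  · intro e he0 heN
    rw [hc, hc, if_neg he0, if_neg heN, if_neg he0, if_neg heN]
    simp
  · rw [hc, hc, hc, hc]
    simp [hM.ne', hM.ne]
    exact hd

end pair

end Vale.Agent.P019P
end
end

section

section

/-!
# Rational functions of two variables
-/

namespace Vale.Agent.P019P

open Vale.Agent.P019

set_option linter.style.haveILetI false
set_option linter.unusedSectionVars false

open Polynomial Filter

section ev

variable {L : Type*} [Field L] {l : Subfield L}

/-- evaluation of a polynomial in two variables. -/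
noncomputable def blE (l : Subfield L) (x y : L) : l[X][X] →+* L :=
  eval₂RingHom (aeval x : l[X] →ₐ[l] L).toRingHom y

theorem blE_monomial (x y : L) (n : ℕ) (c : l[X]) :
    blE l x y (monomial n c) = aeval x c * y ^ n := by
  simp [blE]

theorem blE_C (x y : L) (c : l[X]) : blE l x y (C c) = aeval x c := by
  simp [blE]

theorem blE_X (x y : L) : blE l x y X = y := by
  simp [blE]

/-- congruence modulo the maximal ideal. -/
def blR (W : ValuationSubring L) (u v : L) : Prop := u ∈ W ∧ v ∈ W ∧ W.valuation (u - v) < 1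

theorem blR.add {W : ValuationSubring L} {u v u' v' : L} (h : blR W u v) (h' : blR W u' v') :
    blR W (u + u') (v + v') := by
  refine ⟨add_mem h.1 h'.1, add_mem h.2.1 h'.2.1, ?_⟩
  have : u + u' - (v + v') = (u - v) + (u' - v') := by ring
  rw [this]
  exact Valuation.map_add_lt _ h.2.2 h'.2.2

theorem blR.mul {W : ValuationSubring L} {u v u' v' : L} (h : blR W u v) (h' : blR W u' v') :
    blR W (u * u') (v * v') := by
  refine ⟨mul_mem h.1 h'.1, mul_mem h.2.1 h'.2.1, ?_⟩
  have : u * u' - v * v' = (u - v) * u' + v * (u' - v') := by ring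
  rw [this]
  have h1 := (W.valuation_le_one_iff _).2 h'.1
  have h2 := (W.valuation_le_one_iff _).2 h.2.1
  refine Valuation.map_add_lt _ ?_ ?_
  · rw [map_mul]
    exact lt_of_le_of_lt (mul_le_of_le_one_right' h1) h.2.2
  · rw [map_mul]
    exact lt_of_le_of_lt (mul_le_of_le_one_left' h2) h'.2.2

theorem blR.refl {W : ValuationSubring L} {u : L} (h : u ∈ W) : blR W u u :=
  ⟨h, h, by rw [sub_self, map_zero]; exact zero_lt_one⟩

theorem blR.pow {W : ValuationSubring L} {u v : L} (h : blR W u v) (n : ℕ) :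
    blR W (u ^ n) (v ^ n) := by
  induction n with
  | zero => simpa using blR.refl (one_mem W)
  | succ n ih => rw [pow_succ, pow_succ]; exact ih.mul h

theorem blR.aeval {W : ValuationSubring L} (hW : TrivOn W l) {x x' : L} (hx : blR W x x')
    (P : l[X]) : blR W (aeval x P) (aeval x' P) := by
  induction P using Polynomial.induction_on' with
  | add p q hp hq => rw [map_add, map_add]; exact hp.add hq
  | monomial n a =>
    rw [aeval_monomial, aeval_monomial]
    exact (blR.refl (hW _ a.2)).mul (hx.pow n)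

theorem blR.blE {W : ValuationSubring L} (hW : TrivOn W l) {x x' y y' : L} (hx : blR W x x')
    (hy : blR W y y') (P : l[X][X]) : blR W (blE l x y P) (blE l x' y' P) := by
  induction P using Polynomial.induction_on' with
  | add p q hp hq => rw [map_add, map_add]; exact hp.add hq
  | monomial n a =>
    rw [blE_monomial, blE_monomial]
    exact (blR.aeval hW hx a).mul (hy.pow n)

/-- specialization of a relation. -/
theorem bl_spec {W : ValuationSubring L} {F : Subfield L} (hW : TrivOn W F) {n i : ℕ}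
    {z Ps Qs P₁ Q₁ c d : L} (hP1 : P₁ ∈ F) (hQ1 : Q₁ ∈ F) (hc : c ∈ F) (hd : d ∈ F)
    (hP : blR W Ps P₁) (hQ : blR W Qs Q₁)
    (hz : W.valuation (z ^ (ringExpChar L) ^ i * c - d) < 1)
    (h : z ^ (ringExpChar L) ^ n * Qs = Ps) :
    P₁ ^ (ringExpChar L) ^ i * c ^ (ringExpChar L) ^ n =
      Q₁ ^ (ringExpChar L) ^ i * d ^ (ringExpChar L) ^ n := by
  have hu : blR W (z ^ (ringExpChar L) ^ i * c) d := by
    have hdW := hW d hd
    refine ⟨?_, hdW, hz⟩
    have : z ^ (ringExpChar L) ^ i * c = (z ^ (ringExpChar L) ^ i * c - d) + d := by ring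
    rw [this]
    exact add_mem ((W.valuation_le_one_iff _).1 hz.le) hdW
  have h1 : blR W (Ps ^ (ringExpChar L) ^ i * c ^ (ringExpChar L) ^ n)
      (P₁ ^ (ringExpChar L) ^ i * c ^ (ringExpChar L) ^ n) :=
    (hP.pow _).mul ((blR.refl (hW c hc)).pow _)
  have h2 : blR W (Qs ^ (ringExpChar L) ^ i * (z ^ (ringExpChar L) ^ i * c) ^ (ringExpChar L) ^ n)
      (Q₁ ^ (ringExpChar L) ^ i * d ^ (ringExpChar L) ^ n) := (hQ.pow _).mul (hu.pow _)
  have h3 : Qs ^ (ringExpChar L) ^ i * (z ^ (ringExpChar L) ^ i * c) ^ (ringExpChar L) ^ n =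
      Ps ^ (ringExpChar L) ^ i * c ^ (ringExpChar L) ^ n := by
    rw [← h, mul_pow, mul_pow, ← pow_mul, ← pow_mul, mul_comm ((ringExpChar L) ^ n)]
    ring
  rw [h3] at h2
  rw [← sub_eq_zero]
  refine hW.eq_zero (sub_mem (mul_mem (pow_mem hP1 _) (pow_mem hc _))
    (mul_mem (pow_mem hQ1 _) (pow_mem hd _))) ?_
  have h4 : P₁ ^ (ringExpChar L) ^ i * c ^ (ringExpChar L) ^ n -
      Q₁ ^ (ringExpChar L) ^ i * d ^ (ringExpChar L) ^ n =
      (Ps ^ (ringExpChar L) ^ i * c ^ (ringExpChar L) ^ n -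
        Q₁ ^ (ringExpChar L) ^ i * d ^ (ringExpChar L) ^ n) -
      (Ps ^ (ringExpChar L) ^ i * c ^ (ringExpChar L) ^ n -
        P₁ ^ (ringExpChar L) ^ i * c ^ (ringExpChar L) ^ n) := by ring
  rw [h4]
  exact Valuation.map_sub_lt _ h2.2.2 h1.2.2

end ev

section rep

variable {L : Type*} [Field L] {l : Subfield L}

/-- the embedding of the polynomials. -/
noncomputable def blF (l : Subfield L) (s : L) : l[X] →+* Vale.Agent.P019.adj l s :=
  eval₂RingHom (Subfield.inclusion (Vale.Agent.P019.le_adj l s))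
    ⟨s, Vale.Agent.P019.mem_adj l s⟩

theorem blF_coe (s : L) (p : l[X]) : (blF l s p : L) = aeval s p := by
  unfold blF
  rw [coe_eval₂RingHom, aeval_def]
  have := Polynomial.hom_eval₂ p (Subfield.inclusion (Vale.Agent.P019.le_adj l s))
    (Vale.Agent.P019.adj l s).subtype ⟨s, Vale.Agent.P019.mem_adj l s⟩
  exact this

theorem blF_inj (hl : IsAlgClosed l) {s : L} (hs : s ∉ l) : Function.Injective (blF l s) := by
  rw [injective_iff_map_eq_zero]
  intro p hp
  by_contra h
  apply line_aeval_ne hl hs h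
  rw [← blF_coe, hp]
  rfl

theorem bl_clear (hl : IsAlgClosed l) {s : L} (hs : s ∉ l)
    (p : (Vale.Agent.P019.adj l s)[X]) :
    ∃ d : l[X], d ≠ 0 ∧ ∃ P : l[X][X], P.map (blF l s) = C (blF l s d) * p := by
  induction p using Polynomial.induction_on' with
  | add p q hp hq =>
    obtain ⟨d, hd, P, hP⟩ := hp
    obtain ⟨e, he, Q, hQ⟩ := hq
    refine ⟨d * e, mul_ne_zero hd he, C e * P + C d * Q, ?_⟩
    rw [Polynomial.map_add, Polynomial.map_mul, Polynomial.map_mul, hP, hQ, map_C, map_C,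
      map_mul, C_mul]
    ring
  | monomial n c =>
    obtain ⟨a, b, hab⟩ := line_mem c.2
    by_cases hb : b = 0
    · refine ⟨1, one_ne_zero, 0, ?_⟩
      have hc : c = 0 := by
        apply Subtype.ext
        rw [hab, hb]
        simp
      rw [hc]
      simp
    · refine ⟨b, hb, monomial n a, ?_⟩
      rw [map_monomial, C_mul_monomial]
      congr 1
      apply Subtype.ext
      change (blF l s a : L) = (blF l s b : L) * (c : L)
      rw [blF_coe, blF_coe, hab]
      have := line_aeval_ne hl hs hb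
      field_simp

theorem blE_eq_map (s t : L) (P : l[X][X]) :
    blE l s t P = aeval t (P.map (blF l s)) := by
  induction P using Polynomial.induction_on' with
  | add p q hp hq => rw [map_add, Polynomial.map_add, map_add, hp, hq]
  | monomial n a =>
    rw [blE_monomial, map_monomial, aeval_monomial, ← blF_coe]
    rfl

theorem bl_pf_adj (E : Subfield L) (t : L) :
    Vale.Agent.P019.adj (pf E) t ≤ adj E t :=
  Vale.Agent.P019.adj_le (pf_mono (Vale.Agent.P019.le_adj E t)) (mem_adj E t)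

/-- elements of the perfect closure of `l(s)(t)`. -/
theorem bl_rep (hl : IsAlgClosed l) {s t z : L} (hs : s ∉ l) (hz : z ∈ adj (adj l s) t) :
    ∃ (n : ℕ) (P Q U V : l[X][X]) (D : l[X]), D ≠ 0 ∧ U * P + V * Q = C D ∧
      z ^ (ringExpChar L) ^ n * blE l s t Q = blE l s t P := by
  classical
  have h1 : z ∈ adj (Vale.Agent.P019.adj l s) t := by
    have h2 : adj (adj l s) t ≤ adj (Vale.Agent.P019.adj l s) t := by
      change pf (Vale.Agent.P019.adj (pf (Vale.Agent.P019.adj l s)) t) ≤ _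
      refine (pf_mono (bl_pf_adj (Vale.Agent.P019.adj l s) t)).trans ?_
      change pf (pf _) ≤ pf _
      rw [pf_pf]
    exact h2 hz
  obtain ⟨n, hn⟩ := mem_adj_iff.1 h1
  obtain ⟨p, r, hpr⟩ := line_mem hn
  by_cases hr : aeval t r = 0
  · refine ⟨n, 0, 1, 0, 1, 1, one_ne_zero, by simp, ?_⟩
    rw [hpr, hr, div_zero, zero_mul, map_zero]
  have hr0 : r ≠ 0 := by
    rintro rfl
    exact hr (map_zero _)
  set g := EuclideanDomain.gcd p r with hg
  have hg0 : g ≠ 0 := by
    intro h
    exact hr0 (EuclideanDomain.gcd_eq_zero_iff.1 h).2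
  have e1 : p = g * (p / g) := (EuclideanDomain.mul_div_cancel' hg0
    (EuclideanDomain.gcd_dvd_left p r)).symm
  have e2 : r = g * (r / g) := (EuclideanDomain.mul_div_cancel' hg0
    (EuclideanDomain.gcd_dvd_right p r)).symm
  obtain ⟨u, v, huv⟩ : ∃ u v, u * (p / g) + v * (r / g) = 1 := by
    obtain ⟨u, v, h3⟩ : ∃ u v, g = p * u + r * v :=
      ⟨_, _, EuclideanDomain.gcd_eq_gcd_ab p r⟩
    refine ⟨u, v, mul_left_cancel₀ hg0 ?_⟩
    calc g * (u * (p / g) + v * (r / g)) = (g * (p / g)) * u + (g * (r / g)) * v := by ring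
      _ = p * u + r * v := by rw [← e1, ← e2]
      _ = g * 1 := by rw [← h3, mul_one]
  generalize p / g = p' at e1 huv
  generalize r / g = r' at e2 huv
  have hgt : aeval t g ≠ 0 := by
    intro h
    apply hr
    rw [e2, map_mul, h, zero_mul]
  have hrt : aeval t r' ≠ 0 := by
    intro h
    apply hr
    rw [e2, map_mul, h, mul_zero]
  have hz' : z ^ (ringExpChar L) ^ n * aeval t r' = aeval t p' := by
    rw [hpr, e1, e2, map_mul, map_mul]
    field_simp
  obtain ⟨d1, hd1, P1, hP1⟩ := bl_clear hl hs p'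
  obtain ⟨d2, hd2, Q1, hQ1⟩ := bl_clear hl hs r'
  obtain ⟨d3, hd3, U1, hU1⟩ := bl_clear hl hs u
  obtain ⟨d4, hd4, V1, hV1⟩ := bl_clear hl hs v
  have hP : (C d2 * P1).map (blF l s) = C (blF l s (d1 * d2)) * p' := by
    rw [Polynomial.map_mul, hP1, map_C, map_mul, C_mul]
    ring
  have hQ : (C d1 * Q1).map (blF l s) = C (blF l s (d1 * d2)) * r' := by
    rw [Polynomial.map_mul, hQ1, map_C, map_mul, C_mul]
    ring
  have hU : (C d4 * U1).map (blF l s) = C (blF l s (d3 * d4)) * u := by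
    rw [Polynomial.map_mul, hU1, map_C, map_mul, C_mul]
    ring
  have hV : (C d3 * V1).map (blF l s) = C (blF l s (d3 * d4)) * v := by
    rw [Polynomial.map_mul, hV1, map_C, map_mul, C_mul]
    ring
  refine ⟨n, C d2 * P1, C d1 * Q1, C d4 * U1, C d3 * V1, d1 * d2 * (d3 * d4),
    mul_ne_zero (mul_ne_zero hd1 hd2) (mul_ne_zero hd3 hd4), ?_, ?_⟩
  · apply Polynomial.map_injective _ (blF_inj hl hs)
    rw [Polynomial.map_add, Polynomial.map_mul (blF l s) (p := C d4 * U1),
      Polynomial.map_mul (blF l s) (p := C d3 * V1), hP, hQ, hU, hV, map_C,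
      map_mul (blF l s) (d1 * d2), C_mul]
    calc C (blF l s (d3 * d4)) * u * (C (blF l s (d1 * d2)) * p') +
          C (blF l s (d3 * d4)) * v * (C (blF l s (d1 * d2)) * r')
        = C (blF l s (d1 * d2)) * C (blF l s (d3 * d4)) * (u * p' + v * r') := by ring
      _ = _ := by rw [huv, mul_one]
  · rw [blE_eq_map, blE_eq_map, hP, hQ, map_mul (aeval t), map_mul (aeval t), ← hz']
    ring

end rep

end Vale.Agent.P019P
end
end
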