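import Vale.Agent.P019.MathlibFull
import Vale.Agent.P019.MathlibFull2
import Vale.Agent.P019.MathlibUsed
import Vale.Agent.P019.Bd4.B1
import Vale.Agent.P019.Bd4.B2

set_option linter.all false

namespace AFastb78d8dx8a
@[reducible] def a0.{u1} {x1 : ℕ} {x2 : Type u1} [x3 : AddCommGroup x2] [x4 : Module (ZMod x1) x2] : SMulZeroClass (ZMod x1) x2 := inferInstance
@[reducible] def a1.{u1} {x1 : ℕ} {x2 : Type u1} [x3 : AddCommGroup x2] [x4 : Module (ZMod x1) x2] : SMul (ZMod x1) x2 := inferInstance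
@[reducible] def a2.{u1} {x1 : ℕ} {x2 : Type u1} [x3 : AddCommGroup x2] [x4 : Module (ZMod x1) x2] : DistribSMul (ZMod x1) x2 := inferInstance
@[reducible] def a3.{u1} {x1 : Type u1} [x2 : Field x1] {x3 : Subfield x1} : CommSemiring ↥x3 := inferInstance
@[reducible] noncomputable def a4.{u1, u2} {x1 : Type u1} {x2 : Type u2} [x3 : Field x1] [x4 : Field x2] [x5 : Algebra x1 x2] : Sub (Vale.Agent.P019P.Plk x1 x2 →₀ ℤ) := inferInstance
@[reducible] def a5.{u1} {x1 : ℕ} {x2 : Type u1} [x3 : AddCommGroup x2] [x4 : Module (ZMod x1) x2] : DistribMulAction (ZMod x1) x2 := inferInstance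
@[reducible] noncomputable def a6.{u1} {x1 : ℕ} {x2 : Type u1} [x3 : Field x2] : SMulZeroClass (ZMod x1) (Vale.Agent.P019.V x1 x2) := inferInstance
@[reducible] noncomputable def a7.{u1} {x1 : ℕ} {x2 : Type u1} [x3 : Field x2] : SMul (ZMod x1) (Vale.Agent.P019.V x1 x2) := inferInstance
@[reducible] noncomputable def a8.{u1} {x1 : ℕ} {x2 : Type u1} [x3 : Field x2] : DistribSMul (ZMod x1) (Vale.Agent.P019.V x1 x2) := inferInstance
theorem a9.{u1} {x1 : Type u1} [x2 : Field x1] : SubsemiringClass (Subfield x1) x1 := inferInstance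
@[reducible] def a10.{u1} {x1 : Type u1} [x2 : Field x1] {x3 : Subfield x1} : Semiring ↥x3 := inferInstance
@[reducible] def a11.{u1} {x1 : Type u1} [x2 : Field x1] {x3 : Subfield x1} : Monoid ↥x3 := inferInstance
end AFastb78d8dx8a
attribute [local instance] AFastb78d8dx8a.a0 AFastb78d8dx8a.a1 AFastb78d8dx8a.a2 AFastb78d8dx8a.a3
  AFastb78d8dx8a.a4 AFastb78d8dx8a.a5 AFastb78d8dx8a.a6 AFastb78d8dx8a.a7 AFastb78d8dx8a.a8
  AFastb78d8dx8a.a9 AFastb78d8dx8a.a10 AFastb78d8dx8a.a11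
namespace AFastb78d8dx8b
@[reducible] def a0.{u1} {x1 : Type u1} [x2 : Field x1] {x3 : Subfield x1} {x4 : IntermediateField (↥x3) x1} : Algebra ↥x3 ↥x4 := inferInstance
theorem a1.{u1} {x1 : Type u1} [x2 : Field x1] {x3 : Subfield x1} : IsScalarTower (↥x3) (↥x3) x1 := inferInstance
@[reducible] def a2.{u1} {x1 : Type u1} [x2 : Field x1] {x3 : Subalgebra ℤ x1} {x4 : Type u1} [x5 : Field x4] [x6 : Algebra x1 x4] {x7 : Subalgebra (↥x3) x4} : Module ↥x3 ↥x7 := inferInstance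
@[reducible] def a3.{u1} {x1 : Type u1} [x2 : Field x1] {x3 : Subalgebra ℤ x1} {x4 : Type u1} [x5 : Field x4] [x6 : Algebra x1 x4] {x7 : Subalgebra (↥x3) x4} : NonAssocSemiring (TensorProduct (↥x3) x1 ↥x7) := inferInstance
@[reducible] noncomputable def a4.{u1} {x1 : Type u1} [x2 : Field x1] {x3 : @Subfield x1 (@Field.toDivisionRing x1 x2)} {x4 : x1} : @Module (↥(@Vale.Agent.P019P.adj x1 x2 x3 x4)) (↥(@Top.top (@IntermediateField (↥(@Vale.Agent.P019P.adj x1 x2 x3 x4)) x1 (@Subfield.toField x1 x2 (@Vale.Agent.P019P.adj x1 x2 x3 x4)) x2 (@Subfield.toAlgebra x1 x2 (@Vale.Agent.P019P.adj x1 x2 x3 x4))) (@OrderTop.toTop (@IntermediateField (↥(@Vale.Agent.P019P.adj x1 x2 x3 x4)) x1 (@Subfield.toField x1 x2 (@Vale.Agent.P019P.adj x1 x2 x3 x4)) x2 (@Subfield.toAlgebra x1 x2 (@Vale.Agent.P019P.adj x1 x2 x3 x4))) (@Preorder.toLE (@IntermediateField (↥(@Vale.Agent.P019P.adj x1 x2 x3 x4)) x1 (@Subfield.toField x1 x2 (@Vale.Agent.P019P.adj x1 x2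 x3 x4)) x2 (@Subfield.toAlgebra x1 x2 (@Vale.Agent.P019P.adj x1 x2 x3 x4))) (@PartialOrder.toPreorder (@IntermediateField (↥(@Vale.Agent.P019P.adj x1 x2 x3 x4)) x1 (@Subfield.toField x1 x2 (@Vale.Agent.P019P.adj x1 x2 x3 x4)) x2 (@Subfield.toAlgebra x1 x2 (@Vale.Agent.P019P.adj x1 x2 x3 x4))) (@SemilatticeSup.toPartialOrder (@IntermediateField (↥(@Vale.Agent.P019P.adj x1 x2 x3 x4)) x1 (@Subfield.toField x1 x2 (@Vale.Agent.P019P.adj x1 x2 x3 x4)) x2 (@Subfield.toAlgebra x1 x2 (@Vale.Agent.P019P.adj x1 x2 x3 x4))) (@Lattice.toSemilatticeSup (@IntermediateField (↥(@Vale.Agent.P019P.adj x1 x2 x3 x4)) x1 (@Subfield.toField x1 x2 (@Vale.Agent.P019P.adj x1 x2 x3 x4)) x2 (@Subfield.toAlgebra x1 x2 (@Vale.Agent.P019P.adj x1 x2 x3 x4))) (@CompleteLattice.toLattice (@IntermediateField (↥(@Vale.Agent.P019P.adj x1 x2 x3 x4)) x1 (@Subfield.toField x1 x2 (@Vale.Agent.P019P.adj x1 x2 x3 x4)) x2 (@Subfield.toAlgebra x1 x2 (@Vale.Agent.P019P.adj x1 x2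 x3 x4))) (@IntermediateField.instCompleteLattice (↥(@Vale.Agent.P019P.adj x1 x2 x3 x4)) (@Subfield.toField x1 x2 (@Vale.Agent.P019P.adj x1 x2 x3 x4)) x1 x2 (@Subfield.toAlgebra x1 x2 (@Vale.Agent.P019P.adj x1 x2 x3 x4)))))))) (@BoundedOrder.toOrderTop (@IntermediateField (↥(@Vale.Agent.P019P.adj x1 x2 x3 x4)) x1 (@Subfield.toField x1 x2 (@Vale.Agent.P019P.adj x1 x2 x3 x4)) x2 (@Subfield.toAlgebra x1 x2 (@Vale.Agent.P019P.adj x1 x2 x3 x4))) (@Preorder.toLE (@IntermediateField (↥(@Vale.Agent.P019P.adj x1 x2 x3 x4)) x1 (@Subfield.toField x1 x2 (@Vale.Agent.P019P.adj x1 x2 x3 x4)) x2 (@Subfield.toAlgebra x1 x2 (@Vale.Agent.P019P.adj x1 x2 x3 x4))) (@PartialOrder.toPreorder (@IntermediateField (↥(@Vale.Agent.P019P.adj x1 x2 x3 x4)) x1 (@Subfield.toField x1 x2 (@Vale.Agent.P019P.adj x1 x2 x3 x4)) x2 (@Subfield.toAlgebra x1 x2 (@Vale.Agent.P019P.adj x1 x2 x3 x4))) (@SemilatticeSup.toPartialOrder (@IntermediateField (↥(@Vale.Agent.P019P.adj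 x1 x2 x3 x4)) x1 (@Subfield.toField x1 x2 (@Vale.Agent.P019P.adj x1 x2 x3 x4)) x2 (@Subfield.toAlgebra x1 x2 (@Vale.Agent.P019P.adj x1 x2 x3 x4))) (@Lattice.toSemilatticeSup (@IntermediateField (↥(@Vale.Agent.P019P.adj x1 x2 x3 x4)) x1 (@Subfield.toField x1 x2 (@Vale.Agent.P019P.adj x1 x2 x3 x4)) x2 (@Subfield.toAlgebra x1 x2 (@Vale.Agent.P019P.adj x1 x2 x3 x4))) (@CompleteLattice.toLattice (@IntermediateField (↥(@Vale.Agent.P019P.adj x1 x2 x3 x4)) x1 (@Subfield.toField x1 x2 (@Vale.Agent.P019P.adj x1 x2 x3 x4)) x2 (@Subfield.toAlgebra x1 x2 (@Vale.Agent.P019P.adj x1 x2 x3 x4))) (@IntermediateField.instCompleteLattice (↥(@Vale.Agent.P019P.adj x1 x2 x3 x4)) (@Subfield.toField x1 x2 (@Vale.Agent.P019P.adj x1 x2 x3 x4)) x1 x2 (@Subfield.toAlgebra x1 x2 (@Vale.Agent.P019P.adj x1 x2 x3 x4)))))))) (@CompleteLattice.toBoundedOrder (@IntermediateField (↥(@Vale.Agent.P019P.adj x1 x2 x3 x4)) x1 (@Subfield.toField x1 x2 (@Vale.Agent.P019P.adj x1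 x2 x3 x4)) x2 (@Subfield.toAlgebra x1 x2 (@Vale.Agent.P019P.adj x1 x2 x3 x4))) (@IntermediateField.instCompleteLattice (↥(@Vale.Agent.P019P.adj x1 x2 x3 x4)) (@Subfield.toField x1 x2 (@Vale.Agent.P019P.adj x1 x2 x3 x4)) x1 x2 (@Subfield.toAlgebra x1 x2 (@Vale.Agent.P019P.adj x1 x2 x3 x4)))))))) (@DivisionSemiring.toSemiring (↥(@Vale.Agent.P019P.adj x1 x2 x3 x4)) (@Semifield.toDivisionSemiring (↥(@Vale.Agent.P019P.adj x1 x2 x3 x4)) (@Field.toSemifield (↥(@Vale.Agent.P019P.adj x1 x2 x3 x4)) (@Subfield.toField x1 x2 (@Vale.Agent.P019P.adj x1 x2 x3 x4))))) (@Semiring.toAddCommMonoid (↥(@Top.top (@IntermediateField (↥(@Vale.Agent.P019P.adj x1 x2 x3 x4)) x1 (@Subfield.toField x1 x2 (@Vale.Agent.P019P.adj x1 x2 x3 x4)) x2 (@Subfield.toAlgebra x1 x2 (@Vale.Agent.P019P.adj x1 x2 x3 x4))) (@OrderTop.toTop (@IntermediateField (↥(@Vale.Agent.P019P.adj x1 x2 x3 x4)) x1 (@Subfield.toField x1 x2 (@Vale.Agent.P019P.adj x1 x2 x3 x4)) x2 (@Subfield.toAlgebra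 x1 x2 (@Vale.Agent.P019P.adj x1 x2 x3 x4))) (@Preorder.toLE (@IntermediateField (↥(@Vale.Agent.P019P.adj x1 x2 x3 x4)) x1 (@Subfield.toField x1 x2 (@Vale.Agent.P019P.adj x1 x2 x3 x4)) x2 (@Subfield.toAlgebra x1 x2 (@Vale.Agent.P019P.adj x1 x2 x3 x4))) (@PartialOrder.toPreorder (@IntermediateField (↥(@Vale.Agent.P019P.adj x1 x2 x3 x4)) x1 (@Subfield.toField x1 x2 (@Vale.Agent.P019P.adj x1 x2 x3 x4)) x2 (@Subfield.toAlgebra x1 x2 (@Vale.Agent.P019P.adj x1 x2 x3 x4))) (@SemilatticeSup.toPartialOrder (@IntermediateField (↥(@Vale.Agent.P019P.adj x1 x2 x3 x4)) x1 (@Subfield.toField x1 x2 (@Vale.Agent.P019P.adj x1 x2 x3 x4)) x2 (@Subfield.toAlgebra x1 x2 (@Vale.Agent.P019P.adj x1 x2 x3 x4))) (@Lattice.toSemilatticeSup (@IntermediateField (↥(@Vale.Agent.P019P.adj x1 x2 x3 x4)) x1 (@Subfield.toField x1 x2 (@Vale.Agent.P019P.adj x1 x2 x3 x4)) x2 (@Subfield.toAlgebra x1 x2 (@Vale.Agent.P019P.adj x1 x2 x3 x4))) (@CompleteLattice.toLattice (@IntermediateField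 (↥(@Vale.Agent.P019P.adj x1 x2 x3 x4)) x1 (@Subfield.toField x1 x2 (@Vale.Agent.P019P.adj x1 x2 x3 x4)) x2 (@Subfield.toAlgebra x1 x2 (@Vale.Agent.P019P.adj x1 x2 x3 x4))) (@IntermediateField.instCompleteLattice (↥(@Vale.Agent.P019P.adj x1 x2 x3 x4)) (@Subfield.toField x1 x2 (@Vale.Agent.P019P.adj x1 x2 x3 x4)) x1 x2 (@Subfield.toAlgebra x1 x2 (@Vale.Agent.P019P.adj x1 x2 x3 x4)))))))) (@BoundedOrder.toOrderTop (@IntermediateField (↥(@Vale.Agent.P019P.adj x1 x2 x3 x4)) x1 (@Subfield.toField x1 x2 (@Vale.Agent.P019P.adj x1 x2 x3 x4)) x2 (@Subfield.toAlgebra x1 x2 (@Vale.Agent.P019P.adj x1 x2 x3 x4))) (@Preorder.toLE (@IntermediateField (↥(@Vale.Agent.P019P.adj x1 x2 x3 x4)) x1 (@Subfield.toField x1 x2 (@Vale.Agent.P019P.adj x1 x2 x3 x4)) x2 (@Subfield.toAlgebra x1 x2 (@Vale.Agent.P019P.adj x1 x2 x3 x4))) (@PartialOrder.toPreorder (@IntermediateField (↥(@Vale.Agent.P019P.adj x1 x2 x3 x4)) x1 (@Subfield.toField x1 x2 (@Vale.Agent.P019P.adj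 x1 x2 x3 x4)) x2 (@Subfield.toAlgebra x1 x2 (@Vale.Agent.P019P.adj x1 x2 x3 x4))) (@SemilatticeSup.toPartialOrder (@IntermediateField (↥(@Vale.Agent.P019P.adj x1 x2 x3 x4)) x1 (@Subfield.toField x1 x2 (@Vale.Agent.P019P.adj x1 x2 x3 x4)) x2 (@Subfield.toAlgebra x1 x2 (@Vale.Agent.P019P.adj x1 x2 x3 x4))) (@Lattice.toSemilatticeSup (@IntermediateField (↥(@Vale.Agent.P019P.adj x1 x2 x3 x4)) x1 (@Subfield.toField x1 x2 (@Vale.Agent.P019P.adj x1 x2 x3 x4)) x2 (@Subfield.toAlgebra x1 x2 (@Vale.Agent.P019P.adj x1 x2 x3 x4))) (@CompleteLattice.toLattice (@IntermediateField (↥(@Vale.Agent.P019P.adj x1 x2 x3 x4)) x1 (@Subfield.toField x1 x2 (@Vale.Agent.P019P.adj x1 x2 x3 x4)) x2 (@Subfield.toAlgebra x1 x2 (@Vale.Agent.P019P.adj x1 x2 x3 x4))) (@IntermediateField.instCompleteLattice (↥(@Vale.Agent.P019P.adj x1 x2 x3 x4)) (@Subfield.toField x1 x2 (@Vale.Agent.P019P.adj x1 x2 x3 x4)) x1 x2 (@Subfield.toAlgebra x1 x2 (@Vale.Agent.P019P.adj x1 x2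 x3 x4)))))))) (@CompleteLattice.toBoundedOrder (@IntermediateField (↥(@Vale.Agent.P019P.adj x1 x2 x3 x4)) x1 (@Subfield.toField x1 x2 (@Vale.Agent.P019P.adj x1 x2 x3 x4)) x2 (@Subfield.toAlgebra x1 x2 (@Vale.Agent.P019P.adj x1 x2 x3 x4))) (@IntermediateField.instCompleteLattice (↥(@Vale.Agent.P019P.adj x1 x2 x3 x4)) (@Subfield.toField x1 x2 (@Vale.Agent.P019P.adj x1 x2 x3 x4)) x1 x2 (@Subfield.toAlgebra x1 x2 (@Vale.Agent.P019P.adj x1 x2 x3 x4)))))))) (@DivisionSemiring.toSemiring (↥(@Top.top (@IntermediateField (↥(@Vale.Agent.P019P.adj x1 x2 x3 x4)) x1 (@Subfield.toField x1 x2 (@Vale.Agent.P019P.adj x1 x2 x3 x4)) x2 (@Subfield.toAlgebra x1 x2 (@Vale.Agent.P019P.adj x1 x2 x3 x4))) (@OrderTop.toTop (@IntermediateField (↥(@Vale.Agent.P019P.adj x1 x2 x3 x4)) x1 (@Subfield.toField x1 x2 (@Vale.Agent.P019P.adj x1 x2 x3 x4)) x2 (@Subfield.toAlgebra x1 x2 (@Vale.Agent.P019P.adj x1 x2 x3 x4))) (@Preorder.toLE (@IntermediateField (↥(@Vale.Agent.P019P.adj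 x1 x2 x3 x4)) x1 (@Subfield.toField x1 x2 (@Vale.Agent.P019P.adj x1 x2 x3 x4)) x2 (@Subfield.toAlgebra x1 x2 (@Vale.Agent.P019P.adj x1 x2 x3 x4))) (@PartialOrder.toPreorder (@IntermediateField (↥(@Vale.Agent.P019P.adj x1 x2 x3 x4)) x1 (@Subfield.toField x1 x2 (@Vale.Agent.P019P.adj x1 x2 x3 x4)) x2 (@Subfield.toAlgebra x1 x2 (@Vale.Agent.P019P.adj x1 x2 x3 x4))) (@SemilatticeSup.toPartialOrder (@IntermediateField (↥(@Vale.Agent.P019P.adj x1 x2 x3 x4)) x1 (@Subfield.toField x1 x2 (@Vale.Agent.P019P.adj x1 x2 x3 x4)) x2 (@Subfield.toAlgebra x1 x2 (@Vale.Agent.P019P.adj x1 x2 x3 x4))) (@Lattice.toSemilatticeSup (@IntermediateField (↥(@Vale.Agent.P019P.adj x1 x2 x3 x4)) x1 (@Subfield.toField x1 x2 (@Vale.Agent.P019P.adj x1 x2 x3 x4)) x2 (@Subfield.toAlgebra x1 x2 (@Vale.Agent.P019P.adj x1 x2 x3 x4))) (@CompleteLattice.toLattice (@IntermediateField (↥(@Vale.Agent.P019P.adj x1 x2 x3 x4)) x1 (@Subfield.toField x1 x2 (@Vale.Agent.P019P.adj x1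 x2 x3 x4)) x2 (@Subfield.toAlgebra x1 x2 (@Vale.Agent.P019P.adj x1 x2 x3 x4))) (@IntermediateField.instCompleteLattice (↥(@Vale.Agent.P019P.adj x1 x2 x3 x4)) (@Subfield.toField x1 x2 (@Vale.Agent.P019P.adj x1 x2 x3 x4)) x1 x2 (@Subfield.toAlgebra x1 x2 (@Vale.Agent.P019P.adj x1 x2 x3 x4)))))))) (@BoundedOrder.toOrderTop (@IntermediateField (↥(@Vale.Agent.P019P.adj x1 x2 x3 x4)) x1 (@Subfield.toField x1 x2 (@Vale.Agent.P019P.adj x1 x2 x3 x4)) x2 (@Subfield.toAlgebra x1 x2 (@Vale.Agent.P019P.adj x1 x2 x3 x4))) (@Preorder.toLE (@IntermediateField (↥(@Vale.Agent.P019P.adj x1 x2 x3 x4)) x1 (@Subfield.toField x1 x2 (@Vale.Agent.P019P.adj x1 x2 x3 x4)) x2 (@Subfield.toAlgebra x1 x2 (@Vale.Agent.P019P.adj x1 x2 x3 x4))) (@PartialOrder.toPreorder (@IntermediateField (↥(@Vale.Agent.P019P.adj x1 x2 x3 x4)) x1 (@Subfield.toField x1 x2 (@Vale.Agent.P019P.adj x1 x2 x3 x4)) x2 (@Subfield.toAlgebra x1 x2 (@Vale.Agent.P019P.adj x1 x2 x3 x4))) (@SemilatticeSup.toPartialOrder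 (@IntermediateField (↥(@Vale.Agent.P019P.adj x1 x2 x3 x4)) x1 (@Subfield.toField x1 x2 (@Vale.Agent.P019P.adj x1 x2 x3 x4)) x2 (@Subfield.toAlgebra x1 x2 (@Vale.Agent.P019P.adj x1 x2 x3 x4))) (@Lattice.toSemilatticeSup (@IntermediateField (↥(@Vale.Agent.P019P.adj x1 x2 x3 x4)) x1 (@Subfield.toField x1 x2 (@Vale.Agent.P019P.adj x1 x2 x3 x4)) x2 (@Subfield.toAlgebra x1 x2 (@Vale.Agent.P019P.adj x1 x2 x3 x4))) (@CompleteLattice.toLattice (@IntermediateField (↥(@Vale.Agent.P019P.adj x1 x2 x3 x4)) x1 (@Subfield.toField x1 x2 (@Vale.Agent.P019P.adj x1 x2 x3 x4)) x2 (@Subfield.toAlgebra x1 x2 (@Vale.Agent.P019P.adj x1 x2 x3 x4))) (@IntermediateField.instCompleteLattice (↥(@Vale.Agent.P019P.adj x1 x2 x3 x4)) (@Subfield.toField x1 x2 (@Vale.Agent.P019P.adj x1 x2 x3 x4)) x1 x2 (@Subfield.toAlgebra x1 x2 (@Vale.Agent.P019P.adj x1 x2 x3 x4)))))))) (@CompleteLattice.toBoundedOrder (@IntermediateField (↥(@Vale.Agent.P019P.adj x1 x2 x3 x4)) x1 (@Subfield.toField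 x1 x2 (@Vale.Agent.P019P.adj x1 x2 x3 x4)) x2 (@Subfield.toAlgebra x1 x2 (@Vale.Agent.P019P.adj x1 x2 x3 x4))) (@IntermediateField.instCompleteLattice (↥(@Vale.Agent.P019P.adj x1 x2 x3 x4)) (@Subfield.toField x1 x2 (@Vale.Agent.P019P.adj x1 x2 x3 x4)) x1 x2 (@Subfield.toAlgebra x1 x2 (@Vale.Agent.P019P.adj x1 x2 x3 x4)))))))) (@Semifield.toDivisionSemiring (↥(@Top.top (@IntermediateField (↥(@Vale.Agent.P019P.adj x1 x2 x3 x4)) x1 (@Subfield.toField x1 x2 (@Vale.Agent.P019P.adj x1 x2 x3 x4)) x2 (@Subfield.toAlgebra x1 x2 (@Vale.Agent.P019P.adj x1 x2 x3 x4))) (@OrderTop.toTop (@IntermediateField (↥(@Vale.Agent.P019P.adj x1 x2 x3 x4)) x1 (@Subfield.toField x1 x2 (@Vale.Agent.P019P.adj x1 x2 x3 x4)) x2 (@Subfield.toAlgebra x1 x2 (@Vale.Agent.P019P.adj x1 x2 x3 x4))) (@Preorder.toLE (@IntermediateField (↥(@Vale.Agent.P019P.adj x1 x2 x3 x4)) x1 (@Subfield.toField x1 x2 (@Vale.Agent.P019P.adj x1 x2 x3 x4)) x2 (@Subfield.toAlgebra x1 x2 (@Vale.Agent.P019P.adj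 x1 x2 x3 x4))) (@PartialOrder.toPreorder (@IntermediateField (↥(@Vale.Agent.P019P.adj x1 x2 x3 x4)) x1 (@Subfield.toField x1 x2 (@Vale.Agent.P019P.adj x1 x2 x3 x4)) x2 (@Subfield.toAlgebra x1 x2 (@Vale.Agent.P019P.adj x1 x2 x3 x4))) (@SemilatticeSup.toPartialOrder (@IntermediateField (↥(@Vale.Agent.P019P.adj x1 x2 x3 x4)) x1 (@Subfield.toField x1 x2 (@Vale.Agent.P019P.adj x1 x2 x3 x4)) x2 (@Subfield.toAlgebra x1 x2 (@Vale.Agent.P019P.adj x1 x2 x3 x4))) (@Lattice.toSemilatticeSup (@IntermediateField (↥(@Vale.Agent.P019P.adj x1 x2 x3 x4)) x1 (@Subfield.toField x1 x2 (@Vale.Agent.P019P.adj x1 x2 x3 x4)) x2 (@Subfield.toAlgebra x1 x2 (@Vale.Agent.P019P.adj x1 x2 x3 x4))) (@CompleteLattice.toLattice (@IntermediateField (↥(@Vale.Agent.P019P.adj x1 x2 x3 x4)) x1 (@Subfield.toField x1 x2 (@Vale.Agent.P019P.adj x1 x2 x3 x4)) x2 (@Subfield.toAlgebra x1 x2 (@Vale.Agent.P019P.adj x1 x2 x3 x4))) (@IntermediateField.instCompleteLattice (↥(@Vale.Agent.P019P.adj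 x1 x2 x3 x4)) (@Subfield.toField x1 x2 (@Vale.Agent.P019P.adj x1 x2 x3 x4)) x1 x2 (@Subfield.toAlgebra x1 x2 (@Vale.Agent.P019P.adj x1 x2 x3 x4)))))))) (@BoundedOrder.toOrderTop (@IntermediateField (↥(@Vale.Agent.P019P.adj x1 x2 x3 x4)) x1 (@Subfield.toField x1 x2 (@Vale.Agent.P019P.adj x1 x2 x3 x4)) x2 (@Subfield.toAlgebra x1 x2 (@Vale.Agent.P019P.adj x1 x2 x3 x4))) (@Preorder.toLE (@IntermediateField (↥(@Vale.Agent.P019P.adj x1 x2 x3 x4)) x1 (@Subfield.toField x1 x2 (@Vale.Agent.P019P.adj x1 x2 x3 x4)) x2 (@Subfield.toAlgebra x1 x2 (@Vale.Agent.P019P.adj x1 x2 x3 x4))) (@PartialOrder.toPreorder (@IntermediateField (↥(@Vale.Agent.P019P.adj x1 x2 x3 x4)) x1 (@Subfield.toField x1 x2 (@Vale.Agent.P019P.adj x1 x2 x3 x4)) x2 (@Subfield.toAlgebra x1 x2 (@Vale.Agent.P019P.adj x1 x2 x3 x4))) (@SemilatticeSup.toPartialOrder (@IntermediateField (↥(@Vale.Agent.P019P.adj x1 x2 x3 x4)) x1 (@Subfield.toField x1 x2 (@Vale.Agent.P019P.adj x1 x2 x3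 x4)) x2 (@Subfield.toAlgebra x1 x2 (@Vale.Agent.P019P.adj x1 x2 x3 x4))) (@Lattice.toSemilatticeSup (@IntermediateField (↥(@Vale.Agent.P019P.adj x1 x2 x3 x4)) x1 (@Subfield.toField x1 x2 (@Vale.Agent.P019P.adj x1 x2 x3 x4)) x2 (@Subfield.toAlgebra x1 x2 (@Vale.Agent.P019P.adj x1 x2 x3 x4))) (@CompleteLattice.toLattice (@IntermediateField (↥(@Vale.Agent.P019P.adj x1 x2 x3 x4)) x1 (@Subfield.toField x1 x2 (@Vale.Agent.P019P.adj x1 x2 x3 x4)) x2 (@Subfield.toAlgebra x1 x2 (@Vale.Agent.P019P.adj x1 x2 x3 x4))) (@IntermediateField.instCompleteLattice (↥(@Vale.Agent.P019P.adj x1 x2 x3 x4)) (@Subfield.toField x1 x2 (@Vale.Agent.P019P.adj x1 x2 x3 x4)) x1 x2 (@Subfield.toAlgebra x1 x2 (@Vale.Agent.P019P.adj x1 x2 x3 x4)))))))) (@CompleteLattice.toBoundedOrder (@IntermediateField (↥(@Vale.Agent.P019P.adj x1 x2 x3 x4)) x1 (@Subfield.toField x1 x2 (@Vale.Agent.P019P.adj x1 x2 x3 x4)) x2 (@Subfield.toAlgebra x1 x2 (@Vale.Agent.P019P.adj x1 x2 x3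 x4))) (@IntermediateField.instCompleteLattice (↥(@Vale.Agent.P019P.adj x1 x2 x3 x4)) (@Subfield.toField x1 x2 (@Vale.Agent.P019P.adj x1 x2 x3 x4)) x1 x2 (@Subfield.toAlgebra x1 x2 (@Vale.Agent.P019P.adj x1 x2 x3 x4)))))))) (@Field.toSemifield (↥(@Top.top (@IntermediateField (↥(@Vale.Agent.P019P.adj x1 x2 x3 x4)) x1 (@Subfield.toField x1 x2 (@Vale.Agent.P019P.adj x1 x2 x3 x4)) x2 (@Subfield.toAlgebra x1 x2 (@Vale.Agent.P019P.adj x1 x2 x3 x4))) (@OrderTop.toTop (@IntermediateField (↥(@Vale.Agent.P019P.adj x1 x2 x3 x4)) x1 (@Subfield.toField x1 x2 (@Vale.Agent.P019P.adj x1 x2 x3 x4)) x2 (@Subfield.toAlgebra x1 x2 (@Vale.Agent.P019P.adj x1 x2 x3 x4))) (@Preorder.toLE (@IntermediateField (↥(@Vale.Agent.P019P.adj x1 x2 x3 x4)) x1 (@Subfield.toField x1 x2 (@Vale.Agent.P019P.adj x1 x2 x3 x4)) x2 (@Subfield.toAlgebra x1 x2 (@Vale.Agent.P019P.adj x1 x2 x3 x4))) (@PartialOrder.toPreorder (@IntermediateField (↥(@Vale.Agent.P019P.adj x1 x2 x3 x4))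 x1 (@Subfield.toField x1 x2 (@Vale.Agent.P019P.adj x1 x2 x3 x4)) x2 (@Subfield.toAlgebra x1 x2 (@Vale.Agent.P019P.adj x1 x2 x3 x4))) (@SemilatticeSup.toPartialOrder (@IntermediateField (↥(@Vale.Agent.P019P.adj x1 x2 x3 x4)) x1 (@Subfield.toField x1 x2 (@Vale.Agent.P019P.adj x1 x2 x3 x4)) x2 (@Subfield.toAlgebra x1 x2 (@Vale.Agent.P019P.adj x1 x2 x3 x4))) (@Lattice.toSemilatticeSup (@IntermediateField (↥(@Vale.Agent.P019P.adj x1 x2 x3 x4)) x1 (@Subfield.toField x1 x2 (@Vale.Agent.P019P.adj x1 x2 x3 x4)) x2 (@Subfield.toAlgebra x1 x2 (@Vale.Agent.P019P.adj x1 x2 x3 x4))) (@CompleteLattice.toLattice (@IntermediateField (↥(@Vale.Agent.P019P.adj x1 x2 x3 x4)) x1 (@Subfield.toField x1 x2 (@Vale.Agent.P019P.adj x1 x2 x3 x4)) x2 (@Subfield.toAlgebra x1 x2 (@Vale.Agent.P019P.adj x1 x2 x3 x4))) (@IntermediateField.instCompleteLattice (↥(@Vale.Agent.P019P.adj x1 x2 x3 x4)) (@Subfield.toField x1 x2 (@Vale.Agent.P019P.adj x1 x2 x3 x4)) x1 x2 (@Subfield.toAlgebra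 x1 x2 (@Vale.Agent.P019P.adj x1 x2 x3 x4)))))))) (@BoundedOrder.toOrderTop (@IntermediateField (↥(@Vale.Agent.P019P.adj x1 x2 x3 x4)) x1 (@Subfield.toField x1 x2 (@Vale.Agent.P019P.adj x1 x2 x3 x4)) x2 (@Subfield.toAlgebra x1 x2 (@Vale.Agent.P019P.adj x1 x2 x3 x4))) (@Preorder.toLE (@IntermediateField (↥(@Vale.Agent.P019P.adj x1 x2 x3 x4)) x1 (@Subfield.toField x1 x2 (@Vale.Agent.P019P.adj x1 x2 x3 x4)) x2 (@Subfield.toAlgebra x1 x2 (@Vale.Agent.P019P.adj x1 x2 x3 x4))) (@PartialOrder.toPreorder (@IntermediateField (↥(@Vale.Agent.P019P.adj x1 x2 x3 x4)) x1 (@Subfield.toField x1 x2 (@Vale.Agent.P019P.adj x1 x2 x3 x4)) x2 (@Subfield.toAlgebra x1 x2 (@Vale.Agent.P019P.adj x1 x2 x3 x4))) (@SemilatticeSup.toPartialOrder (@IntermediateField (↥(@Vale.Agent.P019P.adj x1 x2 x3 x4)) x1 (@Subfield.toField x1 x2 (@Vale.Agent.P019P.adj x1 x2 x3 x4)) x2 (@Subfield.toAlgebra x1 x2 (@Vale.Agent.P019P.adj x1 x2 x3 x4))) (@Lattice.toSemilatticeSup (@IntermediateField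 (↥(@Vale.Agent.P019P.adj x1 x2 x3 x4)) x1 (@Subfield.toField x1 x2 (@Vale.Agent.P019P.adj x1 x2 x3 x4)) x2 (@Subfield.toAlgebra x1 x2 (@Vale.Agent.P019P.adj x1 x2 x3 x4))) (@CompleteLattice.toLattice (@IntermediateField (↥(@Vale.Agent.P019P.adj x1 x2 x3 x4)) x1 (@Subfield.toField x1 x2 (@Vale.Agent.P019P.adj x1 x2 x3 x4)) x2 (@Subfield.toAlgebra x1 x2 (@Vale.Agent.P019P.adj x1 x2 x3 x4))) (@IntermediateField.instCompleteLattice (↥(@Vale.Agent.P019P.adj x1 x2 x3 x4)) (@Subfield.toField x1 x2 (@Vale.Agent.P019P.adj x1 x2 x3 x4)) x1 x2 (@Subfield.toAlgebra x1 x2 (@Vale.Agent.P019P.adj x1 x2 x3 x4)))))))) (@CompleteLattice.toBoundedOrder (@IntermediateField (↥(@Vale.Agent.P019P.adj x1 x2 x3 x4)) x1 (@Subfield.toField x1 x2 (@Vale.Agent.P019P.adj x1 x2 x3 x4)) x2 (@Subfield.toAlgebra x1 x2 (@Vale.Agent.P019P.adj x1 x2 x3 x4))) (@IntermediateField.instCompleteLattice (↥(@Vale.Agent.P019P.adj x1 x2 x3 x4)) (@Subfield.toField x1 x2 (@Vale.Agent.P019P.adj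 x1 x2 x3 x4)) x1 x2 (@Subfield.toAlgebra x1 x2 (@Vale.Agent.P019P.adj x1 x2 x3 x4)))))))) (@IntermediateField.toField (↥(@Vale.Agent.P019P.adj x1 x2 x3 x4)) x1 (@Subfield.toField x1 x2 (@Vale.Agent.P019P.adj x1 x2 x3 x4)) x2 (@Subfield.toAlgebra x1 x2 (@Vale.Agent.P019P.adj x1 x2 x3 x4)) (@Top.top (@IntermediateField (↥(@Vale.Agent.P019P.adj x1 x2 x3 x4)) x1 (@Subfield.toField x1 x2 (@Vale.Agent.P019P.adj x1 x2 x3 x4)) x2 (@Subfield.toAlgebra x1 x2 (@Vale.Agent.P019P.adj x1 x2 x3 x4))) (@OrderTop.toTop (@IntermediateField (↥(@Vale.Agent.P019P.adj x1 x2 x3 x4)) x1 (@Subfield.toField x1 x2 (@Vale.Agent.P019P.adj x1 x2 x3 x4)) x2 (@Subfield.toAlgebra x1 x2 (@Vale.Agent.P019P.adj x1 x2 x3 x4))) (@Preorder.toLE (@IntermediateField (↥(@Vale.Agent.P019P.adj x1 x2 x3 x4)) x1 (@Subfield.toField x1 x2 (@Vale.Agent.P019P.adj x1 x2 x3 x4)) x2 (@Subfield.toAlgebra x1 x2 (@Vale.Agent.P019P.adj x1 x2 x3 x4))) (@PartialOrder.toPreorder (@IntermediateField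 (↥(@Vale.Agent.P019P.adj x1 x2 x3 x4)) x1 (@Subfield.toField x1 x2 (@Vale.Agent.P019P.adj x1 x2 x3 x4)) x2 (@Subfield.toAlgebra x1 x2 (@Vale.Agent.P019P.adj x1 x2 x3 x4))) (@SemilatticeSup.toPartialOrder (@IntermediateField (↥(@Vale.Agent.P019P.adj x1 x2 x3 x4)) x1 (@Subfield.toField x1 x2 (@Vale.Agent.P019P.adj x1 x2 x3 x4)) x2 (@Subfield.toAlgebra x1 x2 (@Vale.Agent.P019P.adj x1 x2 x3 x4))) (@Lattice.toSemilatticeSup (@IntermediateField (↥(@Vale.Agent.P019P.adj x1 x2 x3 x4)) x1 (@Subfield.toField x1 x2 (@Vale.Agent.P019P.adj x1 x2 x3 x4)) x2 (@Subfield.toAlgebra x1 x2 (@Vale.Agent.P019P.adj x1 x2 x3 x4))) (@CompleteLattice.toLattice (@IntermediateField (↥(@Vale.Agent.P019P.adj x1 x2 x3 x4)) x1 (@Subfield.toField x1 x2 (@Vale.Agent.P019P.adj x1 x2 x3 x4)) x2 (@Subfield.toAlgebra x1 x2 (@Vale.Agent.P019P.adj x1 x2 x3 x4))) (@IntermediateField.instCompleteLattice (↥(@Vale.Agent.P019P.adj x1 x2 x3 x4)) (@Subfield.toField x1 x2 (@Vale.Agent.P019P.adj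 x1 x2 x3 x4)) x1 x2 (@Subfield.toAlgebra x1 x2 (@Vale.Agent.P019P.adj x1 x2 x3 x4)))))))) (@BoundedOrder.toOrderTop (@IntermediateField (↥(@Vale.Agent.P019P.adj x1 x2 x3 x4)) x1 (@Subfield.toField x1 x2 (@Vale.Agent.P019P.adj x1 x2 x3 x4)) x2 (@Subfield.toAlgebra x1 x2 (@Vale.Agent.P019P.adj x1 x2 x3 x4))) (@Preorder.toLE (@IntermediateField (↥(@Vale.Agent.P019P.adj x1 x2 x3 x4)) x1 (@Subfield.toField x1 x2 (@Vale.Agent.P019P.adj x1 x2 x3 x4)) x2 (@Subfield.toAlgebra x1 x2 (@Vale.Agent.P019P.adj x1 x2 x3 x4))) (@PartialOrder.toPreorder (@IntermediateField (↥(@Vale.Agent.P019P.adj x1 x2 x3 x4)) x1 (@Subfield.toField x1 x2 (@Vale.Agent.P019P.adj x1 x2 x3 x4)) x2 (@Subfield.toAlgebra x1 x2 (@Vale.Agent.P019P.adj x1 x2 x3 x4))) (@SemilatticeSup.toPartialOrder (@IntermediateField (↥(@Vale.Agent.P019P.adj x1 x2 x3 x4)) x1 (@Subfield.toField x1 x2 (@Vale.Agent.P019P.adj x1 x2 x3 x4)) x2 (@Subfield.toAlgebra x1 x2 (@Vale.Agent.P019P.adj x1 x2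 x3 x4))) (@Lattice.toSemilatticeSup (@IntermediateField (↥(@Vale.Agent.P019P.adj x1 x2 x3 x4)) x1 (@Subfield.toField x1 x2 (@Vale.Agent.P019P.adj x1 x2 x3 x4)) x2 (@Subfield.toAlgebra x1 x2 (@Vale.Agent.P019P.adj x1 x2 x3 x4))) (@CompleteLattice.toLattice (@IntermediateField (↥(@Vale.Agent.P019P.adj x1 x2 x3 x4)) x1 (@Subfield.toField x1 x2 (@Vale.Agent.P019P.adj x1 x2 x3 x4)) x2 (@Subfield.toAlgebra x1 x2 (@Vale.Agent.P019P.adj x1 x2 x3 x4))) (@IntermediateField.instCompleteLattice (↥(@Vale.Agent.P019P.adj x1 x2 x3 x4)) (@Subfield.toField x1 x2 (@Vale.Agent.P019P.adj x1 x2 x3 x4)) x1 x2 (@Subfield.toAlgebra x1 x2 (@Vale.Agent.P019P.adj x1 x2 x3 x4)))))))) (@CompleteLattice.toBoundedOrder (@IntermediateField (↥(@Vale.Agent.P019P.adj x1 x2 x3 x4)) x1 (@Subfield.toField x1 x2 (@Vale.Agent.P019P.adj x1 x2 x3 x4)) x2 (@Subfield.toAlgebra x1 x2 (@Vale.Agent.P019P.adj x1 x2 x3 x4))) (@IntermediateField.instCompleteLattice (↥(@Vale.Agent.P019P.adj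 x1 x2 x3 x4)) (@Subfield.toField x1 x2 (@Vale.Agent.P019P.adj x1 x2 x3 x4)) x1 x2 (@Subfield.toAlgebra x1 x2 (@Vale.Agent.P019P.adj x1 x2 x3 x4)))))))))))) := inferInstance
@[reducible] def a5.{u1} {x1 : Type u1} [x2 : Field x1] {x3 : Subalgebra ℤ x1} {x4 : Type u1} [x5 : Field x4] [x6 : Algebra x1 x4] {x7 : Subalgebra (↥x3) x4} : Algebra ↥x3 ↥x7 := inferInstance
@[reducible] def a6.{u1, u2} {x1 : Type u1} [x2 : Field x1] {x3 : Subalgebra ℤ x1} {x4 : Type u2} [x5 : Field x4] [x6 : Algebra x1 x4] {x7 : Subalgebra (↥x3) x4} : Module ↥x3 ↥x7 := inferInstance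
theorem a7.{u1} {x1 : Type u1} [x2 : Field x1] {x3 : Subfield x1} {x4 : IntermediateField (↥x3) x1} : IsScalarTower ↥x3 ↥x3 ↥x4 := inferInstance
theorem a8.{u1, u2} {x1 : Type u1} {x2 : Type u2} [x3 : Field x1] [x4 : Field x2] [x5 : Algebra x1 x2] : AddHomClass ((Vale.Agent.P019P.Plk x1 x2 →₀ ℤ) →+ ℤ) (Vale.Agent.P019P.Plk x1 x2 →₀ ℤ) ℤ := inferInstance
theorem a9.{u1} {x1 : Type u1} [x2 : Field x1] {x3 : Subfield x1} {x4 : x1} : IsScalarTower (↥(Vale.Agent.P019P.adj x3 x4)) (↥(Vale.Agent.P019P.adj x3 x4)) x1 := inferInstance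
end AFastb78d8dx8b
attribute [local instance] AFastb78d8dx8b.a0 AFastb78d8dx8b.a1 AFastb78d8dx8b.a2 AFastb78d8dx8b.a3
  AFastb78d8dx8b.a4 AFastb78d8dx8b.a5 AFastb78d8dx8b.a6 AFastb78d8dx8b.a7 AFastb78d8dx8b.a8
  AFastb78d8dx8b.a9
attribute [local instance] O19.fr O19.tf O19.pj O19.fl

section

section

/-!
# Rigid elements and valuation rings

`LTData ℓ F Q` packages a logarithm `φ : F → Q` to a `ZMod ℓ`-module together with a
submodule `T` such that elements outside `T` are rigid, and one non-rigid element `g`.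
The main result `LTData.exists_valuationSubring` produces a valuation ring.
-/

namespace Vale.Agent.P019

structure LTData (ℓ : ℕ) (F : Type*) [Field F] (Q : Type*) [AddCommGroup Q]
    [Module (ZMod ℓ) Q] where
  φ : F → Q
  T : Submodule (ZMod ℓ) Q
  zero : φ 0 = 0
  mul : ∀ x y, x ≠ 0 → y ≠ 0 → φ (x * y) = φ x + φ y
  neg1 : φ (-1) = 0
  rig : ∀ x, φ x ∉ T → ∃ c : ZMod ℓ, φ (1 - x) = c • φ x
  g : F
  nr : ∀ i j : ZMod ℓ, i • φ g + j • φ (1 - g) = 0 → i = 0 ∧ j = 0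

namespace LTData

set_option linter.unusedSectionVars false

variable {ℓ : ℕ} [Fact ℓ.Prime] {F : Type*} [Field F] {Q : Type*} [AddCommGroup Q]
    [Module (ZMod ℓ) Q] (D : LTData ℓ F Q)

theorem one : D.φ 1 = 0 := by
  have := D.mul 1 1 one_ne_zero one_ne_zero
  rw [mul_one] at this
  simpa using this

theorem neg (x : F) : D.φ (-x) = D.φ x := by
  by_cases hx : x = 0
  · simp [hx]
  · have h := D.mul (-1) x (by simp) hx
    rw [D.neg1, zero_add] at h
    rw [← h]; congr 1; ring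

theorem inv (x : F) : D.φ x⁻¹ = - D.φ x := by
  by_cases hx : x = 0
  · simp [hx, D.zero]
  · have h := D.mul x x⁻¹ hx (inv_ne_zero hx)
    rw [mul_inv_cancel₀ hx, D.one] at h
    exact eq_neg_of_add_eq_zero_right h.symm

theorem div {x y : F} (hx : x ≠ 0) (hy : y ≠ 0) : D.φ (x / y) = D.φ x - D.φ y := by
  rw [div_eq_mul_inv, D.mul _ _ hx (inv_ne_zero hy), D.inv, sub_eq_add_neg]

theorem ne_zero {x : F} (h : D.φ x ∉ D.T) : x ≠ 0 := by
  rintro rfl
  exact h (by rw [D.zero]; exact D.T.zero_mem)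

theorem ne_one {x : F} (h : D.φ x ∉ D.T) : x ≠ 1 := by
  rintro rfl
  exact h (by rw [D.one]; exact D.T.zero_mem)

theorem one_sub_ne_zero {x : F} (h : D.φ x ∉ D.T) : 1 - x ≠ 0 := by
  intro h0
  exact D.ne_one h (sub_eq_zero.1 h0).symm

theorem one_sub_inv {x : F} (hx : x ≠ 0) (hx1 : 1 - x ≠ 0) :
    D.φ (1 - x⁻¹) = D.φ (1 - x) - D.φ x := by
  have : 1 - x⁻¹ = -((1 - x) / x) := by field_simp; ring
  rw [this, D.neg, D.div hx1 hx]

theorem smul_mem_iff' {c : ZMod ℓ} (hc : c ≠ 0) {v : Q} : c • v ∈ D.T ↔ v ∈ D.T :=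
  D.T.smul_mem_iff hc

/-- non-rigid elements. -/
def NR (x : F) : Prop := ∀ i j : ZMod ℓ, i • D.φ x + j • D.φ (1 - x) = 0 → i = 0 ∧ j = 0

theorem NR.phi_ne_zero {D : LTData ℓ F Q} {x : F} (h : D.NR x) : D.φ x ≠ 0 := by
  intro h0
  have := (h 1 0 (by simp [h0])).1
  exact one_ne_zero this

theorem NR.ne_zero {D : LTData ℓ F Q} {x : F} (h : D.NR x) : x ≠ 0 := by
  rintro rfl
  exact h.phi_ne_zero D.zero

theorem NR.phi_one_sub_ne_zero {D : LTData ℓ F Q} {x : F} (h : D.NR x) : D.φ (1 - x) ≠ 0 := by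
  intro h0
  have := (h 0 1 (by simp [h0])).2
  exact one_ne_zero this

theorem NR.one_sub_ne_zero {D : LTData ℓ F Q} {x : F} (h : D.NR x) : 1 - x ≠ 0 := by
  intro h0
  exact h.phi_one_sub_ne_zero (by rw [h0, D.zero])

theorem NR.mem {D : LTData ℓ F Q} {x : F} (h : D.NR x) : D.φ x ∈ D.T := by
  by_contra hx
  obtain ⟨c, hc⟩ := D.rig x hx
  have := (h c (-1) (by rw [hc]; module)).2
  exact (neg_ne_zero.2 one_ne_zero) this

theorem NR.one_sub {D : LTData ℓ F Q} {x : F} (h : D.NR x) : D.NR (1 - x) := by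
  intro i j hij
  rw [sub_sub_cancel] at hij
  exact (h j i (by rw [← hij]; module)).symm

theorem NR.inv {D : LTData ℓ F Q} {x : F} (h : D.NR x) : D.NR x⁻¹ := by
  intro i j hij
  rw [D.inv, D.one_sub_inv h.ne_zero h.one_sub_ne_zero] at hij
  have := h (-i - j) j (by rw [← hij]; module)
  obtain ⟨h1, h2⟩ := this
  subst h2
  refine ⟨?_, rfl⟩
  simpa using h1

theorem nr_g : D.NR D.g := D.nr

/-- Step 1: elements outside `T` satisfy `φ (1 - z) ∈ {0, φ z}`. -/
theorem dich {z : F} (hz : D.φ z ∉ D.T) : D.φ (1 - z) = 0 ∨ D.φ (1 - z) = D.φ z := by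
  obtain ⟨α, hα⟩ := D.rig z hz
  by_cases hα0 : α = 0
  · left; rw [hα, hα0, zero_smul]
  right
  have hg := D.nr_g
  have hg0 := hg.ne_zero
  have hg1 := hg.one_sub_ne_zero
  have hp := hg.mem
  have hq := hg.one_sub.mem
  have hz0 := D.ne_zero hz
  have hz1 := D.one_sub_ne_zero hz
  have h1z : D.φ (1 - z) ∉ D.T := by rw [hα, D.smul_mem_iff' hα0]; exact hz
  -- first computation
  have hw : D.φ (D.g / (1 - z)) ∉ D.T := by
    rw [D.div hg0 hz1]
    intro h
    exact h1z (by simpa using D.T.sub_mem hp h)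
  obtain ⟨c, hc⟩ := D.rig _ hw
  have hw1 := D.one_sub_ne_zero hw
  have e1 : 1 - z - D.g = (1 - z) * (1 - D.g / (1 - z)) := by field_simp
  have e2 : D.φ (1 - z - D.g) = α • D.φ z + c • (D.φ D.g - α • D.φ z) := by
    rw [e1, D.mul _ _ hz1 hw1, hc, D.div hg0 hz1, hα]
  -- second computation
  have hw' : D.φ (z / (1 - D.g)) ∉ D.T := by
    rw [D.div hz0 hg1]
    intro h
    exact hz (by simpa using D.T.add_mem h hq)
  obtain ⟨d, hd⟩ := D.rig _ hw'
  have hw1' := D.one_sub_ne_zero hw'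
  have e3 : 1 - z - D.g = (1 - D.g) * (1 - z / (1 - D.g)) := by field_simp; ring
  have e4 : D.φ (1 - z - D.g) = D.φ (1 - D.g) + d • (D.φ z - D.φ (1 - D.g)) := by
    rw [e3, D.mul _ _ hg1 hw1', hd, D.div hz0 hg1]
  have e5 := e2.symm.trans e4
  have e6 : (α - c * α - d) • D.φ z = (1 - d) • D.φ (1 - D.g) - c • D.φ D.g := by
    linear_combination (norm := module) e5
  have e7 : α - c * α - d = 0 := by
    by_contra hne
    refine hz ((D.smul_mem_iff' hne).1 ?_)
    rw [e6]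
    exact D.T.sub_mem (D.T.smul_mem _ hq) (D.T.smul_mem _ hp)
  rw [e7, zero_smul] at e6
  obtain ⟨h1, h2⟩ := hg c (d - 1) (by linear_combination (norm := module) e6)
  have : α = 1 := by
    have hd1 : d = 1 := sub_eq_zero.1 h2
    rw [h1, hd1] at e7
    simpa [sub_eq_zero] using e7
  rw [hα, this, one_smul]

/-- the set of elements outside `T` that are small. -/
def S : Set F := {z | D.φ z ∉ D.T ∧ D.φ (1 - z) = 0}

theorem S_ne_zero {z : F} (h : z ∈ D.S) : z ≠ 0 := D.ne_zero h.1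

theorem S_one_sub_ne_zero {z : F} (h : z ∈ D.S) : 1 - z ≠ 0 := D.one_sub_ne_zero h.1

theorem phi_inv_notMem {z : F} (h : D.φ z ∉ D.T) : D.φ z⁻¹ ∉ D.T := by
  rw [D.inv]; simpa using h

theorem inv_mem_S {z : F} (hz : D.φ z ∉ D.T) (h : z ∉ D.S) : z⁻¹ ∈ D.S := by
  refine ⟨D.phi_inv_notMem hz, ?_⟩
  rw [D.one_sub_inv (D.ne_zero hz) (D.one_sub_ne_zero hz)]
  rcases D.dich hz with h1 | h1
  · exact absurd ⟨hz, h1⟩ h
  · rw [h1, sub_self]

theorem not_both {z : F} (h : z ∈ D.S) (h' : z⁻¹ ∈ D.S) : False := by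
  have h1 := h'.2
  rw [D.one_sub_inv (D.S_ne_zero h) (D.S_one_sub_ne_zero h), h.2, zero_sub, neg_eq_zero] at h1
  exact h.1 (by rw [h1]; exact D.T.zero_mem)

/-- `φ (1 - x y) ∈ {0, φ x}` for `x, y ∈ S`. -/
theorem one_sub_mul {x y : F} (hx : x ∈ D.S) (hy : y ∈ D.S) :
    D.φ (1 - x * y) = 0 ∨ D.φ (1 - x * y) = D.φ x := by
  have hx0 := D.S_ne_zero hx
  have hx1 := D.S_one_sub_ne_zero hx
  have hy1 := D.S_one_sub_ne_zero hy
  have e : D.φ (-(x * (1 - y) / (1 - x))) = D.φ x := by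
    rw [D.neg, D.div (mul_ne_zero hx0 hy1) hx1, D.mul _ _ hx0 hy1, hx.2, hy.2, add_zero, sub_zero]
  have hw : D.φ (-(x * (1 - y) / (1 - x))) ∉ D.T := by rw [e]; exact hx.1
  have hw1 := D.one_sub_ne_zero hw
  have e1 : 1 - x * y = (1 - x) * (1 - -(x * (1 - y) / (1 - x))) := by field_simp; ring
  have e2 : D.φ (1 - x * y) = D.φ (1 - -(x * (1 - y) / (1 - x))) := by
    rw [e1, D.mul _ _ hx1 hw1, hx.2, zero_add]
  rw [e2]
  rcases D.dich hw with h | h
  · exact Or.inl h
  · right; rw [h, e]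

/-- the key product property. -/
theorem prod {x y : F} (hx : x ∈ D.S) (hy : y ∈ D.S) (h : D.φ (x * y) ≠ 0) :
    D.φ (1 - x * y) = 0 := by
  rcases D.one_sub_mul hx hy with h1 | h1
  · exact h1
  have h2' := D.one_sub_mul hy hx
  rw [mul_comm y x] at h2'
  rcases h2' with h2 | h2
  · exact h2
  exfalso
  have hxy : D.φ x = D.φ y := h1.symm.trans h2
  have hmul := D.mul x y (D.S_ne_zero hx) (D.S_ne_zero hy)
  by_cases hT : D.φ (x * y) ∈ D.T
  · have e : D.φ (x * y) = (2 : ZMod ℓ) • D.φ x := by rw [hmul, ← hxy]; module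
    by_cases h20 : (2 : ZMod ℓ) = 0
    · rw [e, h20, zero_smul] at h; exact h rfl
    · rw [e, D.smul_mem_iff' h20] at hT
      exact hx.1 hT
  · rcases D.dich hT with h3 | h3
    · rw [h1] at h3
      exact hx.1 (by rw [h3]; exact D.T.zero_mem)
    · rw [h1, hmul] at h3
      have : D.φ y = 0 := by simpa using h3
      exact hy.1 (by rw [this]; exact D.T.zero_mem)

theorem mul_mem_S {x y : F} (hx : x ∈ D.S) (hy : y ∈ D.S) (h : D.φ (x * y) ∉ D.T) :
    x * y ∈ D.S :=
  ⟨h, D.prod hx hy (fun h0 => h (by rw [h0]; exact D.T.zero_mem))⟩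

theorem phi_mul_notMem {u s : F} (hu0 : u ≠ 0) (hu : D.φ u ∈ D.T) (hs : D.φ s ∉ D.T) :
    D.φ (u * s) ∉ D.T := by
  rw [D.mul _ _ hu0 (D.ne_zero hs)]
  intro h
  exact hs (by simpa using D.T.sub_mem h hu)

/-- the stabilizer-type set. -/
def P : Set F := {y | y ≠ 0 ∧ D.φ y ∈ D.T ∧ ∀ s ∈ D.S, y * s ∈ D.S}

theorem mul_P {y y' : F} (h : y ∈ D.P) (h' : y' ∈ D.P) : y * y' ∈ D.P := by
  refine ⟨mul_ne_zero h.1 h'.1, ?_, ?_⟩
  · rw [D.mul _ _ h.1 h'.1]; exact D.T.add_mem h.2.1 h'.2.1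
  · intro s hs
    rw [mul_assoc]
    exact h.2.2 _ (h'.2.2 s hs)

theorem NR.mem_P {D : LTData ℓ F Q} {x : F} (h : D.NR x) : x ∈ D.P := by
  refine ⟨h.ne_zero, h.mem, ?_⟩
  intro s hs
  by_contra hns
  have h1 : D.φ (x * s) ∉ D.T := D.phi_mul_notMem h.ne_zero h.mem hs.1
  have h2 := D.inv_mem_S h1 hns
  have hs0 := D.S_ne_zero hs
  have hx0 := h.ne_zero
  have e : s * (x * s)⁻¹ = x⁻¹ := by field_simp
  have h3 := D.prod hs h2
  rw [e] at h3
  have h4 := h3 (by rw [D.inv]; exact neg_ne_zero.2 h.phi_ne_zero)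
  exact h.inv.phi_one_sub_ne_zero h4

theorem inv_g_mem_P : (D.g)⁻¹ ∈ D.P := D.nr_g.inv.mem_P

theorem g_mem_P : D.g ∈ D.P := D.nr_g.mem_P

theorem nr_div {x : F} (hx : x ∈ D.S) : D.NR (D.g / (1 - x)) := by
  have hg := D.nr_g
  have hg0 := hg.ne_zero
  have hg1 := hg.one_sub_ne_zero
  have hx1 := D.S_one_sub_ne_zero hx
  have hx0 := D.S_ne_zero hx
  have h1 : (1 - D.g)⁻¹ * x ∈ D.S := hg.one_sub.inv.mem_P.2.2 x hx
  have h2 := h1.2
  have h3 := D.S_one_sub_ne_zero h1
  have e : 1 - D.g / (1 - x) = (1 - D.g) * (1 - (1 - D.g)⁻¹ * x) / (1 - x) := by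
    field_simp; ring
  have e1 : D.φ (1 - D.g / (1 - x)) = D.φ (1 - D.g) := by
    rw [e, D.div (mul_ne_zero hg1 h3) hx1, D.mul _ _ hg1 h3, h2, hx.2, add_zero, sub_zero]
  have e2 : D.φ (D.g / (1 - x)) = D.φ D.g := by
    rw [D.div hg0 hx1, hx.2, sub_zero]
  intro i j hij
  rw [e1, e2] at hij
  exact hg i j hij

theorem one_sub_mem_P {x : F} (hx : x ∈ D.S) : 1 - x ∈ D.P := by
  have h1 := (D.nr_div hx).inv.mem_P
  have h2 := D.mul_P D.g_mem_P h1
  have hx1 := D.S_one_sub_ne_zero hx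
  have hg0 := D.nr_g.ne_zero
  have : D.g * (D.g / (1 - x))⁻¹ = 1 - x := by field_simp
  rwa [this] at h2

theorem inv_one_sub_mem_P {x : F} (hx : x ∈ D.S) : (1 - x)⁻¹ ∈ D.P := by
  have h1 := (D.nr_div hx).mem_P
  have h2 := D.mul_P D.inv_g_mem_P h1
  have hx1 := D.S_one_sub_ne_zero hx
  have hg0 := D.nr_g.ne_zero
  have : D.g⁻¹ * (D.g / (1 - x)) = (1 - x)⁻¹ := by field_simp
  rwa [this] at h2

theorem one_mem_P : (1 : F) ∈ D.P :=
  ⟨one_ne_zero, by rw [D.one]; exact D.T.zero_mem, fun s hs => by rwa [one_mul]⟩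

theorem neg_mem_S {s : F} (hs : s ∈ D.S) : -s ∈ D.S := by
  by_contra hns
  have h1 : D.φ (-s) ∉ D.T := by rw [D.neg]; exact hs.1
  have h2 := D.inv_mem_S h1 hns
  have hs0 := D.S_ne_zero hs
  have hg := D.nr_g
  have key : ∀ u, u ∈ D.P → D.φ u ≠ 0 → D.φ (1 + u) = 0 := by
    intro u hu hu0
    have h3 := D.prod (hu.2.2 s hs) h2
    have e : u * s * (-s)⁻¹ = -u := by field_simp
    rw [e, D.neg] at h3
    have := h3 hu0
    rwa [sub_neg_eq_add] at this
  have k1 := key _ D.g_mem_P hg.phi_ne_zero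
  have k2 := key _ D.inv_g_mem_P (by rw [D.inv]; exact neg_ne_zero.2 hg.phi_ne_zero)
  have hg0 := hg.ne_zero
  by_cases hg1 : 1 + D.g = 0
  · have : D.g = -1 := by linear_combination hg1
    exact hg.phi_ne_zero (by rw [this, D.neg1])
  · have e : 1 + (D.g)⁻¹ = (1 + D.g) / D.g := by field_simp; ring
    rw [e, D.div hg1 hg0, k1, zero_sub, neg_eq_zero] at k2
    exact hg.phi_ne_zero k2

theorem neg_one_mem_P : (-1 : F) ∈ D.P :=
  ⟨by simp, by rw [D.neg1]; exact D.T.zero_mem, fun s hs => by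
    rw [neg_one_mul]; exact D.neg_mem_S hs⟩

/-- Step 4: comparability. -/
theorem comparable {y : F} (hy0 : y ≠ 0) (hy : D.φ y ∈ D.T) : y ∈ D.P ∨ y⁻¹ ∈ D.P := by
  by_contra hcon
  push Not at hcon
  obtain ⟨hc1, hc2⟩ := hcon
  have hyi : D.φ y⁻¹ ∈ D.T := by rw [D.inv]; exact D.T.neg_mem hy
  have hs : ∃ s ∈ D.S, y * s ∉ D.S := by
    by_contra hne
    push Not at hne
    exact hc1 ⟨hy0, hy, hne⟩
  have ht : ∃ t ∈ D.S, y⁻¹ * t ∉ D.S := by
    by_contra hne
    push Not at hne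
    exact hc2 ⟨inv_ne_zero hy0, hyi, hne⟩
  obtain ⟨s, hs, hys⟩ := hs
  obtain ⟨t, ht, hyt⟩ := ht
  have hs0 := D.S_ne_zero hs
  have ht0 := D.S_ne_zero ht
  have h1 := D.inv_mem_S (D.phi_mul_notMem hy0 hy hs.1) hys
  have h2 := D.inv_mem_S (D.phi_mul_notMem (inv_ne_zero hy0) hyi ht.1) hyt
  have key : ∀ u, u ∈ D.P → u⁻¹ ∈ D.P → D.φ u = D.φ y := by
    intro u hu hui
    by_contra hne
    have hu0 := hu.1
    have k1 := D.prod (hu.2.2 s hs) h1
    have e1 : u * s * (y * s)⁻¹ = u / y := by field_simp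
    rw [e1, D.div hu0 hy0] at k1
    have k1 := k1 (sub_ne_zero.2 hne)
    have k2 := D.prod (hui.2.2 t ht) h2
    have e2 : u⁻¹ * t * (y⁻¹ * t)⁻¹ = (u / y)⁻¹ := by field_simp
    rw [e2, D.inv, D.div hu0 hy0] at k2
    have k2 := k2 (neg_ne_zero.2 (sub_ne_zero.2 hne))
    by_cases h10 : 1 - u / y = 0
    · have : u / y = 1 := (sub_eq_zero.1 h10).symm
      rw [div_eq_one_iff_eq hy0] at this
      exact hne (by rw [this])
    · rw [D.one_sub_inv (div_ne_zero hu0 hy0) h10, k1, zero_sub, neg_eq_zero,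
        D.div hu0 hy0, sub_eq_zero] at k2
      exact hne k2
  have a1 := key 1 D.one_mem_P (by rw [inv_one]; exact D.one_mem_P)
  have a2 := key D.g D.g_mem_P D.inv_g_mem_P
  rw [D.one] at a1
  exact D.nr_g.phi_ne_zero (a2.trans a1.symm)

/-- the carrier of the valuation ring. -/
def O : Set F := {z | z = 0 ∨ z ∈ D.S ∨ z ∈ D.P}

theorem zero_mem_O : (0 : F) ∈ D.O := Or.inl rfl

theorem S_sub_O {z : F} (h : z ∈ D.S) : z ∈ D.O := Or.inr (Or.inl h)

theorem P_sub_O {z : F} (h : z ∈ D.P) : z ∈ D.O := Or.inr (Or.inr h)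

theorem mem_or_inv (z : F) : z ∈ D.O ∨ z⁻¹ ∈ D.O := by
  by_cases hz0 : z = 0
  · left; rw [hz0]; exact D.zero_mem_O
  by_cases hz : D.φ z ∈ D.T
  · rcases D.comparable hz0 hz with h | h
    · exact Or.inl (D.P_sub_O h)
    · exact Or.inr (D.P_sub_O h)
  · by_cases h : z ∈ D.S
    · exact Or.inl (D.S_sub_O h)
    · exact Or.inr (D.S_sub_O (D.inv_mem_S hz h))

theorem mul_S_S {s t : F} (hs : s ∈ D.S) (ht : t ∈ D.S) : s * t ∈ D.O := by
  by_cases h : D.φ (s * t) ∈ D.T
  · have hs0 := D.S_ne_zero hs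
    have ht0 := D.S_ne_zero ht
    rcases D.comparable (mul_ne_zero hs0 ht0) h with h1 | h1
    · exact D.P_sub_O h1
    · exfalso
      have h2 := h1.2.2 s hs
      have e : (s * t)⁻¹ * s = t⁻¹ := by field_simp
      rw [e] at h2
      exact D.not_both ht h2
  · exact D.S_sub_O (D.mul_mem_S hs ht h)

theorem mul_mem_O {x y : F} (hx : x ∈ D.O) (hy : y ∈ D.O) : x * y ∈ D.O := by
  rcases hx with rfl | hx | hx
  · rw [zero_mul]; exact D.zero_mem_O
  · rcases hy with rfl | hy | hy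
    · rw [mul_zero]; exact D.zero_mem_O
    · exact D.mul_S_S hx hy
    · rw [mul_comm]; exact D.S_sub_O (hy.2.2 x hx)
  · rcases hy with rfl | hy | hy
    · rw [mul_zero]; exact D.zero_mem_O
    · exact D.S_sub_O (hx.2.2 y hy)
    · exact D.P_sub_O (D.mul_P hx hy)

theorem one_sub_mem_O {x : F} (hx : x ∈ D.O) : 1 - x ∈ D.O := by
  rcases hx with rfl | hx | hx
  · rw [sub_zero]; exact D.P_sub_O D.one_mem_P
  · exact D.P_sub_O (D.one_sub_mem_P hx)
  · by_cases h0 : 1 - x = 0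
    · rw [h0]; exact D.zero_mem_O
    by_cases hT : D.φ (1 - x) ∈ D.T
    · refine D.P_sub_O ⟨h0, hT, ?_⟩
      intro s hs
      refine ⟨D.phi_mul_notMem h0 hT hs.1, ?_⟩
      have hxs : x * s ∈ D.S := hx.2.2 s hs
      have h1 : (1 - s)⁻¹ * (x * s) ∈ D.S := (D.inv_one_sub_mem_P hs).2.2 _ hxs
      have h2 := D.neg_mem_S h1
      have hs1 := D.S_one_sub_ne_zero hs
      have h3 := D.S_one_sub_ne_zero h2
      have e : 1 - (1 - x) * s = (1 - s) * (1 - -((1 - s)⁻¹ * (x * s))) := by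
        field_simp; ring
      rw [e, D.mul _ _ hs1 h3, hs.2, h2.2, add_zero]
    · by_cases hS : 1 - x ∈ D.S
      · exact D.S_sub_O hS
      · exfalso
        have h1 := D.inv_mem_S hT hS
        have h2 := hx.2.2 _ h1
        have e : 1 - (1 - x)⁻¹ = -(x * (1 - x)⁻¹) := by field_simp; ring
        have h3 := h1.2
        rw [e, D.neg] at h3
        exact h2.1 (by rw [h3]; exact D.T.zero_mem)

theorem neg_mem_O {x : F} (hx : x ∈ D.O) : -x ∈ D.O := by
  have := D.mul_mem_O (D.P_sub_O D.neg_one_mem_P) hx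
  rwa [neg_one_mul] at this

theorem add_mem_O {x y : F} (hx : x ∈ D.O) (hy : y ∈ D.O) : x + y ∈ D.O := by
  by_cases hx0 : x = 0
  · rw [hx0, zero_add]; exact hy
  by_cases hy0 : y = 0
  · rw [hy0, add_zero]; exact hx
  rcases D.mem_or_inv (y / x) with h | h
  · have h1 := D.one_sub_mem_O (D.neg_mem_O h)
    have h2 := D.mul_mem_O hx h1
    have e : x * (1 - -(y / x)) = x + y := by field_simp; ring
    rwa [e] at h2
  · rw [inv_div] at h
    have h1 := D.one_sub_mem_O (D.neg_mem_O h)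
    have h2 := D.mul_mem_O hy h1
    have e : y * (1 - -(x / y)) = x + y := by field_simp; ring
    rwa [e] at h2

/-- the valuation ring. -/
def ring : ValuationSubring F where
  carrier := D.O
  mul_mem' := D.mul_mem_O
  one_mem' := D.P_sub_O D.one_mem_P
  add_mem' := D.add_mem_O
  zero_mem' := D.zero_mem_O
  neg_mem' := D.neg_mem_O
  mem_or_inv_mem' := D.mem_or_inv

theorem mem_ring {z : F} : z ∈ D.ring ↔ z ∈ D.O := Iff.rfl

theorem unit_mem {z : F} (hz0 : z ≠ 0) (h : z ∈ D.O) (h' : z⁻¹ ∈ D.O) : D.φ z ∈ D.T := by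
  by_contra hz
  have h1 : z ∈ D.S := by
    rcases h with h | h | h
    · exact absurd h hz0
    · exact h
    · exact absurd h.2.1 hz
  have hzi := D.phi_inv_notMem hz
  have h2 : z⁻¹ ∈ D.S := by
    rcases h' with h' | h' | h'
    · exact absurd h' (inv_ne_zero hz0)
    · exact h'
    · exact absurd h'.2.1 hzi
  exact D.not_both h1 h2

theorem one_add_of_lt {z : F} (hz0 : z ≠ 0) (h : z⁻¹ ∉ D.O) : D.φ (1 + z) = 0 := by
  have hz : z ∈ D.O := (D.mem_or_inv z).resolve_right h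
  rcases hz with hz | hz | hz
  · exact absurd hz hz0
  · have := (D.neg_mem_S hz).2
    rwa [sub_neg_eq_add] at this
  · -- `z` is a product of two elements of `S`
    have hzi : D.φ z⁻¹ ∈ D.T := by rw [D.inv]; exact D.T.neg_mem hz.2.1
    have hs : ∃ s ∈ D.S, z⁻¹ * s ∉ D.S := by
      by_contra hne
      push Not at hne
      exact h (D.P_sub_O ⟨inv_ne_zero hz0, hzi, hne⟩)
    obtain ⟨s, hs, hns⟩ := hs
    have hy := D.inv_mem_S (D.phi_mul_notMem (inv_ne_zero hz0) hzi hs.1) hns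
    set y := (z⁻¹ * s)⁻¹ with hydef
    have hs0 := D.S_ne_zero hs
    have e : z = s * y := by rw [hydef]; field_simp
    have hms := D.neg_mem_S hs
    have h1 : (1 - -s)⁻¹ ∈ D.P := D.inv_one_sub_mem_P hms
    have h2 : (1 - y) * s ∈ D.S := (D.one_sub_mem_P hy).2.2 s hs
    have h3 : (1 - -s)⁻¹ * ((1 - y) * s) ∈ D.S := h1.2.2 _ h2
    have h4 := D.S_one_sub_ne_zero h3
    have h5 := D.S_one_sub_ne_zero hms
    have e2 : 1 + z = (1 - -s) * (1 - (1 - -s)⁻¹ * ((1 - y) * s)) := by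
      rw [e]; field_simp; ring
    rw [e2, D.mul _ _ h5 h4, hms.2, h3.2, add_zero]

/-- **The rigid element theorem.** -/
theorem exists_valuationSubring :
    ∃ O : ValuationSubring F, (∀ z, O.valuation z = 1 → D.φ z ∈ D.T) ∧
      (∀ z, O.valuation z < 1 → D.φ (1 + z) = 0) := by
  refine ⟨D.ring, ?_, ?_⟩
  · intro z hz
    have hz0 : z ≠ 0 := by
      rintro rfl
      rw [map_zero] at hz
      exact zero_ne_one hz
    refine D.unit_mem hz0 ?_ ?_
    · rw [← D.mem_ring, ← ValuationSubring.valuation_le_one_iff, hz]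
    · rw [← D.mem_ring, ← ValuationSubring.valuation_le_one_iff, map_inv₀, hz, inv_one]
  · intro z hz
    by_cases hz0 : z = 0
    · rw [hz0, add_zero, D.one]
    refine D.one_add_of_lt hz0 ?_
    rw [← D.mem_ring, ← ValuationSubring.valuation_le_one_iff, map_inv₀, not_le]
    exact (one_lt_inv₀ (by
      rw [zero_lt_iff]; exact (Valuation.ne_zero_iff _).2 hz0)).2 hz

end LTData

end Vale.Agent.P019
end
end

section

section

/-!
# Local theory: transferring functionals to valuation rings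
-/

namespace Vale.Agent.P019

open scoped TensorProduct

variable {ℓ : ℕ} [Fact ℓ.Prime] {K L : Type*} [Field K] [Field L]

/-- `cl x`, `cl (1-x)` are proportional modulo `H f` as soon as `f (cl x) ≠ 0`. -/
theorem rigid_mod_H (f : V ℓ K →ₗ[ZMod ℓ] ZMod ℓ) {x : K} (hx : f (cl ℓ x) ≠ 0) :
    cl ℓ (1 - x) - (f (cl ℓ (1 - x)) / f (cl ℓ x)) • cl ℓ x ∈ H f := by
  intro g hg
  have := hg x
  rw [map_sub, map_smul, smul_eq_mul]
  field_simp
  linear_combination this

/-- the induced functional on `V / H f`. -/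
noncomputable def fbar (f : V ℓ K →ₗ[ZMod ℓ] ZMod ℓ) : (V ℓ K ⧸ H f) →ₗ[ZMod ℓ] ZMod ℓ :=
  (H f).liftQ f (fun _ hv => H_le_ker f hv)

/-- the data for the rigid element theorem attached to a functional. -/
noncomputable def ltData (hneg : ∃ i : K, i ^ ℓ = -1) (f : V ℓ K →ₗ[ZMod ℓ] ZMod ℓ) (g : K)
    (hg : ∀ i j : ZMod ℓ, i • cl ℓ g + j • cl ℓ (1 - g) ∈ H f → i = 0 ∧ j = 0) :
    LTData ℓ K (V ℓ K ⧸ H f) where
  φ z := (H f).mkQ (cl ℓ z)
  T := LinearMap.ker (fbar f)
  zero := by rw [cl_zero, map_zero]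
  mul x y hx hy := by rw [cl_mul ℓ hx hy, map_add]
  neg1 := by rw [cl_neg ℓ hneg, cl_one, map_zero]
  rig x hx := by
    have hx' : f (cl ℓ x) ≠ 0 := hx
    refine ⟨f (cl ℓ (1 - x)) / f (cl ℓ x), ?_⟩
    rw [← map_smul, ← sub_eq_zero, ← map_sub, Submodule.mkQ_apply, Submodule.Quotient.mk_eq_zero]
    exact rigid_mod_H f hx'
  g := g
  nr i j hij := by
    refine hg i j ?_
    rw [← map_smul, ← map_smul, ← map_add, Submodule.mkQ_apply,
      Submodule.Quotient.mk_eq_zero] at hij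
    exact hij

theorem exists_valuation_of_functional (hneg : ∃ i : K, i ^ ℓ = -1)
    (f : V ℓ K →ₗ[ZMod ℓ] ZMod ℓ) (g : K)
    (hg : ∀ i j : ZMod ℓ, i • cl ℓ g + j • cl ℓ (1 - g) ∈ H f → i = 0 ∧ j = 0) :
    ∃ O : ValuationSubring K, (∀ z, O.valuation z = 1 → f (cl ℓ z) = 0) ∧
      (∀ z, O.valuation z < 1 → cl ℓ (1 + z) ∈ H f) := by
  obtain ⟨O, h1, h2⟩ := (ltData hneg f g hg).exists_valuationSubring
  refine ⟨O, fun z hz => h1 z hz, fun z hz => ?_⟩
  have := h2 z hz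
  change (H f).mkQ (cl ℓ (1 + z)) = 0 at this
  rwa [Submodule.mkQ_apply, Submodule.Quotient.mk_eq_zero] at this

/-- if no element of `L` is non-rigid modulo `H f`, all functionals killing `H f` are C-pairs. -/
theorem cpair_of_no_nr (f : V ℓ K →ₗ[ZMod ℓ] ZMod ℓ)
    (hno : ∀ g : K, ∃ i j : ZMod ℓ, i • cl ℓ g + j • cl ℓ (1 - g) ∈ H f ∧ ¬ (i = 0 ∧ j = 0))
    (a b : V ℓ K →ₗ[ZMod ℓ] ZMod ℓ) (ha : ∀ v ∈ H f, a v = 0) (hb : ∀ v ∈ H f, b v = 0) :
    CPair a b := by
  intro x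
  obtain ⟨i, j, hm, hij⟩ := hno x
  have h1 := ha _ hm
  have h2 := hb _ hm
  rw [map_add, map_smul, map_smul, smul_eq_mul, smul_eq_mul] at h1 h2
  by_cases hi : i = 0
  · have hj : j ≠ 0 := fun hj => hij ⟨hi, hj⟩
    have e : j * (a (cl ℓ x) * b (cl ℓ (1 - x))) = j * (a (cl ℓ (1 - x)) * b (cl ℓ x)) := by
      subst hi
      linear_combination (a (cl ℓ x)) * h2 - (b (cl ℓ x)) * h1
    exact mul_left_cancel₀ hj e
  · have e : i * (a (cl ℓ x) * b (cl ℓ (1 - x))) = i * (a (cl ℓ (1 - x)) * b (cl ℓ x)) := by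
      linear_combination (b (cl ℓ (1 - x))) * h1 - (a (cl ℓ (1 - x))) * h2
    exact mul_left_cancel₀ hi e

/-- two independent classes are separated by functionals. -/
theorem exists_sep (N : Submodule (ZMod ℓ) (V ℓ K)) (u w : V ℓ K)
    (h : ∀ i j : ZMod ℓ, i • u + j • w ∈ N → i = 0 ∧ j = 0) :
    ∃ a : V ℓ K →ₗ[ZMod ℓ] ZMod ℓ, (∀ v ∈ N, a v = 0) ∧ a w = 0 ∧ a u ≠ 0 := by
  have hn : u ∉ N ⊔ Submodule.span (ZMod ℓ) {w} := by
    intro hu
    rw [Submodule.mem_sup] at hu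
    obtain ⟨n, hn, s, hs, hns⟩ := hu
    rw [Submodule.mem_span_singleton] at hs
    obtain ⟨c, rfl⟩ := hs
    have e : (1 : ZMod ℓ) • u + (-c) • w = n := by rw [← hns]; module
    exact one_ne_zero (h 1 (-c) (by rw [e]; exact hn)).1
  obtain ⟨g, hg1, hg2⟩ := Submodule.exists_le_ker_of_notMem hn
  refine ⟨g, fun v hv => hg2 (Submodule.mem_sup_left hv), ?_, hg1⟩
  exact hg2 (Submodule.mem_sup_right (Submodule.mem_span_singleton_self w))

/-- transfer of the valuation ring through a compatible isomorphism. -/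
theorem exists_transfer {Θ : V ℓ K ≃ₗ[ZMod ℓ] V ℓ L} (hΘ : Compatible Θ)
    (hneg : ∃ i : L, i ^ ℓ = -1) (f : V ℓ K →ₗ[ZMod ℓ] ZMod ℓ) (g₀ : K)
    (h₀ : ∀ i j : ZMod ℓ, i • cl ℓ g₀ + j • cl ℓ (1 - g₀) ∈ H f → i = 0 ∧ j = 0) :
    ∃ O : ValuationSubring L, (∀ z, O.valuation z = 1 → f (Θ.symm (cl ℓ z)) = 0) ∧
      (∀ z, O.valuation z < 1 → Θ.symm (cl ℓ (1 + z)) ∈ H f) := by
  set f' : V ℓ L →ₗ[ZMod ℓ] ZMod ℓ := f ∘ₗ Θ.symm.toLinearMap with hf'
  have hH : ∀ v : V ℓ L, Θ.symm v ∈ H f ↔ v ∈ H f' := fun v => hΘ.symm.mem_H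
  have hex : ∃ g : L, ∀ i j : ZMod ℓ, i • cl ℓ g + j • cl ℓ (1 - g) ∈ H f' → i = 0 ∧ j = 0 := by
    by_contra hcon
    push Not at hcon
    have hno : ∀ g : L, ∃ i j : ZMod ℓ, i • cl ℓ g + j • cl ℓ (1 - g) ∈ H f' ∧
        ¬ (i = 0 ∧ j = 0) := by
      intro g
      obtain ⟨i, j, h1, h2⟩ := hcon g
      exact ⟨i, j, h1, fun h => h2 h.1 h.2⟩
    obtain ⟨a, ha1, ha2, ha3⟩ := exists_sep (H f) (cl ℓ g₀) (cl ℓ (1 - g₀)) h₀
    obtain ⟨b, hb1, hb2, hb3⟩ := exists_sep (H f) (cl ℓ (1 - g₀)) (cl ℓ g₀)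
      (fun i j hij => (h₀ j i (by rw [add_comm]; exact hij)).symm)
    have hab := cpair_of_no_nr f' hno (a ∘ₗ Θ.symm.toLinearMap) (b ∘ₗ Θ.symm.toLinearMap)
      (fun v hv => ha1 _ ((hH v).2 hv)) (fun v hv => hb1 _ ((hH v).2 hv))
    have h3 := hΘ.cpair hab g₀
    simp only [LinearMap.comp_apply, LinearEquiv.coe_coe, LinearEquiv.symm_apply_apply] at h3
    rw [ha2, zero_mul] at h3
    exact mul_ne_zero ha3 hb3 h3
  obtain ⟨g, hg⟩ := hex
  obtain ⟨O, h1, h2⟩ := exists_valuation_of_functional hneg f' g hg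
  exact ⟨O, fun z hz => h1 z hz, fun z hz => (hH _).2 (h2 z hz)⟩

end Vale.Agent.P019
end
end

section

section

/-!
# Riemann's theorem
-/

namespace Vale.Agent.P019P

open IntermediateField

section

variable {k F : Type*} [Field k] [Field F] [Algebra k F] [CFF k F]

theorem CRiem_mono {D E : Plk k F →₀ ℤ} (h : D ≤ E) :
    dg D - Module.finrank k (LL k D) ≤ dg E - Module.finrank k (LL k E) := by
  have h1 := l_sub_le h
  omega

theorem CRiem_dv (D : Plk k F →₀ ℤ) {z : F} (hz : z ≠ 0) :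
    dg (D + dv k z) - Module.finrank k (LL k (D + dv k z)) =
      dg D - Module.finrank k (LL k D) := by
  rw [l_add_dv D hz, map_add, dg_dv, add_zero]

/-- the defect is bounded. -/
theorem CRiem_bdd {B : Plk k F →₀ ℤ} {n C : ℤ} (hn : 0 < n) (hB : dg B = n)
    (hC : ∀ r : ℕ, r * n - C ≤ Module.finrank k (LL k (r • B))) (A : Plk k F →₀ ℤ) :
    dg A - Module.finrank k (LL k A) ≤ C := by
  obtain ⟨A₁, hA, hA0⟩ : ∃ A₁ : Plk k F →₀ ℤ, A ≤ A₁ ∧ 0 ≤ A₁ :=
    ⟨A ⊔ 0, le_sup_left, le_sup_right⟩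
  obtain ⟨r, hr⟩ : ∃ r : ℕ, C + dg A₁ < r := ⟨(C + dg A₁).toNat + 1, by omega⟩
  have hdr : dg (r • B) = r * n := by rw [map_nsmul, hB, nsmul_eq_mul]
  have hrn : (r : ℤ) ≤ r * n := le_mul_of_one_le_right (Int.natCast_nonneg r) hn
  have h1 : (Module.finrank k (LL k (r • B)) : ℤ) - Module.finrank k (LL k (r • B - A₁)) ≤
      dg (r • B) - dg (r • B - A₁) := l_sub_le (sub_le_self _ hA0)
  rw [map_sub] at h1
  have h2 := hC r
  have h3 : 0 < Module.finrank k (LL k (r • B - A₁)) := by omega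
  obtain ⟨z, hz, hz0⟩ := exists_ne_zero_of_l h3
  have h4 : A₁ - dv k z ≤ r • B := by
    rw [← sub_nonneg]
    have e : r • B - (A₁ - dv k z) = r • B - A₁ + dv k z := by abel
    rw [e]
    exact hz0
  have h5 := CRiem_mono hA
  have h6 := CRiem_dv (A₁ - dv k z) hz
  rw [sub_add_cancel] at h6
  have h7 := CRiem_mono h4
  omega

end

/-- Riemann's theorem. -/
theorem exists_riem (k F : Type*) [Field k] [Field F] [Algebra k F] [CFF k F] :
    ∃ g : ℕ, (∀ D : Plk k F →₀ ℤ, dg D + 1 - g ≤ Module.finrank k (LL k D)) ∧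
      ∃ c : ℤ, ∀ D : Plk k F →₀ ℤ, c ≤ dg D →
        (Module.finrank k (LL k D) : ℤ) = dg D + 1 - g := by
  obtain ⟨x, hx, hfd⟩ := CFF.ex (k := k) (F := F)
  have hxc : ∀ a : k, x ≠ algebraMap k F a := by
    rintro a rfl
    exact hx (isAlgebraic_algebraMap a)
  have hn : 0 < (Module.finrank k⟮x⟯ F : ℤ) := by
    exact_mod_cast Module.finrank_pos
  obtain ⟨C, hC⟩ := exists_l_pol hxc
  have hbdd := CRiem_bdd hn (dg_pol hxc) hC
  obtain ⟨m, ⟨A₀, hA₀⟩, hm⟩ := Int.exists_greatest_of_bdd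
    (P := fun m : ℤ => ∃ A : Plk k F →₀ ℤ, dg A - Module.finrank k (LL k A) = m)
    ⟨C, by rintro _ ⟨A, rfl⟩; exact hbdd A⟩ ⟨_, 0, rfl⟩
  have h0 : -1 ≤ m := by
    have h1 := hm _ ⟨0, rfl⟩
    rw [map_zero, l_zero, Nat.cast_one] at h1
    omega
  obtain ⟨g, hg⟩ := Int.eq_ofNat_of_zero_le (show 0 ≤ m + 1 by omega)
  have hlow : ∀ D : Plk k F →₀ ℤ, dg D + 1 - g ≤ Module.finrank k (LL k D) := by
    intro D
    have h1 := hm _ ⟨D, rfl⟩
    omega
  refine ⟨g, hlow, dg A₀ + g, fun D hD => ?_⟩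
  have h1 := hlow (D - A₀)
  rw [map_sub] at h1
  have h2 : 0 < Module.finrank k (LL k (D - A₀)) := by omega
  obtain ⟨z, hz, hz0⟩ := exists_ne_zero_of_l h2
  have h3 : A₀ ≤ D + dv k z := by
    rw [← sub_nonneg]
    have e : D + dv k z - A₀ = D - A₀ + dv k z := by abel
    rw [e]
    exact hz0
  have h4 := CRiem_mono h3
  have h5 := CRiem_dv D hz
  have h6 := hlow D
  omega

end Vale.Agent.P019P
end
end

section

section

/-!
# Finitely supported adeles modulo functions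
-/

namespace Vale.Agent.P019P

open IntermediateField

section

variable {k F : Type*} [Field k] [Field F] [Algebra k F] [CFF k F]

/-- the finitely supported adeles which become integral with respect to `D` after subtraction of
a function. -/
noncomputable def KD (D : Plk k F →₀ ℤ) : Submodule k (Plk k F →₀ F) where
  carrier := {β | ∃ z : F, ∀ P, β P - z ∈ Mge P (-D P)}
  zero_mem' := ⟨0, fun P => by simp⟩
  add_mem' := by
    rintro β γ ⟨z, hz⟩ ⟨w, hw⟩
    refine ⟨z + w, fun P => ?_⟩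
    have h := add_mem (hz P) (hw P)
    rwa [← add_sub_add_comm] at h
  smul_mem' := by
    rintro a β ⟨z, hz⟩
    refine ⟨a • z, fun P => ?_⟩
    have h := Submodule.smul_mem _ a (hz P)
    rwa [smul_sub] at h

theorem KD_mono {D E : Plk k F →₀ ℤ} (h : D ≤ E) : KD D ≤ KD E := by
  rintro β ⟨z, hz⟩
  exact ⟨z, fun P => Mge_mono P (neg_le_neg (h P)) (hz P)⟩

theorem exists_mem_KD (D : Plk k F →₀ ℤ) (β : Plk k F →₀ F) :
    ∃ E : Plk k F →₀ ℤ, D ≤ E ∧ β ∈ KD E := by
  classical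
  let N : Plk k F →₀ ℤ := Finsupp.onFinset β.support (fun P => -ord P (β P)) (by
    intro P hP
    rw [Finsupp.mem_support_iff]
    intro h
    apply hP
    show -ord P (β P) = 0
    rw [h, ord_zero, neg_zero])
  have hN : ∀ P, N P = -ord P (β P) := fun P => rfl
  refine ⟨D ⊔ N, le_sup_left, 0, fun P => ?_⟩
  rw [sub_zero, mem_Mge]
  right
  have h1 : N P ≤ (D ⊔ N) P := (le_sup_right : N ≤ D ⊔ N) P
  rw [hN] at h1
  linarith

omit [CFF k F] in
theorem CAd_le (D : Plk k F →₀ ℤ) (P : Plk k F) : D ≤ D + Finsupp.single P 1 := by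
  classical
  intro Q
  rw [Finsupp.add_apply, Finsupp.single_apply]
  split_ifs <;> simp

omit [CFF k F] in
theorem CAd_at (D : Plk k F →₀ ℤ) (P : Plk k F) :
    (D + Finsupp.single P 1 : Plk k F →₀ ℤ) P = D P + 1 := by
  rw [Finsupp.add_apply, Finsupp.single_eq_same]

omit [CFF k F] in
theorem CAd_ne (D : Plk k F →₀ ℤ) {P Q : Plk k F} (h : Q ≠ P) :
    (D + Finsupp.single P 1 : Plk k F →₀ ℤ) Q = D Q := by
  rw [Finsupp.add_apply, Finsupp.single_eq_of_ne h, add_zero]

/-- the step towards `D` at the point `P`, in both cases. -/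
theorem CAd_step {D : Plk k F →₀ ℤ} {P : Plk k F} {t : F} (ht : t ≠ 0)
    (ht1 : ord P t = -D P - 1) {β : Plk k F →₀ F} {w : F}
    (hw : ∀ Q, β Q - w ∈ Mge Q (-(D + Finsupp.single P 1 : Plk k F →₀ ℤ) Q)) :
    (∃ a : k, β P - w - a • t ∈ Mge P (-D P)) ∧ ∀ Q, Q ≠ P → β Q - w ∈ Mge Q (-D Q) := by
  constructor
  · have h1 := hw P
    rw [CAd_at, neg_add'] at h1
    obtain ⟨a, ha⟩ := exists_sub_mem ht ht1 h1
    rw [sub_add_cancel] at ha
    exact ⟨a, ha⟩
  · intro Q hQ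
    have h1 := hw Q
    rwa [CAd_ne D hQ] at h1

theorem KD_step_of_mem {D : Plk k F →₀ ℤ} {P : Plk k F} {z : F}
    (hz : z ∈ LL k (D + Finsupp.single P 1)) (hz' : z ∉ LL k D) :
    KD (D + Finsupp.single P 1) = KD D := by
  have hz0 : z ≠ 0 := by
    rintro rfl
    exact hz' (zero_mem _)
  have hz1 : ∀ Q, -(D + Finsupp.single P 1 : Plk k F →₀ ℤ) Q ≤ ord Q z := (mem_LL.1 hz).resolve_left hz0
  have hne : ∀ Q, Q ≠ P → -D Q ≤ ord Q z := by
    intro Q hQ
    have h1 := hz1 Q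
    rwa [CAd_ne D hQ] at h1
  have hP : ord P z = -D P - 1 := by
    have h1 := hz1 P
    rw [CAd_at] at h1
    have h2 : ord P z < -D P := by
      by_contra hc
      push Not at hc
      apply hz'
      rw [mem_LL]
      right
      intro Q
      by_cases hQ : Q = P
      · rw [hQ]; exact hc
      · exact hne Q hQ
    omega
  refine le_antisymm ?_ (KD_mono (CAd_le D P))
  rintro β ⟨w, hw⟩
  obtain ⟨⟨a, ha⟩, h2⟩ := CAd_step hz0 hP hw
  refine ⟨w + a • z, fun Q => ?_⟩
  rw [← sub_sub]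
  by_cases hQ : Q = P
  · rw [hQ]; exact ha
  · exact sub_mem (h2 Q hQ) (Submodule.smul_mem _ a (mem_Mge.2 (Or.inr (hne Q hQ))))

theorem KD_step_of_eq {D : Plk k F →₀ ℤ} {P : Plk k F}
    (h : LL k (D + Finsupp.single P 1) ≤ LL k D) :
    ∃ e : Plk k F →₀ F, e ∉ KD D ∧ KD (D + Finsupp.single P 1) = KD D ⊔ Submodule.span k {e} := by
  obtain ⟨π, hπ, hπ1⟩ := exists_unif P
  obtain ⟨t, ht, ht1⟩ : ∃ t : F, t ≠ 0 ∧ ord P t = -D P - 1 :=
    ⟨π ^ (-D P - 1), zpow_ne_zero _ hπ, by rw [ord_zpow, hπ1, mul_one]⟩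
  have e1 : (Finsupp.single P t : Plk k F →₀ F) P = t := Finsupp.single_eq_same
  have e2 : ∀ Q, Q ≠ P → (Finsupp.single P t : Plk k F →₀ F) Q = 0 := fun Q hQ =>
    Finsupp.single_eq_of_ne hQ
  refine ⟨Finsupp.single P t, ?_, le_antisymm ?_ ?_⟩
  · rintro ⟨w, hw⟩
    have hwP : t - w ∈ Mge P (-D P) := by
      have h1 := hw P
      rwa [e1] at h1
    have hwL : w ∈ LL k (D + Finsupp.single P 1) := by
      rw [mem_LL_iff]
      intro Q
      by_cases hQ : Q = P
      · subst hQ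
        rw [CAd_at, neg_add']
        have h1 : t - w ∈ Mge Q (-D Q - 1) := Mge_mono Q (by omega) hwP
        have h2 : t ∈ Mge Q (-D Q - 1) := mem_Mge.2 (Or.inr ht1.ge)
        have h3 := sub_mem h2 h1
        rwa [sub_sub_cancel] at h3
      · rw [CAd_ne D hQ]
        have h1 := hw Q
        rw [e2 Q hQ, zero_sub] at h1
        exact neg_mem_iff.1 h1
    have h3 := mem_LL_iff.1 (h hwL) P
    have h4 := add_mem hwP h3
    rw [sub_add_cancel, mem_Mge] at h4
    have h5 := h4.resolve_left ht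
    omega
  · rintro β ⟨w, hw⟩
    obtain ⟨⟨a, ha⟩, h2⟩ := CAd_step ht ht1 hw
    rw [Submodule.mem_sup]
    refine ⟨β - a • Finsupp.single P t, ⟨w, fun Q => ?_⟩, a • Finsupp.single P t,
      Submodule.smul_mem _ _ (Submodule.mem_span_singleton_self _), sub_add_cancel _ _⟩
    rw [Finsupp.sub_apply, Finsupp.smul_apply]
    by_cases hQ : Q = P
    · rw [hQ, e1, sub_right_comm]
      exact ha
    · rw [e2 Q hQ, smul_zero, sub_zero]
      exact h2 Q hQ
  · refine sup_le (KD_mono (CAd_le D P)) ?_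
    rw [Submodule.span_singleton_le_iff_mem]
    refine ⟨0, fun Q => ?_⟩
    rw [sub_zero]
    by_cases hQ : Q = P
    · rw [hQ, e1, CAd_at, neg_add']
      exact mem_Mge.2 (Or.inr ht1.ge)
    · rw [e2 Q hQ]
      exact zero_mem _

/-- the function space attached to `D` is everything if the degree is large. -/
theorem KD_eq_top {g : ℕ} {c : ℤ} (hc : ∀ D : Plk k F →₀ ℤ, c ≤ dg D →
    (Module.finrank k (LL k D) : ℤ) = dg D + 1 - g) {D : Plk k F →₀ ℤ} (hD : c ≤ dg D) :
    KD D = ⊤ := by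
  have key : ∀ E : Plk k F →₀ ℤ, D ≤ E → KD E = KD D := by
    intro E hE
    refine dv_induct (motive := fun E => KD E = KD D) rfl (fun E P hDE hEk => ?_) hE
    refine Eq.trans ?_ hEk
    have h1 : c ≤ dg E := hD.trans (dg_mono hDE)
    have h2 : dg (E + Finsupp.single P 1) = dg E + 1 := by rw [map_add, dg_sgl]
    have h3 := hc E h1
    have h4 := hc (E + Finsupp.single P 1) (by rw [h2]; omega)
    by_cases hle : LL k (E + Finsupp.single P 1) ≤ LL k E
    · exfalso
      have h5 := l_step_of_eq hle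
      rw [h5, h2] at h4
      omega
    · rw [SetLike.not_le_iff_exists] at hle
      obtain ⟨z, hz, hz'⟩ := hle
      exact KD_step_of_mem hz hz'
  rw [eq_top_iff]
  intro β _
  obtain ⟨E, hE, hβ⟩ := exists_mem_KD D β
  rwa [key E hE] at hβ

end

end Vale.Agent.P019P
end
end

section

section

/-!
# Weil differentials and the index of speciality
-/

namespace Vale.Agent.P019P

open IntermediateField

section

variable {k F : Type*} [Field k] [Field F] [Algebra k F] [CFF k F]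

/-- the differentials which are regular with respect to `D`. -/
noncomputable def Om (D : Plk k F →₀ ℤ) : Submodule k (Module.Dual k (Plk k F →₀ F)) :=
  (KD D).dualAnnihilator

theorem mem_Om {D : Plk k F →₀ ℤ} {ω : Module.Dual k (Plk k F →₀ F)} :
    ω ∈ Om D ↔ ∀ β ∈ KD D, ω β = 0 := by
  rw [Om, Submodule.mem_dualAnnihilator]

theorem Om_anti {D E : Plk k F →₀ ℤ} (h : D ≤ E) : Om E ≤ Om D :=
  Submodule.dualAnnihilator_anti (KD_mono h)

/-- a subspace which is cut out by one functional has codimension one. -/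
theorem COm_cut {K A : Type*} [Field K] [AddCommGroup A] [Module K A] (U U' : Submodule K A)
    (ev : A →ₗ[K] K) (h : ∀ ω, ω ∈ U' ↔ ω ∈ U ∧ ev ω = 0) (ω₀ : A) (h₀ : ω₀ ∈ U)
    (h₁ : ev ω₀ ≠ 0) (hf : FiniteDimensional K U') :
    FiniteDimensional K U ∧ Module.finrank K U = Module.finrank K U' + 1 := by
  let f : U →ₗ[K] K := ev.domRestrict U
  have hsurj : Function.Surjective f := by
    intro a
    refine ⟨(a / ev ω₀) • ⟨ω₀, h₀⟩, ?_⟩
    change ev ((a / ev ω₀) • ω₀) = a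
    rw [map_smul, smul_eq_mul, div_mul_cancel₀ _ h₁]
  have hker : LinearMap.ker f = U'.comap U.subtype := by
    ext ω
    rw [LinearMap.mem_ker, Submodule.mem_comap, Submodule.subtype_apply, h]
    exact ⟨fun h2 => ⟨ω.2, h2⟩, fun h2 => h2.2⟩
  have hle : U' ≤ U := fun ω hω => ((h ω).1 hω).1
  have hequiv : LinearMap.ker f ≃ₗ[K] U' := by
    rw [hker]
    exact Submodule.comapSubtypeEquivOfLe hle
  have hfk : FiniteDimensional K (LinearMap.ker f) := Module.Finite.equiv hequiv.symm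
  have hfq : FiniteDimensional K (U ⧸ LinearMap.ker f) :=
    Module.Finite.equiv (f.quotKerEquivOfSurjective hsurj).symm
  have hfin : FiniteDimensional K U := Module.Finite.of_submodule_quotient (LinearMap.ker f)
  refine ⟨hfin, ?_⟩
  have h1 := LinearMap.finrank_range_add_finrank_ker f
  rw [LinearMap.range_eq_top.2 hsurj, finrank_top, Module.finrank_self, hequiv.finrank_eq] at h1
  omega

/-- the annihilator of a subspace grows by one dimension if a vector is removed. -/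
theorem COm_aux {K V : Type*} [Field K] [AddCommGroup V] [Module K V] (W W' : Submodule K V)
    (e : V) (he : e ∉ W) (hW : W' = W ⊔ Submodule.span K {e})
    (hf : FiniteDimensional K W'.dualAnnihilator) :
    FiniteDimensional K W.dualAnnihilator ∧
      Module.finrank K W.dualAnnihilator = Module.finrank K W'.dualAnnihilator + 1 := by
  obtain ⟨f, hf1, hf2⟩ := Submodule.exists_dual_map_eq_bot_of_notMem he inferInstance
  refine COm_cut W.dualAnnihilator W'.dualAnnihilator (Module.Dual.eval K V e) ?_ f ?_ hf1 hf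
  · intro ω
    rw [Submodule.mem_dualAnnihilator, Submodule.mem_dualAnnihilator]
    constructor
    · intro h
      exact ⟨fun w hw => h w (hW ▸ Submodule.mem_sup_left hw),
        h e (hW ▸ Submodule.mem_sup_right (Submodule.mem_span_singleton_self e))⟩
    · rintro ⟨h1, h2⟩ w hw
      rw [hW, Submodule.mem_sup] at hw
      obtain ⟨u, hu, v, hv, rfl⟩ := hw
      obtain ⟨a, rfl⟩ := Submodule.mem_span_singleton.1 hv
      have h3 : ω e = 0 := h2
      rw [map_add, map_smul, h3, h1 u hu, smul_zero, add_zero]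
  · rw [Submodule.mem_dualAnnihilator]
    intro w hw
    have h4 : f w ∈ W.map f := Submodule.mem_map_of_mem hw
    rw [hf2] at h4
    exact (Submodule.mem_bot K).1 h4

theorem COm_both {g : ℕ} {c : ℤ} (hc : ∀ D : Plk k F →₀ ℤ, c ≤ dg D →
    (Module.finrank k (LL k D) : ℤ) = dg D + 1 - g) (D : Plk k F →₀ ℤ) :
    FiniteDimensional k (Om D) ∧
    (Module.finrank k (Om D) : ℤ) = Module.finrank k (LL k D) - dg D - 1 + g := by
  have hbig : ∀ D : Plk k F →₀ ℤ, c ≤ dg D → FiniteDimensional k (Om D) ∧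
      (Module.finrank k (Om D) : ℤ) = Module.finrank k (LL k D) - dg D - 1 + g := by
    intro D hD
    have h1 : Om D = ⊥ := by rw [Om, KD_eq_top hc hD, Submodule.dualAnnihilator_top]
    rw [h1, hc D hD]
    refine ⟨inferInstance, ?_⟩
    rw [finrank_bot]
    push_cast
    ring
  have hstep : ∀ (D : Plk k F →₀ ℤ) (P : Plk k F),
      (FiniteDimensional k (Om (D + Finsupp.single P 1)) ∧
      (Module.finrank k (Om (D + Finsupp.single P 1)) : ℤ)
        = Module.finrank k (LL k (D + Finsupp.single P 1)) - dg (D + Finsupp.single P 1) - 1 + g)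
      → FiniteDimensional k (Om D) ∧
      (Module.finrank k (Om D) : ℤ) = Module.finrank k (LL k D) - dg D - 1 + g := by
    rintro D P ⟨h1, h2⟩
    rw [map_add, dg_sgl] at h2
    by_cases hle : LL k (D + Finsupp.single P 1) ≤ LL k D
    · obtain ⟨e, he, hKD⟩ := KD_step_of_eq hle
      have h3 := COm_aux (KD D) _ e he hKD h1
      refine ⟨h3.1, ?_⟩
      have h4 : Module.finrank k (Om D) = Module.finrank k (Om (D + Finsupp.single P 1)) + 1 :=
        h3.2
      rw [l_step_of_eq hle] at h2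
      rw [h4]
      push_cast
      linarith
    · obtain ⟨z, hz, hz'⟩ := Set.not_subset.1 hle
      have h3 : Om (D + Finsupp.single P 1) = Om D := by
        rw [Om, Om, KD_step_of_mem hz hz']
      rw [h3] at h1 h2
      rw [l_step_of_mem hz hz'] at h2
      refine ⟨h1, ?_⟩
      rw [h2]
      push_cast
      ring
  obtain ⟨P⟩ := nonempty_Plk k F
  have hN : ∀ (N : ℕ) (D : Plk k F →₀ ℤ), c ≤ dg D + N → FiniteDimensional k (Om D) ∧
      (Module.finrank k (Om D) : ℤ) = Module.finrank k (LL k D) - dg D - 1 + g := by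
    intro N
    induction N with
    | zero => intro D hD; exact hbig D (by simpa using hD)
    | succ n ih =>
      intro D hD
      refine hstep D P (ih _ ?_)
      rw [map_add, dg_sgl]
      push_cast at hD
      linarith
  refine hN (c - dg D).toNat D ?_
  have := Int.self_le_toNat (c - dg D)
  linarith

theorem Om_finite {g : ℕ} {c : ℤ} (hc : ∀ D : Plk k F →₀ ℤ, c ≤ dg D →
    (Module.finrank k (LL k D) : ℤ) = dg D + 1 - g) (D : Plk k F →₀ ℤ) :
    FiniteDimensional k (Om D) :=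
  (COm_both hc D).1

/-- the index of speciality. -/
theorem finrank_Om {g : ℕ} {c : ℤ} (hc : ∀ D : Plk k F →₀ ℤ, c ≤ dg D →
    (Module.finrank k (LL k D) : ℤ) = dg D + 1 - g) (D : Plk k F →₀ ℤ) :
    (Module.finrank k (Om D) : ℤ) = Module.finrank k (LL k D) - dg D - 1 + g :=
  (COm_both hc D).2

end

end Vale.Agent.P019P
end
end
namespace AFastb78d8dx1147b
@[reducible] noncomputable def a0.{u1, u2} {x1 : Type u1} {x2 : Type u2} [x3 : Field x1] [x4 : Field x2] [x5 : Algebra x1 x2] [x6 : Vale.Agent.P019P.CFF x1 x2] {x7 : Vale.Agent.P019P.Plk x1 x2 →₀ ℤ} : AddZero ↥(Vale.Agent.P019P.Om (-x7)) := inferInstance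
@[reducible] noncomputable def a1.{u1, u2} {x1 : Type u1} {x2 : Type u2} [x3 : Field x1] [x4 : Field x2] [x5 : Algebra x1 x2] [x6 : Vale.Agent.P019P.CFF x1 x2] {x7 : Vale.Agent.P019P.Plk x1 x2 →₀ ℤ} : AddZeroClass ↥(Vale.Agent.P019P.Om (-x7)) := inferInstance
end AFastb78d8dx1147b
attribute [local instance] AFastb78d8dx1147b.a0 AFastb78d8dx1147b.a1

section

section

/-!
# Multiplication of differentials by functions; the divisor of a differential
-/

namespace Vale.Agent.P019P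

set_option linter.unusedSectionVars false

open IntermediateField

section

variable {k F : Type*} [Field k] [Field F] [Algebra k F] [CFF k F]

/-- multiplication of a differential by a function. -/
noncomputable def tw (z : F) : Module.Dual k (Plk k F →₀ F) →ₗ[k] Module.Dual k (Plk k F →₀ F) :=
  Module.Dual.transpose (Finsupp.mapRange.linearMap (LinearMap.mulLeft k z))

theorem tw_apply (z : F) (ω : Module.Dual k (Plk k F →₀ F)) (β : Plk k F →₀ F) :
    tw z ω β = ω (β.mapRange (fun w => z * w) (mul_zero z)) := rfl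

theorem tw_mul (z w : F) (ω : Module.Dual k (Plk k F →₀ F)) :
    tw (z * w) ω = tw z (tw w ω) := by
  refine LinearMap.ext fun β => ?_
  rw [tw_apply, tw_apply, tw_apply]
  congr 1
  ext P
  simp only [Finsupp.mapRange_apply]
  ring

theorem tw_add (z w : F) (ω : Module.Dual k (Plk k F →₀ F)) :
    tw (z + w) ω = tw z ω + tw w ω := by
  refine LinearMap.ext fun β => ?_
  rw [LinearMap.add_apply, tw_apply, tw_apply, tw_apply, ← map_add]
  congr 1
  ext P
  simp only [Finsupp.mapRange_apply, Finsupp.add_apply]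
  ring

theorem tw_smul (a : k) (z : F) (ω : Module.Dual k (Plk k F →₀ F)) :
    tw (a • z) ω = a • tw z ω := by
  refine LinearMap.ext fun β => ?_
  rw [LinearMap.smul_apply, tw_apply, tw_apply, ← map_smul]
  congr 1
  ext P
  simp only [Finsupp.mapRange_apply, Finsupp.smul_apply, Algebra.smul_def]
  ring

theorem tw_one (ω : Module.Dual k (Plk k F →₀ F)) : tw 1 ω = ω := by
  refine LinearMap.ext fun β => ?_
  rw [tw_apply]
  congr 1
  ext P
  simp only [Finsupp.mapRange_apply, one_mul]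

theorem CTw_mem {D : Plk k F →₀ ℤ} {z : F} (hz : z ≠ 0) {β : Plk k F →₀ F} :
    β.mapRange (fun w => z * w) (mul_zero z) ∈ KD D ↔ β ∈ KD (D + dv k z) := by
  have key : ∀ (w : F) (P : Plk k F), (z * β P - z * w ∈ Mge P (-D P) ↔
      β P - w ∈ Mge P (-(D + dv k z) P)) := by
    intro w P
    rw [← mul_sub, mul_mem_Mge_iff hz, Finsupp.add_apply, dv_apply]
    have h : -(D P + ord P z) = -D P - ord P z := by ring
    rw [h]
  constructor
  · rintro ⟨w, hw⟩
    refine ⟨z⁻¹ * w, fun P => (key _ P).1 ?_⟩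
    have h := hw P
    rw [Finsupp.mapRange_apply] at h
    rwa [mul_inv_cancel_left₀ hz]
  · rintro ⟨w, hw⟩
    exact ⟨z * w, fun P => (key _ P).2 (hw P)⟩

theorem tw_mem_Om {D : Plk k F →₀ ℤ} {z : F} (hz : z ≠ 0) {ω : Module.Dual k (Plk k F →₀ F)} :
    tw z ω ∈ Om D ↔ ω ∈ Om (D - dv k z) := by
  rw [mem_Om, mem_Om]
  constructor
  · intro h β hβ
    have h1 : β.mapRange (fun w => z⁻¹ * w) (mul_zero z⁻¹) ∈ KD D := by
      rw [CTw_mem (inv_ne_zero hz), dv_inv, ← sub_eq_add_neg]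
      exact hβ
    have h2 := h _ h1
    rw [tw_apply] at h2
    rw [← h2]
    congr 1
    ext P
    simp only [Finsupp.mapRange_apply]
    rw [mul_inv_cancel_left₀ hz]
  · intro h β hβ
    rw [tw_apply]
    apply h
    rw [CTw_mem hz, sub_add_cancel]
    exact hβ

theorem Om_sup {A B : Plk k F →₀ ℤ} {ω : Module.Dual k (Plk k F →₀ F)}
    (h : ω ∈ Om A) (h' : ω ∈ Om B) : ω ∈ Om (A ⊔ B) := by
  classical
  rw [mem_Om] at h h' ⊢
  rintro β ⟨z, hz⟩
  let β2 : Plk k F →₀ F := Finsupp.onFinset (A.support ∪ B.support)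
    (fun P => if A P < B P then β P - z else 0) (by
      intro P hP
      split_ifs at hP with h1
      · rw [Finset.mem_union, Finsupp.mem_support_iff, Finsupp.mem_support_iff]
        by_contra h2
        push Not at h2
        rw [h2.1, h2.2] at h1
        exact lt_irrefl _ h1
      · exact absurd rfl hP)
  have hβ2 : ∀ P, β2 P = if A P < B P then β P - z else 0 := fun P => rfl
  have h2 : β2 ∈ KD B := by
    refine ⟨0, fun P => ?_⟩
    rw [sub_zero, hβ2]
    split_ifs with h1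
    · have h3 := hz P
      rwa [Finsupp.sup_apply, max_eq_right h1.le] at h3
    · exact zero_mem _
  have h1 : β - β2 ∈ KD A := by
    refine ⟨z, fun P => ?_⟩
    rw [Finsupp.sub_apply, hβ2]
    split_ifs with h1
    · rw [sub_sub_cancel, sub_self]
      exact zero_mem _
    · have h3 := hz P
      rw [Finsupp.sup_apply, max_eq_left (not_lt.1 h1)] at h3
      rwa [sub_zero]
  have h3 := h _ h1
  rw [map_sub, h' _ h2, sub_zero] at h3
  exact h3

/-- the divisor of a differential. -/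
theorem exists_dvOm {A : Plk k F →₀ ℤ} {ω : Module.Dual k (Plk k F →₀ F)} (h0 : ω ≠ 0)
    (h : ω ∈ Om A) : ∃ W : Plk k F →₀ ℤ, ∀ D, ω ∈ Om D ↔ D ≤ W := by
  obtain ⟨g, -, c, hc⟩ := exists_riem k F
  have hb : ∀ D : Plk k F →₀ ℤ, ω ∈ Om D → dg D < c := by
    intro D hD
    by_contra hcon
    push Not at hcon
    apply h0
    refine LinearMap.ext fun β => ?_
    have h1 : β ∈ KD D := by rw [KD_eq_top hc hcon]; trivial
    exact mem_Om.1 hD β h1
  obtain ⟨m, ⟨W, hW, hWm⟩, hmax⟩ := Int.exists_greatest_of_bdd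
    (P := fun m => ∃ D : Plk k F →₀ ℤ, ω ∈ Om D ∧ dg D = m)
    ⟨c, by rintro m ⟨D, hD, rfl⟩; exact (hb D hD).le⟩ ⟨_, A, h, rfl⟩
  refine ⟨W, fun D => ⟨fun hD => ?_, fun hD => Om_anti hD hW⟩⟩
  have h1 := hmax _ ⟨W ⊔ D, Om_sup hW hD, rfl⟩
  rw [← hWm] at h1
  have h2 := eq_of_le_of_dg_le (le_sup_left : W ≤ W ⊔ D) h1
  rw [h2]
  exact le_sup_right

end

end Vale.Agent.P019P
end
end

section

section

/-!
# Differentials are one-dimensional over the function field
-/

namespace Vale.Agent.P019P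

open IntermediateField

section

variable {k F : Type*} [Field k] [Field F] [Algebra k F] [CFF k F]

private theorem COne_tw_zero (ω : Module.Dual k (Plk k F →₀ F)) : tw 0 ω = 0 := by
  have h := tw_smul (0 : k) (0 : F) ω
  rwa [zero_smul, zero_smul] at h

private theorem COne_tw_mem {A E : Plk k F →₀ ℤ} {ω : Module.Dual k (Plk k F →₀ F)}
    (h : ω ∈ Om A) {x : F} (hx : x ∈ LL k (A + E)) : tw x ω ∈ Om (-E) := by
  by_cases h0 : x = 0
  · rw [h0, COne_tw_zero]
    exact zero_mem _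
  · refine (tw_mem_Om h0).2 (Om_anti (fun P => ?_) h)
    have h1 := (hx.resolve_left h0) P
    rw [Finsupp.add_apply] at h1
    rw [Finsupp.sub_apply, Finsupp.neg_apply, dv_apply]
    omega

/-- the map `x ↦ tw x ω` from a Riemann-Roch space to the differentials. -/
private noncomputable def COne_map {A : Plk k F →₀ ℤ} (E : Plk k F →₀ ℤ)
    {ω : Module.Dual k (Plk k F →₀ F)} (h : ω ∈ Om A) : LL k (A + E) →ₗ[k] Om (-E) where
  toFun x := ⟨tw x.1 ω, COne_tw_mem h x.2⟩
  map_add' x y := Subtype.ext (tw_add x.1 y.1 ω)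
  map_smul' a x := Subtype.ext (tw_smul a x.1 ω)

/-- the differentials form a space of dimension one over `F`. -/
theorem exists_tw {A B : Plk k F →₀ ℤ} {ω ω' : Module.Dual k (Plk k F →₀ F)} (h0 : ω ≠ 0)
    (h : ω ∈ Om A) (h' : ω' ∈ Om B) : ∃ z : F, ω' = tw z ω := by
  by_contra hne
  obtain ⟨g, hmin, c, hc⟩ := exists_riem k F
  obtain ⟨E, hE⟩ := exists_dg_eq k F (max 1 (3 * (g : ℤ) - 2 - dg A - dg B))
  have hinj : Function.Injective ((COne_map E h).coprod (COne_map E h')) := by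
    refine (injective_iff_map_eq_zero _).2 ?_
    rintro ⟨⟨x, hx⟩, ⟨y, hy⟩⟩ hxy
    have h1 : tw x ω + tw y ω' = 0 := congrArg Subtype.val hxy
    have h2 : y = 0 := by
      by_contra h2
      refine hne ⟨y⁻¹ * -x, ?_⟩
      have h3 : tw y ω' = tw (-x) ω := by
        have h4 : tw (x + -x) ω = 0 := by rw [add_neg_cancel, COne_tw_zero]
        rw [tw_add, ← h1] at h4
        exact (add_left_cancel h4).symm
      rw [tw_mul, ← h3, ← tw_mul, inv_mul_cancel₀ h2, tw_one]
    have h3 : x = 0 := by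
      by_contra h3
      refine h0 ?_
      rw [h2, COne_tw_zero, add_zero] at h1
      rw [← tw_one ω, ← inv_mul_cancel₀ h3, tw_mul, h1, map_zero]
    subst h2
    subst h3
    rfl
  have := Om_finite hc (-E)
  have h1 := LinearMap.finrank_le_finrank_of_injective hinj
  rw [Module.finrank_prod] at h1
  have h2 := finrank_Om hc (-E)
  have h3 : dg (-E) < 0 := by
    rw [map_neg, hE]
    have := le_max_left 1 (3 * (g : ℤ) - 2 - dg A - dg B)
    omega
  rw [l_eq_zero h3] at h2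
  have h4 := hmin (A + E)
  have h5 := hmin (B + E)
  rw [map_add] at h4 h5
  rw [map_neg] at h2
  have h6 := le_max_right 1 (3 * (g : ℤ) - 2 - dg A - dg B)
  rw [← hE] at h6
  push_cast at h2
  omega

end

end Vale.Agent.P019P
end
end

section

section

/-!
# The Riemann-Roch theorem, the genus
-/

namespace Vale.Agent.P019P

open IntermediateField

theorem CDual_tw_zero {k F : Type*} [Field k] [Field F] [Algebra k F] [CFF k F]
    (ω : Module.Dual k (Plk k F →₀ F)) : tw (0 : F) ω = 0 := by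
  have h := tw_add (0 : F) 0 ω
  rw [add_zero] at h
  exact left_eq_add.mp h

/-- the differentials regular with respect to `D` are the multiples of a fixed one by the
functions in `LL k (W - D)`. -/
theorem CDual_finrank {k F : Type*} [Field k] [Field F] [Algebra k F] [CFF k F]
    {ω : Module.Dual k (Plk k F →₀ F)} {A W : Plk k F →₀ ℤ} (h0 : ω ≠ 0) (hA : ω ∈ Om A)
    (hW : ∀ D, ω ∈ Om D ↔ D ≤ W) (D : Plk k F →₀ ℤ) :
    Module.finrank k (Om D) = Module.finrank k (LL k (W - D)) := by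
  have hiff : ∀ z : F, z ≠ 0 → (tw z ω ∈ Om D ↔ z ∈ LL k (W - D)) := by
    intro z hz
    rw [tw_mem_Om hz, hW, mem_LL]
    constructor
    · intro h
      refine Or.inr fun P => ?_
      have h1 := h P
      rw [Finsupp.sub_apply, dv_apply] at h1
      rw [Finsupp.sub_apply]
      linarith
    · rintro (h | h)
      · exact absurd h hz
      · intro P
        have h1 := h P
        rw [Finsupp.sub_apply] at h1
        rw [Finsupp.sub_apply, dv_apply]
        linarith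
  have hmem : ∀ z : LL k (W - D), tw (z : F) ω ∈ Om D := by
    rintro ⟨z, hz⟩
    by_cases h : z = 0
    · subst h
      change tw (0 : F) ω ∈ Om D
      rw [CDual_tw_zero]
      exact zero_mem _
    · exact (hiff z h).2 hz
  let T : LL k (W - D) →ₗ[k] Om D :=
    { toFun := fun z => ⟨tw (z : F) ω, hmem z⟩
      map_add' := fun z w => Subtype.ext (tw_add (z : F) w ω)
      map_smul' := fun a z => Subtype.ext (tw_smul a (z : F) ω) }
  have hT : Function.Bijective T := by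
    constructor
    · rw [injective_iff_map_eq_zero]
      intro z hz
      have h1 : tw (z : F) ω = 0 := congrArg Subtype.val hz
      by_contra hne
      have h2 : (z : F) ≠ 0 := fun h => hne (Subtype.ext h)
      apply h0
      have h3 : tw (((z : F))⁻¹ * (z : F)) ω = tw ((z : F))⁻¹ (tw (z : F) ω) := tw_mul _ _ _
      rw [inv_mul_cancel₀ h2, tw_one, h1, map_zero] at h3
      exact h3
    · rintro ⟨ω', h'⟩
      obtain ⟨z, hz⟩ := exists_tw h0 hA h'
      by_cases h : z = 0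
      · refine ⟨0, Subtype.ext ?_⟩
        rw [map_zero]
        change (0 : Module.Dual k (Plk k F →₀ F)) = ω'
        rw [hz, h, CDual_tw_zero]
      · refine ⟨⟨z, (hiff z h).1 (hz ▸ h')⟩, Subtype.ext ?_⟩
        exact hz.symm
  exact (LinearEquiv.ofBijective T hT).finrank_eq.symm

/-- the Riemann-Roch theorem. -/
theorem exists_RR (k F : Type*) [Field k] [Field F] [Algebra k F] [CFF k F] :
    ∃ (g : ℕ) (κ : Plk k F →₀ ℤ), ∀ D : Plk k F →₀ ℤ,
      (Module.finrank k (LL k D) : ℤ) - Module.finrank k (LL k (κ - D)) = dg D + 1 - g := by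
  obtain ⟨g, _, c, hc⟩ := exists_riem k F
  obtain ⟨D₀, hD₀⟩ := exists_dg_eq k F (-2)
  have h1 : 0 < Module.finrank k (Om D₀) := by
    have h := finrank_Om hc D₀
    omega
  obtain ⟨ω, hω, hne⟩ : ∃ ω ∈ Om D₀, ω ≠ 0 := by
    have hnt : Nontrivial (Om D₀) := Module.nontrivial_of_finrank_pos h1
    obtain ⟨⟨ω, hω⟩, h⟩ := exists_ne (0 : Om D₀)
    exact ⟨ω, hω, fun h' => h (Subtype.ext h')⟩
  obtain ⟨W, hW⟩ := exists_dvOm hne hω
  refine ⟨g, W, fun D => ?_⟩
  rw [← CDual_finrank hne hω hW D, finrank_Om hc D]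
  ring

section

variable (k F : Type*) [Field k] [Field F] [Algebra k F] [CFF k F]

/-- the genus. -/
noncomputable def gen : ℕ := (exists_RR k F).choose

/-- a canonical divisor. -/
noncomputable def can : Plk k F →₀ ℤ := (exists_RR k F).choose_spec.choose

end

section

variable {k F : Type*} [Field k] [Field F] [Algebra k F] [CFF k F]

theorem RR (D : Plk k F →₀ ℤ) :
    (Module.finrank k (LL k D) : ℤ) - Module.finrank k (LL k (can k F - D)) =
      dg D + 1 - gen k F := (exists_RR k F).choose_spec.choose_spec D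

/-- Riemann-Roch for large degree. -/
theorem RR_large {D : Plk k F →₀ ℤ} (h : dg (can k F) < dg D) :
    (Module.finrank k (LL k D) : ℤ) = dg D + 1 - gen k F := by
  have h1 := RR D
  have h2 : Module.finrank k (LL k (can k F - D)) = 0 :=
    l_eq_zero (by rw [map_sub]; linarith)
  rw [h2] at h1
  simpa using h1

/-- the dimensions attached to the multiples of the divisor of poles. -/
theorem exists_l_pol_eq {x : F} (hx : ∀ a : k, x ≠ algebraMap k F a) :
    ∃ r₀ : ℕ, ∀ r : ℕ, r₀ ≤ r → (Module.finrank k (LL k (r • pol k x)) : ℤ) =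
      r * Module.finrank k⟮x⟯ F + 1 - gen k F := by
  have hfd : FiniteDimensional k⟮x⟯ F := (finite_of_notMem hx).2
  have hpos : 0 < Module.finrank k⟮x⟯ F := Module.finrank_pos
  refine ⟨(dg (can k F) + 1).toNat, fun r hr => ?_⟩
  have hdg : dg (r • pol k x) = r * (Module.finrank k⟮x⟯ F : ℤ) := by
    rw [map_nsmul, dg_pol hx, nsmul_eq_mul]
  rw [← hdg]
  refine RR_large ?_
  rw [hdg]
  have h1 : dg (can k F) + 1 ≤ r := Int.toNat_le.mp hr
  have h2 : (1 : ℤ) ≤ Module.finrank k⟮x⟯ F := by exact_mod_cast hpos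
  have h3 : (r : ℤ) * 1 ≤ r * (Module.finrank k⟮x⟯ F : ℤ) :=
    mul_le_mul_of_nonneg_left h2 (Int.natCast_nonneg r)
  linarith

/-- uniqueness of the genus. -/
theorem gen_unique {g : ℤ} {c : ℤ} (h : ∀ D : Plk k F →₀ ℤ, c ≤ dg D →
    (Module.finrank k (LL k D) : ℤ) = dg D + 1 - g) : g = gen k F := by
  obtain ⟨D, hD⟩ := exists_dg_eq k F (max c (dg (can k F) + 1))
  have h1 := h D (by rw [hD]; exact le_max_left _ _)
  have h2 := RR_large (D := D) (by
    rw [hD]
    exact lt_of_lt_of_le (lt_add_one _) (le_max_right _ _))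
  linarith

end

end Vale.Agent.P019P
end
end

section

section

/-!
# Functions with poles at one place
-/

namespace Vale.Agent.P019P

open Polynomial IntermediateField

variable {k F : Type*} [Field k] [Field F] [Algebra k F] [CFF k F]

omit [CFF k F] in
theorem h4RRA_dg_single (P : Plk k F) (n : ℤ) : dg (Finsupp.single P n) = n := by
  simp [dg]

omit [CFF k F] in
theorem h4RRA_single_self (P : Plk k F) (n : ℤ) : (Finsupp.single P n : Plk k F →₀ ℤ) P = n :=
  Finsupp.single_eq_same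

omit [CFF k F] in
theorem h4RRA_single_ne {P Q : Plk k F} (h : Q ≠ P) (n : ℤ) :
    (Finsupp.single P n : Plk k F →₀ ℤ) Q = 0 := by
  classical
  rw [Finsupp.single_apply, if_neg (fun e => h e.symm)]

variable (k F) in
theorem h4_dg_can : dg (can k F) = 2 * (gen k F : ℤ) - 2 := by
  have h1 := RR (0 : Plk k F →₀ ℤ)
  have h2 := RR (can k F)
  rw [l_zero, sub_zero, map_zero] at h1
  rw [sub_self, l_zero] at h2
  push_cast at h1 h2
  linarith

theorem h4_l_eq {D : Plk k F →₀ ℤ} (h : 2 * (gen k F : ℤ) - 1 ≤ dg D) :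
    (Module.finrank k (LL k D) : ℤ) = dg D + 1 - gen k F :=
  RR_large (by rw [h4_dg_can]; linarith)

/-- functions with given order at a place. -/
theorem h4_exact {D : Plk k F →₀ ℤ} (P : Plk k F) (h : 2 * (gen k F : ℤ) ≤ dg D) :
    ∃ z : F, z ≠ 0 ∧ (∀ Q, -D Q ≤ ord Q z) ∧ ord P z = -D P := by
  by_contra hcon
  push Not at hcon
  have hle : LL k D ≤ LL k (D - Finsupp.single P 1) := by
    intro z hz
    rcases mem_LL.1 hz with h0 | h1
    · exact mem_LL.2 (Or.inl h0)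
    · by_cases hz0 : z = 0
      · exact mem_LL.2 (Or.inl hz0)
      refine mem_LL.2 (Or.inr fun Q => ?_)
      have h2 := hcon z hz0 h1
      by_cases hQ : Q = P
      · subst hQ
        rw [Finsupp.sub_apply, h4RRA_single_self]
        have h3 := h1 Q
        omega
      · rw [Finsupp.sub_apply, h4RRA_single_ne hQ]
        have h3 := h1 Q
        omega
  have h1 := h4_l_eq (D := D) (by linarith)
  have hdg : dg (D - Finsupp.single P 1) = dg D - 1 := by
    rw [map_sub, h4RRA_dg_single]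
  have h2 := h4_l_eq (D := D - Finsupp.single P 1) (by rw [hdg]; linarith)
  have h3 : Module.finrank k (LL k D) ≤ Module.finrank k (LL k (D - Finsupp.single P 1)) :=
    Submodule.finrank_mono hle
  rw [hdg] at h2
  omega

theorem mem_LP {P₀ : Plk k F} {n : ℕ} {z : F} :
    z ∈ LP P₀ n ↔ z ∈ RO P₀ ∧ (z = 0 ∨ -(n : ℤ) ≤ ord P₀ z) := by
  constructor
  · intro h
    rcases mem_LL.1 h with h0 | h1
    · exact ⟨mem_RO.2 fun P _ => Or.inl h0, Or.inl h0⟩
    · refine ⟨mem_RO.2 fun P hP => Or.inr ?_, Or.inr ?_⟩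
      · have h2 := h1 P
        rw [h4RRA_single_ne hP] at h2
        omega
      · have h2 := h1 P₀
        rwa [h4RRA_single_self] at h2
  · rintro ⟨h1, h2⟩
    rcases h2 with h0 | h2
    · exact mem_LL.2 (Or.inl h0)
    by_cases hz : z = 0
    · exact mem_LL.2 (Or.inl hz)
    refine mem_LL.2 (Or.inr fun P => ?_)
    by_cases hP : P = P₀
    · subst hP
      rwa [h4RRA_single_self]
    · rw [h4RRA_single_ne hP, neg_zero]
      exact (mem_RO.1 h1 P hP).resolve_left hz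

theorem LP_mono (P₀ : Plk k F) {m n : ℕ} (h : m ≤ n) : LP P₀ m ≤ LP P₀ n := by
  intro z hz
  obtain ⟨h1, h2⟩ := mem_LP.1 hz
  refine mem_LP.2 ⟨h1, h2.imp_right fun h3 => ?_⟩
  omega

theorem LP_mul {P₀ : Plk k F} {m n : ℕ} {z w : F} (hz : z ∈ LP P₀ m) (hw : w ∈ LP P₀ n) :
    z * w ∈ LP P₀ (m + n) := by
  obtain ⟨h1, h2⟩ := mem_LP.1 hz
  obtain ⟨h3, h4⟩ := mem_LP.1 hw
  refine mem_LP.2 ⟨mul_mem h1 h3, ?_⟩
  rcases h2 with h2 | h2
  · left; rw [h2, zero_mul]
  rcases h4 with h4 | h4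
  · left; rw [h4, mul_zero]
  by_cases hz0 : z = 0
  · left; rw [hz0, zero_mul]
  by_cases hw0 : w = 0
  · left; rw [hw0, mul_zero]
  right
  rw [ord_mul P₀ hz0 hw0]
  push_cast
  linarith

theorem LP_pow {P₀ : Plk k F} {m : ℕ} {z : F} (hz : z ∈ LP P₀ m) (n : ℕ) :
    z ^ n ∈ LP P₀ (n * m) := by
  obtain ⟨h1, h2⟩ := mem_LP.1 hz
  refine mem_LP.2 ⟨pow_mem h1 n, ?_⟩
  rcases h2 with h2 | h2
  · rcases Nat.eq_zero_or_pos n with rfl | hn
    · right
      rw [pow_zero, ord_one]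
      simp
    · left; rw [h2, zero_pow hn.ne']
  · right
    rw [ord_pow]
    push_cast
    have h3 : (0 : ℤ) ≤ n := Int.natCast_nonneg _
    have h4 := mul_le_mul_of_nonneg_left h2 h3
    linarith

theorem LP_one (P₀ : Plk k F) (n : ℕ) : (1 : F) ∈ LP P₀ n := by
  refine mem_LP.2 ⟨one_mem _, Or.inr ?_⟩
  rw [ord_one]
  simp

theorem exists_mem_LP {P₀ : Plk k F} {z : F} (hz : z ∈ RO P₀) : ∃ n : ℕ, z ∈ LP P₀ n := by
  refine ⟨(-(ord P₀ z)).toNat, mem_LP.2 ⟨hz, Or.inr ?_⟩⟩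
  have := Int.self_le_toNat (-(ord P₀ z))
  linarith

theorem h4_const {P₀ : Plk k F} {z : F} (hz : z ∈ RO P₀) (h : 0 ≤ ord P₀ z) :
    ∃ c : k, z = algebraMap k F c := by
  apply LL_zero_le
  by_cases hz0 : z = 0
  · exact mem_LL.2 (Or.inl hz0)
  refine mem_LL.2 (Or.inr fun P => ?_)
  rw [Finsupp.zero_apply, neg_zero]
  by_cases hP : P = P₀
  · rw [hP]; exact h
  · exact (mem_RO.1 hz P hP).resolve_left hz0

theorem h4_ord_le (P₀ : Plk k F) {z : F} (hz : z ∈ RO P₀) (hz0 : z ≠ 0) : ord P₀ z ≤ 0 := by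
  by_contra hcon
  push Not at hcon
  obtain ⟨c, hc⟩ := h4_const hz hcon.le
  rw [hc, ord_const] at hcon
  exact lt_irrefl _ hcon

theorem h4RRA_RO_ord (P₀ : Plk k F) {n : ℕ} (h : 2 * gen k F ≤ n) :
    ∃ z : F, z ∈ RO P₀ ∧ z ≠ 0 ∧ ord P₀ z = -(n : ℤ) := by
  obtain ⟨z, hz0, h1, h2⟩ := h4_exact (D := Finsupp.single P₀ (n : ℤ)) P₀ (by
    rw [h4RRA_dg_single]; exact_mod_cast h)
  have h3 : z ∈ LP P₀ n := mem_LL.2 (Or.inr h1)
  rw [h4RRA_single_self] at h2
  exact ⟨z, (mem_LP.1 h3).1, hz0, h2⟩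

theorem exists_ne_place (P₀ : Plk k F) : ∃ P : Plk k F, P ≠ P₀ := by
  obtain ⟨z, _, hz0, h2⟩ := h4RRA_RO_ord P₀ (n := 2 * gen k F + 1) (by omega)
  have h3 : ord P₀ z < 0 := by
    rw [h2]; push_cast; omega
  obtain ⟨P, hP⟩ := exists_zero (k := k) (z := z) (by
    intro a ha
    rw [ha, ord_const] at h3
    exact lt_irrefl _ h3)
  refine ⟨P, fun h => ?_⟩
  rw [h] at hP
  exact lt_asymm hP h3

theorem exists_RO_ord (P₀ : Plk k F) {n : ℕ} (h : 2 * gen k F ≤ n) :
    ∃ z : F, z ∈ RO P₀ ∧ z ≠ 0 ∧ ord P₀ z = -(n : ℤ) :=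
  h4RRA_RO_ord P₀ h

theorem l_LP (P₀ : Plk k F) {n : ℕ} (h : 2 * gen k F ≤ n + 1) :
    (Module.finrank k (LP P₀ n) : ℤ) = n + 1 - gen k F := by
  have h1 := h4_l_eq (D := Finsupp.single P₀ (n : ℤ)) (by
    rw [h4RRA_dg_single]; omega)
  rwa [h4RRA_dg_single] at h1

/-- the dimension of the functions of bounded degree is at most `n + 1`. -/
theorem l_LP_le (P₀ : Plk k F) (n : ℕ) : Module.finrank k (LP P₀ n) ≤ n + 1 := by
  have h0 : (0 : Plk k F →₀ ℤ) ≤ Finsupp.single P₀ (n : ℤ) := by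
    intro P
    by_cases hP : P = P₀
    · rw [hP, h4RRA_single_self, Finsupp.zero_apply]; exact Int.natCast_nonneg _
    · rw [h4RRA_single_ne hP, Finsupp.zero_apply]
  have h1 := l_sub_le h0
  rw [l_zero, map_zero, h4RRA_dg_single] at h1
  push_cast at h1
  have h2 : (Module.finrank k (LL k (Finsupp.single P₀ (n : ℤ))) : ℤ) ≤ n + 1 := by linarith
  exact_mod_cast h2

end Vale.Agent.P019P
end
end

section

section

/-!
# From algebras to models
-/

namespace Vale.Agent.P019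

set_option linter.style.haveILetI false

open Polynomial

section iface

variable {k K : Type*} [Field k] [Field K] [Algebra k K]

/-- the image of the constants. -/
def cst (k K : Type*) [Field k] [Field K] [Algebra k K] : Subfield K :=
  (algebraMap k K).fieldRange

theorem mem_cst {x : K} : x ∈ cst k K ↔ ∃ c : k, algebraMap k K c = x := RingHom.mem_fieldRange

theorem algebraMap_mem_cst (c : k) : algebraMap k K c ∈ cst k K := mem_cst.2 ⟨c, rfl⟩

/-- the constants and their image. -/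
noncomputable def cstEquiv (k K : Type*) [Field k] [Field K] [Algebra k K] : k ≃+* cst k K :=
  RingEquiv.ofBijective ((algebraMap k K).codRestrict (cst k K) algebraMap_mem_cst)
    ⟨RingHom.injective _, by
      rintro ⟨x, hx⟩
      obtain ⟨c, rfl⟩ := mem_cst.1 hx
      exact ⟨c, rfl⟩⟩

/-- X1 -/
theorem isAlgClosed_cst [IsAlgClosed k] : IsAlgClosed (cst k K) := by
  apply IsAlgClosed.of_exists_root
  intro p _ hirr
  have h1 : (p.map (cstEquiv k K).symm.toRingHom).degree ≠ 0 := by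
    rw [degree_map]
    exact (degree_pos_of_irreducible hirr).ne'
  obtain ⟨c, hc⟩ := IsAlgClosed.exists_root _ h1
  refine ⟨cstEquiv k K c, ?_⟩
  have h2 := congrArg (cstEquiv k K) (hc : eval c _ = 0)
  rw [map_zero] at h2
  have h3 : (p.map (cstEquiv k K).symm.toRingHom).map (cstEquiv k K).toRingHom = p := by
    rw [Polynomial.map_map]
    have h4 : (cstEquiv k K).toRingHom.comp (cstEquiv k K).symm.toRingHom =
        RingHom.id (cst k K) := by
      ext x
      simp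
    rw [h4, Polynomial.map_id]
  have h5 : eval (cstEquiv k K c) p =
      cstEquiv k K (eval c (p.map (cstEquiv k K).symm.toRingHom)) := by
    conv_lhs => rw [← h3]
    rw [eval_map]
    exact (Polynomial.hom_eval₂ _ (RingHom.id k) (cstEquiv k K).toRingHom c).symm
  change eval (cstEquiv k K c) p = 0
  rw [h5, h2]

theorem adjoin_cst (S : Set K) :
    (IntermediateField.adjoin k S).toSubfield = cst k K ⊔ Subfield.closure S := by
  apply le_antisymm
  · change Subfield.closure (Set.range (algebraMap k K) ∪ S) ≤ _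
    rw [Subfield.closure_le]
    rintro z (⟨a, rfl⟩ | hz)
    · exact (le_sup_left : cst k K ≤ cst k K ⊔ Subfield.closure S) (algebraMap_mem_cst a)
    · exact (le_sup_right : Subfield.closure S ≤ cst k K ⊔ Subfield.closure S)
        (Subfield.subset_closure hz)
  · refine sup_le ?_ ?_
    · intro z hz
      obtain ⟨c, rfl⟩ := mem_cst.1 hz
      exact (IntermediateField.adjoin k S).algebraMap_mem c
    · rw [Subfield.closure_le]
      exact IntermediateField.subset_adjoin k S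

/-- X2 -/
theorem fg_cst [Algebra.EssFiniteType k K] : FG (cst k K) (⊤ : Subfield K) := by
  obtain ⟨S, hS⟩ := IntermediateField.fg_top k K
  refine ⟨S, ?_⟩
  rw [← adjoin_cst, hS]
  rfl

theorem isAlgebraic_adjoin_cst (S : Set K) (z : K) :
    IsAlgebraic (Algebra.adjoin k S) z ↔
      IsAlgebraic (cst k K ⊔ Subfield.closure S : Subfield K) z := by
  rw [← IntermediateField.isAlgebraic_adjoin_iff, ← adjoin_cst]
  exact Iff.rfl

/-- X3 -/
theorem exists_two_of_trdeg (h : 2 ≤ Algebra.trdeg k K) :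
    ∃ x y : K, x ∉ cst k K ∧ ¬ IsAlgebraic (adj (cst k K) x) y := by
  obtain ⟨s, hs⟩ := exists_isTranscendenceBasis k K
  have h1 : (2 : Cardinal) ≤ Cardinal.mk s := by
    rw [hs.cardinalMk_eq_trdeg]
    exact h
  obtain ⟨x, y, hxy⟩ := Cardinal.two_le_iff.1 h1
  have h2 := hs.1
  have h3 : AlgebraicIndependent k (fun o : Option Unit => o.elim (y : K) (fun _ => (x : K))) := by
    have h4 : Function.Injective (fun o : Option Unit => o.elim y (fun _ => x)) := by
      rintro (_ | _) (_ | _) hab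
      · rfl
      · exact absurd hab.symm hxy
      · exact absurd hab hxy
      · rfl
    have h5 := h2.comp _ h4
    have h6 : (fun o : Option Unit => o.elim (y : K) (fun _ => (x : K))) =
        ((↑) : s → K) ∘ (fun o : Option Unit => o.elim y (fun _ => x)) := by
      funext o
      rcases o with _ | _ <;> rfl
    rw [h6]
    exact h5
  rw [AlgebraicIndependent.option_iff] at h3
  refine ⟨x, y, ?_, ?_⟩
  · intro hx
    obtain ⟨c, hc⟩ := mem_cst.1 hx
    have h4 := h2.transcendental x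
    apply h4
    change IsAlgebraic k (x : K)
    rw [← hc]
    exact isAlgebraic_algebraMap c
  · intro hy
    apply h3.2
    rw [isAlgebraic_adjoin_cst]
    have h4 : Set.range (fun _ : Unit => (x : K)) = {(x : K)} := Set.range_const
    rw [h4]
    exact hy

end iface

end Vale.Agent.P019
end
end

section

section

/-!
# Bounded relations between elements of bounded degree
-/

namespace Vale.Agent.P019P

open Vale.Agent.P019

set_option linter.style.haveILetI false
set_option linter.unusedSectionVars false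

open Polynomial

/-- a nontrivial polynomial relation of bidegree at most `(d, d)` with coefficients in `l`. -/
def BRel {κ : Type*} [Field κ] (l : Subfield κ) (d : ℕ) (X Y : κ) : Prop :=
  ∃ c : ℕ → ℕ → κ, (∀ i j, c i j ∈ l) ∧
    (∃ i ∈ Finset.range (d + 1), ∃ j ∈ Finset.range (d + 1), c i j ≠ 0) ∧
    ∑ i ∈ Finset.range (d + 1), ∑ j ∈ Finset.range (d + 1), c i j * X ^ i * Y ^ j = 0

section urel

variable {κ : Type*} [Field κ] {l : Subfield κ}

/-- coefficients of the swapped polynomial. -/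
theorem urel_coeff_swap {R : Type*} [CommRing R] (Φ : R[X][X]) (i j : ℕ) :
    ((Bivariate.swap Φ).coeff i).coeff j = (Φ.coeff j).coeff i := by
  induction Φ using Polynomial.induction_on' with
  | add p q hp hq => simp only [map_add, coeff_add, hp, hq]
  | monomial n a =>
    induction a using Polynomial.induction_on' with
    | add p q hp hq => simp only [map_add, coeff_add, hp, hq]
    | monomial m b =>
      rw [Bivariate.swap_monomial_monomial, coeff_monomial, coeff_monomial]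
      split_ifs with h1 h2 h2
      · rw [coeff_monomial, coeff_monomial, if_pos h1, if_pos h2]
      · rw [coeff_monomial, if_neg h2, coeff_zero]
      · rw [coeff_monomial, if_neg h1, coeff_zero]
      · rw [coeff_zero, coeff_zero]

/-- the evaluation in two variables. -/
theorem urel_eval (x y : κ) (Φ : l[X][X]) :
    aevalAeval x y Φ = eval₂ ((aeval x : l[X] →ₐ[l] κ) : l[X] →+* κ) y Φ := by
  induction Φ using Polynomial.induction_on' with
  | add p q hp hq => rw [map_add, hp, hq, eval₂_add]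
  | monomial n a =>
    rw [eval₂_monomial, ← C_mul_X_pow_eq_monomial, map_mul, map_pow, aevalAeval_C, aevalAeval_Y]
    rfl

/-- polynomials in `Z` are in `l(Z)`. -/
theorem urel_mem (Z : κ) (A : l[X]) : aeval Z A ∈ Vale.Agent.P019.adj l Z := by
  rw [aeval_eq_sum_range]
  refine sum_mem fun i _ => ?_
  rw [Algebra.smul_def]
  exact mul_mem (Vale.Agent.P019.le_adj l Z (A.coeff i).2)
    (pow_mem (Vale.Agent.P019.mem_adj l Z) i)

/-- the evaluation with values in `l(Z)`. -/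
noncomputable def urelEv (l : Subfield κ) (Z : κ) : l[X] →+* Vale.Agent.P019.adj l Z :=
  ((aeval Z : l[X] →ₐ[l] κ) : l[X] →+* κ).codRestrict _ (fun p => urel_mem Z p)

theorem urelEv_inj {Z : κ} (hZ : ¬ IsAlgebraic l Z) : Function.Injective (urelEv l Z) := by
  rw [injective_iff_map_eq_zero]
  intro p hp
  by_contra hne
  exact hZ ⟨p, hne, congrArg Subtype.val hp⟩

theorem urel_frac {Z : κ} (hZ : ¬ IsAlgebraic l Z) :
    @IsFractionRing l[X] _ (Vale.Agent.P019.adj l Z) _ (urelEv l Z).toAlgebra := by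
  letI : Algebra l[X] (Vale.Agent.P019.adj l Z) := (urelEv l Z).toAlgebra
  haveI : FaithfulSMul l[X] (Vale.Agent.P019.adj l Z) :=
    (faithfulSMul_iff_algebraMap_injective _ _).2 (urelEv_inj hZ)
  refine IsFractionRing.of_field l[X] (Vale.Agent.P019.adj l Z) ?_
  rintro ⟨z, hz⟩
  obtain ⟨p, q, h⟩ := finK_mem_adj.1 hz
  exact ⟨p, q, Subtype.ext h⟩

/-- an irreducible relation. -/
theorem urel_exists {Z W : κ} (hZ : ¬ IsAlgebraic l Z)
    (hW : IsAlgebraic (Vale.Agent.P019.adj l Z) W) :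
    ∃ Φ : l[X][X], Irreducible Φ ∧ aevalAeval Z W Φ = 0 := by
  letI : Algebra l[X] (Vale.Agent.P019.adj l Z) := (urelEv l Z).toAlgebra
  haveI := urel_frac hZ
  letI : Algebra l[X] κ := ((aeval Z : l[X] →ₐ[l] κ) : l[X] →+* κ).toAlgebra
  haveI : IsScalarTower l[X] (Vale.Agent.P019.adj l Z) κ :=
    IsScalarTower.of_algebraMap_eq (fun _ => rfl)
  obtain ⟨p, hp0, hp⟩ := (IsFractionRing.isAlgebraic_iff l[X] (Vale.Agent.P019.adj l Z) κ).2 hW
  let ψ : l[X][X] →+* κ := ((aevalAeval Z W : l[X][X] →ₐ[l] κ) : l[X][X] →+* κ)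
  have h1 : (RingHom.ker ψ).IsPrime := RingHom.ker_isPrime ψ
  have h2 : RingHom.ker ψ ≠ ⊥ := by
    intro h
    apply hp0
    have h3 : p ∈ RingHom.ker ψ := by
      rw [RingHom.mem_ker]
      change aevalAeval Z W p = 0
      rw [urel_eval]
      exact hp
    rw [h] at h3
    exact h3
  obtain ⟨Φ, hΦ, hΦp⟩ := h1.exists_mem_prime_of_ne_bot h2
  exact ⟨Φ, hΦp.irreducible, hΦ⟩

/-- Gauss's lemma. -/
theorem urel_gauss {Z W : κ} (hZ : ¬ IsAlgebraic l Z) {Φ : l[X][X]} (hΦ : Irreducible Φ)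
    (h0 : aevalAeval Z W Φ = 0) :
    Irreducible (Φ.map (urelEv l Z)) ∧ aeval W (Φ.map (urelEv l Z)) = 0 := by
  constructor
  · letI : Algebra l[X] (Vale.Agent.P019.adj l Z) := (urelEv l Z).toAlgebra
    haveI := urel_frac hZ
    have h1 : Φ.natDegree ≠ 0 := by
      intro h
      obtain ⟨a, ha⟩ := natDegree_eq_zero.1 h
      rw [← ha, aevalAeval_C] at h0
      have ha0 : a ≠ 0 := by
        rintro rfl
        rw [C_0] at ha
        exact hΦ.ne_zero ha.symm
      exact hZ ⟨a, ha0, h0⟩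
    exact ((hΦ.isPrimitive h1).irreducible_iff_irreducible_map_fraction_map
      (K := Vale.Agent.P019.adj l Z)).1 hΦ
  · rw [aeval_def, eval₂_map, ← h0, urel_eval]
    rfl

/-- the degree of the minimal polynomial. -/
theorem urel_natDegree {Z W : κ} (hZ : ¬ IsAlgebraic l Z) {Φ : l[X][X]} (hΦ : Irreducible Φ)
    (h0 : aevalAeval Z W Φ = 0) :
    (minpoly (Vale.Agent.P019.adj l Z) W).natDegree = Φ.natDegree := by
  obtain ⟨h1, h2⟩ := urel_gauss hZ hΦ h0
  rw [← minpoly.eq_of_irreducible h1 h2, natDegree_mul_C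
    (inv_ne_zero (leadingCoeff_ne_zero.2 h1.ne_zero)),
    natDegree_map_eq_of_injective (urelEv_inj hZ)]

/-- separability. -/
theorem urel_sep {Z W : κ} (hZ : ¬ IsAlgebraic l Z) {Φ : l[X][X]} (hΦ : Irreducible Φ)
    (h0 : aevalAeval Z W Φ = 0) (hd : derivative Φ ≠ 0) :
    IsSeparable (Vale.Agent.P019.adj l Z) W := by
  obtain ⟨h1, h2⟩ := urel_gauss hZ hΦ h0
  have h3 : (Φ.map (urelEv l Z)).Separable := by
    rw [separable_iff_derivative_ne_zero h1, derivative_map]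
    rwa [Ne, Polynomial.map_eq_zero_iff (urelEv_inj hZ)]
  exact h3.of_dvd (minpoly.dvd _ _ h2)

/-- the two derivatives of an irreducible polynomial are not both zero. -/
theorem urel_deriv {F : Type*} [Field F] [PerfectField F] {Φ : F[X][X]} (hΦ : Irreducible Φ)
    (h1 : derivative Φ = 0) (h2 : derivative (Bivariate.swap Φ) = 0) : False := by
  obtain ⟨p, hp⟩ := ExpChar.exists F
  haveI : PerfectRing F p := PerfectField.toPerfectRing p
  haveI : ExpChar F[X] p := inferInstance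
  have hco : ∀ j, derivative (Φ.coeff j) = 0 := by
    intro j
    ext i
    rw [coeff_derivative, coeff_zero]
    have h3 := congrArg (fun q => (q.coeff i).coeff j) h2
    simp only [coeff_derivative, coeff_zero] at h3
    have h4 : ((Bivariate.swap Φ).coeff (i + 1) * ((i : F[X]) + 1)).coeff j =
        ((Bivariate.swap Φ).coeff (i + 1)).coeff j * ((i : F) + 1) := by
      have h5 : ((i : F[X]) + 1) = C ((i : F) + 1) := by
        rw [C_add, C_1, ← C_eq_natCast]
      rw [h5, coeff_mul_C]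
    rw [h4, urel_coeff_swap] at h3
    exact h3
  have hlift : ∀ j, Φ.coeff j ∈ Set.range (frobenius F[X] p) := by
    intro j
    have h3 := expand_contract' (p := p) (hco j)
    refine ⟨(contract p (Φ.coeff j)).map ((frobeniusEquiv F p).symm : F →+* F), ?_⟩
    have h5 : (frobenius F p).comp ((frobeniusEquiv F p).symm : F →+* F) = RingHom.id F := by
      ext x
      rw [RingHom.comp_apply, RingHom.id_apply]
      exact frobenius_apply_frobeniusEquiv_symm F p x
    rw [frobenius_def, ← map_frobenius_expand, map_expand, map_map, h5, Polynomial.map_id, h3]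
  have h3 := expand_contract' (p := p) h1
  have h4 : contract p Φ ∈ lifts (frobenius F[X] p) := by
    rw [lifts_iff_coeff_lifts]
    intro n
    rw [coeff_contract (expChar_pos F p).ne']
    exact hlift _
  obtain ⟨G, hG⟩ := (mem_lifts _).1 h4
  rw [← hG, ← map_expand, map_frobenius_expand] at h3
  obtain _ | ⟨hprime⟩ := hp
  · have h5 : Φ.natDegree = 0 := derivative_eq_zero.1 h1
    have h6 : (Φ.coeff 0).natDegree = 0 := derivative_eq_zero.1 (hco 0)
    rw [eq_C_of_natDegree_eq_zero h5, eq_C_of_natDegree_eq_zero h6] at hΦ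
    by_cases hb : (Φ.coeff 0).coeff 0 = 0
    · rw [hb, C_0, C_0] at hΦ
      exact hΦ.ne_zero rfl
    · exact hΦ.not_isUnit (isUnit_C.2 (isUnit_C.2 (isUnit_iff_ne_zero.2 hb)))
  · rw [← h3] at hΦ
    exact not_irreducible_pow hprime.ne_one hΦ

/-- the degree of a separable element. -/
theorem urel_deg {Z W : κ} {d : ℕ} (hs : IsSeparable (Vale.Agent.P019.adj l Z) W)
    (hf : Module.Finite (adj l Z) κ) (hd : Module.finrank (adj l Z) κ ≤ d) :
    (minpoly (Vale.Agent.P019.adj l Z) W).natDegree ≤ d := by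
  have h1 := minpoly.map_eq_of_isSeparable_of_isPurelyInseparable
    (F := Vale.Agent.P019.adj l Z) (perfectClosure (Vale.Agent.P019.adj l Z) κ) W hs
  haveI : Module.Finite (perfectClosure (Vale.Agent.P019.adj l Z) κ) κ := hf
  have h2 : Module.finrank (perfectClosure (Vale.Agent.P019.adj l Z) κ) κ ≤ d := hd
  have h3 := minpoly.natDegree_le (A := perfectClosure (Vale.Agent.P019.adj l Z) κ) W
  rw [← h1, natDegree_map] at h3
  exact h3.trans h2

/-- the relation. -/
theorem urel_brel {Z W : κ} {d : ℕ} (hZ : ¬ IsAlgebraic l Z) (hW : ¬ IsAlgebraic l W)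
    (hs : IsSeparable (Vale.Agent.P019.adj l Z) W) (hs' : IsSeparable (Vale.Agent.P019.adj l W) Z)
    (hf : Module.Finite (adj l Z) κ) (hd : Module.finrank (adj l Z) κ ≤ d)
    (hf' : Module.Finite (adj l W) κ) (hd' : Module.finrank (adj l W) κ ≤ d) : BRel l d Z W := by
  obtain ⟨Φ, hΦ, h0⟩ := urel_exists hZ hs.isIntegral.isAlgebraic
  have hΦ' : Irreducible (Bivariate.swap Φ) := (MulEquiv.irreducible_iff _).2 hΦ
  have h0' : aevalAeval W Z (Bivariate.swap Φ) = 0 := by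
    rw [Bivariate.aevalAeval_swap]
    exact h0
  have h1 : Φ.natDegree ≤ d := by
    rw [← urel_natDegree hZ hΦ h0]
    exact urel_deg hs hf hd
  have h2 : (Bivariate.swap Φ).natDegree ≤ d := by
    rw [← urel_natDegree hW hΦ' h0']
    exact urel_deg hs' hf' hd'
  have h3 : ∀ j, (Φ.coeff j).natDegree ≤ d := by
    intro j
    rw [natDegree_le_iff_coeff_eq_zero]
    intro i hi
    rw [← urel_coeff_swap, coeff_eq_zero_of_natDegree_lt (lt_of_le_of_lt h2 hi), coeff_zero]
  refine ⟨fun i j => (((Φ.coeff j).coeff i : l) : κ), fun i j => ((Φ.coeff j).coeff i).2, ?_, ?_⟩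
  · by_contra hcon
    push Not at hcon
    apply hΦ.ne_zero
    ext j i
    rw [coeff_zero, coeff_zero]
    by_cases hj : j ∈ Finset.range (d + 1)
    · by_cases hi : i ∈ Finset.range (d + 1)
      · exact hcon i hi j hj
      · have h4 : d < i := by
          rw [Finset.mem_range] at hi
          omega
        rw [coeff_eq_zero_of_natDegree_lt (lt_of_le_of_lt (h3 j) h4)]
    · have h4 : d < j := by
        rw [Finset.mem_range] at hj
        omega
      rw [coeff_eq_zero_of_natDegree_lt (lt_of_le_of_lt h1 h4), coeff_zero]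
  · rw [urel_eval, eval₂_eq_sum_range' _ (Nat.lt_succ_of_le h1)] at h0
    rw [Finset.sum_comm, ← h0]
    refine Finset.sum_congr rfl fun j _ => ?_
    rw [RingHom.coe_coe, aeval_eq_sum_range' (Nat.lt_succ_of_le (h3 j)), Finset.sum_mul]
    rfl

/-- one of the two elements is separable over the field of the other one. -/
theorem urel_or (hl : IsAlgClosed l) {Z W : κ} (hZ : ¬ IsAlgebraic l Z) (hW : ¬ IsAlgebraic l W)
    (h : IsAlgebraic (Vale.Agent.P019.adj l Z) W) :
    IsSeparable (Vale.Agent.P019.adj l Z) W ∨ IsSeparable (Vale.Agent.P019.adj l W) Z := by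
  obtain ⟨Φ, hΦ, h0⟩ := urel_exists hZ h
  have hΦ' : Irreducible (Bivariate.swap Φ) := (MulEquiv.irreducible_iff _).2 hΦ
  have h0' : aevalAeval W Z (Bivariate.swap Φ) = 0 := by
    rw [Bivariate.aevalAeval_swap]
    exact h0
  by_cases h1 : derivative Φ = 0
  · by_cases h2 : derivative (Bivariate.swap Φ) = 0
    · exact (urel_deriv hΦ h1 h2).elim
    · exact Or.inr (urel_sep hW hΦ' h0' h2)
  · exact Or.inl (urel_sep hZ hΦ h0 h1)

theorem urel_sep_mem {E : Subfield κ} {z : κ} (hz : z ∈ E) : IsSeparable E z :=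
  isSeparable_algebraMap (⟨z, hz⟩ : E)

theorem urel_sep_add {E : Subfield κ} {z w : κ} (hz : z ∈ E) (hw : IsSeparable E w) :
    IsSeparable E (z + w) :=
  Field.isSeparable_add (urel_sep_mem hz) hw

theorem urel_sep_sub {E : Subfield κ} {z w : κ} (hz : z ∈ E) (hw : IsSeparable E (z + w)) :
    IsSeparable E w := by
  have h1 := Field.isSeparable_add (urel_sep_mem (E.neg_mem hz)) hw
  rwa [neg_add_cancel_left] at h1

end urel

/-- bounded relations in a perfect field of transcendence degree one. -/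
theorem exists_brel {κ : Type*} [Field κ] [PerfectField κ] {l : Subfield κ} (hl : IsAlgClosed l)
    {X Y : κ} {d : ℕ}
    (hX : X ∉ l ∧ Module.Finite (adj l X) κ ∧ Module.finrank (adj l X) κ ≤ d)
    (hY : Y ∉ l ∧ Module.Finite (adj l Y) κ ∧ Module.finrank (adj l Y) κ ≤ d)
    (hXY : X + Y ∉ l ∧ Module.Finite (adj l (X + Y)) κ ∧
      Module.finrank (adj l (X + Y)) κ ≤ d) :
    BRel l d X Y ∨ BRel l d X (X + Y) ∨ BRel l d Y (X + Y) := by
  obtain ⟨hX0, hXf, hXd⟩ := hX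
  obtain ⟨hY0, hYf, hYd⟩ := hY
  obtain ⟨hZ0, hZf, hZd⟩ := hXY
  have htr : ∀ z : κ, z ∉ l → ¬ IsAlgebraic l z := fun z hz h =>
    hz (RAC_of_isAlgClosed l hl z h)
  have halg : ∀ z w : κ, Module.Finite (adj l z) κ →
      IsAlgebraic (Vale.Agent.P019.adj l z) w := by
    intro z w h
    rw [← isAlgebraic_adj]
    exact Algebra.IsAlgebraic.isAlgebraic w
  have tX := htr X hX0
  have tY := htr Y hY0
  have tZ := htr (X + Y) hZ0
  have mX := Vale.Agent.P019.mem_adj l X
  have mY := Vale.Agent.P019.mem_adj l Y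
  have mZ := Vale.Agent.P019.mem_adj l (X + Y)
  -- goodness does not depend on the other element
  have gX : IsSeparable (Vale.Agent.P019.adj l X) Y ↔
      IsSeparable (Vale.Agent.P019.adj l X) (X + Y) :=
    ⟨urel_sep_add mX, urel_sep_sub mX⟩
  have gY : IsSeparable (Vale.Agent.P019.adj l Y) X ↔
      IsSeparable (Vale.Agent.P019.adj l Y) (X + Y) := by
    rw [add_comm X Y]
    exact ⟨urel_sep_add mY, urel_sep_sub mY⟩
  have gZ : ∀ a b : κ, a + b = X + Y → IsSeparable (Vale.Agent.P019.adj l (X + Y)) a →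
      IsSeparable (Vale.Agent.P019.adj l (X + Y)) b := by
    intro a b hab h
    have h1 : b = (a + b) + (-a) := by ring
    rw [h1, hab]
    exact urel_sep_add mZ (Field.isSeparable_neg h)
  have gZ' : IsSeparable (Vale.Agent.P019.adj l (X + Y)) X ↔
      IsSeparable (Vale.Agent.P019.adj l (X + Y)) Y :=
    ⟨gZ X Y rfl, gZ Y X (add_comm Y X)⟩
  have a1 := urel_or hl tX tY (halg X Y hXf)
  have a2 := urel_or hl tX tZ (halg X (X + Y) hXf)
  have a3 := urel_or hl tY tZ (halg Y (X + Y) hYf)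
  rw [← gX] at a2
  rw [← gY, ← gZ'] at a3
  by_cases h1 : IsSeparable (Vale.Agent.P019.adj l X) Y
  · by_cases h2 : IsSeparable (Vale.Agent.P019.adj l Y) X
    · exact Or.inl (urel_brel tX tY h1 h2 hXf hXd hYf hYd)
    · have h3 := a3.resolve_left h2
      exact Or.inr (Or.inl (urel_brel tX tZ (gX.1 h1) h3 hXf hXd hZf hZd))
  · have h2 := a1.resolve_left h1
    have h3 := a2.resolve_left h1
    exact Or.inr (Or.inr (urel_brel tY tZ (gY.1 h2) (gZ'.1 h3) hYf hYd hZf hZd))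

end Vale.Agent.P019P
end
end

section

section

/-!
# Transfer of rank one valuations through compatible isomorphisms
-/

namespace Vale.Agent.P019P

open Vale.Agent.P019

set_option linter.style.haveILetI false

open scoped TensorProduct

variable {ℓ : ℕ} [Fact ℓ.Prime] {K L : Type*} [Field K] [Field L]

/-- if `f` is nonzero on all uniformizers, `U1 ≤ H f`. -/
theorem U1_le_H [PerfectField K] [NeZero (ℓ : K)] {W : ValuationSubring K} {π : K}
    (hW : IsUnif W π) : U1 ℓ W ≤ H (hW.fn ℓ) := by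
  -- first: elements `1 + m` with `fn m ≠ 0`
  have h1 : ∀ m : K, m ≠ 0 → W.valuation m < 1 → hW.fn ℓ (cl ℓ m) ≠ 0 →
      cl ℓ (1 + m) ∈ H (hW.fn ℓ) := by
    intro m hm0 hlt hm g hg
    have h2 := hg (-m)
    have e1 : (1 : K) - -m = 1 + m := by ring
    have hne : (-m) ≠ 0 := neg_ne_zero.2 hm0
    have e2 : (hW.fn ℓ) (cl ℓ (1 + m)) = 0 := hW.fn_unit ℓ _ (val_one_add hlt)
    have e4 : (hW.fn ℓ) (cl ℓ (-m)) = hW.fn ℓ (cl ℓ m) := by
      have e5 : -m = (-1) * m := by ring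
      rw [e5, cl_mul ℓ (by norm_num) hm0, map_add,
        hW.fn_unit ℓ (-1) (by rw [Valuation.map_neg, map_one]), zero_add]
    rw [e1, e2, e4, zero_mul] at h2
    exact (mul_eq_zero.1 h2).resolve_left hm
  rintro _ ⟨m, hm, rfl⟩
  by_cases hm0 : m = 0
  · rw [hm0, add_zero, cl_one]; exact Submodule.zero_mem _
  by_cases hfm : hW.fn ℓ (cl ℓ m) ≠ 0
  · exact h1 m hm0 hm hfm
  push Not at hfm
  -- an element with value between `m` and `1`
  obtain ⟨j, n, hjn⟩ := hW.rep m hm0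
  haveI : PerfectRing K (ringExpChar K) := PerfectField.toPerfectRing _
  obtain ⟨p, hp⟩ := (bijective_iterateFrobenius K (ringExpChar K) (n := j)).2 π
  rw [iterateFrobenius_def] at hp
  have hp0 : p ≠ 0 := by
    rintro rfl
    rw [zero_pow (qpow_pos K j).ne'] at hp
    exact hW.ne hp.symm
  have hq := q_pow_ne_zero ℓ K j
  have hfp : hW.fn ℓ (cl ℓ p) ≠ 0 := by
    have e : ((ringExpChar K ^ j : ℕ) : ZMod ℓ) * hW.fn ℓ (cl ℓ p) = 1 := by
      have e6 : cl ℓ (p ^ ringExpChar K ^ j) = cl ℓ π := congrArg (cl ℓ) hp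
      rw [← hW.fn_self ℓ, ← e6, cl_pow, ← smul_eq_mul, ← map_smul, Nat.cast_smul_eq_nsmul]
    intro h0
    rw [h0, mul_zero] at e
    exact zero_ne_one e
  have hp1 : W.valuation p < 1 := by
    by_contra hcon
    push Not at hcon
    have h2 : (1 : W.ValueGroup) ≤ W.valuation (p ^ ringExpChar K ^ j) := by
      rw [map_pow]
      exact one_le_pow₀ hcon
    rw [hp] at h2
    exact absurd hW.lt (not_lt.2 h2)
  have hmp : W.valuation m < W.valuation p := by
    have hπ := hW.ne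
    have hv : W.valuation m ^ (ringExpChar K ^ j) = W.valuation π ^ (-n) := by
      have e : m ^ ringExpChar K ^ j = (m ^ ringExpChar K ^ j * π ^ n) * π ^ (-n) := by
        rw [mul_assoc, ← zpow_add₀ hπ]
        simp
      rw [← map_pow, e, map_mul, hjn, one_mul, map_zpow₀]
    have hvp : W.valuation p ^ (ringExpChar K ^ j) = W.valuation π := by
      rw [← map_pow, hp]
    have hpos : 0 < W.valuation π := zero_lt_iff.2 ((Valuation.ne_zero_iff _).2 hπ)
    have hn1 : 0 < -n := by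
      by_contra hcon
      push Not at hcon
      have h2 : 1 ≤ W.valuation π ^ (-n) := by
        have := zpow_le_zpow_right_of_le_one₀ hpos hW.lt.le hcon
        rwa [zpow_zero] at this
      rw [← hv] at h2
      exact absurd (pow_lt_one₀ zero_le hm (qpow_pos K j).ne') (not_lt.2 h2)
    have hn2 : -n ≠ 1 := by
      intro h2
      have h3 := hW.fn_eq ℓ hjn
      rw [hfm] at h3
      have h4 : (n : ZMod ℓ) = -1 := by
        have : n = -1 := by omega
        rw [this]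
        simp
      rw [h4, neg_neg, one_mul] at h3
      exact inv_ne_zero hq h3.symm
    refine lt_of_pow_lt_pow_left₀ (ringExpChar K ^ j) zero_le ?_
    rw [hv, hvp]
    have := zpow_lt_zpow_right_of_lt_one₀ hpos hW.lt (show (1 : ℤ) < -n by omega)
    rwa [zpow_one] at this
  have hmp1 : W.valuation (m / p) < 1 := by
    rw [map_div₀]
    exact (div_lt_one₀ (zero_lt_iff.2 ((Valuation.ne_zero_iff _).2 hp0))).2 hmp
  have hne1 : 1 + p ≠ 0 := one_add_ne_zero hp1
  set m' := (m - p) / (1 + p) with hm'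
  have e : 1 + m = (1 + p) * (1 + m') := by
    rw [hm']; field_simp; ring
  have hval : W.valuation (m / p - 1) = 1 := by
    have : m / p - 1 = -(1 + -(m / p)) := by ring
    rw [this, Valuation.map_neg]
    exact val_one_add (by rwa [Valuation.map_neg])
  have hne3 : m / p - 1 ≠ 0 := by
    intro h; rw [h, map_zero] at hval; exact zero_ne_one hval
  have e2 : m' = (m / p - 1) * p / (1 + p) := by
    rw [hm']; field_simp [hp0]
  have hm'0 : m' ≠ 0 := by
    rw [e2]
    exact div_ne_zero (mul_ne_zero hne3 hp0) hne1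
  have hvm' : W.valuation m' = W.valuation p := by
    rw [e2, map_div₀, map_mul, hval, one_mul, val_one_add hp1, div_one]
  have hfm' : hW.fn ℓ (cl ℓ m') ≠ 0 := by
    rw [e2, div_eq_mul_inv, cl_mul ℓ (mul_ne_zero hne3 hp0) (inv_ne_zero hne1),
      cl_mul ℓ hne3 hp0, map_add, map_add, hW.fn_unit ℓ _ hval, zero_add,
      hW.fn_unit ℓ (1 + p)⁻¹ (by rw [map_inv₀, val_one_add hp1, inv_one]), add_zero]
    exact hfp
  have hlt' : W.valuation m' < 1 := by rw [hvm']; exact hp1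
  rw [e, cl_mul ℓ hne1 (one_add_ne_zero hlt')]
  exact Submodule.add_mem _ (h1 p hp0 hp1 hfp) (h1 m' hm'0 hlt' hfm')

theorem H_fn_eq [PerfectField K] [NeZero (ℓ : K)] (hneg : ∃ i : K, i ^ ℓ = -1)
    {W : ValuationSubring K} {π : K}
    (hW : IsUnif W π) : H (hW.fn ℓ) = U1 ℓ W :=
  le_antisymm (H_le_U1 hneg W _ (fun z hz => hW.fn_unit ℓ z hz)) (U1_le_H hW)

/-- transfer of a discrete valuation ring through a compatible isomorphism. -/
theorem transfer [PerfectField K] [NeZero (ℓ : K)]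
    {Θ : V ℓ K ≃ₗ[ZMod ℓ] V ℓ L} (hΘ : Compatible Θ)
    (hnegK : ∃ i : K, i ^ ℓ = -1) (hnegL : ∃ i : L, i ^ ℓ = -1) {W : ValuationSubring K} {π : K}
    (hW : IsUnif W π) (g₀ : K)
    (h₀ : ∀ i j : ZMod ℓ, i • cl ℓ g₀ + j • cl ℓ (1 - g₀) ∈ U1 ℓ W → i = 0 ∧ j = 0) :
    ∃ O : ValuationSubring L, (∀ z, O.valuation z = 1 → hW.fn ℓ (Θ.symm (cl ℓ z)) = 0) ∧
      (∀ v, Θ v ∈ U1 ℓ O ↔ v ∈ U1 ℓ W) := by
  have hH := H_fn_eq hnegK hW
  obtain ⟨O, h1, h2⟩ := exists_transfer hΘ hnegL (hW.fn ℓ) g₀ (by rw [hH]; exact h₀)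
  refine ⟨O, h1, fun v => ⟨?_, ?_⟩⟩
  · rintro ⟨m, hm, hv⟩
    have := h2 m hm
    rw [← hv, LinearEquiv.symm_apply_apply, hH] at this
    exact this
  · intro hv
    have h3 : H ((hW.fn ℓ) ∘ₗ Θ.symm.toLinearMap) ≤ U1 ℓ O :=
      H_le_U1 hnegL O _ (fun z hz => h1 z hz)
    apply h3
    rw [← hH] at hv
    have := (hΘ.symm.mem_H (f := hW.fn ℓ) (v := Θ v))
    rw [LinearEquiv.symm_apply_apply] at this
    exact this.1 hv

end Vale.Agent.P019P
end
end

section

section

/-!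
# The filtration by the order of the pole at infinity
-/

namespace Vale.Agent.P019P

open Polynomial IntermediateField

section

variable {k F : Type*} [Field k] [Field F] [Algebra k F] [CFF k F]

variable (k) in
/-- the functions with poles at most `r` times those of `x`. -/
noncomputable def Mr (x : F) (r : ℤ) : Submodule k F := LL k (r • pol k x)

theorem mem_Mr {x : F} {r : ℤ} {z : F} : z ∈ Mr k x r ↔ ∀ P, z ∈ Mge P (-(r * pol k x P)) := by
  rw [Mr, mem_LL_iff]
  refine forall_congr' fun P => ?_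
  rw [Finsupp.smul_apply, smul_eq_mul]

theorem Mr_mul {x : F} {r s : ℤ} {z w : F} (hz : z ∈ Mr k x r) (hw : w ∈ Mr k x s) :
    z * w ∈ Mr k x (r + s) := by
  rw [mem_Mr] at hz hw ⊢
  intro P
  have h := mul_mem_Mge (hz P) (hw P)
  have e : -(r * pol k x P) + -(s * pol k x P) = -((r + s) * pol k x P) := by ring
  rwa [e] at h

theorem flt_Mr {x : F} (hx : ∀ a : k, x ≠ algebraMap k F a) : Flt x (Mr k x) := by
  have hx0 : x ≠ 0 := fun h => hx 0 (by rw [h, map_zero])
  have hp : ∀ P : Plk k F, 0 ≤ pol k x P := fun P => pol_nonneg x P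
  refine ⟨fun r => LL_finite _, fun r hr => ?_, fun r s hrs => ?_, fun r z hz => ?_,
    fun r s z hz hxz => ?_⟩
  · apply LL_eq_bot
    obtain ⟨-, hfin⟩ := finite_of_notMem hx
    have hn : 0 < Module.finrank k⟮x⟯ F := Module.finrank_pos
    rw [map_zsmul, dg_pol hx, smul_eq_mul]
    exact mul_neg_of_neg_of_pos hr (by exact_mod_cast hn)
  · refine LL_mono (fun P => ?_)
    rw [Finsupp.smul_apply, Finsupp.smul_apply]
    exact mul_le_mul_of_nonneg_right hrs (hp P)
  · have h1 : x ∈ Mr k x 1 := by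
      rw [mem_Mr]
      intro P
      right
      rw [one_mul, pol_apply]
      have := le_max_right 0 (-ord P x)
      linarith only [this]
    rw [add_comm]
    exact Mr_mul h1 hz
  · rw [mem_Mr] at hz hxz ⊢
    intro P
    by_cases h : ord P x < 0
    · have h1 : pol k x P = -ord P x := by
        rw [pol_apply]; exact max_eq_right (by linarith only [h])
      have h2 := (mul_mem_Mge_iff hx0).1 (hxz P)
      have e : -(r * pol k x P) - ord P x = -((r - 1) * pol k x P) := by rw [h1]; ring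
      rwa [e] at h2
    · have h1 : pol k x P = 0 := by
        rw [pol_apply]; exact max_eq_left (by linarith only [h])
      have h2 := hz P
      rw [h1, mul_zero] at h2 ⊢
      exact h2

/-- functions without poles outside the poles of `x` belong to the filtration. -/
theorem exists_mem_Mr {x z : F} (h : ∀ P : Plk k F, 0 ≤ ord P x → z ∈ Mge P 0) :
    ∃ r : ℕ, z ∈ Mr k x r := by
  by_cases hz : z = 0
  · exact ⟨0, hz ▸ zero_mem _⟩
  refine ⟨∑ P ∈ (dv_finite (k := k) hz).toFinset, (ord P z).natAbs, ?_⟩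
  rw [mem_Mr]
  intro P
  right
  have hr : (0 : ℤ) ≤ ((∑ P ∈ (dv_finite (k := k) hz).toFinset, (ord P z).natAbs : ℕ) : ℤ) :=
    Int.natCast_nonneg _
  have hP : 0 ≤ pol k x P := pol_nonneg x P
  by_cases h1 : 0 ≤ ord P z
  · have := mul_nonneg hr hP
    linarith only [this, h1]
  · have h2 : ord P x < 0 := by
      by_contra hcon
      rcases mem_Mge.1 (h P (not_lt.1 hcon)) with h3 | h3
      · exact hz h3
      · exact h1 h3
    have h3 : 1 ≤ pol k x P := by
      rw [pol_apply]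
      exact le_max_of_le_right (by omega)
    have h4 : (ord P z).natAbs ≤ ∑ P ∈ (dv_finite (k := k) hz).toFinset, (ord P z).natAbs := by
      refine Finset.single_le_sum (f := fun P => (ord P z).natAbs) (fun _ _ => Nat.zero_le _) ?_
      rw [Set.Finite.mem_toFinset]
      intro h0
      exact h1 h0.ge
    have h5 : ((ord P z).natAbs : ℤ) ≤
        ((∑ P ∈ (dv_finite (k := k) hz).toFinset, (ord P z).natAbs : ℕ) : ℤ) := by
      exact_mod_cast h4
    have h6 : ((ord P z).natAbs : ℤ) = -ord P z := by omega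
    have h7 := mul_le_mul_of_nonneg_left h3 hr
    rw [mul_one] at h7
    linarith only [h5, h6, h7]

/-- existence of a graded basis, with the formula for the sum of the degrees. -/
theorem exists_GrB {x : F} (hx : ∀ a : k, x ≠ algebraMap k F a) :
    ∃ (e : Fin (Module.finrank k⟮x⟯ F) → F) (a : Fin (Module.finrank k⟮x⟯ F) → ℕ),
      GrB x (Mr k x) e a ∧ ∑ i, (a i : ℤ) = Module.finrank k⟮x⟯ F + gen k F - 1 := by
  obtain ⟨htr, hfin⟩ := finite_of_notMem hx
  obtain ⟨n, e, a, he⟩ := (flt_Mr hx).exists_GrB htr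
  obtain ⟨r₀, hr₀⟩ := exists_l_pol_eq hx
  set r₁ : ℕ := r₀ + ∑ i, a i with hr₁
  have key : ∀ r : ℕ, r₁ ≤ r →
      (n : ℤ) * (r + 1) - ∑ i, (a i : ℤ) = r * Module.finrank k⟮x⟯ F + 1 - gen k F := by
    intro r hr
    have h1 := hr₀ r ((Nat.le_add_right _ _).trans hr)
    have h2 := he.finrank_eq (flt_Mr hx) htr (r := (r : ℤ)) (fun i => by
      have : a i ≤ ∑ i, a i :=
        Finset.single_le_sum (f := a) (fun _ _ => Nat.zero_le _) (Finset.mem_univ i)
      have : a i ≤ r := by omega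
      exact_mod_cast this)
    rw [Mr, natCast_zsmul] at h2
    rw [h2] at h1
    rw [← h1]
    have e : ∀ i, ((r : ℤ) - a i + 1) = (r + 1) - a i := fun i => by ring
    simp only [e]
    rw [Finset.sum_sub_distrib, Finset.sum_const, Finset.card_univ, Fintype.card_fin, nsmul_eq_mul]
  have k1 := key r₁ le_rfl
  have k2 := key (r₁ + 1) (Nat.le_succ _)
  have hn : n = Module.finrank k⟮x⟯ F := by
    push_cast at k2
    have : (n : ℤ) = Module.finrank k⟮x⟯ F := by linarith only [k1, k2]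
    exact_mod_cast this
  subst hn
  exact ⟨e, a, he, by linarith only [k1]⟩

end

end Vale.Agent.P019P
end
end

section

section

/-!
# Traces
-/

namespace Vale.Agent.P019P

open Polynomial IntermediateField

section

variable {k F : Type*} [Field k] [Field F] [Algebra k F] [CFF k F]
variable {x : F} {n : ℕ} {e : Fin n → F} {a : Fin n → ℕ}

omit [CFF k F] in
theorem CTrc_map_psi (x : F) (p : k[X]) :
    algebraMap k⟮x⟯ F (aeval (AdjoinSimple.gen k x) p) = aeval x p := by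
  rw [← aeval_algebraMap_apply, AdjoinSimple.algebraMap_gen]

omit [CFF k F] in
/-- multiplication matrices are unique. -/
theorem CTrc_uniq (he : LinearIndependent k⟮x⟯ e) (hx : Transcendental k x)
    {φ ψ : Fin n → k[X]} (h : ∑ i, aeval x (φ i) * e i = ∑ i, aeval x (ψ i) * e i) : φ = ψ := by
  have h1 : ∑ i, (aeval (AdjoinSimple.gen k x) (φ i) : k⟮x⟯) • e i =
      ∑ i, (aeval (AdjoinSimple.gen k x) (ψ i) : k⟮x⟯) • e i := by
    simp only [Algebra.smul_def, CTrc_map_psi]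
    exact h
  have h2 : ∑ i, ((aeval (AdjoinSimple.gen k x) (φ i) : k⟮x⟯) -
      aeval (AdjoinSimple.gen k x) (ψ i)) • e i = 0 := by
    simp only [sub_smul, Finset.sum_sub_distrib]
    rw [h1, sub_self]
  have h3 := Fintype.linearIndependent_iff.1 he _ h2
  funext i
  have h4 := congrArg (algebraMap k⟮x⟯ F) (h3 i)
  rw [map_sub, CTrc_map_psi, CTrc_map_psi, map_zero, sub_eq_zero] at h4
  exact transcendental_iff_injective.1 hx h4

/-- the matrix of multiplication by `z` with respect to a graded basis. -/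
theorem GrB.exists_mat (he : GrB x (Mr k x) e a) {r : ℤ} {z : F} (hz : z ∈ Mr k x r) :
    ∃ G : Matrix (Fin n) (Fin n) k[X], (∀ j, z * e j = ∑ i, aeval x (G i j) * e i) ∧
      ∀ i j, G i j ≠ 0 → ((G i j).natDegree : ℤ) + a i ≤ r + a j := by
  have h1 : ∀ j, ∃ φ : Fin n → k[X], z * e j = ∑ i, aeval x (φ i) * e i ∧
      ∀ i, φ i ≠ 0 → ((φ i).natDegree : ℤ) + a i ≤ r + a j := fun j =>
    he.span (r + a j) (z * e j) (Mr_mul hz (he.mem j))
  choose φ h2 h3 using h1
  exact ⟨fun i j => φ j i, h2, fun i j h => h3 j i h⟩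

theorem GrB.trace_eq (he : GrB x (Mr k x) e a) (hx : ∀ a : k, x ≠ algebraMap k F a)
    (hn : n = Module.finrank k⟮x⟯ F) {z : F}
    {G : Matrix (Fin n) (Fin n) k[X]} (hG : ∀ j, z * e j = ∑ i, aeval x (G i j) * e i) :
    algebraMap k⟮x⟯ F (Algebra.trace k⟮x⟯ F z) = aeval x G.trace := by
  classical
  have : FiniteDimensional k⟮x⟯ F := (finite_of_notMem hx).2
  have : Nonempty (Fin n) := by
    have h0 : 0 < n := by
      rw [hn]
      exact Module.finrank_pos
    exact ⟨⟨0, h0⟩⟩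
  let b := basisOfLinearIndependentOfCardEqFinrank he.ind (by rw [Fintype.card_fin]; exact hn)
  have hb : ∀ i, b i = e i := fun i => by
    simp only [b, coe_basisOfLinearIndependentOfCardEqFinrank]
  have h2 : ∀ i j, Algebra.leftMulMatrix b z i j = aeval (AdjoinSimple.gen k x) (G i j) := by
    intro i j
    rw [Algebra.leftMulMatrix_eq_repr_mul]
    have h3 : z * b j = ∑ i, (aeval (AdjoinSimple.gen k x) (G i j) : k⟮x⟯) • b i := by
      simp only [Algebra.smul_def, CTrc_map_psi, hb]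
      exact hG j
    rw [h3, b.repr_sum_self]
  rw [Algebra.trace_eq_matrix_trace b, Matrix.trace, Matrix.trace, map_sum, map_sum]
  refine Finset.sum_congr rfl fun i _ => ?_
  rw [Matrix.diag_apply, Matrix.diag_apply, h2, CTrc_map_psi]

/-- the trace of an element of the filtration is a polynomial of bounded degree. -/
theorem GrB.exists_trace (he : GrB x (Mr k x) e a) (hx : ∀ a : k, x ≠ algebraMap k F a)
    (hn : n = Module.finrank k⟮x⟯ F) {r : ℕ} {z : F} (hz : z ∈ Mr k x r) :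
    ∃ τ : k[X], τ.natDegree ≤ r ∧
      algebraMap k⟮x⟯ F (Algebra.trace k⟮x⟯ F z) = aeval x τ := by
  obtain ⟨G, hG, hd⟩ := he.exists_mat hz
  refine ⟨G.trace, ?_, he.trace_eq hx hn hG⟩
  rw [Matrix.trace]
  refine natDegree_sum_le_of_forall_le _ _ fun i _ => ?_
  rw [Matrix.diag_apply]
  by_cases h : G i i = 0
  · rw [h, natDegree_zero]
    exact Nat.zero_le _
  · have := hd i i h
    omega

/-- a power of an element vanishing over `x = c` is divisible by `x - c`. -/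
theorem CTrc_exists_pow (hx : ∀ a : k, x ≠ algebraMap k F a) {r : ℤ} {z : F}
    (hz : z ∈ Mr k x r) {c : k}
    (h0 : ∀ P : Plk k F, 0 < ord P (x - algebraMap k F c) → z ∈ Mge P 1) :
    ∃ (N s : ℕ) (w : F), w ∈ Mr k x s ∧ z ^ N = (x - algebraMap k F c) * w := by
  classical
  have hxc : x - algebraMap k F c ≠ 0 := sub_ne_zero.2 (hx c)
  have hfin := fib_finite hx c
  obtain ⟨N, hN⟩ : ∃ N : ℕ, ∀ P ∈ hfin.toFinset, ord P (x - algebraMap k F c) ≤ N := by
    refine ⟨hfin.toFinset.sup fun P => (ord P (x - algebraMap k F c)).toNat, fun P hP => ?_⟩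
    have h1 := Finset.le_sup (f := fun P => (ord P (x - algebraMap k F c)).toNat) hP
    have h2 : (ord P (x - algebraMap k F c)).toNat ≤
      hfin.toFinset.sup fun P => (ord P (x - algebraMap k F c)).toNat := h1
    omega
  have hzn : ∀ (P : Plk k F) (m : ℤ), z ∈ Mge P m → ∀ j : ℕ, z ^ j ∈ Mge P (j * m) := by
    intro P m hm j
    induction j with
    | zero =>
      right
      rw [pow_zero, ord_one]
      simp
    | succ j ih =>
      have h1 := mul_mem_Mge ih hm
      rw [pow_succ]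
      refine Mge_mono P (le_of_eq ?_) h1
      push_cast
      ring
  obtain ⟨s, hs⟩ := exists_mem_Mr (k := k) (x := x) (z := z ^ N / (x - algebraMap k F c)) (by
    intro P hP
    have h5 : (x - algebraMap k F c) * (z ^ N / (x - algebraMap k F c)) = z ^ N :=
      mul_div_cancel₀ _ hxc
    rcases lt_or_ge 0 (ord P (x - algebraMap k F c)) with h1 | h1
    · have h2 := hN P (hfin.mem_toFinset.2 h1)
      have h3 := hzn P 1 (h0 P h1) N
      rw [← h5, mul_mem_Mge_iff hxc] at h3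
      exact Mge_mono P (by omega) h3
    · have h2 : x - algebraMap k F c ∈ Mge P 0 := by
        refine Submodule.sub_mem _ (Or.inr hP) (Or.inr ?_)
        rw [ord_const]
      have h3 : 0 ≤ ord P (x - algebraMap k F c) := h2.resolve_left hxc
      have h4 : z ∈ Mge P 0 := by
        have h6 := (mem_Mr.1 hz) P
        rw [pol_apply, max_eq_left (by omega), mul_zero, neg_zero] at h6
        exact h6
      have h7 := hzn P 0 h4 N
      rw [← h5, mul_mem_Mge_iff hxc] at h7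
      exact Mge_mono P (by omega) h7)
  exact ⟨N, s, _, hs, (mul_div_cancel₀ _ hxc).symm⟩

omit [CFF k F] in
/-- the product of multiplication matrices. -/
theorem CTrc_mat_mul {z w : F} {A B : Matrix (Fin n) (Fin n) k[X]}
    (hA : ∀ j, z * e j = ∑ i, aeval x (A i j) * e i)
    (hB : ∀ j, w * e j = ∑ i, aeval x (B i j) * e i) (j : Fin n) :
    z * w * e j = ∑ i, aeval x ((A * B) i j) * e i := by
  rw [mul_assoc, hB, Finset.mul_sum]
  have h1 : ∀ l, z * (aeval x (B l j) * e l) =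
      ∑ i, aeval x (A i l) * aeval x (B l j) * e i := by
    intro l
    rw [mul_left_comm, hA, Finset.mul_sum]
    exact Finset.sum_congr rfl fun i _ => by ring
  simp only [h1, Matrix.mul_apply, map_sum, map_mul, Finset.sum_mul]
  exact Finset.sum_comm

/-- the trace of an element vanishing over `x = c` vanishes at `c`. -/
theorem GrB.trace_eval (he : GrB x (Mr k x) e a) (hx : ∀ a : k, x ≠ algebraMap k F a)
    (hn : n = Module.finrank k⟮x⟯ F) {r : ℤ} {z : F} (hz : z ∈ Mr k x r) {c : k}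
    (h0 : ∀ P : Plk k F, 0 < ord P (x - algebraMap k F c) → z ∈ Mge P 1) {τ : k[X]}
    (hτ : algebraMap k⟮x⟯ F (Algebra.trace k⟮x⟯ F z) = aeval x τ) : τ.eval c = 0 := by
  classical
  have htr := (finite_of_notMem hx).1
  obtain ⟨N, s, w, hw, hzw⟩ := CTrc_exists_pow hx hz h0
  obtain ⟨G, hG, -⟩ := he.exists_mat hz
  obtain ⟨H, hH, -⟩ := he.exists_mat hw
  have h1 : τ = G.trace := by
    have h2 := he.trace_eq hx hn hG
    rw [hτ] at h2
    exact transcendental_iff_injective.1 htr h2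
  have hpow : ∀ m : ℕ, ∀ j, z ^ m * e j = ∑ i, aeval x ((G ^ m) i j) * e i := by
    intro m
    induction m with
    | zero =>
      intro j
      rw [pow_zero, pow_zero, one_mul, Finset.sum_eq_single j]
      · rw [Matrix.one_apply_eq, map_one, one_mul]
      · intro i _ hi
        rw [Matrix.one_apply_ne hi, map_zero, zero_mul]
      · intro h
        exact absurd (Finset.mem_univ j) h
    | succ m ih =>
      intro j
      rw [pow_succ, pow_succ]
      exact CTrc_mat_mul ih hG j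
  have hsm : ∀ j, z ^ N * e j = ∑ i, aeval x (((X - C c) • H) i j) * e i := by
    intro j
    rw [hzw, mul_assoc, hH, Finset.mul_sum]
    refine Finset.sum_congr rfl fun i _ => ?_
    rw [Matrix.smul_apply, smul_eq_mul, map_mul, map_sub, aeval_X, aeval_C, mul_assoc]
  have hmat : G ^ N = (X - C c) • H := by
    ext1 i j
    have h3 := CTrc_uniq he.ind htr (φ := fun i => (G ^ N) i j)
      (ψ := fun i => ((X - C c) • H) i j) ((hpow N j).symm.trans (hsm j))
    exact congrFun h3 i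
  have hev : ((evalRingHom c).mapMatrix G) ^ N = 0 := by
    rw [← map_pow, hmat]
    ext i j
    rw [RingHom.mapMatrix_apply, Matrix.map_apply, Matrix.smul_apply, smul_eq_mul, map_mul,
      coe_evalRingHom, eval_sub, eval_X, eval_C, sub_self, zero_mul, Matrix.zero_apply]
  have hnil : IsNilpotent ((evalRingHom c).mapMatrix G).trace :=
    Matrix.isNilpotent_trace_of_isNilpotent ⟨N, hev⟩
  have h4 := hnil.eq_zero
  rw [h1, ← coe_evalRingHom, Matrix.trace, map_sum]
  rw [Matrix.trace] at h4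
  exact h4

end

end Vale.Agent.P019P
end
end

section

section

/-!
# The genus of a plane curve
-/

namespace Vale.Agent.P019P

open Polynomial IntermediateField

section

variable {k F : Type*} [Field k] [Field F] [Algebra k F] [CFF k F]

private theorem cgb_pow_mem {y : F} {P : Plk k F} (h : 0 ≤ ord P y) (n : ℕ) :
    y ^ n ∈ Mge P 0 := by
  by_cases h0 : y ^ n = 0
  · exact Or.inl h0
  · right
    rw [ord_pow]
    positivity

theorem aeval_mem_pol {x : F} {φ : k[X]} {m : ℕ} (h : φ.natDegree ≤ m) (P : Plk k F) :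
    aeval x φ ∈ Mge P (-(m * pol k x P)) := by
  rw [aeval_eq_sum_range]
  refine Submodule.sum_mem _ fun i hi => Submodule.smul_mem _ _ ?_
  by_cases h0 : x ^ i = 0
  · exact Or.inl h0
  · right
    have h1 : 0 ≤ pol k x P := by rw [pol_apply]; exact le_max_left _ _
    have h2 : -pol k x P ≤ ord P x := by
      rw [pol_apply]
      have := le_max_right 0 (-ord P x)
      linarith
    have hi' : (i : ℤ) ≤ m := by
      have := Finset.mem_range.1 hi
      exact_mod_cast (by omega : i ≤ m)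
    rw [ord_pow]
    have h3 : (i : ℤ) * -pol k x P ≤ i * ord P x := mul_le_mul_of_nonneg_left h2 (by positivity)
    have h4 : (i : ℤ) * pol k x P ≤ m * pol k x P := mul_le_mul_of_nonneg_right hi' h1
    linarith

/-- the integral elements attached to a plane equation. -/
theorem omega_mem {x y : F} {m d : ℕ} {p : ℕ → k[X]} (hp : ∀ i, (p i).natDegree ≤ m)
    (h0 : ∑ i ∈ Finset.range (d + 1), aeval x (p i) * y ^ i = 0) {j : ℕ} (hj : j ≤ d) :
    ∑ i ∈ Finset.range j, aeval x (p (d - j + 1 + i)) * y ^ (i + 1) ∈ LL k (m • pol k x) := by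
  rw [mem_LL_iff]
  intro P
  have hD : -(m • pol k x) P = -(m * pol k x P) := by
    rw [Finsupp.smul_apply, nsmul_eq_mul]
  rw [hD]
  by_cases hy : 0 ≤ ord P y
  · refine Submodule.sum_mem _ fun i _ => ?_
    have := mul_mem_Mge (aeval_mem_pol (x := x) (hp (d - j + 1 + i)) P)
      (cgb_pow_mem hy (i + 1))
    rwa [add_zero] at this
  · have hy0 : y ≠ 0 := by
      rintro rfl
      exact hy (by rw [ord_zero])
    have hyi : 0 ≤ ord P y⁻¹ := by
      rw [ord_inv]
      linarith [not_le.1 hy]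
    have hsplit : d + 1 = (d - j + 1) + j := by omega
    rw [hsplit, Finset.sum_range_add] at h0
    have hye : y ^ (d - j) ≠ 0 := pow_ne_zero _ hy0
    have key : ∑ i ∈ Finset.range j, aeval x (p (d - j + 1 + i)) * y ^ (i + 1)
        = -∑ i ∈ Finset.range (d - j + 1), aeval x (p i) * (y⁻¹) ^ (d - j - i) := by
      apply mul_left_cancel₀ hye
      have e1 : y ^ (d - j) * ∑ i ∈ Finset.range j, aeval x (p (d - j + 1 + i)) * y ^ (i + 1)
          = ∑ i ∈ Finset.range j, aeval x (p (d - j + 1 + i)) * y ^ (d - j + 1 + i) := by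
        rw [Finset.mul_sum]
        refine Finset.sum_congr rfl fun i _ => ?_
        rw [mul_left_comm, ← pow_add, show d - j + (i + 1) = d - j + 1 + i by ring]
      have e2 : y ^ (d - j) * ∑ i ∈ Finset.range (d - j + 1), aeval x (p i) * (y⁻¹) ^ (d - j - i)
          = ∑ i ∈ Finset.range (d - j + 1), aeval x (p i) * y ^ i := by
        rw [Finset.mul_sum]
        refine Finset.sum_congr rfl fun i hi => ?_
        have hi' : i ≤ d - j := Nat.lt_succ_iff.1 (Finset.mem_range.1 hi)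
        have e3 : y ^ (d - j) = y ^ (d - j - i) * y ^ i := by
          rw [← pow_add, Nat.sub_add_cancel hi']
        have e4 : y ^ (d - j - i) * (y⁻¹) ^ (d - j - i) = 1 := by
          rw [← mul_pow, mul_inv_cancel₀ hy0, one_pow]
        rw [e3, mul_left_comm]
        congr 1
        rw [mul_right_comm, e4, one_mul]
      rw [e1, mul_neg, e2]
      exact eq_neg_of_add_eq_zero_right h0
    rw [key]
    refine Submodule.neg_mem _ (Submodule.sum_mem _ fun i _ => ?_)
    have := mul_mem_Mge (aeval_mem_pol (x := x) (hp i) P) (cgb_pow_mem hyi (d - j - i))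
    rwa [add_zero] at this

/-- lower bound of a Riemann-Roch space from a family independent over `k(x)`. -/
theorem le_finrank_of_indep {x : F} (hx : Transcendental k x) {n m r : ℕ} {ω : Fin n → F}
    (hω : ∀ j, ω j ∈ LL k (m • pol k x)) (hr : m ≤ r)
    (hind : LinearIndependent k⟮x⟯ (Fin.cons 1 ω : Fin (n + 1) → F)) :
    (r + 1) + n * (r - m + 1) ≤ Module.finrank k (LL k (r • pol k x)) := by
  have h1 := indep_pow_mul hx hind
  let g : Fin (r + 1) ⊕ (Fin n × Fin (r - m + 1)) → Fin (n + 1) × ℕ :=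
    Sum.elim (fun i => ((0 : Fin (n + 1)), (i : ℕ))) (fun q => (q.1.succ, (q.2 : ℕ)))
  have hg : Function.Injective g := by
    rintro (i | ⟨i, i'⟩) (j | ⟨j, j'⟩) hij
    · simp only [g, Sum.elim_inl, Prod.mk.injEq, true_and] at hij
      exact congrArg _ (Fin.ext hij)
    · simp only [g, Sum.elim_inl, Sum.elim_inr, Prod.mk.injEq] at hij
      exact absurd hij.1.symm (Fin.succ_ne_zero j)
    · simp only [g, Sum.elim_inl, Sum.elim_inr, Prod.mk.injEq] at hij
      exact absurd hij.1 (Fin.succ_ne_zero i)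
    · simp only [g, Sum.elim_inr, Prod.mk.injEq] at hij
      rw [Fin.succ_injective _ hij.1, Fin.ext hij.2]
  have h2 := h1.comp g hg
  have hmem : ∀ q, x ^ (g q).2 * (Fin.cons 1 ω : Fin (n + 1) → F) (g q).1
      ∈ LL k (r • pol k x) := by
    have hD : ∀ (s : ℕ) (P : Plk k F), -(s • pol k x) P = -(s * pol k x P) := fun s P => by
      rw [Finsupp.smul_apply, nsmul_eq_mul]
    rintro (i | ⟨j, i⟩)
    · simp only [g, Sum.elim_inl, Fin.cons_zero, mul_one]
      rw [mem_LL_iff]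
      intro P
      rw [hD]
      have := aeval_mem_pol (k := k) (x := x) (φ := X ^ (i : ℕ)) (m := r)
        (by rw [natDegree_X_pow]; omega) P
      rwa [map_pow, aeval_X] at this
    · simp only [g, Sum.elim_inr, Fin.cons_succ]
      rw [mem_LL_iff]
      intro P
      rw [hD]
      have h3 := aeval_mem_pol (k := k) (x := x) (φ := X ^ (i : ℕ)) (m := r - m)
        (by rw [natDegree_X_pow]; omega) P
      rw [map_pow, aeval_X] at h3
      have h4 := mem_LL_iff.1 (hω j) P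
      rw [hD] at h4
      have h5 := mul_mem_Mge h3 h4
      have h6 : -(((r - m : ℕ) : ℤ) * pol k x P) + -(m * pol k x P) = -(r * pol k x P) := by
        rw [Nat.cast_sub hr]
        ring
      rwa [h6] at h5
  have h7 : LinearIndependent k (fun q => (⟨_, hmem q⟩ : LL k (r • pol k x))) := by
    apply LinearIndependent.of_comp (LL k (r • pol k x)).subtype
    exact h2
  have h8 := h7.fintype_card_le_finrank
  rwa [Fintype.card_sum, Fintype.card_prod, Fintype.card_fin, Fintype.card_fin,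
    Fintype.card_fin] at h8

/-- polynomials of distinct small degrees give independent values. -/
private theorem cgb_indep {K L : Type*} [Field K] [Field L] [Algebra K L] {y : L} {N : ℕ}
    (hN : N ≤ (minpoly K y).natDegree) (W : Fin N → K[X])
    (h1 : ∀ i : Fin N, (W i).coeff i ≠ 0) (h2 : ∀ (i : Fin N) (t : ℕ), (i : ℕ) < t →
      (W i).coeff t = 0) : LinearIndependent K (fun i => aeval y (W i)) := by
  classical
  rw [Fintype.linearIndependent_iff]
  intro c hc
  set Q : K[X] := ∑ i, C (c i) * W i with hQ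
  have hQy : aeval y Q = 0 := by
    rw [hQ, map_sum, ← hc]
    refine Finset.sum_congr rfl fun i _ => ?_
    rw [map_mul, aeval_C, Algebra.smul_def]
  have hQc : ∀ t, Q.coeff t = ∑ i, c i * (W i).coeff t := by
    intro t
    rw [hQ, finsetSum_coeff]
    simp only [coeff_C_mul]
  have hQ0 : Q = 0 := by
    by_contra hne
    have h3 : (minpoly K y).natDegree ≤ Q.natDegree :=
      natDegree_le_natDegree (minpoly.degree_le_of_ne_zero K y hne hQy)
    have h4 := hQc Q.natDegree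
    rw [Finset.sum_eq_zero] at h4
    · exact hne (leadingCoeff_eq_zero.1 h4)
    · intro i _
      rw [h2 i _ (by omega), mul_zero]
  by_contra hcon
  push Not at hcon
  obtain ⟨i0, hi0⟩ := hcon
  obtain ⟨i, hi, hmax⟩ := Finset.exists_max_image (Finset.univ.filter fun i => c i ≠ 0)
    (fun i => (i : ℕ)) ⟨i0, by simp [hi0]⟩
  rw [Finset.mem_filter] at hi
  have h4 := hQc i
  rw [hQ0, coeff_zero, Finset.sum_eq_single i] at h4
  · exact mul_ne_zero hi.2 (h1 i) h4.symm
  · intro j _ hji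
    rcases lt_or_gt_of_ne (fun h => hji (Fin.ext h) : (j : ℕ) ≠ i) with h | h
    · rw [h2 j i h, mul_zero]
    · have : c j = 0 := by
        by_contra hcj
        have := hmax j (by simp [hcj])
        omega
      rw [this, zero_mul]
  · intro h
    exact absurd (Finset.mem_univ i) h

/-- the degree of the minimal polynomial from an equation. -/
private theorem cgb_deg {K L : Type*} [Field K] [Field L] [Algebra K L] {y : L} {d : ℕ}
    {q : ℕ → K} (hqd : q d ≠ 0)
    (h0 : ∑ j ∈ Finset.range (d + 1), algebraMap K L (q j) * y ^ j = 0) :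
    (minpoly K y).natDegree ≤ d := by
  classical
  set Q : K[X] := ∑ j ∈ Finset.range (d + 1), C (q j) * X ^ j with hQ
  have hQc : Q.coeff d = q d := by
    rw [hQ]
    simp only [finsetSum_coeff, coeff_C_mul, coeff_X_pow]
    rw [Finset.sum_eq_single d]
    · simp
    · intro b _ hb
      rw [if_neg (Ne.symm hb), mul_zero]
    · intro h2
      exact absurd (Finset.mem_range.2 (Nat.lt_succ_self d)) h2
  have hQ0 : Q ≠ 0 := by
    intro h
    rw [h, coeff_zero] at hQc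
    exact hqd hQc.symm
  have hQy : aeval y Q = 0 := by
    rw [hQ, map_sum, ← h0]
    refine Finset.sum_congr rfl fun j _ => ?_
    rw [map_mul, map_pow, aeval_C, aeval_X]
  have h3 : (minpoly K y).natDegree ≤ Q.natDegree :=
    natDegree_le_natDegree (minpoly.degree_le_of_ne_zero K y hQ0 hQy)
  have h4 : Q.natDegree ≤ d := by
    refine natDegree_sum_le_of_forall_le _ _ fun i hi => ?_
    exact (natDegree_C_mul_X_pow_le _ _).trans (Nat.lt_succ_iff.1 (Finset.mem_range.1 hi))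
  omega

/-- the integral elements are independent together with `1`. -/
private theorem cgb_omega_indep {K L : Type*} [Field K] [Field L] [Algebra K L] {y : L} {d M : ℕ}
    {q : ℕ → K} (hqd : q d ≠ 0) (hM : M + 1 ≤ (minpoly K y).natDegree) (hMd : M + 1 ≤ d) :
    LinearIndependent K (Fin.cons 1 (fun j : Fin M => ∑ i ∈ Finset.range ((j : ℕ) + 1),
      algebraMap K L (q (d - ((j : ℕ) + 1) + 1 + i)) * y ^ (i + 1)) : Fin (M + 1) → L) := by
  classical
  set W : Fin (M + 1) → K[X] := Fin.cons 1 (fun j : Fin M =>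
    ∑ i ∈ Finset.range ((j : ℕ) + 1), C (q (d - ((j : ℕ) + 1) + 1 + i)) * X ^ (i + 1)) with hW
  have hWv : (Fin.cons 1 (fun j : Fin M => ∑ i ∈ Finset.range ((j : ℕ) + 1),
      algebraMap K L (q (d - ((j : ℕ) + 1) + 1 + i)) * y ^ (i + 1)) : Fin (M + 1) → L)
      = (fun i => aeval y (W i)) := by
    funext i
    refine Fin.cases ?_ (fun j => ?_) i
    · simp only [hW, Fin.cons_zero, map_one]
    · simp only [hW, Fin.cons_succ, map_sum, map_mul, map_pow, aeval_C, aeval_X]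
  rw [hWv]
  refine cgb_indep hM W ?_ ?_
  · intro i
    refine Fin.cases ?_ (fun j => ?_) i
    · simp only [hW, Fin.cons_zero, Fin.val_zero, coeff_one_zero]
      exact one_ne_zero
    · simp only [hW, Fin.cons_succ, Fin.val_succ, finsetSum_coeff, coeff_C_mul, coeff_X_pow]
      rw [Finset.sum_eq_single (j : ℕ)]
      · have hj := j.2
        rw [if_pos rfl, mul_one, show d - ((j : ℕ) + 1) + 1 + j = d by omega]
        exact hqd
      · intro b _ hb
        rw [if_neg (by omega), mul_zero]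
      · intro h2
        exact absurd (Finset.mem_range.2 (Nat.lt_succ_self _)) h2
  · intro i
    refine Fin.cases ?_ (fun j => ?_) i
    · intro t ht
      simp only [hW, Fin.cons_zero]
      rw [coeff_one, if_neg]
      rintro rfl
      exact absurd ht (lt_irrefl _)
    · intro t ht
      rw [Fin.val_succ] at ht
      simp only [hW, Fin.cons_succ, finsetSum_coeff, coeff_C_mul, coeff_X_pow]
      refine Finset.sum_eq_zero fun b hb => ?_
      rw [Finset.mem_range] at hb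
      rw [if_neg (by omega), mul_zero]

omit [CFF k F] in
/-- the equation as a polynomial in `y`, normalised. -/
private theorem cgb_top {x y : F} {m n : ℕ} {a : ℕ → ℕ → k}
    (hne : ∃ i ∈ Finset.range (m + 1), ∃ j ∈ Finset.range (n + 1), a i j ≠ 0)
    (h0 : ∑ i ∈ Finset.range (m + 1), ∑ j ∈ Finset.range (n + 1),
      algebraMap k F (a i j) * x ^ i * y ^ j = 0) :
    ∃ (p : ℕ → k[X]) (d : ℕ), (∀ j, (p j).natDegree ≤ m) ∧ d ≤ n ∧ p d ≠ 0 ∧
      ∑ j ∈ Finset.range (d + 1), aeval x (p j) * y ^ j = 0 := by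
  classical
  set p : ℕ → k[X] := fun j => ∑ i ∈ Finset.range (m + 1), C (a i j) * X ^ i with hpdef
  have hpdeg : ∀ j, (p j).natDegree ≤ m := by
    intro j
    refine natDegree_sum_le_of_forall_le _ _ fun i hi => ?_
    exact (natDegree_C_mul_X_pow_le _ _).trans (Nat.lt_succ_iff.1 (Finset.mem_range.1 hi))
  have hpval : ∀ j, aeval x (p j) = ∑ i ∈ Finset.range (m + 1), algebraMap k F (a i j) * x ^ i := by
    intro j
    simp only [hpdef, map_sum, map_mul, map_pow, aeval_C, aeval_X]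
  have hsum : ∑ j ∈ Finset.range (n + 1), aeval x (p j) * y ^ j = 0 := by
    rw [← h0, Finset.sum_comm]
    refine Finset.sum_congr rfl fun j _ => ?_
    rw [hpval, Finset.sum_mul]
  obtain ⟨d, hdn, hd0, hdtop⟩ : ∃ d, d ≤ n ∧ p d ≠ 0 ∧ ∀ j, d < j → j ≤ n → p j = 0 := by
    obtain ⟨i, hi, j, hj, hij⟩ := hne
    have hpj : p j ≠ 0 := by
      intro h
      apply hij
      have h1 : (p j).coeff i = a i j := by
        simp only [hpdef, finsetSum_coeff, coeff_C_mul, coeff_X_pow]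
        rw [Finset.sum_eq_single i]
        · simp
        · intro b _ hb
          rw [if_neg (Ne.symm hb), mul_zero]
        · intro h2
          exact absurd hi h2
      rw [← h1, h, coeff_zero]
    refine ⟨Nat.findGreatest (fun j => p j ≠ 0) n, Nat.findGreatest_le n,
      Nat.findGreatest_spec (P := fun j => p j ≠ 0) (Nat.lt_succ_iff.1 (Finset.mem_range.1 hj)) hpj,
      fun l hl hln => ?_⟩
    have := Nat.findGreatest_is_greatest hl hln
    simpa using this
  refine ⟨p, d, hpdeg, hdn, hd0, ?_⟩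
  rw [← hsum]
  refine Finset.sum_subset (Finset.range_mono (by omega)) fun j hj hj' => ?_
  rw [Finset.mem_range] at hj hj'
  rw [hdtop j (by omega) (by omega), map_zero, zero_mul]

private theorem cgb_arith {r m n M g N : ℕ} (hrm : m ≤ r) (hM : N = M + 1) (hn : N ≤ n)
    (l : ℕ) (h5 : (r + 1) + M * (r - m + 1) ≤ l) (h6 : (l : ℤ) = r * N + 1 - g) : g ≤ m * n := by
  have h7 : ((r : ℤ) + 1) + M * (r - m + 1) ≤ r * N + 1 - g := by
    rw [← h6]
    have : (((r + 1) + M * (r - m + 1) : ℕ) : ℤ) = ((r : ℤ) + 1) + M * (r - m + 1) := by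
      push_cast [Nat.cast_sub hrm]
      ring
    rw [← this]
    exact_mod_cast h5
  have h8 : (g : ℤ) ≤ M * (m - 1) := by
    rw [hM] at h7
    push_cast at h7
    linarith [h7]
  have h9 : (M : ℤ) ≤ n := by
    have : M ≤ n := by omega
    exact_mod_cast this
  have h10 : (g : ℤ) ≤ m * n := by
    have h11 : (M : ℤ) * m ≤ n * m := mul_le_mul_of_nonneg_right h9 (by positivity)
    have h12 : (0 : ℤ) ≤ M := by positivity
    linarith
  exact_mod_cast h10

/-- bound of the genus by the bidegree of a plane model. -/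
theorem gen_le {x y : F} (hx : ∀ a : k, x ≠ algebraMap k F a)
    (htop : IntermediateField.adjoin k {x, y} = ⊤) {m n : ℕ} {a : ℕ → ℕ → k}
    (hne : ∃ i ∈ Finset.range (m + 1), ∃ j ∈ Finset.range (n + 1), a i j ≠ 0)
    (h0 : ∑ i ∈ Finset.range (m + 1), ∑ j ∈ Finset.range (n + 1),
      algebraMap k F (a i j) * x ^ i * y ^ j = 0) : gen k F ≤ m * n := by
  obtain ⟨hxt, hfin⟩ := finite_of_notMem hx
  obtain ⟨p, d, hpdeg, hdn, hd0, hsumd⟩ := cgb_top hne h0
  have hN1 : 1 ≤ Module.finrank k⟮x⟯ F := Module.finrank_pos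
  have hKtop : k⟮x⟯⟮y⟯ = ⊤ := by
    have h1 : (k⟮x⟯⟮y⟯).restrictScalars k = ⊤ := by
      rw [adjoin_simple_adjoin_simple]
      exact htop
    exact IntermediateField.restrictScalars_eq_top_iff.1 h1
  have hmin : (minpoly k⟮x⟯ y).natDegree = Module.finrank k⟮x⟯ F :=
    (Field.primitive_element_iff_minpoly_natDegree_eq k⟮x⟯ y).1 hKtop
  have hqval : ∀ φ : k[X], algebraMap k⟮x⟯ F (aeval (AdjoinSimple.gen k x) φ) = aeval x φ := by
    intro φ
    have h1 := aeval_algebraMap_apply F (AdjoinSimple.gen k x) φ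
    rw [← h1, AdjoinSimple.algebraMap_gen]
  have hqd : aeval (AdjoinSimple.gen k x) (p d) ≠ 0 := by
    intro h
    have h1 := hqval (p d)
    rw [h, map_zero] at h1
    exact hd0 ((transcendental_iff.1 hxt) _ h1.symm)
  have hNd : Module.finrank k⟮x⟯ F ≤ d := by
    rw [← hmin]
    refine cgb_deg (q := fun j => aeval (AdjoinSimple.gen k x) (p j)) hqd ?_
    simp only [hqval]
    exact hsumd
  obtain ⟨M, hM⟩ : ∃ M, Module.finrank k⟮x⟯ F = M + 1 :=
    ⟨Module.finrank k⟮x⟯ F - 1, by omega⟩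
  have hmin' : M + 1 ≤ (minpoly k⟮x⟯ y).natDegree := by omega
  have hind := cgb_omega_indep (L := F) (y := y)
    (q := fun j => aeval (AdjoinSimple.gen k x) (p j)) (M := M) hqd hmin' (by omega)
  simp only [hqval] at hind
  obtain ⟨r₀, hr₀⟩ := exists_l_pol_eq hx
  have hrm : m ≤ max r₀ m := le_max_right _ _
  have h5 := le_finrank_of_indep hxt (m := m) (fun j : Fin M =>
    omega_mem hpdeg hsumd (j := (j : ℕ) + 1) (by have := j.2; omega)) hrm hind
  exact cgb_arith hrm hM (by omega) _ h5 (hr₀ _ (le_max_left _ _))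

end

end Vale.Agent.P019P
end
end

section

section

/-!
# Function fields with a given perfect closure
-/

namespace Vale.Agent.P019P

open Vale.Agent.P019

set_option linter.style.haveILetI false
set_option linter.unusedSectionVars false

open Polynomial IntermediateField

/-- finitely generated algebraic extensions are finite. -/
theorem finite_of_ess {K L : Type*} [Field K] [Field L] [Algebra K L] [Algebra.EssFiniteType K L]
    (h : ∀ z : L, IsAlgebraic K z) : FiniteDimensional K L := by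
  obtain ⟨s, hs⟩ := IntermediateField.fg_top K L
  have h1 := IntermediateField.finiteDimensional_adjoin (S := (s : Set L)) (K := K)
    fun x _ => (h x).isIntegral
  rw [hs] at h1
  exact Module.Finite.equiv (IntermediateField.topEquiv (F := K) (E := L)).toLinearEquiv

variable {F : Type*} [Field F] {k : Subfield F}

/-- elements outside the constants are transcendental. -/
theorem transc_of_notMem (hk : IsAlgClosed k) {x : F} (hx : x ∉ k) : ¬ IsAlgebraic k x :=
  fun h => hx (RAC_of_isAlgClosed k hk x h)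

theorem Cv.isAlgebraic (h : Cv k) {x : F} (hx : x ∉ k) (z : F) : IsAlgebraic (adj k x) z := by
  obtain ⟨y, hy, hy'⟩ := h.ex
  have hx' := transc_of_notMem h.ac hx
  have h1 : IsAlgebraic (adj k x) y := exchange hx' (hy' x)
  have h2 : ∀ w ∈ adj k y, IsAlgebraic (adj k x) w := by
    intro w hw
    have h3 : y ∈ rac (adj k x) := mem_rac.2 h1
    have h4 : Vale.Agent.P019.adj k y ≤ rac (adj k x) :=
      Vale.Agent.P019.adj_le ((le_adj k x).trans (le_rac _)) h3
    obtain ⟨n, hn⟩ := mem_adj_iff.1 hw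
    exact IsAlgebraic.of_pow (pow_pos (expChar_pos F (ringExpChar F)) n) (mem_rac.1 (h4 hn))
  have h3 : adj k y ≤ rac (adj k x) := fun w hw => mem_rac.2 (h2 w hw)
  exact isAlgebraic_rac (isAlgebraic_mono h3 (hy' z))

theorem isAlgebraic_coe (F0 : IntermediateField k F) (x z : F0)
    (h : IsAlgebraic (adj k (x : F)) (z : F)) : IsAlgebraic k⟮x⟯ z := by
  have h1 := isAlgebraic_adj.1 h
  let g : F0 →+* F := algebraMap F0 F
  let f0 : k⟮x⟯ →+* F := g.comp (algebraMap k⟮x⟯ F0)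
  have hf0 : ∀ w : k⟮x⟯, f0 w ∈ Vale.Agent.P019.adj k (x : F) := by
    intro w
    let E : IntermediateField k F0 :=
      { (Vale.Agent.P019.adj k (x : F)).comap g with
        algebraMap_mem' := fun a => (Vale.Agent.P019.le_adj k (x : F)) a.2 }
    have hE : k⟮x⟯ ≤ E := by
      rw [IntermediateField.adjoin_simple_le_iff]
      exact Vale.Agent.P019.mem_adj k (x : F)
    exact hE w.2
  let f : k⟮x⟯ →+* Vale.Agent.P019.adj k (x : F) :=
    f0.codRestrict (Vale.Agent.P019.adj k (x : F)) hf0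
  refine IsAlgebraic.of_ringHom_of_comp_eq (S := Vale.Agent.P019.adj k (x : F)) (B := F) f g h1
    ?_ g.injective ?_
  · intro a
    have h2 : Vale.Agent.P019.adj k (x : F) ≤ f0.fieldRange := by
      refine Vale.Agent.P019.adj_le ?_ ?_
      · intro b hb
        exact ⟨algebraMap k k⟮x⟯ ⟨b, hb⟩, rfl⟩
      · exact ⟨AdjoinSimple.gen k x, rfl⟩
    obtain ⟨b, hb⟩ := h2 a.2
    exact ⟨b, Subtype.ext hb⟩
  · rfl

/-- finitely generated subfields containing a nonconstant are function fields. -/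
theorem cff_of (h : Cv k) (F0 : IntermediateField k F) (hF : F0.FG) {x : F} (hxF : x ∈ F0)
    (hx : x ∉ k) : CFF k F0 := by
  haveI : Algebra.EssFiniteType k F0 := IntermediateField.essFiniteType_iff.2 hF
  let x0 : F0 := ⟨x, hxF⟩
  haveI : Algebra.EssFiniteType k⟮x0⟯ F0 := Algebra.EssFiniteType.of_comp k k⟮x0⟯ F0
  refine ⟨h.ac, x0, ?_, ?_⟩
  · intro h1
    apply transc_of_notMem h.ac hx
    exact h1.algebraMap (A := F)
  · exact finite_of_ess fun z => isAlgebraic_coe F0 x0 z (h.isAlgebraic hx _)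

/-- existence of function fields with the given perfect closure. -/
theorem exists_model (h : Cv k) : ∃ F0 : IntermediateField k F, F0.FG ∧ CFF k F0 ∧
    IsPurelyInseparable F0 F := by
  classical
  obtain ⟨S, hS⟩ := h.fg
  obtain ⟨x, hx, -⟩ := h.ex
  let T : Finset F := insert x S
  let F0 : IntermediateField k F := IntermediateField.adjoin k (T : Set F)
  have hFG : F0.FG := ⟨T, rfl⟩
  have hx0 : x ∈ F0 := IntermediateField.subset_adjoin k _ (by simp [T])
  refine ⟨F0, hFG, cff_of h F0 hFG hx0 hx, ?_⟩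
  haveI : ExpChar F0 (ringExpChar F) :=
    (algebraMap F0 F).expChar (algebraMap F0 F).injective _
  rw [isPurelyInseparable_iff_pow_mem F0 (ringExpChar F)]
  intro z
  have h1 : z ∈ pf (k ⊔ Subfield.closure (S : Set F)) := by
    rw [← hS]; trivial
  obtain ⟨n, hn⟩ := mem_pf.1 h1
  have h2 : k ⊔ Subfield.closure (S : Set F) ≤ F0.toSubfield := by
    refine sup_le ?_ (Subfield.closure_le.2 ?_)
    · intro a ha
      exact F0.algebraMap_mem ⟨a, ha⟩
    · intro a ha
      exact IntermediateField.subset_adjoin k _ (by simp [T, Finset.mem_coe.1 ha])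
  exact ⟨n, ⟨_, h2 hn⟩, rfl⟩

end Vale.Agent.P019P
end
end

section

section

/-!
# Finitely generated models of the perfect field of functions of a curve
-/

namespace Vale.Agent.P019P

open Vale.Agent.P019

set_option linter.style.haveILetI false
set_option linter.unusedSectionVars false

open Polynomial IntermediateField

/-- `E` is a finitely generated field with perfect closure `F`. -/
structure Mod {F : Type*} [Field F] (k : Subfield F) (E : IntermediateField k F) : Prop where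
  fg : E.FG
  pf : ∀ z : F, ∃ n : ℕ, z ^ ringExpChar F ^ n ∈ E

variable {F : Type*} [Field F] [PerfectField F] {k : Subfield F}

theorem Mod.of_pure {E : IntermediateField k F} (hfg : E.FG) [IsPurelyInseparable E F] :
    Mod k E := by
  refine ⟨hfg, fun z => ?_⟩
  haveI : ExpChar E (ringExpChar F) := (algebraMap E F).expChar (algebraMap E F).injective _
  obtain ⟨n, w, hw⟩ := (isPurelyInseparable_iff_pow_mem E (ringExpChar F)).1
    (inferInstance : IsPurelyInseparable E F) z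
  refine ⟨n, ?_⟩
  rw [← hw]
  exact w.2

theorem Cv.exists_mod (h : Cv k) : ∃ E : IntermediateField k F, Mod k E := by
  obtain ⟨E, hfg, _, hpi⟩ := exists_model h
  exact ⟨E, Mod.of_pure hfg⟩

theorem Mod.cff (h : Cv k) {E : IntermediateField k F} (hE : Mod k E) : CFF k E := by
  obtain ⟨x, hx, _⟩ := h.ex
  obtain ⟨n, hn⟩ := hE.pf x
  refine cff_of h E hE.fg hn fun h1 => hx ?_
  have h2 : IsAlgebraic k (x ^ ringExpChar F ^ n) := isAlgebraic_of_mem h1
  exact RAC_of_isAlgClosed k h.ac x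
    (IsAlgebraic.of_pow (pow_pos (expChar_pos F (ringExpChar F)) n) h2)

end Vale.Agent.P019P
end
end

section

section

/-!
# Models over which a given element is separating
-/

namespace Vale.Agent.P019P

open Vale.Agent.P019

set_option linter.style.haveILetI false
set_option linter.unusedSectionVars false

open Polynomial IntermediateField

variable {F : Type*} [Field F] [PerfectField F] {k : Subfield F}

theorem CSep_mem_adj0 {x z : F} : z ∈ Vale.Agent.P019.adj k x ↔ z ∈ k⟮x⟯ := by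
  have h1 : Vale.Agent.P019.adj k x = (k⟮x⟯).toSubfield := by
    apply le_antisymm
    · refine Vale.Agent.P019.adj_le ?_ (mem_adjoin_simple_self k x)
      intro a ha
      exact (k⟮x⟯).algebraMap_mem ⟨a, ha⟩
    · rw [adjoin_toSubfield, Subfield.closure_le]
      rintro a (⟨b, rfl⟩ | ha)
      · exact Vale.Agent.P019.le_adj k x b.2
      · rw [Set.mem_singleton_iff] at ha
        rw [ha]
        exact Vale.Agent.P019.mem_adj k x
  rw [h1]
  exact mem_toSubfield k⟮x⟯ z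

theorem CSep_algebraic (h : Cv k) {x : F} (hx : x ∉ k) (z : F) : IsAlgebraic k⟮x⟯ z := by
  obtain ⟨x0, -, hall⟩ := h.ex
  have hRAC : RAC k := RAC_of_isAlgClosed _ h.ac
  have hxa : ¬ IsAlgebraic k x := fun hcon => hx (hRAC x hcon)
  have h1 : IsAlgebraic (adj k x) x0 := exchange hxa (hall x)
  have h2 : adj k x0 ≤ rac (adj k x) :=
    adj_le ((le_adj k x).trans (le_rac _)) (mem_rac.2 h1)
  have h3 : IsAlgebraic (adj k x) z := isAlgebraic_rac (isAlgebraic_mono h2 (hall z))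
  have h4 : IsAlgebraic (Vale.Agent.P019.adj k x) z := isAlgebraic_adj.1 h3
  obtain ⟨Q, hQ0, hQ⟩ := h4
  let φ : Vale.Agent.P019.adj k x →+* k⟮x⟯ :=
    { toFun := fun a => ⟨a.1, CSep_mem_adj0.1 a.2⟩
      map_one' := rfl
      map_mul' := fun _ _ => rfl
      map_zero' := rfl
      map_add' := fun _ _ => rfl }
  refine ⟨Q.map φ, ?_, ?_⟩
  · rw [Ne, Polynomial.map_eq_zero_iff φ.injective]
    exact hQ0
  · rw [aeval_def, eval₂_map]
    exact hQ

/-- transport from `k(x)` inside `F` to `k(x)` inside the model, any base field. -/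
theorem CSep_transport_gen {k F : Type*} [Field k] [Field F] [Algebra k F] {x : F} (E' : IntermediateField k⟮x⟯ F) [Algebra.IsSeparable k⟮x⟯ E']
    (hxE : x ∈ E'.restrictScalars k) :
    Algebra.IsSeparable k⟮(⟨x, hxE⟩ : E'.restrictScalars k)⟯ (E'.restrictScalars k) ∧
      Module.finrank k⟮x⟯ E' =
        Module.finrank k⟮(⟨x, hxE⟩ : E'.restrictScalars k)⟯ (E'.restrictScalars k) := by
  have hmem : ∀ a : E'.restrictScalars k,
      a ∈ k⟮(⟨x, hxE⟩ : E'.restrictScalars k)⟯ ↔ a.1 ∈ k⟮x⟯ := by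
    intro a
    rw [← mem_lift, lift_adjoin_simple]
  let i : k⟮x⟯ ≃+* k⟮(⟨x, hxE⟩ : E'.restrictScalars k)⟯ :=
    { toFun := fun a => ⟨⟨a.1, E'.algebraMap_mem a⟩, (hmem _).2 a.2⟩
      invFun := fun b => ⟨b.1.1, (hmem _).1 b.2⟩
      left_inv := fun _ => rfl
      right_inv := fun _ => rfl
      map_mul' := fun _ _ => rfl
      map_add' := fun _ _ => rfl }
  let j : E' ≃+* E'.restrictScalars k :=
    { toFun := fun a => ⟨a.1, a.2⟩
      invFun := fun a => ⟨a.1, a.2⟩
      left_inv := fun _ => rfl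
      right_inv := fun _ => rfl
      map_mul' := fun _ _ => rfl
      map_add' := fun _ _ => rfl }
  constructor
  · exact Algebra.IsSeparable.of_equiv_equiv i j (RingHom.ext fun _ => rfl)
  · exact Algebra.finrank_eq_of_equiv_equiv i j (RingHom.ext fun _ => rfl)

/-- transport from `k(x)` inside `F` to `k(x)` inside the model. -/
theorem CSep_transport {x : F} (E' : IntermediateField k⟮x⟯ F) [Algebra.IsSeparable k⟮x⟯ E']
    (hxE : x ∈ E'.restrictScalars k) :
    Algebra.IsSeparable k⟮(⟨x, hxE⟩ : E'.restrictScalars k)⟯ (E'.restrictScalars k) ∧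
      Module.finrank k⟮x⟯ E' =
        Module.finrank k⟮(⟨x, hxE⟩ : E'.restrictScalars k)⟯ (E'.restrictScalars k) :=
  CSep_transport_gen E' hxE

theorem CSep_deg (K0 K1 E L : Type*) [Field K0] [Field K1] [Field E] [Field L] [Algebra K0 K1]
    [Algebra K0 E] [Algebra K0 L] [Algebra K1 L] [Algebra E L] [IsScalarTower K0 K1 L]
    [IsScalarTower K0 E L] [Algebra.IsAlgebraic K1 L] [Algebra.IsAlgebraic E L]
    [IsPurelyInseparable K0 K1] [Algebra.IsSeparable K1 L] [Algebra.IsSeparable K0 E]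
    [IsPurelyInseparable E L] : Module.finrank K1 L = Module.finrank K0 E := by
  have h2 := Field.finSepDegree_mul_finSepDegree_of_isAlgebraic K0 K1 L
  rw [IsPurelyInseparable.finSepDegree_eq_one, one_mul,
    Field.finSepDegree_eq_finrank_of_isSeparable] at h2
  have h3 := Field.finSepDegree_mul_finSepDegree_of_isAlgebraic K0 E L
  rw [IsPurelyInseparable.finSepDegree_eq_one E L, mul_one,
    Field.finSepDegree_eq_finrank_of_isSeparable] at h3
  rw [h2, h3]

theorem CSep_pc (K0 L : Type*) [Field K0] [Field L] [Algebra K0 L] [PerfectField L]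
    [Algebra.IsAlgebraic K0 L] (E : IntermediateField K0 L) [Algebra.IsSeparable K0 E]
    [IsPurelyInseparable E L] :
    Module.finrank (perfectClosure K0 L) L = Module.finrank K0 E := by
  haveI : Algebra.IsAlgebraic (perfectClosure K0 L) L :=
    Algebra.IsAlgebraic.tower_top (K := K0) _
  haveI : Algebra.IsAlgebraic E L := Algebra.IsAlgebraic.tower_top (K := K0) _
  exact CSep_deg K0 (perfectClosure K0 L) E L

theorem CSep_congr {A : Subfield F} {K0 : Type*} [Field K0] [Algebra K0 F]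
    (B : IntermediateField K0 F) (h : ∀ z, z ∈ A ↔ z ∈ B) :
    Module.finrank A F = Module.finrank B F := by
  let i : A ≃+* B :=
    { toFun := fun a => ⟨a.1, (h _).1 a.2⟩
      invFun := fun a => ⟨a.1, (h _).2 a.2⟩
      left_inv := fun _ => rfl
      right_inv := fun _ => rfl
      map_mul' := fun _ _ => rfl
      map_add' := fun _ _ => rfl }
  exact Algebra.finrank_eq_of_equiv_equiv i (RingEquiv.refl F) (RingHom.ext fun _ => rfl)

theorem CSep_mem {x : F} (z : F) : z ∈ adj k x ↔ z ∈ perfectClosure k⟮x⟯ F := by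
  haveI e0 : ExpChar k⟮x⟯ (ringExpChar F) :=
    (algebraMap k⟮x⟯ F).expChar (algebraMap k⟮x⟯ F).injective _
  rw [mem_adj_iff, mem_perfectClosure_iff_pow_mem (ringExpChar F)]
  refine exists_congr fun n => ?_
  rw [CSep_mem_adj0]
  exact ⟨fun hz => ⟨⟨_, hz⟩, rfl⟩, fun ⟨a, ha⟩ => ha ▸ a.2⟩

theorem CSep_adj {x : F} :
    Module.finrank (adj k x) F = Module.finrank (perfectClosure k⟮x⟯ F) F :=
  CSep_congr (A := adj k x) _ CSep_mem

theorem CSep_finrank (h : Cv k) {x : F} (hx : x ∉ k) (E' : IntermediateField k⟮x⟯ F)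
    [Algebra.IsSeparable k⟮x⟯ E'] (hpi : ∀ z : F, ∃ n : ℕ, z ^ ringExpChar F ^ n ∈ E') :
    Module.finrank (adj k x) F = Module.finrank k⟮x⟯ E' := by
  haveI : Algebra.IsAlgebraic k⟮x⟯ F := ⟨CSep_algebraic h hx⟩
  haveI e1 : ExpChar E' (ringExpChar F) :=
    (algebraMap E' F).expChar (algebraMap E' F).injective _
  haveI : IsPurelyInseparable E' F := by
    rw [isPurelyInseparable_iff_pow_mem E' (ringExpChar F)]
    intro z
    obtain ⟨n, hn⟩ := hpi z
    exact ⟨n, ⟨_, hn⟩, rfl⟩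
  rw [CSep_adj]
  exact CSep_pc k⟮x⟯ F E'

theorem CSep_aux (h : Cv k) {x : F} (hx : x ∉ k) :
    ∃ (E : IntermediateField k F) (hxE : x ∈ E), Mod k E ∧
      Algebra.IsSeparable k⟮(⟨x, hxE⟩ : E)⟯ E ∧
      Module.finrank (adj k x) F = Module.finrank k⟮(⟨x, hxE⟩ : E)⟯ E ∧
      0 < Module.finrank (adj k x) F := by
  classical
  haveI : Algebra.IsAlgebraic k⟮x⟯ F := ⟨CSep_algebraic h hx⟩
  haveI e0 : ExpChar k⟮x⟯ (ringExpChar F) :=
    (algebraMap k⟮x⟯ F).expChar (algebraMap k⟮x⟯ F).injective _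
  haveI e2 : ExpChar (separableClosure k⟮x⟯ F) (ringExpChar F) :=
    (algebraMap (separableClosure k⟮x⟯ F) F).expChar
      (algebraMap (separableClosure k⟮x⟯ F) F).injective _
  obtain ⟨E0, hE0⟩ := h.exists_mod
  obtain ⟨S, hS⟩ := hE0.fg
  have hsep : ∀ s : F, ∃ n : ℕ, s ^ ringExpChar F ^ n ∈ separableClosure k⟮x⟯ F := by
    intro s
    obtain ⟨n, a, ha⟩ := IsPurelyInseparable.pow_mem (separableClosure k⟮x⟯ F) (ringExpChar F) s
    exact ⟨n, ha ▸ a.2⟩
  choose f hf using hsep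
  set n := S.sup f with hn
  have hfn : ∀ s ∈ S, s ^ ringExpChar F ^ n ∈ separableClosure k⟮x⟯ F := by
    intro s hs
    obtain ⟨m, hm⟩ := Nat.exists_eq_add_of_le (Finset.le_sup (f := f) hs)
    rw [← hn] at hm
    rw [hm, pow_add, pow_mul]
    exact pow_mem (hf s) _
  set T : Finset F := S.image fun s => s ^ ringExpChar F ^ n with hT
  set E' : IntermediateField k⟮x⟯ F := adjoin k⟮x⟯ (T : Set F) with hE'
  have hTsep : ∀ t ∈ (T : Set F), IsSeparable k⟮x⟯ t := by
    intro t ht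
    obtain ⟨s, hs, rfl⟩ := Finset.mem_image.1 (Finset.mem_coe.1 ht)
    exact mem_separableClosure_iff.1 (hfn s hs)
  haveI : Algebra.IsSeparable k⟮x⟯ E' := (isSeparable_adjoin_iff_isSeparable _ _).2 hTsep
  have hxE : x ∈ E'.restrictScalars k :=
    E'.algebraMap_mem ⟨x, mem_adjoin_simple_self k x⟩
  have hpi : ∀ z : F, ∃ m : ℕ, z ^ ringExpChar F ^ m ∈ E' := by
    intro z
    obtain ⟨m, hm⟩ := hE0.pf z
    refine ⟨m + n, ?_⟩
    rw [pow_add, pow_mul]
    have hG : E0.toSubfield ≤ (E'.toSubfield).comap (iterateFrobenius F (ringExpChar F) n) := by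
      rw [← hS, adjoin_toSubfield, Subfield.closure_le]
      rintro a (⟨b, rfl⟩ | ha)
      · change iterateFrobenius F (ringExpChar F) n (algebraMap k F b) ∈ E'
        rw [iterateFrobenius_def, ← map_pow]
        exact (E'.restrictScalars k).algebraMap_mem _
      · change iterateFrobenius F (ringExpChar F) n a ∈ E'
        rw [iterateFrobenius_def]
        exact subset_adjoin _ _ (Finset.mem_coe.2 (Finset.mem_image_of_mem _ ha))
    have h1 := hG (show z ^ ringExpChar F ^ m ∈ E0.toSubfield from hm)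
    change iterateFrobenius F (ringExpChar F) n (z ^ ringExpChar F ^ m) ∈ E' at h1
    rwa [iterateFrobenius_def] at h1
  have hfin : FiniteDimensional k⟮x⟯ E' :=
    finiteDimensional_adjoin fun t ht => (hTsep t ht).isIntegral
  obtain ⟨h1, h2⟩ := CSep_transport E' hxE
  have h3 := CSep_finrank h hx E' hpi
  refine ⟨E'.restrictScalars k, hxE, ⟨?_, hpi⟩, h1, h3.trans h2, ?_⟩
  · rw [hE', adjoin_adjoin_left]
    refine ⟨insert x T, ?_⟩
    rw [Finset.coe_insert, Set.insert_eq]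
  · rw [h3]
    exact Module.finrank_pos

theorem Cv.exists_sepMod (h : Cv k) {x : F} (hx : x ∉ k) :
    ∃ (E : IntermediateField k F) (hxE : x ∈ E), Mod k E ∧
      Algebra.IsSeparable k⟮(⟨x, hxE⟩ : E)⟯ E ∧
      Module.finrank (adj k x) F = Module.finrank k⟮(⟨x, hxE⟩ : E)⟯ E := by
  obtain ⟨E, hxE, h1, h2, h3, _⟩ := CSep_aux h hx
  exact ⟨E, hxE, h1, h2, h3⟩

theorem cv_fin_aux {K V : Type*} [Field K] [AddCommGroup V] [Module K V]
    (h : 0 < Module.finrank K V) : Module.Finite K V :=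
  Module.finite_of_finrank_pos h

/-- finiteness of `F` over `k(x)`. -/
theorem Cv.finite (h : Cv k) {x : F} (hx : x ∉ k) : Module.Finite (adj k x) F := by
  obtain ⟨_, _, _, _, _, h4⟩ := CSep_aux h hx
  exact cv_fin_aux h4

end Vale.Agent.P019P
end
end

section

section

/-!
# The places of the perfect field and those of a model
-/

namespace Vale.Agent.P019P

open Vale.Agent.P019

set_option linter.style.haveILetI false
set_option linter.unusedSectionVars false

open Polynomial IntermediateField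

variable {F : Type*} [Field F] [PerfectField F] {k : Subfield F}

private theorem vs_of_pow {K : Type*} [Field K] (O : ValuationSubring K) {z : K} {m : ℕ}
    (hm : m ≠ 0) (h : z ^ m ∈ O) : z ∈ O := by
  rw [← O.valuation_le_one_iff] at h ⊢
  rw [map_pow] at h
  by_contra hcon
  push Not at hcon
  exact absurd h (not_le.2 (one_lt_pow₀ hcon hm))

private theorem CPlc_qpos (F : Type*) [Field F] (n : ℕ) : ringExpChar F ^ n ≠ 0 :=
  (pow_pos (expChar_pos F _) n).ne'

/-- the valuation ring of the perfect field above a valuation ring of a model. -/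
private noncomputable def CPlc_up {E : IntermediateField k F} (hE : Mod k E)
    (A : ValuationSubring E) : ValuationSubring F where
  carrier := {z | ∃ (n : ℕ) (e : E), (e : F) = z ^ ringExpChar F ^ n ∧ e ∈ A}
  zero_mem' := ⟨0, 0, by simp, A.zero_mem⟩
  one_mem' := ⟨0, 1, by simp, A.one_mem⟩
  add_mem' := by
    rintro z w ⟨n, e, he, hA⟩ ⟨m, e', he', hA'⟩
    refine ⟨n + m, e ^ ringExpChar F ^ m + e' ^ ringExpChar F ^ n, ?_,
      A.add_mem _ _ (pow_mem hA _) (pow_mem hA' _)⟩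
    rw [add_pow_expChar_pow]
    push_cast
    rw [he, he', ← pow_mul, ← pow_mul, ← pow_add, ← pow_add, Nat.add_comm m n]
  mul_mem' := by
    rintro z w ⟨n, e, he, hA⟩ ⟨m, e', he', hA'⟩
    refine ⟨n + m, e ^ ringExpChar F ^ m * e' ^ ringExpChar F ^ n, ?_,
      A.mul_mem _ _ (pow_mem hA _) (pow_mem hA' _)⟩
    rw [mul_pow]
    push_cast
    rw [he, he', ← pow_mul, ← pow_mul, ← pow_add, ← pow_add, Nat.add_comm m n]
  neg_mem' := by
    rintro z ⟨n, e, he, hA⟩
    rcases Nat.even_or_odd (ringExpChar F ^ n) with h | h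
    · exact ⟨n, e, by rw [he, h.neg_pow], hA⟩
    · exact ⟨n, -e, by push_cast; rw [he, h.neg_pow], A.neg_mem _ hA⟩
  mem_or_inv_mem' := by
    intro z
    obtain ⟨n, hn⟩ := hE.pf z
    rcases A.mem_or_inv_mem (⟨_, hn⟩ : E) with h | h
    · exact Or.inl ⟨n, _, rfl, h⟩
    · refine Or.inr ⟨n, _, ?_, h⟩
      rw [inv_pow]
      rfl

private theorem CPlc_coe_mem_up {E : IntermediateField k F} {hE : Mod k E}
    {A : ValuationSubring E} {z : E} : (z : F) ∈ CPlc_up hE A ↔ z ∈ A := by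
  constructor
  · rintro ⟨n, e, he, hA⟩
    have h1 : e = z ^ ringExpChar F ^ n := Subtype.ext (by rw [he]; rfl)
    rw [h1] at hA
    exact vs_of_pow A (CPlc_qpos F n) hA
  · intro h
    exact ⟨0, z, by simp, h⟩

/-- the places of the perfect field correspond to the places of a model. -/
theorem Mod.exists_plc (h : Cv k) {E : IntermediateField k F} (hE : Mod k E) :
    ∃ φ : Plk k E ≃ {O : ValuationSubring F // O ∈ Plc k},
      ∀ (P : Plk k E) (z : E), z ∈ P.1 ↔ (z : F) ∈ (φ P).1 := by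
  refine ⟨{ toFun := fun P => ⟨CPlc_up hE P.1, ?_, ?_⟩
            invFun := fun O => ⟨O.1.comap (algebraMap E F), ?_, ?_⟩
            left_inv := ?_
            right_inv := ?_ }, fun P z => (CPlc_coe_mem_up (hE := hE) (A := P.1) (z := z)).symm⟩
  · intro c hc
    have h1 : ((algebraMap k E ⟨c, hc⟩ : E) : F) ∈ CPlc_up hE P.1 :=
      CPlc_coe_mem_up.2 (P.2.1 ⟨c, hc⟩)
    exact h1
  · intro htop
    apply P.2.2
    rw [eq_top_iff]
    intro z _
    have h1 : (z : F) ∈ CPlc_up hE P.1 := by rw [htop]; trivial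
    exact CPlc_coe_mem_up.1 h1
  · intro a
    exact O.2.1 (a : F) a.2
  · intro htop
    apply O.2.2
    rw [eq_top_iff]
    intro z _
    obtain ⟨n, hn⟩ := hE.pf z
    have h1 : (⟨_, hn⟩ : E) ∈ O.1.comap (algebraMap E F) := by rw [htop]; trivial
    exact vs_of_pow O.1 (CPlc_qpos F n) h1
  · intro P
    apply Subtype.ext
    ext z
    exact CPlc_coe_mem_up (hE := hE)
  · intro O
    apply Subtype.ext
    ext z
    constructor
    · rintro ⟨n, e, he, hA⟩
      have h1 : (e : F) ∈ O.1 := hA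
      rw [he] at h1
      exact vs_of_pow O.1 (CPlc_qpos F n) h1
    · intro hz
      obtain ⟨n, hn⟩ := hE.pf z
      refine ⟨n, ⟨_, hn⟩, rfl, ?_⟩
      exact pow_mem hz (ringExpChar F ^ n)

variable {ℓ : ℕ} [Fact ℓ.Prime] [NeZero (ℓ : F)]

theorem Mod.val_lt_one_iff {E : IntermediateField k F} [CFF k E] {P : Plk k E}
    {O : ValuationSubring F} (hO : ∀ z : E, z ∈ P.1 ↔ (z : F) ∈ O) (z : E) :
    O.valuation (z : F) < 1 ↔ z = 0 ∨ 0 < ord P z := by
  by_cases hz : z = 0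
  · subst hz
    simp
  have hz' : (z : F) ≠ 0 := by
    intro h
    exact hz (Subtype.ext h)
  have hv : O.valuation (z : F) ≠ 0 := (Valuation.ne_zero_iff _).2 hz'
  have h3 : 1 ≤ O.valuation (z : F) ↔ O.valuation ((z⁻¹ : E) : F) ≤ 1 := by
    rw [show ((z⁻¹ : E) : F) = (z : F)⁻¹ from rfl, map_inv₀,
      inv_le_one₀ (zero_lt_iff.2 hv)]
  rw [← not_le, h3, O.valuation_le_one_iff, ← hO, mem_iff_ord, ord_inv]
  simp [hz]

end Vale.Agent.P019P
end
end

section

section

/-!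
# Separable models
-/

namespace Vale.Agent.P019P

open Vale.Agent.P019

set_option linter.style.haveILetI false
set_option linter.unusedSectionVars false

open Polynomial IntermediateField

variable {F : Type*} [Field F] {k : Subfield F}

namespace AuxGSep

theorem adj0_le (x : F) : Vale.Agent.P019.adj k x ≤ (k⟮x⟯).toSubfield := by
  refine Vale.Agent.P019.adj_le ?_ ?_
  · intro b hb
    exact (k⟮x⟯).algebraMap_mem ⟨b, hb⟩
  · exact IntermediateField.mem_adjoin_simple_self k x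

theorem le_adj0 (x : F) : (k⟮x⟯).toSubfield ≤ Vale.Agent.P019.adj k x := by
  let E : IntermediateField k F :=
    { (Vale.Agent.P019.adj k x) with
      algebraMap_mem' := fun a => (Vale.Agent.P019.le_adj k x) a.2 }
  have hE : k⟮x⟯ ≤ E := by
    rw [IntermediateField.adjoin_simple_le_iff]
    exact Vale.Agent.P019.mem_adj k x
  exact hE

theorem alg_K0 (h : Cv k) {x : F} (hx : x ∉ k) (z : F) : IsAlgebraic k⟮x⟯ z := by
  have h1 := isAlgebraic_mono (adj0_le x) (isAlgebraic_adj.1 (h.isAlgebraic hx z))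
  exact h1

/-- the separable closure of `k(x)` is finite over `k(x)`. -/
theorem finite_sep (h : Cv k) {x : F} (hx : x ∉ k) :
    FiniteDimensional k⟮x⟯ (separableClosure k⟮x⟯ F) := by
  obtain ⟨F0, ⟨T, hT⟩, -, h3⟩ := exists_model h
  haveI : ExpChar F0 (ringExpChar F) :=
    (algebraMap F0 F).expChar (algebraMap F0 F).injective _
  haveI : ExpChar k⟮x⟯ (ringExpChar F) :=
    (algebraMap k⟮x⟯ F).expChar (algebraMap k⟮x⟯ F).injective _
  rw [isPurelyInseparable_iff_pow_mem F0 (ringExpChar F)] at h3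
  let G : IntermediateField k⟮x⟯ F := IntermediateField.adjoin k⟮x⟯ (T : Set F)
  haveI : FiniteDimensional k⟮x⟯ G :=
    IntermediateField.finiteDimensional_adjoin fun z _ => (alg_K0 h hx z).isIntegral
  have h4 : F0 ≤ G.restrictScalars k := by
    rw [← hT, IntermediateField.adjoin_le_iff]
    exact IntermediateField.subset_adjoin k⟮x⟯ (T : Set F)
  have h5 : separableClosure k⟮x⟯ F ≤ G := by
    intro z hz
    obtain ⟨n, y, hy⟩ := h3 z
    have h6 := IntermediateField.adjoin_simple_eq_adjoin_pow_expChar_pow_of_isSeparable k⟮x⟯ F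
      (mem_separableClosure_iff.1 hz) (ringExpChar F) n
    have h7 : (k⟮x⟯)⟮z⟯ ≤ G := by
      rw [h6, IntermediateField.adjoin_simple_le_iff, ← hy]
      exact h4 y.2
    exact h7 (IntermediateField.mem_adjoin_simple_self _ z)
  exact Submodule.finiteDimensional_of_le
    (S₁ := Subalgebra.toSubmodule (separableClosure k⟮x⟯ F).toSubalgebra)
    (S₂ := Subalgebra.toSubmodule G.toSubalgebra) h5

/-- a primitive element. -/
theorem exists_prim_sep (h : Cv k) {x : F} (hx : x ∉ k) :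
    ∃ y : F, separableClosure k⟮x⟯ F = (k⟮x⟯)⟮y⟯ := by
  haveI := finite_sep h hx
  obtain ⟨y, hy⟩ := Field.exists_primitive_element k⟮x⟯ (separableClosure k⟮x⟯ F)
  refine ⟨y, ?_⟩
  rw [← IntermediateField.lift_adjoin_simple, hy, IntermediateField.lift_top]

theorem map_gen (F1 : IntermediateField k F) {x : F} (hx1 : x ∈ F1) :
    (k⟮(⟨x, hx1⟩ : F1)⟯).map F1.val = k⟮x⟯ := by
  rw [IntermediateField.adjoin_map]
  simp

noncomputable def eqv (F1 : IntermediateField k F) {x : F} (hx1 : x ∈ F1) :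
    k⟮x⟯ ≃+* k⟮(⟨x, hx1⟩ : F1)⟯ :=
  ((IntermediateField.equivMap (k⟮(⟨x, hx1⟩ : F1)⟯) F1.val).trans
    (IntermediateField.equivOfEq (map_gen F1 hx1))).symm.toRingEquiv

theorem eqv_symm_coe (F1 : IntermediateField k F) {x : F} (hx1 : x ∈ F1)
    (z : k⟮(⟨x, hx1⟩ : F1)⟯) : (((eqv F1 hx1).symm z : k⟮x⟯) : F) = ((z : F1) : F) := rfl

theorem eqv_coe (F1 : IntermediateField k F) {x : F} (hx1 : x ∈ F1) (z : k⟮x⟯) :
    (((eqv F1 hx1 z : k⟮(⟨x, hx1⟩ : F1)⟯) : F1) : F) = z := by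
  rw [← eqv_symm_coe F1 hx1, RingEquiv.symm_apply_apply]

/-- the degree over the perfect closure of `k(x)`. -/
theorem deg_le [PerfectField F] {x y : F} (hal : ∀ z : F, IsAlgebraic k⟮x⟯ z)
    (hy : ∀ z : F, ∃ n : ℕ, z ^ ringExpChar F ^ n ∈ (k⟮x⟯)⟮y⟯) :
    Module.Finite (adj k x) F ∧
      Module.finrank (adj k x) F ≤ Module.finrank k⟮x⟯ (k⟮x⟯)⟮y⟯ := by
  have hle : (k⟮x⟯).toSubfield ≤ adj k x := (le_adj0 x).trans (adj0_le_adj k x)
  have hle' : ∀ z : k⟮x⟯, (z : F) ∈ adj k x := fun z => hle z.2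
  letI : Algebra k⟮x⟯ (adj k x) :=
    ((algebraMap k⟮x⟯ F).codRestrict (adj k x) hle').toAlgebra
  haveI : IsScalarTower k⟮x⟯ (adj k x) F := IsScalarTower.of_algebraMap_eq fun z => rfl
  have hal' : ∀ z : F, IsAlgebraic (adj k x) z := fun z => (hal z).tower_top (adj k x)
  have hG : (adj k x)⟮y⟯ = ⊤ := by
    haveI : Algebra.IsAlgebraic (adj k x) (adj k x)⟮y⟯ :=
      ⟨fun z => isAlgebraic_iff.2 (hal' z)⟩
    haveI : PerfectField (adj k x)⟮y⟯ := Algebra.IsAlgebraic.perfectField (adj k x)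
    haveI : PerfectField ((adj k x)⟮y⟯).toSubfield := this
    have h1 : ∀ z ∈ (k⟮x⟯)⟮y⟯, z ∈ (adj k x)⟮y⟯ := by
      have h2 : (k⟮x⟯)⟮y⟯ ≤ ((adj k x)⟮y⟯).restrictScalars k⟮x⟯ := by
        rw [IntermediateField.adjoin_simple_le_iff]
        exact IntermediateField.mem_adjoin_simple_self (adj k x) y
      exact fun z hz => h2 hz
    refine top_unique fun z _ => ?_
    obtain ⟨n, hn⟩ := hy z
    have h2 : z ^ ringExpChar F ^ n ∈ ((adj k x)⟮y⟯).toSubfield := h1 _ hn
    exact mem_of_pow_q (E := ((adj k x)⟮y⟯).toSubfield) h2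
  have hfin : Module.Finite (adj k x) (adj k x)⟮y⟯ :=
    IntermediateField.adjoin.finiteDimensional (hal' y).isIntegral
  have hdeg := IntermediateField.adjoin.finrank (hal' y).isIntegral
  have hdeg0 := IntermediateField.adjoin.finrank (hal y).isIntegral
  rw [hG] at hfin hdeg
  refine ⟨Module.Finite.equiv
    (IntermediateField.topEquiv (F := adj k x) (E := F)).toLinearEquiv, ?_⟩
  rw [IntermediateField.finrank_top'] at hdeg
  rw [hdeg, hdeg0]
  have h3 := minpoly.dvd_map_of_isScalarTower k⟮x⟯ (adj k x) y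
  have h4 := Polynomial.natDegree_le_of_dvd h3
    (Polynomial.map_ne_zero (minpoly.ne_zero (hal y).isIntegral))
  rwa [Polynomial.natDegree_map] at h4

end AuxGSep

open AuxGSep

/-- a model which is separable over `k(x)`. -/
theorem exists_sep_model [PerfectField F] (h : Cv k) {x : F} (hx : x ∉ k) :
    ∃ (F1 : IntermediateField k F) (hx1 : x ∈ F1), F1.FG ∧ CFF k F1 ∧ IsPurelyInseparable F1 F ∧
      Algebra.IsSeparable k⟮(⟨x, hx1⟩ : F1)⟯ F1 ∧ Module.Finite (adj k x) F ∧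
      Module.finrank (adj k x) F ≤ Module.finrank k⟮(⟨x, hx1⟩ : F1)⟯ F1 := by
  let S : IntermediateField k⟮x⟯ F := separableClosure k⟮x⟯ F
  haveI hS : FiniteDimensional k⟮x⟯ S := finite_sep h hx
  obtain ⟨y, hy⟩ : ∃ y : F, S = (k⟮x⟯)⟮y⟯ := exists_prim_sep h hx
  haveI hal : Algebra.IsAlgebraic k⟮x⟯ F := ⟨alg_K0 h hx⟩
  haveI hins : IsPurelyInseparable S F := separableClosure.isPurelyInseparable _ _
  haveI hsep : Algebra.IsSeparable k⟮x⟯ S := separableClosure.isSeparable _ _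
  haveI : ExpChar S (ringExpChar F) :=
    (algebraMap S F).expChar (algebraMap S F).injective _
  let F1 : IntermediateField k F := S.restrictScalars k
  have hx1 : x ∈ F1 := S.algebraMap_mem ⟨x, IntermediateField.mem_adjoin_simple_self k x⟩
  have hFG : F1.FG := by
    have h1 : F1 = k⟮x, y⟯ := by
      rw [← IntermediateField.adjoin_simple_adjoin_simple, ← hy]
    rw [h1]
    exact IntermediateField.fg_adjoin_of_finite (Set.toFinite _)
  let e₂ : S ≃+* F1 := RingEquiv.refl S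
  have hcomp : (algebraMap k⟮(⟨x, hx1⟩ : F1)⟯ F1).comp (eqv F1 hx1).toRingHom =
      e₂.toRingHom.comp (algebraMap k⟮x⟯ S) := by
    ext z
    exact eqv_coe F1 hx1 z
  have hfr : Module.finrank k⟮x⟯ S = Module.finrank k⟮(⟨x, hx1⟩ : F1)⟯ F1 :=
    Algebra.finrank_eq_of_equiv_equiv (eqv F1 hx1) e₂ hcomp
  have hcomp' : ((algebraMap k⟮(⟨x, hx1⟩ : F1)⟯ F1).comp ↑(eqv F1 hx1)) =
      (↑e₂ : S →+* F1).comp (algebraMap k⟮x⟯ S) := hcomp
  refine ⟨F1, hx1, hFG, cff_of h F1 hFG hx1 hx, hins,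
    Algebra.IsSeparable.of_equiv_equiv (eqv F1 hx1) e₂ hcomp', ?_⟩
  rw [← hfr, hy]
  refine deg_le (alg_K0 h hx) fun z => ?_
  obtain ⟨n, w, hw⟩ := (isPurelyInseparable_iff_pow_mem S (ringExpChar F)).1 hins z
  refine ⟨n, ?_⟩
  rw [← hy, ← hw]
  exact w.2

end Vale.Agent.P019P
end
end

section

section

/-!
# A basis of the functions with poles at one place, with finitely many structure constants
-/

namespace Vale.Agent.P019P

open Polynomial IntermediateField

variable {k F : Type*} [Field k] [Field F] [Algebra k F] [CFF k F]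

theorem h4ModA_mem_S {P₀ : Plk k F} {z : F} (hz : z ∈ RO P₀) (hz0 : z ≠ 0) :
    ∃ j : ℕ, ord P₀ z = -(j : ℤ) := by
  have h := h4_ord_le P₀ hz hz0
  exact ⟨(-ord P₀ z).toNat, by rw [Int.toNat_of_nonneg (by omega)]; omega⟩

/-- the dimension of `LP P₀ n` is the number of degrees up to `n`. -/
theorem h4ModA_card (P₀ : Plk k F) {S : Set ℕ}
    (hS : S = {n : ℕ | ∃ z : F, z ∈ RO P₀ ∧ z ≠ 0 ∧ ord P₀ z = -(n : ℤ)}) (n : ℕ) :
    Module.finrank k (LP P₀ n) = {d : ℕ | d ∈ S ∧ d ≤ n}.ncard := by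
  induction n with
  | zero =>
    have h1 : (LP P₀ 0 : Submodule k F) = LL k 0 := by
      unfold LP
      simp
    have h2 : {d : ℕ | d ∈ S ∧ d ≤ 0} = {0} := by
      ext d
      simp only [Set.mem_ofPred_eq, Set.mem_singleton_iff]
      constructor
      · rintro ⟨_, h⟩
        omega
      · rintro rfl
        refine ⟨?_, le_refl 0⟩
        rw [hS]
        exact ⟨1, one_mem _, one_ne_zero, by rw [ord_one]; simp⟩
    rw [h1, h2, Set.ncard_singleton]
    exact l_zero
  | succ n ih =>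
    have h1 : Finsupp.single P₀ (((n + 1 : ℕ) : ℤ)) =
        Finsupp.single P₀ (n : ℤ) + Finsupp.single P₀ 1 := by
      rw [← Finsupp.single_add]
      push_cast
      rfl
    have hfin : ∀ N : ℕ, {d : ℕ | d ∈ S ∧ d ≤ N}.Finite := fun N =>
      (Set.finite_Iic N).subset fun d hd => hd.2
    by_cases hmem : n + 1 ∈ S
    · have hm2 := hmem
      rw [hS] at hm2
      obtain ⟨z, hz, hz0, hzo⟩ := hm2
      have hz1 : z ∈ LP P₀ (n + 1) := mem_LP.2 ⟨hz, Or.inr hzo.ge⟩
      have hz2 : z ∉ LP P₀ n := by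
        intro h
        have h3 := (mem_LP.1 h).2.resolve_left hz0
        rw [hzo] at h3
        push_cast at h3
        omega
      have h4 : z ∈ LL k (Finsupp.single P₀ (n : ℤ) + Finsupp.single P₀ 1) := by
        rw [← h1]; exact hz1
      have h5 := l_step_of_mem h4 hz2
      rw [← h1] at h5
      have h6 : {d : ℕ | d ∈ S ∧ d ≤ n + 1} = insert (n + 1) {d : ℕ | d ∈ S ∧ d ≤ n} := by
        ext d
        simp only [Set.mem_ofPred_eq, Set.mem_insert_iff]
        constructor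
        · rintro ⟨h7, h8⟩
          rcases Nat.lt_or_ge n d with h9 | h9
          · left; omega
          · right; exact ⟨h7, h9⟩
        · rintro (rfl | ⟨h7, h8⟩)
          · exact ⟨hmem, le_refl _⟩
          · exact ⟨h7, by omega⟩
      rw [h6, Set.ncard_insert_of_notMem _ (hfin n), ← ih]
      · exact h5
      · rintro ⟨_, h⟩
        omega
    · have h4 : LL k (Finsupp.single P₀ (n : ℤ) + Finsupp.single P₀ 1) ≤
          LL k (Finsupp.single P₀ (n : ℤ)) := by
        rw [← h1]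
        intro z hz
        have hz1 : z ∈ LP P₀ (n + 1) := hz
        obtain ⟨hz2, hz3⟩ := mem_LP.1 hz1
        have : z ∈ LP P₀ n := by
          refine mem_LP.2 ⟨hz2, ?_⟩
          by_cases hz0 : z = 0
          · exact Or.inl hz0
          right
          have h5 := hz3.resolve_left hz0
          obtain ⟨j, hj⟩ := h4ModA_mem_S hz2 hz0
          have h6 : j ∈ S := by
            rw [hS]; exact ⟨z, hz2, hz0, hj⟩
          have h7 : j ≠ n + 1 := fun h => hmem (h ▸ h6)
          rw [hj] at h5 ⊢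
          push_cast at h5
          omega
        exact this
      have h5 := l_step_of_eq h4
      rw [← h1] at h5
      have h6 : {d : ℕ | d ∈ S ∧ d ≤ n + 1} = {d : ℕ | d ∈ S ∧ d ≤ n} := by
        ext d
        simp only [Set.mem_ofPred_eq]
        constructor
        · rintro ⟨h7, h8⟩
          refine ⟨h7, ?_⟩
          have h9 : d ≠ n + 1 := fun h => hmem (h ▸ h7)
          omega
        · rintro ⟨h7, h8⟩
          exact ⟨h7, by omega⟩
      rw [h6, ← ih]
      exact h5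

/-- the semigroup of a place. -/
theorem exists_sgp (P₀ : Plk k F) :
    Sgp (gen k F) {n : ℕ | ∃ z : F, z ∈ RO P₀ ∧ z ≠ 0 ∧ ord P₀ z = -(n : ℤ)} := by
  have hadd : ∀ {a b : ℕ}, (∃ z : F, z ∈ RO P₀ ∧ z ≠ 0 ∧ ord P₀ z = -(a : ℤ)) →
      (∃ z : F, z ∈ RO P₀ ∧ z ≠ 0 ∧ ord P₀ z = -(b : ℤ)) →
      ∃ z : F, z ∈ RO P₀ ∧ z ≠ 0 ∧ ord P₀ z = -((a + b : ℕ) : ℤ) := by
    rintro a b ⟨z, hz, hz0, hzo⟩ ⟨w, hw, hw0, hwo⟩
    refine ⟨z * w, mul_mem hz hw, mul_ne_zero hz0 hw0, ?_⟩
    rw [ord_mul P₀ hz0 hw0, hzo, hwo]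
    push_cast
    ring
  refine ⟨⟨1, one_mem _, one_ne_zero, by rw [ord_one]; simp⟩, fun ha hb => hadd ha hb,
    fun n hn => exists_RO_ord P₀ hn, ?_⟩
  obtain ⟨S, hS⟩ : ∃ S : Set ℕ, S = {n : ℕ | ∃ z : F, z ∈ RO P₀ ∧ z ≠ 0 ∧
    ord P₀ z = -(n : ℤ)} := ⟨_, rfl⟩
  rw [← hS]
  have hlarge : ∀ n, 2 * gen k F ≤ n → n ∈ S := fun n hn => by
    rw [hS]; exact exists_RO_ord P₀ hn
  have h1 := h4ModA_card P₀ hS (2 * gen k F)
  have h2 := l_LP P₀ (n := 2 * gen k F) (by omega)
  have h3 : Sᶜ ⊆ Set.Iic (2 * gen k F) := fun d hd => by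
    by_contra h
    exact hd (hlarge d (by rw [Set.mem_Iic] at h; omega))
  have h4 : Set.Iic (2 * gen k F) \ Sᶜ = {d : ℕ | d ∈ S ∧ d ≤ 2 * gen k F} := by
    ext d
    simp only [Set.mem_sdiff, Set.mem_Iic, Set.mem_compl_iff, not_not, Set.mem_ofPred_eq]
    exact and_comm
  have h5 := Set.ncard_sdiff_add_ncard_of_subset h3 (Set.finite_Iic _)
  rw [h4, ← h1] at h5
  have h6 : (Set.Iic (2 * gen k F)).ncard = 2 * gen k F + 1 := by
    rw [← Nat.card_coe_set_eq]
    simp
  rw [h6] at h5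
  have h7 : (Module.finrank k (LP P₀ (2 * gen k F)) : ℤ) = gen k F + 1 := by
    rw [h2]; push_cast; ring
  omega

section

variable {P₀ : Plk k F} {S : Set ℕ}

/-- subtracting a multiple of a function with the same order. -/
theorem h4ModA_step {z y : F} {n : ℕ} (hz : z ∈ RO P₀) (hzo : ord P₀ z = -(n : ℤ)) (hz0 : z ≠ 0)
    (hy : y ∈ RO P₀) (hy0 : y ≠ 0) (hyo : ord P₀ y = -(n : ℤ)) :
    ∃ a : k, a ≠ 0 ∧ z - a • y ∈ RO P₀ ∧ (z - a • y = 0 ∨ -(n : ℤ) + 1 ≤ ord P₀ (z - a • y)) := by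
  obtain ⟨a, ha⟩ := exists_sub_mem (P := P₀) (n := -(n : ℤ)) hy0 hyo
    (mem_Mge.2 (Or.inr hzo.ge) : z ∈ Mge P₀ (-(n : ℤ)))
  refine ⟨a, ?_, sub_mem hz ((RO P₀).smul_mem hy a), mem_Mge.1 ha⟩
  rintro rfl
  rw [zero_smul, sub_zero] at ha
  rcases mem_Mge.1 ha with h | h
  · exact hz0 h
  · rw [hzo] at h
    omega

/-- expansions with control of the degree. -/
theorem h4ModA_exp (β : S → F) (hβ : ∀ d, β d ∈ RO P₀ ∧ β d ≠ 0 ∧ ord P₀ (β d) = -((d : ℕ) : ℤ))
    (hS : ∀ (n : ℕ) (z : F), z ∈ RO P₀ → z ≠ 0 → ord P₀ z = -(n : ℤ) → n ∈ S) (n : ℕ) :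
    ∀ z : F, z ∈ RO P₀ → (z = 0 ∨ -(n : ℤ) ≤ ord P₀ z) →
      ∃ c : S →₀ k, z = c.sum (fun f x => x • β f) ∧ (∀ f : S, n < (f : ℕ) → c f = 0) ∧
        (z ≠ 0 → ord P₀ z = -(n : ℤ) → ∀ f : S, (f : ℕ) = n → c f ≠ 0) := by
  classical
  induction n using Nat.strong_induction_on with
  | _ n ih =>
    intro z hz hzn
    by_cases hz0 : z = 0
    · exact ⟨0, by rw [hz0, Finsupp.sum_zero_index], fun _ _ => rfl, fun h => absurd hz0 h⟩
    have hzn := hzn.resolve_left hz0
    obtain ⟨j, hj⟩ := h4ModA_mem_S hz hz0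
    have hjn : j ≤ n := by rw [hj] at hzn; omega
    rcases hjn.lt_or_eq with hlt | heq
    · obtain ⟨c, h1, h2, _⟩ := ih j hlt z hz (Or.inr hj.ge)
      refine ⟨c, h1, fun f hf => h2 f (hlt.trans hf), fun _ h => ?_⟩
      rw [hj] at h
      omega
    · subst heq
      have hjS : j ∈ S := hS j z hz hz0 hj
      obtain ⟨a, ha0, ha1, ha2⟩ := h4ModA_step (y := β ⟨j, hjS⟩) hz hj hz0 (hβ _).1 (hβ _).2.1
        (hβ _).2.2
      obtain ⟨c, h1, h2⟩ : ∃ c : S →₀ k, z - a • β ⟨j, hjS⟩ = c.sum (fun f x => x • β f) ∧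
          ∀ f : S, j ≤ (f : ℕ) → c f = 0 := by
        by_cases hr : z - a • β ⟨j, hjS⟩ = 0
        · exact ⟨0, by rw [hr, Finsupp.sum_zero_index], fun _ _ => rfl⟩
        · have h3 := ha2.resolve_left hr
          have h4 := h4_ord_le P₀ ha1 hr
          have hj1 : 1 ≤ j := by omega
          obtain ⟨c, h5, h6, _⟩ := ih (j - 1) (by omega) _ ha1 (Or.inr (by
            rw [Nat.cast_sub hj1]; push_cast; omega))
          exact ⟨c, h5, fun f hf => h6 f (by omega)⟩
      refine ⟨c + Finsupp.single ⟨j, hjS⟩ a, ?_, fun f hf => ?_, fun _ _ f hf => ?_⟩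
      · rw [Finsupp.sum_add_index' (h := fun (f : S) (x : k) => x • β f) (fun _ => zero_smul _ _)
            (fun _ _ _ => add_smul _ _ _), ← h1,
          Finsupp.sum_single_index (h := fun (f : S) (x : k) => x • β f) (zero_smul _ _),
          sub_add_cancel]
      · rw [Finsupp.add_apply, h2 f hf.le, Finsupp.single_apply, if_neg, add_zero]
        rintro rfl
        exact lt_irrefl _ hf
      · have h3 : (⟨j, hjS⟩ : S) = f := Subtype.ext hf.symm
        rw [Finsupp.add_apply, h2 f hf.ge, ← h3, Finsupp.single_eq_same, zero_add]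
        exact ha0

end

/-- a multiplicative basis with finitely many structure constants. -/
theorem exists_DB (P₀ : Plk k F) : ∃ (S : Set ℕ) (β : S → F) (Y : Finset k),
    Sgp (gen k F) S ∧ (∀ d, β d ∈ RO P₀ ∧ β d ≠ 0 ∧ ord P₀ (β d) = -((d : ℕ) : ℤ)) ∧
    (∀ d : S, (d : ℕ) = 0 → β d = 1) ∧
    (∀ w : F, w ∈ RO P₀ → w ∈ Submodule.span k (Set.range β)) ∧
    ∀ A₀ : Subalgebra ℤ k, (Y : Set k) ⊆ A₀ → ∀ d e : S, ∃ c : S →₀ A₀,
      β d * β e = c.sum (fun f x => (x : k) • β f) ∧ (∀ f : S, (d : ℕ) + e < f → c f = 0) ∧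
      ∀ f : S, (f : ℕ) = d + e → IsUnit (c f) := by
  classical
  have hsg := exists_sgp (k := k) P₀
  obtain ⟨S, hSd⟩ : ∃ S : Set ℕ, S = {n : ℕ | ∃ z : F, z ∈ RO P₀ ∧ z ≠ 0 ∧
    ord P₀ z = -(n : ℤ)} := ⟨_, rfl⟩
  rw [← hSd] at hsg
  have hS1 : ∀ n ∈ S, ∃ z : F, z ∈ RO P₀ ∧ z ≠ 0 ∧ ord P₀ z = -(n : ℤ) := fun n hn => by
    rw [hSd] at hn; exact hn
  have hS2 : ∀ (n : ℕ) (z : F), z ∈ RO P₀ → z ≠ 0 → ord P₀ z = -(n : ℤ) → n ∈ S :=
    fun n z h1 h2 h3 => by rw [hSd]; exact ⟨z, h1, h2, h3⟩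
  obtain ⟨m, hm⟩ : ∃ m, m = 2 * gen k F + 1 := ⟨_, rfl⟩
  have hm0 : 0 < m := by omega
  obtain ⟨x, hx, hx0, hxo⟩ := exists_RO_ord P₀ (n := m) (by omega)
  -- least elements of the residue classes
  have hw : ∀ r : ℕ, ∃ w : ℕ, w ∈ S ∧ w % m = r % m ∧ ∀ d ∈ S, d % m = r % m → w ≤ d := by
    intro r
    have hex : ∃ w, w ∈ S ∧ w % m = r % m :=
      ⟨m + r, hsg.large _ (by omega), by rw [Nat.add_mod_left]⟩
    exact ⟨Nat.find hex, (Nat.find_spec hex).1, (Nat.find_spec hex).2,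
      fun d hd hdr => Nat.find_min' hex ⟨hd, hdr⟩⟩
  choose w hwS hwr hwm using hw
  have hmS : ∀ l : ℕ, ∀ d ∈ S, d + m * l ∈ S := by
    intro l d hd
    induction l with
    | zero => simpa using hd
    | succ l ih =>
      have := hsg.add ih (hsg.large m (by omega))
      rwa [show d + m * l + m = d + m * (l + 1) by ring] at this
  have hy : ∀ r : ℕ, ∃ y : F, y ∈ RO P₀ ∧ y ≠ 0 ∧ ord P₀ y = -(w r : ℤ) ∧ (w r = 0 → y = 1) := by
    intro r
    by_cases h : w r = 0
    · exact ⟨1, one_mem _, one_ne_zero, by rw [ord_one, h]; simp, fun _ => rfl⟩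
    · obtain ⟨z, h1, h2, h3⟩ := hS1 (w r) (hwS r)
      exact ⟨z, h1, h2, h3, fun h4 => absurd h4 h⟩
  choose y hyR hy0 hyo hy1 using hy
  obtain ⟨β, hβd⟩ : ∃ β : S → F, ∀ d : S, β d = x ^ (((d : ℕ) - w (d % m)) / m) * y (d % m) :=
    ⟨_, fun _ => rfl⟩
  have hle : ∀ d : S, w (d % m) ≤ d := fun d => hwm _ d d.2 (by rw [Nat.mod_mod])
  have hdec : ∀ d : S, (d : ℕ) = w (d % m) + m * (((d : ℕ) - w (d % m)) / m) := by
    intro d
    have h1 : (d : ℕ) % m = w (d % m) % m := by rw [hwr, Nat.mod_mod]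
    have h2 : m ∣ (d : ℕ) - w (d % m) := (Nat.modEq_iff_dvd' (hle d)).1 (Eq.symm h1)
    rw [Nat.mul_div_cancel' h2]
    have := hle d
    omega
  have hβ : ∀ d, β d ∈ RO P₀ ∧ β d ≠ 0 ∧ ord P₀ (β d) = -((d : ℕ) : ℤ) := by
    intro d
    rw [hβd]
    refine ⟨mul_mem (pow_mem hx _) (hyR _), mul_ne_zero (pow_ne_zero _ hx0) (hy0 _), ?_⟩
    rw [ord_mul P₀ (pow_ne_zero _ hx0) (hy0 _), ord_pow, hxo, hyo]
    have h1 := hdec d
    have h2 : ((d : ℕ) : ℤ) = w (d % m) + m * ((((d : ℕ) - w (d % m)) / m : ℕ) : ℤ) := by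
      exact_mod_cast h1
    rw [h2]
    ring
  have hexp := h4ModA_exp β hβ hS2
  -- structure constants
  have hc : ∀ r s : ℕ, ∃ c : S →₀ k, y r * y s = c.sum (fun f x => x • β f) ∧
      (∀ f : S, w r + w s < (f : ℕ) → c f = 0) ∧ ∀ f : S, (f : ℕ) = w r + w s → c f ≠ 0 := by
    intro r s
    have h1 : ord P₀ (y r * y s) = -((w r + w s : ℕ) : ℤ) := by
      rw [ord_mul P₀ (hy0 r) (hy0 s), hyo, hyo]
      push_cast
      ring
    obtain ⟨c, h2, h3, h4⟩ := hexp (w r + w s) (y r * y s) (mul_mem (hyR r) (hyR s))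
      (Or.inr h1.ge)
    exact ⟨c, h2, h3, h4 (mul_ne_zero (hy0 r) (hy0 s)) h1⟩
  choose c hc1 hc2 hc3 using hc
  obtain ⟨Y, hY⟩ : ∃ Y : Finset k, ∀ r < m, ∀ s < m, ∀ f : S, c r s f ≠ 0 →
      c r s f ∈ Y ∧ (c r s f)⁻¹ ∈ Y := by
    refine ⟨(Finset.range m).biUnion fun r => (Finset.range m).biUnion fun s =>
      (c r s).support.image (fun f => c r s f) ∪ (c r s).support.image (fun f => (c r s f)⁻¹),
      fun r hr s hs f hf => ?_⟩
    simp only [Finset.mem_biUnion, Finset.mem_range, Finset.mem_union, Finset.mem_image]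
    exact ⟨⟨r, hr, s, hs, Or.inl ⟨f, Finsupp.mem_support_iff.2 hf, rfl⟩⟩,
      ⟨r, hr, s, hs, Or.inr ⟨f, Finsupp.mem_support_iff.2 hf, rfl⟩⟩⟩
  refine ⟨S, β, Y, hsg, hβ, fun d hd => ?_, fun z hz => ?_, fun A₀ hA d e => ?_⟩
  · have h1 : w (d % m) = 0 := by
      have := hle d
      omega
    rw [hβd, h1, hy1 _ h1, hd]
    simp
  · obtain ⟨n, hn⟩ := exists_mem_LP hz
    obtain ⟨c', h1, _⟩ := hexp n z hz (mem_LP.1 hn).2
    rw [h1]
    exact Submodule.sum_mem _ fun f _ => Submodule.smul_mem _ _ (Submodule.subset_span ⟨f, rfl⟩)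
  · obtain ⟨r, hr⟩ : ∃ r, r = (d : ℕ) % m := ⟨_, rfl⟩
    obtain ⟨s, hs⟩ : ∃ s, s = (e : ℕ) % m := ⟨_, rfl⟩
    have hrm : r < m := by rw [hr]; exact Nat.mod_lt _ hm0
    have hsm : s < m := by rw [hs]; exact Nat.mod_lt _ hm0
    obtain ⟨i, hi⟩ : ∃ i, i = ((d : ℕ) - w r) / m := ⟨_, rfl⟩
    obtain ⟨j, hj⟩ : ∃ j, j = ((e : ℕ) - w s) / m := ⟨_, rfl⟩
    have hd' : (d : ℕ) = w r + m * i := by rw [hi, hr]; exact hdec d
    have he' : (e : ℕ) = w s + m * j := by rw [hj, hs]; exact hdec e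
    have hmemA : ∀ f : S, c r s f ∈ A₀ := by
      intro f
      by_cases h : c r s f = 0
      · rw [h]; exact zero_mem _
      · exact hA (hY r hrm s hsm f h).1
    obtain ⟨c', hc'⟩ : ∃ c' : S →₀ A₀, ∀ f, ((c' f : A₀) : k) = c r s f := by
      refine ⟨⟨(c r s).support, fun f => ⟨c r s f, hmemA f⟩, fun f => ?_⟩, fun f => rfl⟩
      rw [Finsupp.mem_support_iff, Ne, Ne, Subtype.ext_iff]
      rfl
    obtain ⟨σ, hσ⟩ : ∃ σ : S → S, ∀ f : S, ((σ f : S) : ℕ) = (f : ℕ) + m * (i + j) :=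
      ⟨fun f => ⟨(f : ℕ) + m * (i + j), hmS _ _ f.2⟩, fun _ => rfl⟩
    have hσi : Function.Injective σ := fun f g h => Subtype.ext (by
      have h1 := hσ f
      rw [h, hσ g] at h1
      omega)
    have hshift : ∀ f : S, β (σ f) = x ^ (i + j) * β f := by
      intro f
      rw [hβd, hβd, hσ, Nat.add_mul_mod_self_left]
      have h1 : ((f : ℕ) + m * (i + j) - w ((f : ℕ) % m)) / m =
          ((f : ℕ) - w ((f : ℕ) % m)) / m + (i + j) := by
        rw [Nat.add_comm (f : ℕ), Nat.add_sub_assoc (hle f), Nat.mul_add_div hm0, Nat.add_comm]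
      rw [h1, pow_add]
      ring
    refine ⟨c'.mapDomain σ, ?_, fun f hf => ?_, fun f hf => ?_⟩
    · rw [Finsupp.sum_mapDomain_index (fun _ => by rw [ZeroMemClass.coe_zero, zero_smul])
        (fun _ _ _ => by rw [AddMemClass.coe_add, add_smul])]
      have h1 : c'.sum (fun f x => (x : k) • β (σ f)) =
          x ^ (i + j) * (c r s).sum (fun f x => x • β f) := by
        rw [Finsupp.sum, Finsupp.sum, Finset.mul_sum]
        have h2 : c'.support = (c r s).support := by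
          ext f
          rw [Finsupp.mem_support_iff, Finsupp.mem_support_iff, ← hc' f, Ne, Ne,
            ZeroMemClass.coe_eq_zero]
        rw [h2]
        refine Finset.sum_congr rfl fun f _ => ?_
        rw [hc', hshift, mul_smul_comm]
      rw [h1, ← hc1, hβd d, hβd e, ← hr, ← hs, ← hi, ← hj, pow_add]
      ring
    · by_cases hfr : f ∈ Set.range σ
      · obtain ⟨g, rfl⟩ := hfr
        rw [Finsupp.mapDomain_apply hσi]
        have h1 := hσ g
        apply Subtype.ext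
        rw [hc' g]
        refine hc2 r s g ?_
        rw [h1, hd', he'] at hf
        have h2 : m * (i + j) = m * i + m * j := Nat.mul_add _ _ _
        omega
      · rw [Finsupp.mapDomain_of_notMem_range _ _ hfr]
    · have hg : w r + w s ∈ S := hsg.add (hwS r) (hwS s)
      have hfg : f = σ ⟨w r + w s, hg⟩ := Subtype.ext (by
        rw [hσ, hf, hd', he']
        have h2 : m * (i + j) = m * i + m * j := Nat.mul_add _ _ _
        simp only
        omega)
      rw [hfg, Finsupp.mapDomain_apply hσi]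
      have h1 : c r s ⟨w r + w s, hg⟩ ≠ 0 := hc3 r s _ rfl
      have h2 := hY r hrm s hsm _ h1
      refine IsUnit.of_mul_eq_one ⟨(c r s ⟨w r + w s, hg⟩)⁻¹, hA h2.2⟩ (Subtype.ext ?_)
      rw [MulMemClass.coe_mul, hc', OneMemClass.coe_one]
      exact mul_inv_cancel₀ h1

end Vale.Agent.P019P
end
end

section

section

/-!
# A model over a finitely generated ring
-/

namespace Vale.Agent.P019P

open Polynomial IntermediateField

variable {k F : Type*} [Field k] [Field F] [Algebra k F] [CFF k F]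

/-- functions with pairwise distinct orders are linearly independent. -/
theorem h4ModB_li {P₀ : Plk k F} {S : Set ℕ} {β : S → F}
    (hβ : ∀ d, β d ∈ RO P₀ ∧ β d ≠ 0 ∧ ord P₀ (β d) = -((d : ℕ) : ℤ)) :
    LinearIndependent k β := by
  classical
  rw [linearIndependent_iff']
  intro s g hg
  by_contra hcon
  push Not at hcon
  obtain ⟨i₀, hi₀, hgi₀⟩ := hcon
  -- the terms with nonzero coefficient
  obtain ⟨i, hi, hmax⟩ := Finset.exists_max_image (s.filter fun i => g i ≠ 0)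
    (fun i => ((i : S) : ℕ)) ⟨i₀, Finset.mem_filter.2 ⟨hi₀, hgi₀⟩⟩
  obtain ⟨his, hgi⟩ := Finset.mem_filter.1 hi
  have hord : ∀ j : S, g j ≠ 0 → g j • β j ≠ 0 ∧ ord P₀ (g j • β j) = -((j : ℕ) : ℤ) := by
    intro j hj
    have h3 : algebraMap k F (g j) ≠ 0 := by rwa [Ne, map_eq_zero]
    rw [Algebra.smul_def, ord_mul P₀ h3 (hβ j).2.1, ord_const, zero_add, (hβ j).2.2]
    exact ⟨mul_ne_zero h3 (hβ j).2.1, rfl⟩
  have h := ord_sum_of_lt (P := P₀) (s := s) (f := fun j => g j • β j) (i := i) his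
    (hord i hgi).1 (by
      intro j hj hji
      by_cases h0 : g j = 0
      · left
        show g j • β j = 0
        rw [h0, zero_smul]
      right
      show ord P₀ (g i • β i) + 1 ≤ ord P₀ (g j • β j)
      rw [(hord i hgi).2, (hord j h0).2]
      have h1 : ((j : S) : ℕ) ≤ (i : ℕ) := hmax j (Finset.mem_filter.2 ⟨hj, h0⟩)
      have h2 : ((j : S) : ℕ) ≠ (i : ℕ) := fun h => hji (Subtype.ext h)
      omega)
  exact h.1 hg

/-- a model over a finitely generated subring of the constants which contains given functions. -/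
theorem h4_model_ring (P₀ : Plk k F) (Z : Finset F) (hZ : ∀ z ∈ Z, z ∈ RO P₀) :
    ∃ (A₀ : Subalgebra ℤ k) (R₀ : Subalgebra A₀ F) (S : Set ℕ) (b : Module.Basis S A₀ R₀),
      A₀.FG ∧ Sgp (gen k F) S ∧ IsDB b ∧
      (∀ d : S, (b d : F) ∈ RO P₀ ∧ (b d : F) ≠ 0 ∧ ord P₀ (b d : F) = -((d : ℕ) : ℤ)) ∧
      (∀ w : F, w ∈ RO P₀ → w ∈ Submodule.span k (Set.range fun d : S => (b d : F))) ∧
      ∀ z ∈ Z, z ∈ R₀ := by
  classical
  obtain ⟨S, β, Y, hsg, hβ, hβ1, hspan, hmul⟩ := exists_DB P₀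
  -- coefficients of the given functions
  have hc : ∀ z : F, ∃ c : S →₀ k, z ∈ Z → (c.sum fun i a => a • β i) = z := by
    intro z
    by_cases hz : z ∈ Z
    · obtain ⟨c, hc⟩ := Finsupp.mem_span_range_iff_exists_finsupp.1 (hspan z (hZ z hz))
      exact ⟨c, fun _ => hc⟩
    · exact ⟨0, fun h => absurd h hz⟩
  choose c hc using hc
  obtain ⟨Y', hY'⟩ : ∃ Y' : Finset k, Y' = Y ∪ Z.biUnion fun z => (c z).support.image (c z) :=
    ⟨_, rfl⟩
  obtain ⟨A₀, hA₀⟩ : ∃ A₀ : Subalgebra ℤ k, A₀ = Algebra.adjoin ℤ (Y' : Set k) := ⟨_, rfl⟩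
  have hFG : A₀.FG := by
    rw [hA₀]
    exact Subalgebra.fg_adjoin_finset Y'
  have hsub : (Y' : Set k) ⊆ A₀ := by
    rw [hA₀]
    exact Algebra.subset_adjoin
  have hYA : (Y : Set k) ⊆ A₀ := fun y hy => hsub (by
    rw [hY']
    exact Finset.mem_coe.2 (Finset.mem_union_left _ (Finset.mem_coe.1 hy)))
  have hcA : ∀ z ∈ Z, ∀ i : S, c z i ∈ A₀ := by
    intro z hz i
    by_cases h0 : c z i = 0
    · rw [h0]; exact zero_mem _
    · refine hsub ?_
      rw [hY']
      refine Finset.mem_coe.2 (Finset.mem_union_right _ ?_)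
      rw [Finset.mem_biUnion]
      exact ⟨z, hz, Finset.mem_image.2 ⟨i, Finsupp.mem_support_iff.2 h0, rfl⟩⟩
  have hmul' := hmul A₀ hYA
  -- the span
  obtain ⟨p, hp⟩ : ∃ p : Submodule A₀ F, p = Submodule.span A₀ (Set.range β) := ⟨_, rfl⟩
  have hβp : ∀ d, β d ∈ p := fun d => by
    rw [hp]; exact Submodule.subset_span ⟨d, rfl⟩
  have h1p : (1 : F) ∈ p := by
    have := hβp ⟨0, hsg.zero⟩
    rwa [hβ1 _ rfl] at this
  have hmulp : ∀ x y : F, x ∈ p → y ∈ p → x * y ∈ p := by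
    intro x y hx hy
    rw [hp] at hx hy
    induction hx, hy using Submodule.span_induction₂ with
    | mem_mem x y hx hy =>
      obtain ⟨d, rfl⟩ := hx
      obtain ⟨e, rfl⟩ := hy
      obtain ⟨c', h1, _⟩ := hmul' d e
      rw [h1]
      exact Submodule.sum_mem _ fun f _ => p.smul_mem (c' f) (hβp f)
    | zero_left y hy => rw [zero_mul]; exact zero_mem _
    | zero_right x hx => rw [mul_zero]; exact zero_mem _
    | add_left x y z hx hy hz h1 h2 => rw [add_mul]; exact add_mem h1 h2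
    | add_right x y z hx hy hz h1 h2 => rw [mul_add]; exact add_mem h1 h2
    | smul_left r x y hx hy h => rw [smul_mul_assoc]; exact p.smul_mem r h
    | smul_right r x y hx hy h => rw [mul_smul_comm]; exact p.smul_mem r h
  -- independence
  have hli : LinearIndependent A₀ β := by
    have h1 := h4ModB_li hβ
    exact h1.restrict_scalars (R := A₀) (fun a b h => Subtype.ext (by
      simpa [Algebra.smul_def] using h))
  obtain ⟨R₀, hR₀⟩ : ∃ R₀ : Subalgebra A₀ F, R₀ = p.toSubalgebra h1p hmulp := ⟨_, rfl⟩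
  have hmemR : ∀ x : F, x ∈ R₀ ↔ x ∈ p := fun x => by
    rw [hR₀]; exact Iff.rfl
  -- the basis
  obtain ⟨b, hb⟩ : ∃ b : Module.Basis S A₀ R₀, ∀ d, (b d : F) = β d := by
    have hli' : LinearIndependent A₀ (fun d : S => (⟨β d, (hmemR _).2 (hβp d)⟩ : R₀)) := by
      refine LinearIndependent.of_comp R₀.val.toLinearMap ?_
      exact hli
    refine ⟨Module.Basis.mk hli' ?_, fun d => ?_⟩
    · rintro ⟨x, hx⟩ _
      have hx' := (hmemR x).1 hx
      rw [hp, Finsupp.mem_span_range_iff_exists_finsupp] at hx'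
      obtain ⟨c', hc'⟩ := hx'
      rw [Finsupp.mem_span_range_iff_exists_finsupp]
      refine ⟨c', Subtype.ext ?_⟩
      refine Eq.trans ?_ hc'
      rw [Finsupp.sum, Finsupp.sum, AddSubmonoidClass.coe_finsetSum]
      rfl
    · rw [Module.Basis.mk_apply]
  have hrange : (Set.range fun d : S => (b d : F)) = Set.range β := by
    congr 1
    funext d
    exact hb d
  have hrepr : ∀ d e : S, ∃ c' : S →₀ A₀, b.repr (b d * b e) = c' ∧
      (∀ f : S, (d : ℕ) + e < f → c' f = 0) ∧ ∀ f : S, (f : ℕ) = d + e → IsUnit (c' f) := by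
    intro d e
    obtain ⟨c', h1, h2, h3⟩ := hmul' d e
    refine ⟨c', ?_, h2, h3⟩
    have h4 : b d * b e = Finsupp.linearCombination A₀ b c' := by
      apply Subtype.ext
      rw [Subalgebra.coe_mul, hb, hb, h1, Finsupp.linearCombination_apply, Finsupp.sum,
        Finsupp.sum, AddSubmonoidClass.coe_finsetSum]
      refine Finset.sum_congr rfl fun f _ => ?_
      rw [Subalgebra.coe_smul, hb]
      rfl
    rw [h4, Module.Basis.repr_linearCombination]
  refine ⟨A₀, R₀, S, b, hFG, hsg, ⟨fun d hd => ?_, fun d e f hf => ?_, fun d e f hf => ?_⟩,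
    fun d => ?_, fun w hw => ?_, fun z hz => ?_⟩
  · apply Subtype.ext
    rw [hb, hβ1 d hd]
    rfl
  · obtain ⟨c', h1, h2, h3⟩ := hrepr d e
    rw [h1]
    exact h3 f hf
  · obtain ⟨c', h1, h2, h3⟩ := hrepr d e
    rw [h1]
    exact h2 f hf
  · rw [hb]
    exact hβ d
  · rw [hrange]
    exact hspan w hw
  · rw [hmemR, ← hc z hz]
    exact Submodule.sum_mem _ fun f _ => p.smul_mem (⟨c z f, hcA z hz f⟩ : A₀) (hβp f)

end Vale.Agent.P019P
end
end

section

section

/-!
# Models: rings with a degree basis which consist of all functions with poles only at infinity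
-/

namespace Vale.Agent.P019P

open Polynomial IntermediateField TensorProduct

/-- models of function fields. -/
structure HM {K R F : Type*} [Field K] [CommRing R] [Algebra K R] [Field F] [Algebra R F]
    [Algebra K F] [CFF K F] {S : Set ℕ} (b : Module.Basis S K R) (g : ℕ) (P₀ : Plk K F) :
    Prop where
  db : IsDB b
  sg : Sgp g S
  ord : ∀ z : R, z ≠ 0 → ord P₀ (algebraMap R F z) = -(dgr b z : ℤ)
  full : ∀ w : F, w ∈ RO P₀ → ∃ z : R, algebraMap R F z = w

variable {K R F : Type*} [Field K] [IsAlgClosed K] [CommRing R] [Algebra K R] [Field F]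
  [Algebra R F] [IsFractionRing R F] [Algebra K F] [IsScalarTower K R F] {S : Set ℕ} {g : ℕ}
  {b : Module.Basis S K R} [CFF K F] {P₀ : Plk K F}

theorem HM.mem_RO (h : HM b g P₀) (z : R) : algebraMap R F z ∈ RO P₀ :=
  h4_RO h.db h.sg h.ord z

theorem HM.mem_LP_iff (h : HM b g P₀) {n : ℕ} (w : F) :
    w ∈ LP P₀ n ↔ ∃ z ∈ fil b n, algebraMap R F z = w := by
  have hinj : Function.Injective (algebraMap R F) := IsFractionRing.injective R F
  rw [mem_LP]
  constructor
  · rintro ⟨h1, h2⟩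
    obtain ⟨z, rfl⟩ := h.full w h1
    refine ⟨z, ?_, rfl⟩
    by_cases hz : z = 0
    · rw [hz]
      exact Submodule.zero_mem _
    · have hw : algebraMap R F z ≠ 0 := (map_ne_zero_iff _ hinj).2 hz
      have h3 := h2.resolve_left hw
      rw [h.ord z hz] at h3
      exact mem_fil_iff.2 (by omega)
  · rintro ⟨z, hz, rfl⟩
    refine ⟨h.mem_RO z, ?_⟩
    by_cases hz0 : z = 0
    · left
      rw [hz0, map_zero]
    · right
      rw [h.ord z hz0]
      have h3 := mem_fil_iff.1 hz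
      omega

theorem HM.mem_LP (h : HM b g P₀) {n : ℕ} {z : R} (hz : z ∈ fil b n) :
    algebraMap R F z ∈ LP P₀ n := (h.mem_LP_iff _).2 ⟨z, hz, rfl⟩

/-- the genus of a model. -/
theorem HM.gen_eq (h : HM b g P₀) : gen K F = g := by
  have hinj : Function.Injective (algebraMap R F) := IsFractionRing.injective R F
  have h1 := l_LP P₀ (n := 2 * g + 2 * gen K F) (by omega)
  have h2 := finrank_fil b h.sg (n := 2 * g + 2 * gen K F) (by omega)
  let T : fil b (2 * g + 2 * gen K F) →ₗ[K] LP P₀ (2 * g + 2 * gen K F) :=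
    ((IsScalarTower.toAlgHom K R F).toLinearMap).restrict fun z hz => h.mem_LP hz
  have hT : Function.Bijective T := by
    constructor
    · intro z w hzw
      exact Subtype.ext (hinj (congrArg Subtype.val hzw))
    · rintro ⟨w, hw⟩
      obtain ⟨z, hz, hzw⟩ := (h.mem_LP_iff w).1 hw
      exact ⟨⟨z, hz⟩, Subtype.ext hzw⟩
  have h3 := (LinearEquiv.ofBijective T hT).finrank_eq
  rw [← h3] at h1
  omega

end Vale.Agent.P019P
end
end

section

section

/-!
# Models over finitely generated rings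
-/

universe u

namespace Vale.Agent.P019P

open Polynomial IntermediateField TensorProduct

variable {k F : Type u} [Field k] [Field F] [Algebra k F] [CFF k F]

/-- every function of a function field is a quotient of functions with poles only at `P₀`. -/
theorem h4_frac (P₀ : Plk k F) (w : F) : ∃ c : F, c ∈ RO P₀ ∧ c ≠ 0 ∧ c * w ∈ RO P₀ := by
  classical
  by_cases hw : w = 0
  · exact ⟨1, one_mem _, one_ne_zero, by rw [hw, mul_zero]; exact zero_mem _⟩
  let E : Plk k F →₀ ℤ := ((dv k w).mapRange (fun n => max (-n) 0) (by simp)).erase P₀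
  have hE : ∀ Q, Q ≠ P₀ → E Q = max (-ord Q w) 0 := by
    intro Q hQ
    change Finsupp.erase P₀ _ Q = _
    rw [Finsupp.erase_ne hQ, Finsupp.mapRange_apply, dv_apply]
  have hE0 : ∀ Q, 0 ≤ E Q := by
    intro Q
    by_cases hQ : Q = P₀
    · rw [hQ]
      change 0 ≤ Finsupp.erase P₀ _ P₀
      rw [Finsupp.erase_same]
    · rw [hE Q hQ]
      exact le_max_right _ _
  have hdg : 0 ≤ dg E := by
    have h1 : (0 : Plk k F →₀ ℤ) ≤ E := fun Q => by simpa using hE0 Q
    have h2 := dg_mono h1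
    rwa [map_zero] at h2
  let n : ℕ := (dg E).toNat + 2 * gen k F
  obtain ⟨z, hz0, hz1, -⟩ := h4_exact (D := Finsupp.single P₀ (n : ℤ) - E) P₀ (by
    rw [map_sub, h4RRA_dg_single]
    have h3 := Int.toNat_of_nonneg hdg
    have h4 : (n : ℤ) = ((dg E).toNat : ℤ) + 2 * (gen k F : ℤ) := by
      simp only [n]; push_cast; ring
    rw [h4, h3]
    linarith)
  have hz2 : ∀ Q, Q ≠ P₀ → E Q ≤ ord Q z := by
    intro Q hQ
    have h1 := hz1 Q
    rw [Finsupp.sub_apply, h4RRA_single_ne hQ] at h1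
    linarith
  refine ⟨z, mem_RO.2 fun Q hQ => Or.inr ((hE0 Q).trans (hz2 Q hQ)), hz0,
    mem_RO.2 fun Q hQ => Or.inr ?_⟩
  rw [ord_mul Q hz0 hw]
  have h1 := hz2 Q hQ
  rw [hE Q hQ] at h1
  have h2 := le_max_left (-ord Q w) 0
  linarith

section

variable {A₀ : Type u} [CommRing A₀] [Algebra A₀ k] {R₀ : Type u} [CommRing R₀] [Algebra A₀ R₀]
  {S : Set ℕ} (b : Module.Basis S A₀ R₀) (μ : (k ⊗[A₀] R₀) →ₐ[k] F)

omit [CFF k F] in
theorem h4ModC_eq (z : k ⊗[A₀] R₀) :
    μ z = ∑ d ∈ ((b.baseChange k).repr z).support,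
      (b.baseChange k).repr z d • μ (1 ⊗ₜ b d) := by
  conv_lhs => rw [← (b.baseChange k).linearCombination_repr z]
  rw [Finsupp.linearCombination_apply, Finsupp.sum, map_sum]
  refine Finset.sum_congr rfl fun d _ => ?_
  rw [map_smul, Module.Basis.baseChange_apply]

theorem h4ModC_ord {P₀ : Plk k F} (hμ : ∀ d : S, μ (1 ⊗ₜ b d) ≠ 0 ∧
      ord P₀ (μ (1 ⊗ₜ b d)) = -((d : ℕ) : ℤ)) {z : k ⊗[A₀] R₀} (hz : z ≠ 0) :
    μ z ≠ 0 ∧ ord P₀ (μ z) = -(dgr (b.baseChange k) z : ℤ) := by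
  obtain ⟨d, hd, hd2⟩ := exists_lead (b := b.baseChange k) hz
  have hc : ∀ (c : k) (f : S), c ≠ 0 → c • μ (1 ⊗ₜ b f) ≠ 0 ∧
      ord P₀ (c • μ (1 ⊗ₜ b f)) = -((f : ℕ) : ℤ) := by
    intro c f hc
    have h1 : algebraMap k F c ≠ 0 := by rwa [Ne, map_eq_zero]
    refine ⟨smul_ne_zero hc (hμ f).1, ?_⟩
    rw [Algebra.smul_def, ord_mul P₀ h1 (hμ f).1, ord_const, zero_add, (hμ f).2]
  rw [h4ModC_eq b μ z]
  have h1 := ord_sum_of_lt (P := P₀) (s := ((b.baseChange k).repr z).support)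
    (f := fun d => (b.baseChange k).repr z d • μ (1 ⊗ₜ b d)) (i := d)
    (Finsupp.mem_support_iff.2 hd2) (hc _ d hd2).1 (by
      intro f hf hfd
      have hf2 := Finsupp.mem_support_iff.1 hf
      have h2 : (f : ℕ) ≤ dgr (b.baseChange k) z :=
        Finset.le_sup (f := fun f : S => (f : ℕ)) hf
      have h3 : (f : ℕ) ≠ d := fun h => hfd (Subtype.ext h)
      refine Or.inr ?_
      rw [(hc _ d hd2).2, (hc _ f hf2).2]
      omega)
  refine ⟨h1.1, ?_⟩
  rw [h1.2, (hc _ d hd2).2, hd]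

end

/-- a model from a ring of functions. -/
theorem h4_model_gen {A₀ : Type u} [CommRing A₀] [Algebra A₀ k] [Algebra A₀ F]
    [IsScalarTower A₀ k F] {R₀ : Type u} [CommRing R₀] [Algebra A₀ R₀] {S : Set ℕ}
    (b : Module.Basis S A₀ R₀) (P₀ : Plk k F) (v : R₀ →ₐ[A₀] F) (hSg : Sgp (gen k F) S)
    (hDB : IsDB b) (hb : ∀ d : S, v (b d) ≠ 0 ∧ ord P₀ (v (b d)) = -((d : ℕ) : ℤ))
    (hspan : ∀ w : F, w ∈ RO P₀ → w ∈ Submodule.span k (Set.range fun d : S => v (b d))) :
    ∃ (_ : Algebra (k ⊗[A₀] R₀) F)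
      (_ : IsFractionRing (k ⊗[A₀] R₀) F) (_ : IsScalarTower k (k ⊗[A₀] R₀) F),
      HM (b.baseChange k) (gen k F) P₀ ∧
      ∀ r : R₀, algebraMap (k ⊗[A₀] R₀) F (1 ⊗ₜ r) = v r := by
  let μ : (k ⊗[A₀] R₀) →ₐ[k] F :=
    Algebra.TensorProduct.lift (Algebra.ofId k F) v (fun _ _ => Commute.all _ _)
  have hμ : ∀ r : R₀, μ (1 ⊗ₜ r) = v r := by
    intro r
    simp only [μ, Algebra.TensorProduct.lift_tmul, map_one, one_mul]
  have hμb : ∀ d : S, μ (1 ⊗ₜ b d) ≠ 0 ∧ ord P₀ (μ (1 ⊗ₜ b d)) = -((d : ℕ) : ℤ) := by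
    intro d
    rw [hμ]
    exact hb d
  have hinj : Function.Injective μ := by
    rw [injective_iff_map_eq_zero]
    intro z hz
    by_contra hne
    exact (h4ModC_ord b μ hμb hne).1 hz
  have hfull : ∀ w : F, w ∈ RO P₀ → ∃ z, μ z = w := by
    intro w hw
    have h1 : Submodule.span k (Set.range fun d : S => v (b d)) ≤ LinearMap.range μ.toLinearMap := by
      rw [Submodule.span_le]
      rintro _ ⟨d, rfl⟩
      exact ⟨1 ⊗ₜ b d, hμ (b d)⟩
    exact h1 (hspan w hw)
  let alg : Algebra (k ⊗[A₀] R₀) F := μ.toRingHom.toAlgebra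
  have halg : ∀ z, algebraMap (k ⊗[A₀] R₀) F z = μ z := fun z => rfl
  have hST : IsScalarTower k (k ⊗[A₀] R₀) F := by
    refine IsScalarTower.of_algebraMap_eq (R := k) (S := k ⊗[A₀] R₀) (A := F) fun x => ?_
    rw [halg, AlgHom.commutes]
  have hfs : FaithfulSMul (k ⊗[A₀] R₀) F :=
    (faithfulSMul_iff_algebraMap_injective _ _).2 hinj
  have hFR : IsFractionRing (k ⊗[A₀] R₀) F := by
    refine IsFractionRing.of_field _ _ fun w => ?_
    obtain ⟨c, hc, hc0, hcw⟩ := h4_frac P₀ w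
    obtain ⟨x, hx⟩ := hfull _ hcw
    obtain ⟨y, hy⟩ := hfull _ hc
    refine ⟨x, y, ?_⟩
    rw [halg, halg, hx, hy, mul_div_cancel_left₀ _ hc0]
  refine ⟨alg, hFR, hST, ⟨hDB.baseChange k, hSg, fun z hz => ?_, fun w hw => ?_⟩, fun r => ?_⟩
  · rw [halg]
    exact (h4ModC_ord b μ hμb hz).2
  · exact hfull w hw
  · rw [halg]
    exact hμ _

/-- models over finitely generated rings. -/
theorem h4_model (P₀ : Plk k F) (Z : Finset F) (hZ : ∀ z ∈ Z, z ∈ RO P₀) :
    ∃ (A₀ : Type u) (_ : CommRing A₀) (_ : IsDomain A₀) (_ : Algebra.FiniteType ℤ A₀)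
      (_ : Algebra A₀ k) (R₀ : Type u) (_ : CommRing R₀) (_ : Algebra A₀ R₀) (S : Set ℕ)
      (b : Module.Basis S A₀ R₀) (_ : Algebra (k ⊗[A₀] R₀) F)
      (_ : IsFractionRing (k ⊗[A₀] R₀) F) (_ : IsScalarTower k (k ⊗[A₀] R₀) F),
      Function.Injective (algebraMap A₀ k) ∧ IsDB b ∧
      HM (b.baseChange k) (gen k F) P₀ ∧
      ∀ z ∈ Z, ∃ r : R₀, algebraMap (k ⊗[A₀] R₀) F (1 ⊗ₜ r) = z := by
  obtain ⟨A₀, R₀, S, b, hFG, hSg, hDB, hb, hspan, hZR⟩ := h4_model_ring P₀ Z hZ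
  obtain ⟨i1, i2, i3, hHM, hv⟩ := h4_model_gen b P₀ R₀.val hSg hDB (fun d => (hb d).2) hspan
  exact ⟨A₀, inferInstance, inferInstance, (Subalgebra.fg_iff_finiteType A₀).1 hFG, inferInstance,
    R₀, inferInstance, inferInstance, S, b, i1, i2, i3, Subtype.val_injective, hDB,
    hHM, fun z hz => ⟨⟨z, hZR z hz⟩, hv _⟩⟩

end Vale.Agent.P019P
end
end

section

section

/-!
# Classes with divisor divisible by `ℓ` and the torsion of the class group
-/

namespace Vale.Agent.P019P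

open Polynomial IntermediateField

variable {k F : Type*} [Field k] [Field F] [Algebra k F] [CFF k F]

private theorem h4Cnt_dv_pow (z : F) (n : ℕ) : dv k (z ^ n) = n • dv k z := by
  ext P
  rw [dv_apply, ord_pow, Finsupp.smul_apply, dv_apply, nsmul_eq_mul]

private theorem h4Cnt_mk {E E' : Plk k F →₀ ℤ} :
    (QuotientAddGroup.mk E : (Plk k F →₀ ℤ) ⧸ prn k F) = QuotientAddGroup.mk E' ↔
      ∃ h : F, h ≠ 0 ∧ E' - E = dv k h := by
  rw [QuotientAddGroup.eq, ← sub_eq_neg_add]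
  rfl

private theorem h4Cnt_div {ℓ : ℕ} {z : F} (hz : ∀ P : Plk k F, (ℓ : ℤ) ∣ ord P z) :
    ∃ E : Plk k F →₀ ℤ, ℓ • E = dv k z := by
  refine ⟨(dv k z).mapRange (fun a => a / (ℓ : ℤ)) (by simp), ?_⟩
  ext P
  rw [Finsupp.smul_apply, Finsupp.mapRange_apply, dv_apply, nsmul_eq_mul]
  exact Int.mul_ediv_cancel' (hz P)

omit [CFF k F] in
private theorem h4Cnt_smul_inj {ℓ : ℕ} (hℓ : ℓ ≠ 0) {D D' : Plk k F →₀ ℤ}
    (h : ℓ • D = ℓ • D') : D = D' := by
  ext P
  have h1 := DFunLike.congr_fun h P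
  rw [Finsupp.smul_apply, Finsupp.smul_apply, nsmul_eq_mul, nsmul_eq_mul] at h1
  exact mul_left_cancel₀ (Nat.cast_ne_zero.2 hℓ) h1

theorem h4_nc_iff {ℓ : ℕ} (hℓ : ℓ ≠ 0) {M : ℕ} :
    NC ℓ k F M ↔ ∃ φ : Fin M → {x : (Plk k F →₀ ℤ) ⧸ prn k F // ℓ • x = 0},
      Function.Injective φ := by
  constructor
  · rintro ⟨z, hz, hne⟩
    choose E hE using fun i => h4Cnt_div (hz i).2
    refine ⟨fun i => ⟨QuotientAddGroup.mk (E i), ?_⟩, ?_⟩
    · rw [← QuotientAddGroup.mk_nsmul, hE, QuotientAddGroup.eq_zero_iff]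
      exact ⟨z i, (hz i).1, rfl⟩
    · intro i j hij
      by_contra hc
      obtain ⟨h, h0, h1⟩ := h4Cnt_mk.1 (Subtype.ext_iff.1 hij)
      have h2 : dv k (z j) = dv k (h ^ ℓ * z i) := by
        rw [dv_mul (pow_ne_zero _ h0) (hz i).1, h4Cnt_dv_pow h, ← h1, ← hE, ← hE, smul_sub]
        abel
      have h3 : h ^ ℓ * z i ≠ 0 := mul_ne_zero (pow_ne_zero _ h0) (hz i).1
      have h4 : dv k (z j * (h ^ ℓ * z i)⁻¹) = 0 := by
        rw [dv_mul (hz j).1 (inv_ne_zero h3), dv_inv, h2, add_neg_cancel]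
      obtain ⟨a, ha⟩ := (dv_eq_zero_iff (mul_ne_zero (hz j).1 (inv_ne_zero h3))).1 h4
      have hac : IsAlgClosed k := CFF.ac F
      obtain ⟨b, hb⟩ := IsAlgClosed.exists_pow_nat_eq a (Nat.pos_of_ne_zero hℓ)
      refine hne j i (Ne.symm hc) ⟨algebraMap k F b * h, ?_⟩
      rw [mul_pow, ← map_pow, hb, ← ha, mul_assoc, mul_assoc, inv_mul_cancel₀ h3, mul_one]
  · rintro ⟨φ, hφ⟩
    have h1 : ∀ i, ∃ (E : Plk k F →₀ ℤ) (z : F), QuotientAddGroup.mk E = (φ i).1 ∧ z ≠ 0 ∧
        ℓ • E = dv k z := by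
      intro i
      obtain ⟨E, hE⟩ := QuotientAddGroup.mk_surjective (φ i).1
      have h2 : (QuotientAddGroup.mk (ℓ • E) : (Plk k F →₀ ℤ) ⧸ prn k F) = 0 := by
        rw [QuotientAddGroup.mk_nsmul, hE]
        exact (φ i).2
      obtain ⟨z, hz0, hz⟩ := (QuotientAddGroup.eq_zero_iff _).1 h2
      exact ⟨E, z, hE, hz0, hz⟩
    choose E z hE hz0 hz using h1
    refine ⟨z, fun i => ⟨hz0 i, fun P => ?_⟩, fun i j hij => ?_⟩
    · rw [← dv_apply, ← hz, Finsupp.smul_apply, nsmul_eq_mul]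
      exact dvd_mul_right _ _
    · rintro ⟨h, hh⟩
      have h0 : h ≠ 0 := by
        rintro rfl
        rw [zero_pow hℓ, zero_mul] at hh
        exact hz0 i hh
      have h2 : ℓ • (E i - E j) = ℓ • dv k h := by
        rw [smul_sub, hz, hz, hh, dv_mul (pow_ne_zero _ h0) (hz0 j), h4Cnt_dv_pow h]
        abel
      have h3 := h4Cnt_smul_inj hℓ h2
      refine hij (hφ (Subtype.ext ?_))
      rw [← hE i, ← hE j]
      exact (h4Cnt_mk.2 ⟨h, h0, h3⟩).symm

theorem h4_nc_of_card {ℓ : ℕ} (hℓ : ℓ ≠ 0) {M : ℕ} (hM : 0 < M)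
    (h : Nat.card {x : (Plk k F →₀ ℤ) ⧸ prn k F // ℓ • x = 0} = M) :
    NC ℓ k F M ∧ ¬ NC ℓ k F (M + 1) := by
  have hfin : Finite {x : (Plk k F →₀ ℤ) ⧸ prn k F // ℓ • x = 0} :=
    Nat.finite_of_card_ne_zero (by omega)
  constructor
  · rw [h4_nc_iff hℓ, ← h]
    exact ⟨_, (Finite.equivFin _).symm.injective⟩
  · rw [h4_nc_iff hℓ]
    rintro ⟨φ, hφ⟩
    have h1 := Nat.card_le_card_of_injective φ hφ
    rw [Nat.card_fin, h] at h1
    omega

theorem h4_card_of_nc {ℓ : ℕ} (hℓ : ℓ ≠ 0) {M : ℕ} (h : NC ℓ k F M)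
    (h' : ¬ NC ℓ k F (M + 1)) :
    Nat.card {x : (Plk k F →₀ ℤ) ⧸ prn k F // ℓ • x = 0} = M := by
  rw [h4_nc_iff hℓ] at h h'
  have hfin : Finite {x : (Plk k F →₀ ℤ) ⧸ prn k F // ℓ • x = 0} := by
    by_contra hc
    rw [not_finite_iff_infinite] at hc
    exact h' ⟨fun i => Infinite.natEmbedding _ (i : ℕ),
      (Infinite.natEmbedding _).injective.comp Fin.val_injective⟩
  obtain ⟨φ, hφ⟩ := h
  have h1 := Nat.card_le_card_of_injective φ hφ
  rw [Nat.card_fin] at h1
  by_contra hc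
  have h2 : M + 1 ≤ Nat.card {x : (Plk k F →₀ ℤ) ⧸ prn k F // ℓ • x = 0} := by omega
  exact h' ⟨fun i => (Finite.equivFin _).symm (Fin.castLE h2 i),
    (Finite.equivFin _).symm.injective.comp (Fin.castLE_injective _)⟩

end Vale.Agent.P019P
end
end

section

section

/-!
# The number of places over a point
-/

namespace Vale.Agent.P019P

open Vale.Agent.P019

set_option linter.style.haveILetI false
set_option linter.unusedSectionVars false

open Polynomial IntermediateField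

variable {F : Type*} [Field F] [PerfectField F] {k : Subfield F}

/-- the number of places over a point. -/
theorem Cv.fib_card (h : Cv k) {x : F} (hx : x ∉ k) :
    {O : ValuationSubring F | O ∈ Plc k ∧ O.valuation x < 1}.Finite ∧
    {O : ValuationSubring F | O ∈ Plc k ∧ O.valuation x < 1}.ncard ≤
      Module.finrank (adj k x) F := by
  classical
  obtain ⟨E, hxE, hE, -, hfin⟩ := h.exists_sepMod hx
  haveI := hE.cff h
  obtain ⟨φ, hφ⟩ := hE.exists_plc h
  set x' : E := ⟨x, hxE⟩ with hx'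
  have hx'k : ∀ a : k, x' ≠ algebraMap k E a := by
    intro a ha
    apply hx
    have h1 : x = (a : F) := congrArg Subtype.val ha
    rw [h1]
    exact a.2
  have hx0 : x' ≠ 0 := by
    intro h0
    apply hx
    have h1 : x = 0 := congrArg Subtype.val h0
    rw [h1]
    exact k.zero_mem
  have hZ := zeros_finite hx'k
  have hsub : {O : ValuationSubring F | O ∈ Plc k ∧ O.valuation x < 1} ⊆
      (fun P : Plk k E => ((φ P).1 : ValuationSubring F)) '' {P : Plk k E | 0 < ord P x'} := by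
    rintro O ⟨hO, hOx⟩
    refine ⟨φ.symm ⟨O, hO⟩, ?_, ?_⟩
    · have h1 := (Mod.val_lt_one_iff (P := φ.symm ⟨O, hO⟩) (O := O) (fun z => by
        have h2 := hφ (φ.symm ⟨O, hO⟩) z
        rwa [Equiv.apply_symm_apply] at h2) x').1 hOx
      exact h1.resolve_left hx0
    · change ((φ (φ.symm ⟨O, hO⟩)).1 : ValuationSubring F) = O
      rw [Equiv.apply_symm_apply]
  refine ⟨(hZ.image _).subset hsub, ?_⟩
  refine (Set.ncard_le_ncard hsub (hZ.image _)).trans ?_
  refine (Set.ncard_image_le hZ).trans ?_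
  rw [hfin, Set.ncard_eq_toFinset_card _ hZ]
  have h1 := sum_ord_le hx'k hZ.toFinset (fun P hP => hZ.mem_toFinset.1 hP)
  have h2 : (hZ.toFinset.card : ℤ) ≤ ∑ P ∈ hZ.toFinset, ord P x' := by
    rw [Finset.card_eq_sum_ones, Nat.cast_sum]
    refine Finset.sum_le_sum fun P hP => ?_
    have h3 : 0 < ord P x' := hZ.mem_toFinset.1 hP
    push_cast
    omega
  exact_mod_cast h2.trans h1

end Vale.Agent.P019P
end
end

section

section

/-!
# The degree bound
-/

namespace Vale.Agent.P019P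

open Vale.Agent.P019

set_option linter.style.haveILetI false
set_option linter.unusedSectionVars false

open Polynomial Filter

/-! ### two curves with corresponding places -/

section dbd

variable {F₁ F₂ : Type*} [Field F₁] [Field F₂] {ℓ : ℕ} [Fact ℓ.Prime]
  {k₁ : Subfield F₁} {k₂ : Subfield F₂} {Θ' : V ℓ F₁ ≃ₗ[ZMod ℓ] V ℓ F₂}
  {T : Finset (ValuationSubring F₁)} {Q : ValuationSubring F₁ → ValuationSubring F₂}

/-- inverse of a generator. -/
theorem dbd_adj_inv {F : Type*} [Field F] [PerfectField F] (E : Subfield F) (x : F) :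
    adj E x⁻¹ = adj E x := by
  have key : ∀ z : F, adj E z⁻¹ ≤ adj E z := by
    intro z
    haveI : PerfectField (adj E z) := perfect_of_pf_le (by
      unfold adj
      rw [pf_pf])
    exact adj_le (le_adj E z) ((adj E z).inv_mem (mem_adj E z))
  refine le_antisymm (key x) ?_
  have h := key x⁻¹
  rwa [inv_inv] at h

/-- the non-units of a function. -/
theorem dbd_nonunit {F : Type*} [Field F] [PerfectField F] [NeZero (ℓ : F)] {k : Subfield F}
    (h : Cv k) {y : F} (hy0 : y ≠ 0) {M : ℕ} (hM : y ∉ k → Module.finrank (adj k y) F ≤ M) :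
    {P : ValuationSubring F | P ∈ Plc k ∧ cl ℓ y ∉ UC ℓ P}.encard ≤ (2 * M : ℕ) := by
  by_cases hy : y ∈ k
  · have h0 : {P : ValuationSubring F | P ∈ Plc k ∧ cl ℓ y ∉ UC ℓ P} = ∅ := by
      rw [Set.eq_empty_iff_forall_notMem]
      rintro P ⟨hP, hc⟩
      apply hc
      exact ⟨y, hP.1.eq_one hy hy0, rfl⟩
    rw [h0, Set.encard_empty]
    exact zero_le
  · have h1 := h.fib_card hy
    have hy' : y⁻¹ ∉ k := fun h2 => hy (by simpa using k.inv_mem h2)
    have h2 := h.fib_card hy'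
    rw [dbd_adj_inv] at h2
    have hsub : {P : ValuationSubring F | P ∈ Plc k ∧ cl ℓ y ∉ UC ℓ P} ⊆
        {O : ValuationSubring F | O ∈ Plc k ∧ O.valuation y < 1} ∪
          {O : ValuationSubring F | O ∈ Plc k ∧ O.valuation y⁻¹ < 1} := by
      rintro P ⟨hP, hc⟩
      rcases lt_trichotomy (P.valuation y) 1 with h3 | h3 | h3
      · exact Or.inl ⟨hP, h3⟩
      · exact absurd ⟨y, h3, rfl⟩ hc
      · refine Or.inr ⟨hP, ?_⟩
        rw [map_inv₀]
        exact inv_lt_one_of_one_lt₀ h3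
    refine (Set.encard_le_encard hsub).trans ((Set.encard_union_le _ _).trans ?_)
    rw [← h1.1.cast_ncard_eq, ← h2.1.cast_ncard_eq]
    have h5 := h1.2.trans (hM hy)
    have h6 := h2.2.trans (hM hy)
    exact_mod_cast (by omega : _ ≤ 2 * M)

end dbd

variable {K L : Type*} [Field K] [Field L] [PerfectField K] [PerfectField L] {ℓ : ℕ}
  [Fact ℓ.Prime] [NeZero (ℓ : K)] [NeZero (ℓ : L)] {Θ : V ℓ K ≃ₗ[ZMod ℓ] V ℓ L}

end Vale.Agent.P019P
end
end
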