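import Vale.Agent.P019.MathlibFull
import Vale.Agent.P019.MathlibFull2
import Vale.Agent.P019.MathlibUsed
import Vale.Agent.P019.Bd4.B1
import Vale.Agent.P019.Bd4.B2

set_option linter.all false

namespace AFast982234x8a
@[reducible] noncomputable def a0.{u1} {x1 : ℕ} {x2 : Type u1} [x3 : Field x2] : AddCommMonoid (Vale.Agent.P019.V x1 x2) := inferInstance
@[reducible] noncomputable def a1.{u1} {x1 : Type u1} {x2 : AddSubgroup (x1 →₀ ℤ)} : AddZero ↥x2 := inferInstance
@[reducible] noncomputable def a2.{u1} {x1 : Type u1} {x2 : AddSubgroup (x1 →₀ ℤ)} : AddZeroClass ↥x2 := inferInstance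
@[reducible] noncomputable def a3.{u1} {x1 : Type u1} {x2 : AddSubgroup (x1 →₀ ℤ)} : AddMonoid ↥x2 := inferInstance
@[reducible] def a4.{u1} {x1 : Type u1} [x2 : CommRing x1] {x3 : Type u1} {x4 : Type u1} [x5 : CommRing x3] [x6 : CommRing x4] [x7 : Algebra x1 x3] [x8 : Algebra x1 x4] : NonAssocSemiring (TensorProduct x1 x3 x4) := inferInstance
@[reducible] noncomputable def a5.{u1} {x1 : Type u1} [x2 : Field x1] {x3 : Subfield x1} : Module (↥x3) (Polynomial ↥x3) := inferInstance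
theorem a6.{u1} {x1 : Type u1} [x2 : Field x1] {x3 : ValuationSubring x1} : MulHomClass (Valuation x1 x3.ValueGroup) x1 x3.ValueGroup := inferInstance
@[reducible] def a7.{u1} {x1 : Type u1} [x2 : Field x1] {x3 : Subfield x1} : CommSemiring ↥x3 := inferInstance
@[reducible] def a8.{u1} {x1 : Type u1} [x2 : CommRing x1] {x3 : Type u1} {x4 : Type u1} [x5 : CommRing x3] [x6 : CommRing x4] [x7 : Algebra x1 x3] [x8 : Algebra x1 x4] : Mul (TensorProduct x1 x3 x4) := inferInstance
theorem a9.{u1} {x1 : Type u1} [x2 : CommRing x1] {x3 : Type u1} {x4 : Type u1} [x5 : CommRing x3] [x6 : CommRing x4] [x7 : Algebra x1 x3] [x8 : Algebra x1 x4] {x9 : Type u1} [x10 : CommRing x9] [x11 : Algebra x1 x9] : NonUnitalRingHomClass (TensorProduct x1 x3 x4 →+* TensorProduct x1 x9 x4) (TensorProduct x1 x3 x4) (TensorProduct x1 x9 x4) := inferInstance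
@[reducible] noncomputable def a10.{u1} {x1 : Type u1} [x2 : Field x1] {x3 : ValuationSubring x1} : One x3.ValueGroup := inferInstance
theorem a12.{u1, u2} {x1 : Type u1} {x2 : Type u2} [x3 : CommRing x1] [x4 : Field x2] : MonoidWithZeroHomClass (x1 →+* x2) x1 x2 := inferInstance
theorem a13.{u1} {x1 : Type u1} [x2 : Field x1] : AddSubmonoidClass (ValuationSubring x1) x1 := inferInstance
theorem a14.{u1} {x1 : Type u1} [x2 : CommRing x1] {x3 : Type u1} {x4 : Type u1} [x5 : CommRing x3] [x6 : CommRing x4] [x7 : Algebra x1 x3] [x8 : Algebra x1 x4] {x9 : Type u1} [x10 : CommRing x9] [x11 : Algebra x1 x9] : MonoidWithZeroHomClass (TensorProduct x1 x3 x4 →+* TensorProduct x1 x9 x4) (TensorProduct x1 x3 x4) (TensorProduct x1 x9 x4) := inferInstance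
theorem a15.{u1} {x1 : Type u1} [x2 : Field x1] {x3 : Subfield x1} : Nontrivial ↥x3 := inferInstance
theorem a16.{u1} {x1 : Type u1} [x2 : Field x1] : SubsemiringClass (Subfield x1) x1 := inferInstance
@[reducible] noncomputable def a17.{u1} {x1 : Type u1} [x2 : Field x1] {x3 : Subfield x1} : Sub (Polynomial ↥x3) := inferInstance
@[reducible] noncomputable def a18.{u1} {x1 : Type u1} : SMulZeroClass ℕ (x1 →₀ ℤ) := inferInstance
@[reducible] def a19.{u1} {x1 : Type u1} [x2 : Field x1] {x3 : Subfield x1} : Zero ↥x3 := inferInstance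
theorem a20.{u1} {x1 : Type u1} {x2 : Type u1} {x3 : Type u1} [x4 : CommRing x1] [x5 : CommRing x2] [x6 : CommRing x3] [x7 : Algebra x1 x2] [x8 : Algebra x1 x3] : NonUnitalAlgHomClass (x2 →ₐ[x1] x3) x1 x2 x3 := inferInstance
theorem a21.{u1, u2} {x1 : Type u1} {x2 : Type u2} [x3 : Field x1] [x4 : Field x2] : MonoidHomClass (x1 →+* x2) x1 x2 := inferInstance
theorem a22.{u1} {x1 : Type u1} [x2 : Field x1] : ZeroMemClass (ValuationSubring x1) x1 := inferInstance
theorem a23.{u1} {x1 : Type u1} {x2 : Type u1} {x3 : Type u1} [x4 : CommRing x1] [x5 : CommRing x2] [x6 : CommRing x3] [x7 : Algebra x1 x2] [x8 : Algebra x1 x3] : AddMonoidHomClass (x2 →ₐ[x1] x3) x2 x3 := inferInstance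
theorem a24.{u1} {x1 : Type u1} [x2 : Field x1] {x3 : ValuationSubring x1} : ZeroLEOneClass x3.ValueGroup := inferInstance
theorem a25.{u1, u2} {x1 : Type u1} {x2 : Type u2} [x3 : CommRing x1] [x4 : Field x2] : ZeroHomClass (x1 →+* x2) x1 x2 := inferInstance
@[reducible] noncomputable def a26.{u1} {x1 : Type u1} [x2 : Field x1] {x3 : ValuationSubring x1} : Preorder x3.ValueGroup := inferInstance
theorem a27.{u1} {x1 : Type u1} [x2 : CommRing x1] {x3 : Type u1} {x4 : Type u1} [x5 : CommRing x3] [x6 : CommRing x4] [x7 : Algebra x1 x3] [x8 : Algebra x1 x4] {x9 : Type u1} [x10 : CommRing x9] [x11 : Algebra x1 x9] : ZeroHomClass (TensorProduct x1 x3 x4 →+* TensorProduct x1 x9 x4) (TensorProduct x1 x3 x4) (TensorProduct x1 x9 x4) := inferInstance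
@[reducible] def a28.{u1} {x1 : Type u1} [x2 : Field x1] {x3 : Subfield x1} : CommRing ↥x3 := inferInstance
@[reducible] noncomputable def a29.{u1} {x1 : Type u1} [x2 : Field x1] {x3 : ValuationSubring x1} : PartialOrder x3.ValueGroup := inferInstance
@[reducible] def a30.{u1} {x1 : Type u1} [x2 : Field x1] {x3 : Subfield x1} : Monoid ↥x3 := inferInstance
@[reducible] noncomputable def a31.{u1} {x1 : Type u1} [x2 : Field x1] {x3 : ValuationSubring x1} : LE x3.ValueGroup := inferInstance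
theorem a32.{u1, u2} {x1 : Type u1} {x2 : Type u2} [x3 : CommRing x1] [x4 : Field x2] : MulHomClass (x1 →+* x2) x1 x2 := inferInstance
theorem a33.{u1} {x1 : Type u1} {x2 : Type u1} {x3 : Type u1} [x4 : CommRing x1] [x5 : CommRing x2] [x6 : CommRing x3] [x7 : Algebra x1 x2] [x8 : Algebra x1 x3] : DistribMulActionSemiHomClass (x2 →ₐ[x1] x3) (⇑(MonoidHom.id x1)) x2 x3 := inferInstance
@[reducible] noncomputable def a34.{u1} {x1 : Type u1} [x2 : Field x1] {x3 : Subfield x1} : Algebra (↥x3) (Polynomial ↥x3) := inferInstance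
@[reducible] def a35.{u1} {x1 : Type u1} [x2 : Field x1] {x3 : Subfield x1} : Semiring ↥x3 := inferInstance
@[reducible] noncomputable def a36.{u1, u2} {x1 : Type u1} {x2 : Type u2} [x3 : Field x1] [x4 : Field x2] [x5 : Algebra x1 x2] : Sub (Vale.Agent.P019P.Plk x1 x2 →₀ ℤ) := inferInstance
theorem a37.{u1} {x1 : Type u1} {x2 : Type u1} {x3 : Type u1} [x4 : CommRing x1] [x5 : CommRing x2] [x6 : CommRing x3] [x7 : Algebra x1 x2] [x8 : Algebra x1 x3] : MulHomClass (x2 →ₐ[x1] x3) x2 x3 := inferInstance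
@[reducible] noncomputable def a38.{u1} {x1 : Type u1} [x2 : Field x1] {x3 : ValuationSubring x1} : LT x3.ValueGroup := inferInstance
@[reducible] def a39.{u1} {x1 : Type u1} [x2 : Field x1] {x3 : Subfield x1} : Semiring ↥(algebraicClosure (↥x3) x1) := inferInstance
@[reducible] def a40.{u1} {x1 : Type u1} [x2 : Field x1] {x3 : Subfield x1} : Ring ↥(algebraicClosure (↥x3) x1) := inferInstance
@[reducible] noncomputable def a41.{u1} {x1 : Type u1} [x2 : Field x1] {x3 : ValuationSubring x1} : SemilatticeInf x3.ValueGroup := inferInstance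
@[reducible] noncomputable def a42.{u1} {x1 : Type u1} [x2 : Field x1] {x3 : ValuationSubring x1} : Mul x3.ValueGroup := inferInstance
theorem a43.{u1} {x1 : Type u1} [x2 : Field x1] : SubsemiringClass (ValuationSubring x1) x1 := inferInstance
@[reducible] noncomputable def a44.{u1} {x1 : Type u1} [x2 : Field x1] {x3 : ValuationSubring x1} : Lattice x3.ValueGroup := inferInstance
@[reducible] noncomputable def a45.{u1} {x1 : Type u1} [x2 : Field x1] {x3 : ValuationSubring x1} : MulZeroClass x3.ValueGroup := inferInstance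
@[reducible] def a46.{u1} {x1 : Type u1} [x2 : Field x1] {x3 : Subfield x1} : NonAssocSemiring ↥x3 := inferInstance
theorem a47.{u1} {x1 : Type u1} {x2 : Type u1} {x3 : Type u1} [x4 : CommRing x1] [x5 : CommRing x2] [x6 : CommRing x3] [x7 : Algebra x1 x2] [x8 : Algebra x1 x3] : MonoidWithZeroHomClass (x2 →ₐ[x1] x3) x2 x3 := inferInstance
@[reducible] def a48.{u1} {x1 : Type u1} [x2 : Field x1] {x3 : Subfield x1} : NonAssocRing ↥(algebraicClosure (↥x3) x1) := inferInstance
theorem a49.{u1} {x1 : Type u1} [x2 : Field x1] : AddSubmonoidClass (Subfield x1) x1 := inferInstance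
@[reducible] def a50.{u1} {x1 : Type u1} [x2 : Field x1] {x3 : Subfield x1} : NonAssocCommRing ↥(algebraicClosure (↥x3) x1) := inferInstance
@[reducible] def a51.{u1} {x1 : Type u1} [x2 : Field x1] {x3 : Subfield x1} : CommRing ↥(algebraicClosure (↥x3) x1) := inferInstance
theorem a52.{u1} {x1 : Type u1} {x2 : Type u1} {x3 : Type u1} [x4 : CommRing x1] [x5 : CommRing x2] [x6 : CommRing x3] [x7 : Algebra x1 x2] [x8 : Algebra x1 x3] : OneHomClass (x2 →ₐ[x1] x3) x2 x3 := inferInstance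
theorem a53.{u1} {x1 : Type u1} [x2 : Field x1] {x3 : ValuationSubring x1} : PosMulReflectLT x3.ValueGroup := inferInstance
theorem a54.{u1, u2} {x1 : Type u1} {x2 : Type u2} [x3 : CommRing x1] [x4 : Field x2] : OneHomClass (x1 →+* x2) x1 x2 := inferInstance
@[reducible] def a55 : SMulZeroClass ℕ ℤ := inferInstance
@[reducible] noncomputable def a56.{u1} {x1 : Type u1} [x2 : Field x1] {x3 : ValuationSubring x1} : Zero x3.ValueGroup := inferInstance
theorem a57.{u1} {x1 : Type u1} {x2 : Type u1} {x3 : Type u1} [x4 : CommRing x1] [x5 : CommRing x2] [x6 : CommRing x3] [x7 : Algebra x1 x2] [x8 : Algebra x1 x3] : MonoidHomClass (x2 →ₐ[x1] x3) x2 x3 := inferInstance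
theorem a58.{u1} {x1 : Type u1} [x2 : CommRing x1] {x3 : Type u1} {x4 : Type u1} [x5 : CommRing x3] [x6 : CommRing x4] [x7 : Algebra x1 x3] [x8 : Algebra x1 x4] {x9 : Type u1} [x10 : CommRing x9] [x11 : Algebra x1 x9] : MonoidHomClass (TensorProduct x1 x3 x4 →+* TensorProduct x1 x9 x4) (TensorProduct x1 x3 x4) (TensorProduct x1 x9 x4) := inferInstance
theorem a59.{u1, u2} {x1 : Type u1} {x2 : Type u2} [x3 : CommRing x1] [x4 : Field x2] : NonUnitalRingHomClass (x1 →+* x2) x1 x2 := inferInstance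
theorem a60.{u1} {x1 : Type u1} [x2 : Field x1] {x3 : ValuationSubring x1} : MulLeftMono x3.ValueGroup := inferInstance
end AFast982234x8a
attribute [local instance] AFast982234x8a.a0 AFast982234x8a.a1 AFast982234x8a.a2 AFast982234x8a.a3
  AFast982234x8a.a4 AFast982234x8a.a5 AFast982234x8a.a6 AFast982234x8a.a7 AFast982234x8a.a8
  AFast982234x8a.a9 AFast982234x8a.a10 AFast982234x8a.a12 AFast982234x8a.a13
  AFast982234x8a.a14 AFast982234x8a.a15 AFast982234x8a.a16 AFast982234x8a.a17 AFast982234x8a.a18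
  AFast982234x8a.a19 AFast982234x8a.a20 AFast982234x8a.a21 AFast982234x8a.a22 AFast982234x8a.a23
  AFast982234x8a.a24 AFast982234x8a.a25 AFast982234x8a.a26 AFast982234x8a.a27 AFast982234x8a.a28
  AFast982234x8a.a29 AFast982234x8a.a30 AFast982234x8a.a31 AFast982234x8a.a32 AFast982234x8a.a33
  AFast982234x8a.a34 AFast982234x8a.a35 AFast982234x8a.a36 AFast982234x8a.a37 AFast982234x8a.a38
  AFast982234x8a.a39 AFast982234x8a.a40 AFast982234x8a.a41 AFast982234x8a.a42 AFast982234x8a.a43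
  AFast982234x8a.a44 AFast982234x8a.a45 AFast982234x8a.a46 AFast982234x8a.a47 AFast982234x8a.a48
  AFast982234x8a.a49 AFast982234x8a.a50 AFast982234x8a.a51 AFast982234x8a.a52 AFast982234x8a.a53
  AFast982234x8a.a54 AFast982234x8a.a55 AFast982234x8a.a56 AFast982234x8a.a57 AFast982234x8a.a58
  AFast982234x8a.a59 AFast982234x8a.a60
namespace AFast982234x8b
@[reducible] noncomputable def a0.{u1} {x1 : Type u1} [x2 : Field x1] {x3 : ValuationSubring x1} : Algebra (IsLocalRing.ResidueField ↥x3) (AlgebraicClosure (IsLocalRing.ResidueField ↥x3)) := inferInstance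
theorem a1.{u1} {x1 : Type u1} [x2 : CommRing x1] {x3 : Type u1} {x4 : Type u1} [x5 : CommRing x3] [x6 : CommRing x4] [x7 : Algebra x1 x3] [x8 : Algebra x1 x4] {x9 : Type u1} [x10 : CommRing x9] [x11 : Algebra x1 x9] : AddMonoidHomClass (TensorProduct x1 x3 x4 →+* TensorProduct x1 x9 x4) (TensorProduct x1 x3 x4) (TensorProduct x1 x9 x4) := inferInstance
theorem a2.{u1} {x1 : Type u1} [x2 : CommRing x1] {x3 : Type u1} {x4 : Type u1} [x5 : CommRing x3] [x6 : CommRing x4] [x7 : Algebra x1 x3] [x8 : Algebra x1 x4] {x9 : Type u1} [x10 : CommRing x9] [x11 : Algebra x1 x9] : AddHomClass (TensorProduct x1 x3 x4 →+* TensorProduct x1 x9 x4) (TensorProduct x1 x3 x4) (TensorProduct x1 x9 x4) := inferInstance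
@[reducible] def a3.{u1} {x1 : Type u1} [x2 : Field x1] {x3 : Subfield x1} : Algebra ↥x3 ↥(algebraicClosure (↥x3) x1) := inferInstance
theorem a4.{u1} {x1 : Type u1} [x2 : Field x1] {x3 : Subfield x1} : IsScalarTower (↥x3) (↥x3) x1 := inferInstance
theorem a5.{u1, u2} {x1 : Type u1} {x2 : Type u2} [x3 : CommRing x1] [x4 : Field x2] : AddHomClass (x1 →+* x2) x1 x2 := inferInstance
theorem a6.{u1, u2} {x1 : Type u1} {x2 : Type u2} [x3 : Field x1] [x4 : Field x2] [x5 : Algebra x1 x2] : AddHomClass ((Vale.Agent.P019P.Plk x1 x2 →₀ ℤ) →+ ℤ) (Vale.Agent.P019P.Plk x1 x2 →₀ ℤ) ℤ := inferInstance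
theorem a7.{u1} {x1 : Type u1} [x2 : CommRing x1] {x3 : Type u1} {x4 : Type u1} [x5 : CommRing x3] [x6 : CommRing x4] [x7 : Algebra x1 x3] [x8 : Algebra x1 x4] {x9 : Type u1} [x10 : CommRing x9] [x11 : Algebra x1 x9] : MulHomClass (TensorProduct x1 x3 x4 →+* TensorProduct x1 x9 x4) (TensorProduct x1 x3 x4) (TensorProduct x1 x9 x4) := inferInstance
theorem a8.{u1, u2} {x1 : Type u1} {x2 : Type u2} [x3 : CommRing x1] [x4 : Field x2] : AddMonoidHomClass (x1 →+* x2) x1 x2 := inferInstance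
end AFast982234x8b
attribute [local instance] AFast982234x8b.a0 AFast982234x8b.a1 AFast982234x8b.a2 AFast982234x8b.a3
  AFast982234x8b.a4 AFast982234x8b.a5 AFast982234x8b.a6 AFast982234x8b.a7 AFast982234x8b.a8
attribute [local instance] O19.fr O19.tf O19.pj O19.fl

section

section

/-!
# Functoriality of `V` and orthogonality
-/

namespace Vale.Agent.P019

open scoped TensorProduct

variable {K L : Type*} [Field K] [Field L]

/-- the linear map on classes induced by a homomorphism of fields. -/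
noncomputable def Vmap (ℓ : ℕ) (φ : K →+* L) : V ℓ K →ₗ[ZMod ℓ] V ℓ L :=
  AddMonoidHom.toZModLinearMap ℓ
    (MonoidHom.toAdditive
      (QuotientGroup.map (powMonoidHom ℓ : Kˣ →* Kˣ).range (powMonoidHom ℓ : Lˣ →* Lˣ).range
        (Units.map (φ : K →* L)) (by
          rintro _ ⟨y, rfl⟩
          exact ⟨Units.map (φ : K →* L) y, by simp⟩)))

theorem Vmap_mk (ℓ : ℕ) (φ : K →+* L) (x : Kˣ) :
    Vmap ℓ φ (V.mk ℓ x) = V.mk ℓ (Units.map (φ : K →* L) x) := rfl

theorem Vmap_cl (ℓ : ℕ) (φ : K →+* L) (x : K) : Vmap ℓ φ (cl ℓ x) = cl ℓ (φ x) := by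
  by_cases hx : x = 0
  · rw [hx, map_zero, cl_zero, cl_zero, map_zero]
  · rw [cl_of_ne ℓ hx, cl_of_ne ℓ ((map_ne_zero φ).2 hx), Vmap_mk]
    congr 1
    ext; simp

theorem Vmap_R (ℓ : ℕ) (φ : K →+* L) :
    R ℓ K ≤ (R ℓ L).comap (TensorProduct.map (Vmap ℓ φ) (Vmap ℓ φ)) := by
  conv_lhs => unfold R
  rw [Submodule.span_le]
  rintro _ ⟨x, y, hxy, rfl⟩
  rw [SetLike.mem_coe, Submodule.mem_comap, TensorProduct.map_tmul, Vmap_mk, Vmap_mk]
  refine Submodule.subset_span ⟨_, _, ?_, rfl⟩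
  simp only [Units.coe_map, MonoidHom.coe_coe]
  rw [← map_add, hxy, map_one]

theorem Orth.map {ℓ : ℕ} (φ : K →+* L) {u w : V ℓ K} (h : Orth u w) :
    Orth (Vmap ℓ φ u) (Vmap ℓ φ w) := by
  have := Vmap_R ℓ φ h
  rwa [Submodule.mem_comap, TensorProduct.map_tmul] at this

end Vale.Agent.P019
end
end

section

section

/-!
# Bertini
-/

namespace Vale.Agent.P019P

open Vale.Agent.P019

set_option linter.style.haveILetI false

open Polynomial

theorem bert_fin_of_rank {K V : Type*} [Field K] [AddCommGroup V] [Module K V]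
    (h : Module.rank K V < Cardinal.aleph0) : Module.Finite K V :=
  Module.rank_lt_aleph0_iff.1 h

theorem bert_rank {F L : Type*} [Field F] [Field L] [Algebra F L] [Algebra.EssFiniteType F L] :
    Module.Finite F (algebraicClosure F L) := by
  classical
  obtain ⟨S, hS⟩ := exists_isTranscendenceBasis F L
  haveI : Algebra.IsAlgebraic (IntermediateField.adjoin F (Set.range ((↑) : S → L))) L :=
    hS.isAlgebraic_field
  haveI : Algebra.EssFiniteType (IntermediateField.adjoin F (Set.range ((↑) : S → L))) L :=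
    Algebra.EssFiniteType.of_comp F _ L
  haveI : Module.Finite (IntermediateField.adjoin F (Set.range ((↑) : S → L))) L :=
    Algebra.finite_of_essFiniteType_of_isAlgebraic
  have hr : Module.rank F (algebraicClosure F L) ≤
      Module.finrank (IntermediateField.adjoin F (Set.range ((↑) : S → L))) L := by
    refine rank_le (fun s hs => ?_)
    let w : Fin s.card → L := fun i => ((s.equivFin.symm i : algebraicClosure F L) : L)
    have hw : LinearIndependent F w := by
      have h1 := hs.comp (s.equivFin.symm) s.equivFin.symm.injective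
      exact h1.map' (algebraicClosure F L).val.toLinearMap
        (LinearMap.ker_eq_bot.2 (algebraicClosure F L).val.injective)
    have h2 := linearIndependent_adjoin hS.1 (w := w) (fun i =>
      mem_algebraicClosure_iff.1 (s.equivFin.symm i : algebraicClosure F L).2) hw
    have h3 := h2.fintype_card_le_finrank
    rwa [Fintype.card_fin] at h3
  refine bert_fin_of_rank ?_
  exact lt_of_le_of_lt hr (Cardinal.natCast_lt_aleph0)

/-- `q`-powers of linearly independent elements over a perfect field. -/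
theorem linearIndependent_pow {K : Type*} [Field K] {F : Subfield K} [PerfectField F]
    {ι : Type*} [Fintype ι] {w : ι → K} (hw : LinearIndependent F w) (n : ℕ) :
    LinearIndependent F (fun i => w i ^ ringExpChar K ^ n) := by
  rw [Fintype.linearIndependent_iff] at hw ⊢
  intro g hg i
  have h1 : ∀ i, ∃ y : F, (y : K) ^ ringExpChar K ^ n = g i := by
    intro i
    obtain ⟨y, hy, hyy⟩ := exists_root_q F (g i).2 n
    exact ⟨⟨y, hy⟩, hyy⟩
  choose d hd using h1
  have h2 : (∑ i, d i • w i) ^ ringExpChar K ^ n = 0 := by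
    have h3 : (∑ i, d i • w i) ^ ringExpChar K ^ n =
        ∑ i, (d i • w i) ^ ringExpChar K ^ n := by
      have h4 := map_sum (iterateFrobenius K (ringExpChar K) n) (fun i => d i • w i) Finset.univ
      simp only [iterateFrobenius_def] at h4
      exact h4
    rw [h3, ← hg]
    refine Finset.sum_congr rfl (fun i _ => ?_)
    change ((d i : K) * w i) ^ _ = (g i : K) * _
    rw [mul_pow, hd]
  have h3 := hw d (eq_zero_of_pow_eq_zero h2) i
  have h4 : (g i : K) = 0 := by
    rw [← hd i, h3]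
    exact zero_pow (qpow_pos K n).ne'
  exact Subtype.ext h4

/-- the relative algebraic closure of a perfect subfield is finite over it. -/
theorem finite_algebraicClosure {K : Type*} [Field K] {F : Subfield K} [PerfectField F]
    (hfg : FG F (⊤ : Subfield K)) : Module.Finite F (algebraicClosure F K) := by
  classical
  obtain ⟨S, hS⟩ := hfg
  set L₀ := IntermediateField.adjoin F (S : Set K) with hL₀
  haveI : Algebra.EssFiniteType F L₀ := IntermediateField.essFiniteType_iff.2 ⟨S, rfl⟩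
  haveI : Module.Finite F (algebraicClosure F L₀) := bert_rank
  have hr : Module.rank F (algebraicClosure F K) ≤
      Module.finrank F (algebraicClosure F L₀) := by
    refine rank_le (fun s hs => ?_)
    have h1 : ∀ z : K, ∃ n : ℕ, z ^ ringExpChar K ^ n ∈ L₀ := by
      intro z
      have h2 : z ∈ pf (F ⊔ Subfield.closure (S : Set K)) := by rw [← hS]; trivial
      obtain ⟨n, hn⟩ := mem_pf.1 h2
      rw [← finK_sup_eq] at hn
      exact ⟨n, hn⟩
    choose n hn using h1
    obtain ⟨m, hm⟩ : ∃ m, ∀ i : s, n (i.1 : K) ≤ m :=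
      ⟨Finset.univ.sup fun i : s => n (i.1 : K),
        fun i => Finset.le_sup (f := fun i : s => n (i.1 : K)) (Finset.mem_univ i)⟩
    have hn' : ∀ i : s, (i.1 : K) ^ ringExpChar K ^ m ∈ L₀ := by
      intro i
      obtain ⟨j, hj⟩ := Nat.exists_eq_add_of_le (hm i)
      rw [hj, pow_add, pow_mul]
      exact pow_mem (hn i.1) _
    let w : s → K := fun i => (i.1 : K)
    have hw : LinearIndependent F w := by
      exact hs.map' (algebraicClosure F K).val.toLinearMap
        (LinearMap.ker_eq_bot.2 (algebraicClosure F K).val.injective)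
    have hw2 := linearIndependent_pow hw m
    let w' : s → algebraicClosure F L₀ := fun i => ⟨⟨w i ^ ringExpChar K ^ m, hn' i⟩, by
      rw [mem_algebraicClosure_iff]
      have h3 : IsAlgebraic F (w i ^ ringExpChar K ^ m) :=
        (mem_algebraicClosure_iff.1 i.1.2).pow _
      obtain ⟨p, hp0, hp⟩ := h3
      refine ⟨p, hp0, ?_⟩
      apply (algebraMap L₀ K).injective
      rw [map_zero, ← hp]
      exact (aeval_algebraMap_apply K (⟨w i ^ ringExpChar K ^ m, hn' i⟩ : L₀) p).symm⟩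
    have hw3 : LinearIndependent F w' := by
      refine LinearIndependent.of_comp
        (L₀.val.toLinearMap ∘ₗ (algebraicClosure F L₀).val.toLinearMap) ?_
      exact hw2
    have h3 := hw3.fintype_card_le_finrank
    rwa [Fintype.card_coe] at h3
  refine bert_fin_of_rank ?_
  exact lt_of_le_of_lt hr (Cardinal.natCast_lt_aleph0)

/-- the relative algebraic closure of a perfect subfield has only
finitely many intermediate fields. -/
theorem bert_finite {K : Type*} [Field K] {F : Subfield K} [PerfectField F]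
    (hfg : FG F (⊤ : Subfield K)) : Finite (IntermediateField F (algebraicClosure F K)) := by
  haveI := finite_algebraicClosure hfg
  exact Field.finite_intermediateField_of_exists_primitive_element F _
    (Field.exists_primitive_element F _)

/-- S20 Bertini. -/
theorem bertini {K : Type*} [Field K] [PerfectField K] {k : Subfield K} (hk : IsAlgClosed k)
    (hfg : FG k (⊤ : Subfield K)) {x y : K} (hx : x ∉ k) (hy : ¬ IsAlgebraic (adj k x) y) :
    {c : K | c ∈ k ∧ ¬ Good k (x + c * y)}.Finite := by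
  classical
  set F : Subfield K := adj (adj k x) y with hF
  have hkF : k ≤ F := (le_adj k x).trans (le_adj _ y)
  have hxF : x ∈ F := le_adj _ y (mem_adj k x)
  have hyF : y ∈ F := mem_adj _ y
  haveI : PerfectField F := perfect_adj _ _
  haveI : Finite (IntermediateField F (algebraicClosure F K)) :=
    bert_finite (hfg.mono hkF le_top)
  let E : K → Subfield K := fun c => rac (adj k (x + c * y))
  let L : K → IntermediateField F (algebraicClosure F K) := fun c =>
    Subfield.toIntermediateField ((E c ⊔ F).comap (algebraMap (algebraicClosure F K) K))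
      (fun a => by
        rw [Subfield.mem_comap]
        exact (le_sup_right : F ≤ E c ⊔ F) a.2)
  have hnk : ∀ c ∈ k, x + c * y ∉ k := by
    intro c hc h
    by_cases hc0 : c = 0
    · rw [hc0, zero_mul, add_zero] at h; exact hx h
    · apply hy
      refine isAlgebraic_of_mem ?_
      have : y = (x + c * y - x) / c := by field_simp; ring
      rw [this]
      exact (adj k x).div_mem ((adj k x).sub_mem (le_adj k x h) (mem_adj k x)) (le_adj k x hc)
  by_contra hinf
  obtain ⟨c, hc, c', hc', hne, hL⟩ :=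
    Set.Infinite.exists_ne_map_eq_of_mapsTo (f := L) (t := Set.univ) hinf
      (fun _ _ => Set.mem_univ _) (Set.toFinite _)
  obtain ⟨hck, hcb⟩ := hc
  obtain ⟨hck', hcb'⟩ := hc'
  set u : K := x + c * y with hu
  set z : K := x + c' * y with hz
  have huE : u ∈ E c := le_rac _ (mem_adj k u)
  -- every element of `E c'` lies in `E c ⊔ F`
  have hsub : E c' ≤ E c ⊔ F := by
    intro h hh
    have hFz : adj k z ≤ F := adj_le hkF (F.add_mem hxF (F.mul_mem (hkF hck') hyF))
    have halg : IsAlgebraic F h := isAlgebraic_mono hFz (mem_rac.1 hh)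
    let h' : algebraicClosure F K := ⟨h, mem_algebraicClosure_iff.2 halg⟩
    have h1 : h' ∈ L c' := by
      change algebraMap (algebraicClosure F K) K h' ∈ E c' ⊔ F
      exact (le_sup_left : E c' ≤ E c' ⊔ F) hh
    rw [← hL] at h1
    exact h1
  have hcc : c - c' ≠ 0 := sub_ne_zero.2 hne
  have hyeq : y = (u - z) / (c - c') := by rw [hu, hz]; field_simp; ring
  have hFle : E c ⊔ F ≤ adj k z ⊔ E c := by
    refine sup_le le_sup_right ?_
    have hkl : k ≤ adj k z ⊔ E c := (le_adj k z).trans le_sup_left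
    have huz : u ∈ adj k z ⊔ E c := (le_sup_right : E c ≤ adj k z ⊔ E c) huE
    have hzz : z ∈ adj k z ⊔ E c := (le_sup_left : adj k z ≤ adj k z ⊔ E c) (mem_adj k z)
    have hyy : y ∈ adj k z ⊔ E c := by
      rw [hyeq]
      exact (adj k z ⊔ E c).div_mem ((adj k z ⊔ E c).sub_mem huz hzz)
        ((adj k z ⊔ E c).sub_mem (hkl hck) (hkl hck'))
    have hxx : x ∈ adj k z ⊔ E c := by
      have : x = u - c * y := by rw [hu]; ring
      rw [this]
      exact (adj k z ⊔ E c).sub_mem huz ((adj k z ⊔ E c).mul_mem (hkl hck) hyy)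
    exact adj_le (adj_le hkl hxx) hyy
  have hlA : k ≤ adj k z := le_adj k z
  have hlB : k ≤ E c := (le_adj k u).trans (le_rac _)
  -- `u` is not algebraic over `k(z)`
  have hunalg : ¬ IsAlgebraic (adj k z) u := by
    intro hua
    have hmem : ∀ w, w ∈ adj k z → w ∈ rac (adj k z) := fun w hw => le_rac _ hw
    have hyr : y ∈ rac (adj k z) := by
      rw [hyeq]
      exact (rac (adj k z)).div_mem ((rac (adj k z)).sub_mem (mem_rac.2 hua)
        (hmem _ (mem_adj k z))) ((rac (adj k z)).sub_mem (hmem _ (hlA hck)) (hmem _ (hlA hck')))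
    have hxr : x ∈ rac (adj k z) := by
      have : x = u - c * y := by rw [hu]; ring
      rw [this]
      exact (rac (adj k z)).sub_mem (mem_rac.2 hua)
        ((rac (adj k z)).mul_mem (hmem _ (hlA hck)) hyr)
    have hxk : ¬ IsAlgebraic k x := fun h => hx (RAC_of_isAlgClosed k hk x h)
    have h1 : IsAlgebraic (adj k x) z := exchange hxk (mem_rac.1 hxr)
    have h2 : adj k z ≤ rac (adj k x) :=
      adj_le ((le_adj k x).trans (le_rac _)) (mem_rac.2 h1)
    have h3 : IsAlgebraic (rac (adj k x)) y := isAlgebraic_mono h2 (mem_rac.1 hyr)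
    exact hy (isAlgebraic_rac h3)
  apply hcb'
  refine ⟨hnk c' hck', ?_⟩
  intro h hh
  have h1 : h ∈ E c' := mem_rac.2 hh
  have h2 : h ∈ adj k z ⊔ E c := hFle (hsub h1)
  exact rac_sup hk hlA hlB huE hunalg (fun b hb => mem_rac.1 hb) h2 hh

end Vale.Agent.P019P
end
end

section

section

/-!
# Reciprocal roots
-/

namespace Vale.Agent.P019P

open Polynomial

theorem exists_roots (f : ℂ[X]) (N : ℕ) (hf : f.natDegree ≤ N) (h0 : f.coeff 0 = 1) :
    ∃ A : Multiset ℂ, Multiset.card A = N ∧ f = (A.map fun a => 1 - C a * X).prod := by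
  induction N generalizing f with
  | zero =>
    refine ⟨0, rfl, ?_⟩
    rw [Multiset.map_zero, Multiset.prod_zero, eq_C_of_natDegree_le_zero hf, h0, C_1]
  | succ N ih =>
    by_cases hN : f.natDegree ≤ N
    · obtain ⟨A, hA, h⟩ := ih f hN h0
      refine ⟨0 ::ₘ A, by simp [hA], ?_⟩
      rw [Multiset.map_cons, Multiset.prod_cons, ← h]
      simp
    · have hd : f.natDegree = N + 1 := by omega
      have hdeg : f.degree ≠ 0 := by
        intro h
        have h' : f.natDegree = 0 := natDegree_eq_of_degree_eq_some h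
        omega
      obtain ⟨r, hr⟩ := IsAlgClosed.exists_root f hdeg
      have hr0 : r ≠ 0 := by
        rintro rfl
        rw [IsRoot.def, ← coeff_zero_eq_eval_zero, h0] at hr
        exact one_ne_zero hr
      obtain ⟨g, hg⟩ := dvd_iff_isRoot.2 hr
      have hf0 : f ≠ 0 := by
        rintro rfl
        simp at h0
      have hg0 : g ≠ 0 := by
        rintro rfl
        rw [mul_zero] at hg
        exact hf0 hg
      have hgd : g.natDegree = N := by
        rw [hg, natDegree_mul (X_sub_C_ne_zero r) hg0, natDegree_X_sub_C] at hd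
        omega
      have e : f = (1 - C r⁻¹ * X) * (C (-r) * g) := by
        rw [hg, ← mul_assoc]
        congr 1
        have h1 : (C r⁻¹ : ℂ[X]) * C r = 1 := by
          rw [← C_mul, inv_mul_cancel₀ hr0, C_1]
        rw [C_neg]
        linear_combination (-X : ℂ[X]) * h1
      have hc : (C (-r) * g).coeff 0 = 1 := by
        have h2 := h0
        rw [e, mul_coeff_zero] at h2
        simpa using h2
      obtain ⟨A, hA, h⟩ := ih (C (-r) * g) ((natDegree_C_mul_le _ _).trans hgd.le) hc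
      refine ⟨r⁻¹ ::ₘ A, by simp [hA], ?_⟩
      rw [Multiset.map_cons, Multiset.prod_cons, ← h]
      exact e

/-- evaluation of a polynomial with known power series. -/
theorem coe_prod_lin (A : Multiset ℂ) :
    (((A.map fun a => 1 - C a * X).prod : ℂ[X]) : PowerSeries ℂ) =
      (A.map fun a => (1 : PowerSeries ℂ) - PowerSeries.C a * PowerSeries.X).prod := by
  induction A using Multiset.induction_on with
  | empty => simp
  | cons a A ih =>
    rw [Multiset.map_cons, Multiset.prod_cons, Multiset.map_cons, Multiset.prod_cons,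
      Polynomial.coe_mul, ih, Polynomial.coe_sub, Polynomial.coe_mul, Polynomial.coe_C,
      Polynomial.coe_X, Polynomial.coe_one]

theorem coe_map_int (f : ℤ[X]) :
    ((f.map (Int.castRingHom ℂ) : ℂ[X]) : PowerSeries ℂ) =
      PowerSeries.map (Int.castRingHom ℂ) (f : PowerSeries ℤ) := by
  ext n
  rw [Polynomial.coeff_coe, Polynomial.coeff_map, PowerSeries.coeff_map, Polynomial.coeff_coe]

theorem eval_prod_lin (A : Multiset ℂ) :
    ((A.map fun a => 1 - C a * X).prod : ℂ[X]).eval 1 = (A.map fun a => 1 - a).prod := by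
  induction A using Multiset.induction_on with
  | empty => simp
  | cons a A ih =>
    rw [Multiset.map_cons, Multiset.prod_cons, Multiset.map_cons, Multiset.prod_cons, eval_mul, ih]
    simp

end Vale.Agent.P019P
end
end

section

end

section

section

set_option linter.all false

/-!
# Classes unramified outside a finite set: abstract count
-/

namespace Vale.Agent.P019P

namespace AuxFAbs

theorem card_range_eq {G A B : Type*} [AddCommGroup G] [AddCommGroup A] [AddCommGroup B]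
    (a : G →+ A) (b : G →+ B) (h : a.ker = b.ker) :
    Nat.card a.range = Nat.card b.range := by
  rw [← AddSubgroup.index_ker, ← AddSubgroup.index_ker, h]

/-- elements of `prin` divisible by `ℓ` outside `T`. -/
def BT {P : Type*} (prin : AddSubgroup (P →₀ ℤ)) (ℓ : ℕ) (T : Finset P) : AddSubgroup prin where
  carrier := {D | ∀ p, p ∉ T → (ℓ : ℤ) ∣ (D : P →₀ ℤ) p}
  zero_mem' := by
    intro p _
    simp
  add_mem' := by
    intro a b ha hb p hp
    have := dvd_add (ha p hp) (hb p hp)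
    simpa using this
  neg_mem' := by
    intro a ha p hp
    have := (ha p hp)
    simpa using this

theorem mem_BT {P : Type*} {prin : AddSubgroup (P →₀ ℤ)} {ℓ : ℕ} {T : Finset P} {D : prin} :
    D ∈ BT prin ℓ T ↔ ∀ p, p ∉ T → (ℓ : ℤ) ∣ (D : P →₀ ℤ) p := Iff.rfl

theorem card_A {P : Type*} (prin : AddSubgroup (P →₀ ℤ)) {ℓ : ℕ}
    {W : Type*} [AddCommGroup W] (f : prin →+ W) (T : Finset P) :
    Nat.card {v : W // ∃ D : prin, f D = v ∧ ∀ p, p ∉ T → (ℓ : ℤ) ∣ (D : P →₀ ℤ) p} =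
      f.ker.relIndex (BT prin ℓ T) := by
  rw [AddSubgroup.relIndex_ker]
  apply Nat.card_congr
  refine Equiv.subtypeEquivRight ?_
  intro v
  constructor
  · rintro ⟨D, h1, h2⟩
    exact ⟨D, h2, h1⟩
  · rintro ⟨D, h1, h2⟩
    exact ⟨D, h2, h1⟩

/-- division of a divisor by `ℓ`. -/
theorem exists_div {P : Type*} {ℓ : ℕ} (hℓ : ℓ ≠ 0) (D : P →₀ ℤ) (h : ∀ p, (ℓ : ℤ) ∣ D p) :
    ∃ E : P →₀ ℤ, D = ℓ • E := by
  refine ⟨D.mapRange (fun x => x / (ℓ : ℤ)) (by simp), ?_⟩
  ext p
  have h1 := h p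
  rw [Finsupp.smul_apply, Finsupp.mapRange_apply, nsmul_eq_mul]
  exact (Int.mul_ediv_cancel' h1).symm

theorem smul_inj {P : Type*} {ℓ : ℕ} (hℓ : ℓ ≠ 0) {D E : P →₀ ℤ} (h : ℓ • D = ℓ • E) : D = E := by
  ext p
  have h1 := DFunLike.congr_fun h p
  rw [Finsupp.smul_apply, Finsupp.smul_apply, nsmul_eq_mul, nsmul_eq_mul] at h1
  exact mul_left_cancel₀ (by exact_mod_cast hℓ) h1

theorem card_empty {P : Type*} (prin : AddSubgroup (P →₀ ℤ)) {ℓ : ℕ}
    (hℓ : ℓ ≠ 0) {W : Type*} [AddCommGroup W] (f : prin →+ W)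
    (hk : ∀ D : prin, f D = 0 ↔ ∃ E : prin, D = ℓ • E) :
    f.ker.relIndex (BT prin ℓ ∅) = Nat.card {x : (P →₀ ℤ) ⧸ prin // ℓ • x = 0} := by
  classical
  let K : AddSubgroup (P →₀ ℤ) := prin.comap (nsmulAddMonoidHom (α := P →₀ ℤ) ℓ)
  have hKmem : ∀ E : P →₀ ℤ, E ∈ K ↔ ℓ • E ∈ prin := fun E => Iff.rfl
  let β0 : K →+ prin :=
    { toFun := fun E => ⟨ℓ • (E : P →₀ ℤ), E.2⟩
      map_zero' := by
        apply Subtype.ext
        simp
      map_add' := by
        intro a b
        apply Subtype.ext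
        simp }
  let β : K →+ W := f.comp β0
  let α : K →+ (P →₀ ℤ) ⧸ prin := (QuotientAddGroup.mk' prin).comp K.subtype
  have hker : α.ker = β.ker := by
    ext E
    rw [AddMonoidHom.mem_ker, AddMonoidHom.mem_ker]
    have e1 : α E = 0 ↔ (E : P →₀ ℤ) ∈ prin := by
      change (QuotientAddGroup.mk (s := prin) (E : P →₀ ℤ)) = 0 ↔ _
      exact QuotientAddGroup.eq_zero_iff _
    have e2 : β E = 0 ↔ ∃ E' : prin, β0 E = ℓ • E' := hk (β0 E)
    rw [e1, e2]
    constructor
    · intro h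
      refine ⟨⟨E, h⟩, ?_⟩
      apply Subtype.ext
      rfl
    · rintro ⟨E', h'⟩
      have h3 : ℓ • (E : P →₀ ℤ) = ℓ • (E' : P →₀ ℤ) := by
        have := congrArg (Subtype.val) h'
        exact this
      rw [smul_inj hℓ h3]
      exact E'.2
  have h1 := card_range_eq α β hker
  have h2 : Nat.card {x : (P →₀ ℤ) ⧸ prin // ℓ • x = 0} = Nat.card α.range := by
    apply Nat.card_congr
    refine Equiv.subtypeEquivRight ?_
    intro x
    constructor
    · intro hx
      obtain ⟨E, rfl⟩ := QuotientAddGroup.mk_surjective x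
      have hE : E ∈ K := by
        rw [hKmem, ← QuotientAddGroup.eq_zero_iff]
        exact hx
      exact ⟨⟨E, hE⟩, rfl⟩
    · rintro ⟨E, rfl⟩
      change ℓ • (QuotientAddGroup.mk (s := prin) (E : P →₀ ℤ)) = 0
      have : (QuotientAddGroup.mk (s := prin) (ℓ • (E : P →₀ ℤ))) = 0 :=
        (QuotientAddGroup.eq_zero_iff _).2 E.2
      exact this
  have h3 : f.ker.relIndex (BT prin ℓ ∅) = Nat.card β.range := by
    rw [AddSubgroup.relIndex_ker]
    congr 1
    have : (BT prin ℓ ∅).map f = β.range := by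
      ext v
      constructor
      · rintro ⟨D, hD, rfl⟩
        have hD' : ∀ p, (ℓ : ℤ) ∣ (D : P →₀ ℤ) p := fun p => hD p (by simp)
        obtain ⟨E, hE⟩ := exists_div hℓ (D : P →₀ ℤ) hD'
        have hEK : E ∈ K := by
          rw [hKmem, ← hE]
          exact D.2
        refine ⟨⟨E, hEK⟩, ?_⟩
        change f (β0 ⟨E, hEK⟩) = f D
        congr 1
        apply Subtype.ext
        exact hE.symm
      · rintro ⟨E, rfl⟩
        refine ⟨β0 E, ?_, rfl⟩
        intro p _
        change (ℓ : ℤ) ∣ (ℓ • (E : P →₀ ℤ)) p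
        rw [Finsupp.smul_apply, nsmul_eq_mul]
        exact dvd_mul_right _ _
    rw [this]
  rw [h3, ← h1, h2]

/-- reduction on `T`. -/
def red {P : Type*} (prin : AddSubgroup (P →₀ ℤ)) (ℓ : ℕ) (T : Finset P) :
    prin →+ (T → ZMod ℓ) where
  toFun D := fun p => (((D : P →₀ ℤ) p : ℤ) : ZMod ℓ)
  map_zero' := by
    ext p
    simp
  map_add' := by
    intro a b
    ext p
    simp

/-- the sum map. -/
def sm {P : Type*} (ℓ : ℕ) (T : Finset P) : (T → ZMod ℓ) →+ ZMod ℓ where
  toFun c := ∑ p, c p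
  map_zero' := by simp
  map_add' := by
    intro a b
    simp [Finset.sum_add_distrib]

theorem card_ker_sm {P : Type*} {ℓ : ℕ} (hℓ : ℓ.Prime) (T : Finset P) (t0 : P) (ht : t0 ∈ T) :
    Nat.card (sm (P := P) ℓ T).ker = ℓ ^ (T.card - 1) := by
  classical
  haveI : NeZero ℓ := ⟨hℓ.ne_zero⟩
  have h1 := AddSubgroup.card_mul_index (sm (P := P) ℓ T).ker
  rw [AddSubgroup.index_ker] at h1
  have h2 : (sm (P := P) ℓ T).range = ⊤ := by
    rw [AddMonoidHom.range_eq_top]
    intro x
    refine ⟨fun p => if p = ⟨t0, ht⟩ then x else 0, ?_⟩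
    change ∑ p : T, (if p = ⟨t0, ht⟩ then x else 0) = x
    simp
  rw [h2] at h1
  have h3 : Nat.card (⊤ : AddSubgroup (ZMod ℓ)) = ℓ := by
    rw [AddSubgroup.card_top, Nat.card_zmod]
  have h4 : Nat.card (T → ZMod ℓ) = ℓ ^ T.card := by
    rw [Nat.card_fun, Nat.card_zmod, Nat.card_eq_fintype_card, Fintype.card_coe]
  rw [h3, h4] at h1
  have h5 : T.card = (T.card - 1) + 1 := by
    have : 0 < T.card := Finset.card_pos.2 ⟨t0, ht⟩
    omega
  rw [h5, pow_succ] at h1
  exact Nat.eq_of_mul_eq_mul_right hℓ.pos (by simpa using h1)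

theorem dg_single {P : Type*} (p : P) (a : ℤ) : dg (Finsupp.single p a) = a := by
  simp [dg]

theorem dg_eq {P : Type*} (D : P →₀ ℤ) : dg D = ∑ p ∈ D.support, D p := by
  simp [dg, Finsupp.sum]

theorem dg_mod {P : Type*} {ℓ : ℕ} (T : Finset P) (D : P →₀ ℤ) (h : ∀ p, p ∉ T → (ℓ : ℤ) ∣ D p) :
    (dg D : ZMod ℓ) = ∑ p ∈ T, ((D p : ℤ) : ZMod ℓ) := by
  classical
  rw [dg_eq]
  push_cast
  have h1 : ∑ p ∈ D.support, ((D p : ℤ) : ZMod ℓ) =
      ∑ p ∈ D.support ∪ T, ((D p : ℤ) : ZMod ℓ) := by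
    apply Finset.sum_subset Finset.subset_union_left
    intro p _ hp
    rw [Finsupp.notMem_support_iff.1 hp]
    simp
  have h2 : ∑ p ∈ T, ((D p : ℤ) : ZMod ℓ) =
      ∑ p ∈ D.support ∪ T, ((D p : ℤ) : ZMod ℓ) := by
    apply Finset.sum_subset Finset.subset_union_right
    intro p _ hp
    exact (ZMod.intCast_zmod_eq_zero_iff_dvd _ _).2 (h p hp)
  rw [h1, h2]

theorem map_red {P : Type*} (prin : AddSubgroup (P →₀ ℤ)) (h0 : ∀ D ∈ prin, dg D = 0) {ℓ : ℕ}
    (hℓ : ℓ.Prime) (hdiv : ∀ D : P →₀ ℤ, dg D = 0 → ∃ E : P →₀ ℤ, dg E = 0 ∧ D - ℓ • E ∈ prin)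
    (T : Finset P) (t0 : P) (ht : t0 ∈ T) :
    (BT prin ℓ T).map (red prin ℓ T) = (sm (P := P) ℓ T).ker := by
  classical
  haveI : NeZero ℓ := ⟨hℓ.ne_zero⟩
  ext c
  rw [AddMonoidHom.mem_ker]
  constructor
  · rintro ⟨D, hD, rfl⟩
    change ∑ p : T, (((D : P →₀ ℤ) p : ℤ) : ZMod ℓ) = 0
    have h1 := dg_mod (ℓ := ℓ) T (D : P →₀ ℤ) hD
    rw [h0 _ D.2] at h1
    rw [Finset.sum_coe_sort T (fun p => (((D : P →₀ ℤ) p : ℤ) : ZMod ℓ)), ← h1]
    simp
  · intro hc
    change ∑ p : T, c p = 0 at hc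
    let a : P → ℤ := fun p => if h : p ∈ T then ((c ⟨p, h⟩).val : ℤ) else 0
    let S : ℤ := ∑ p ∈ T, a p
    let D0 : P →₀ ℤ := ∑ p ∈ T, Finsupp.single p (a p)
    let D : P →₀ ℤ := D0 - Finsupp.single t0 S
    have ha : ∀ p (h : p ∈ T), ((a p : ℤ) : ZMod ℓ) = c ⟨p, h⟩ := by
      intro p h
      simp [a, h]
    have hS : ((S : ℤ) : ZMod ℓ) = 0 := by
      rw [← hc]
      change (((∑ p ∈ T, a p : ℤ)) : ZMod ℓ) = _
      push_cast
      rw [← Finset.sum_coe_sort T]
      apply Finset.sum_congr rfl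
      intro p _
      exact ha p p.2
    have hdg : dg D = 0 := by
      change dg (D0 - Finsupp.single t0 S) = 0
      rw [map_sub, dg_single]
      change dg (∑ p ∈ T, Finsupp.single p (a p)) - S = 0
      rw [map_sum]
      simp only [dg_single]
      exact sub_self _
    have hD0 : ∀ p, D0 p = a p := by
      intro p
      change (∑ q ∈ T, Finsupp.single q (a q)) p = a p
      rw [Finsupp.finset_sum_apply]
      by_cases h : p ∈ T
      · rw [Finset.sum_eq_single p]
        · simp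
        · intro q _ hq
          simp [Finsupp.single_apply, hq]
        · intro h'
          exact absurd h h'
      · rw [Finset.sum_eq_zero]
        · simp [a, h]
        · intro q hq
          have : q ≠ p := by
            rintro rfl
            exact h hq
          simp [Finsupp.single_apply, this]
    have hDp : ∀ p, ((D p : ℤ) : ZMod ℓ) = ((a p : ℤ) : ZMod ℓ) := by
      intro p
      change (((D0 - Finsupp.single t0 S) p : ℤ) : ZMod ℓ) = _
      rw [Finsupp.sub_apply, hD0, Finsupp.single_apply]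
      push_cast
      split_ifs with h
      · rw [hS, sub_zero]
      · simp
    obtain ⟨E, -, hE⟩ := hdiv D hdg
    have hD' : ∀ p, (((D - ℓ • E) p : ℤ) : ZMod ℓ) = ((a p : ℤ) : ZMod ℓ) := by
      intro p
      rw [Finsupp.sub_apply, Finsupp.smul_apply, nsmul_eq_mul]
      push_cast
      rw [hDp]
      simp
    refine ⟨⟨D - ℓ • E, hE⟩, ?_, ?_⟩
    · intro p hp
      apply (ZMod.intCast_zmod_eq_zero_iff_dvd _ _).1
      change (((D - ℓ • E) p : ℤ) : ZMod ℓ) = 0
      rw [hD' p]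
      simp [a, hp]
    · funext p
      change (((D - ℓ • E) p : ℤ) : ZMod ℓ) = c p
      rw [hD' p, ha p p.2]

theorem inf_eq {P : Type*} (prin : AddSubgroup (P →₀ ℤ)) (ℓ : ℕ) (T : Finset P) :
    (red prin ℓ T).ker ⊓ BT prin ℓ T = BT prin ℓ ∅ := by
  ext D
  rw [AddSubgroup.mem_inf, AddMonoidHom.mem_ker, mem_BT, mem_BT]
  constructor
  · rintro ⟨h1, h2⟩ p _
    by_cases hp : p ∈ T
    · have h3 := congrFun h1 ⟨p, hp⟩
      exact (ZMod.intCast_zmod_eq_zero_iff_dvd _ _).1 h3
    · exact h2 p hp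
  · intro h
    refine ⟨?_, fun p _ => h p (by simp)⟩
    funext p
    exact (ZMod.intCast_zmod_eq_zero_iff_dvd _ _).2 (h p (by simp))

end AuxFAbs

open AuxFAbs in
/-- the number of classes whose divisor is divisible by `ℓ` outside `T`. -/
theorem card_abs {P : Type*} (prin : AddSubgroup (P →₀ ℤ)) (h0 : ∀ D ∈ prin, dg D = 0) {ℓ : ℕ}
    (hℓ : ℓ.Prime) (hdiv : ∀ D : P →₀ ℤ, dg D = 0 → ∃ E : P →₀ ℤ, dg E = 0 ∧ D - ℓ • E ∈ prin)
    {g : ℕ} (hcard : Nat.card {x : (P →₀ ℤ) ⧸ prin // ℓ • x = 0} = ℓ ^ (2 * g))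
    {W : Type*} [AddCommGroup W] (f : prin →+ W) (hf : Function.Surjective f)
    (hk : ∀ D : prin, f D = 0 ↔ ∃ E : prin, D = ℓ • E) (T : Finset P) :
    Nat.card {v : W // ∃ D : prin, f D = v ∧ ∀ p, p ∉ T → (ℓ : ℤ) ∣ (D : P →₀ ℤ) p} =
      ℓ ^ (2 * g + (T.card - 1)) := by
  have hE := card_empty prin hℓ.ne_zero f hk
  rw [hcard] at hE
  rw [card_A]
  rcases T.eq_empty_or_nonempty with rfl | ⟨t0, ht⟩
  · rw [hE]
    simp
  · have h1 : f.ker ≤ BT prin ℓ ∅ := by
      intro D hD p _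
      obtain ⟨E, rfl⟩ := (hk D).1 hD
      change (ℓ : ℤ) ∣ (ℓ • (E : P →₀ ℤ)) p
      rw [Finsupp.smul_apply, nsmul_eq_mul]
      exact dvd_mul_right _ _
    have h2 : BT prin ℓ ∅ ≤ BT prin ℓ T := by
      intro D hD p _
      exact hD p (by simp)
    have h3 := AddSubgroup.relIndex_mul_relIndex _ _ _ h1 h2
    have h4 : (BT prin ℓ ∅).relIndex (BT prin ℓ T) = ℓ ^ (T.card - 1) := by
      rw [← inf_eq prin ℓ T, AddSubgroup.inf_relIndex_right, AddSubgroup.relIndex_ker,
        map_red prin h0 hℓ hdiv T t0 ht, card_ker_sm hℓ T t0 ht]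
    rw [← h3, hE, h4, pow_add]

end Vale.Agent.P019P
end
end

section

section

/-!
# Gauss valuations over algebraically closed fields
-/

namespace Vale.Agent.P019P

open Polynomial

section mongA

variable {L : Type*} [Field L] {l : Subfield L} {q : ValuationSubring L} {u ϖ : L}

/-- values of linear factors. -/
theorem mong_lin (uq : u ∈ q) (ures : ∀ c ∈ l, c ∈ q → q.valuation (u - c) = 1) (r : l) :
    1 ≤ q.valuation (u - (r : L)) := by
  by_cases h : (r : L) ∈ q
  · exact (ures r r.2 h).ge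
  · have h1 : 1 < q.valuation (r : L) := by
      rw [← not_le, q.valuation_le_one_iff]
      exact h
    have h2 : q.valuation u ≤ 1 := (q.valuation_le_one_iff u).2 uq
    have h3 : q.valuation (u - r) = q.valuation (r : L) := by
      rw [Valuation.map_sub_swap]
      exact Valuation.map_sub_eq_of_lt_left _ (lt_of_le_of_lt h2 h1)
    rw [h3]
    exact h1.le

theorem mong_lead [IsAlgClosed l] (uq : u ∈ q)
    (ures : ∀ c ∈ l, c ∈ q → q.valuation (u - c) = 1) (g : l[X])
    (hg : q.valuation (g.leadingCoeff : L) = 1) : 1 ≤ q.valuation (aeval u g) := by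
  have key : ∀ s : Multiset l, 1 ≤ q.valuation (aeval u (s.map fun a => X - C a).prod) := by
    intro s
    induction s using Multiset.induction_on with
    | empty => simp
    | cons a s ih =>
      rw [Multiset.map_cons, Multiset.prod_cons, map_mul, map_mul, map_sub, aeval_X, aeval_C]
      exact one_le_mul (mong_lin uq ures a) ih
  have h1 := (IsAlgClosed.splits g).eq_prod_roots
  rw [h1, map_mul, aeval_C, map_mul]
  have h2 : q.valuation (algebraMap l L g.leadingCoeff) = 1 := hg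
  rw [h2, one_mul]
  exact key g.roots

theorem mong_gauss_aux [IsAlgClosed l] (uq : u ∈ q)
    (ures : ∀ c ∈ l, c ∈ q → q.valuation (u - c) = 1) (n : ℕ) : ∀ g : l[X],
    g.support.card = n → (∀ i, q.valuation (g.coeff i : L) ≤ 1) →
      q.valuation (aeval u g) < 1 → ∀ i, q.valuation (g.coeff i : L) < 1 := by
  induction n with
  | zero =>
    intro g hn hg h i
    have h1 : g = 0 := by
      rw [Finset.card_eq_zero, support_eq_empty] at hn
      exact hn
    rw [h1]
    simp
  | succ n ih =>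
    intro g hn hg h i
    have hlt : q.valuation (g.leadingCoeff : L) < 1 := by
      refine lt_of_le_of_ne (hg _) fun h1 => ?_
      exact absurd (mong_lead uq ures g h1) (not_le.2 h)
    have h2 : aeval u g.eraseLead = aeval u g - aeval u (monomial g.natDegree g.leadingCoeff) := by
      rw [← map_sub]
      congr 1
      exact eq_sub_of_add_eq g.eraseLead_add_monomial_natDegree_leadingCoeff
    have hu1 : q.valuation u ≤ 1 := (q.valuation_le_one_iff u).2 uq
    have h3 : q.valuation (aeval u (monomial g.natDegree g.leadingCoeff)) < 1 := by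
      rw [aeval_monomial, map_mul, map_pow]
      exact mul_lt_one_of_lt_of_le hlt (pow_le_one₀ zero_le hu1)
    have h4 : q.valuation (aeval u g.eraseLead) < 1 := by
      rw [h2]
      exact lt_of_le_of_lt (Valuation.map_sub _ _ _) (max_lt h h3)
    have h5 : ∀ i, q.valuation (g.eraseLead.coeff i : L) ≤ 1 := by
      intro i
      rw [eraseLead_coeff]
      split_ifs with h6
      · simp
      · exact hg i
    have h6 := ih g.eraseLead (card_support_eraseLead' hn) h5 h4 i
    rw [eraseLead_coeff] at h6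
    split_ifs at h6 with h7
    · rw [h7]
      exact hlt
    · exact h6

/-- Gauss's lemma. -/
theorem mong_gauss [IsAlgClosed l] (uq : u ∈ q)
    (ures : ∀ c ∈ l, c ∈ q → q.valuation (u - c) = 1) {g : l[X]}
    (hg : ∀ i, q.valuation (g.coeff i : L) ≤ 1) (h : q.valuation (aeval u g) < 1) (i : ℕ) :
    q.valuation (g.coeff i : L) < 1 :=
  mong_gauss_aux uq ures _ g rfl hg h i

theorem mong_le (uq : u ∈ q) {g : l[X]} (hg : ∀ i, q.valuation (g.coeff i : L) ≤ 1) :
    q.valuation (aeval u g) ≤ 1 := by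
  have hu1 : q.valuation u ≤ 1 := (q.valuation_le_one_iff u).2 uq
  rw [aeval_eq_sum_range]
  refine Valuation.map_sum_le _ fun i _ => ?_
  rw [Algebra.smul_def, map_mul, map_pow]
  exact mul_le_one₀ (hg i) zero_le (pow_le_one₀ zero_le hu1)

/-- the value of a polynomial is the value of one of its coefficients. -/
theorem mong_norm [IsAlgClosed l] (uq : u ∈ q)
    (ures : ∀ c ∈ l, c ∈ q → q.valuation (u - c) = 1) {g : l[X]} (hg : g ≠ 0) :
    ∃ c : l, c ≠ 0 ∧ (∃ i, g.coeff i = c) ∧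
      (∀ i, q.valuation (g.coeff i : L) ≤ q.valuation (c : L)) ∧
      q.valuation (aeval u g) = q.valuation (c : L) := by
  obtain ⟨i₀, hi₀, hmax⟩ := Finset.exists_max_image g.support
    (fun i => q.valuation (g.coeff i : L)) (nonempty_support_iff.2 hg)
  have hc0 : g.coeff i₀ ≠ 0 := mem_support_iff.1 hi₀
  have hcL : (g.coeff i₀ : L) ≠ 0 := fun h => hc0 (Subtype.ext h)
  have hv0 : q.valuation (g.coeff i₀ : L) ≠ 0 := (_root_.map_ne_zero _).2 hcL
  have hle : ∀ i, q.valuation (g.coeff i : L) ≤ q.valuation (g.coeff i₀ : L) := by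
    intro i
    by_cases hi : i ∈ g.support
    · exact hmax i hi
    · rw [notMem_support_iff.1 hi]
      simp
  refine ⟨g.coeff i₀, hc0, ⟨i₀, rfl⟩, hle, ?_⟩
  have h1 : ∀ i, q.valuation ((C (g.coeff i₀)⁻¹ * g).coeff i : L) ≤ 1 := by
    intro i
    rw [coeff_C_mul]
    push_cast
    rw [map_mul, map_inv₀, inv_mul_le_iff₀ (zero_lt_iff.2 hv0), mul_one]
    exact hle i
  have h2 : q.valuation (aeval u (C (g.coeff i₀)⁻¹ * g)) = 1 := by
    refine le_antisymm (mong_le uq h1) (not_lt.1 fun h3 => ?_)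
    have h4 := mong_gauss uq ures h1 h3 i₀
    rw [coeff_C_mul, inv_mul_cancel₀ hc0] at h4
    simp at h4
  rw [map_mul, aeval_C, map_mul] at h2
  have h5 : q.valuation (algebraMap l L (g.coeff i₀)⁻¹) = (q.valuation (g.coeff i₀ : L))⁻¹ := by
    rw [map_inv₀, map_inv₀]
    rfl
  rw [h5, inv_mul_eq_one₀ hv0] at h2
  exact h2.symm

end mongA

end Vale.Agent.P019P
end
end

section

end

section

section

/-!
# The systems of equations
-/

namespace Vale.Agent.P019P

open Polynomial IntermediateField TensorProduct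

section

variable {A R : Type*} [CommRing A] [CommRing R] [Algebra A R] {S : Set ℕ}

/-! ### Inequivalent classes -/

/-- the unknowns of the linear criterion. -/
abbrev LU (S : Set ℕ) (n D : ℕ) : Type := SD S n ⊕ (Fin 2 × Fin 2 × SD S D)

/-- the equations of the linear criterion. -/
abbrev LV (S : Set ℕ) (D : ℕ) : Type := Fin 2 × Fin 2 × SD S D

/-- the matrix of the linear criterion. -/
noncomputable def Lam (b : Module.Basis S A R) (ℓ n D E : ℕ) (f f' : R) (a a' : Fin 2 → R) :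
    LU S n D → LV S E → A
  | Sum.inl d, e => b.repr (b d.ix * a' e.2.1 * a e.1 ^ (ℓ - 1)) e.2.2.ix
  | Sum.inr d, e => if d.1 = e.1 ∧ d.2.1 = e.2.1 then -b.repr (f * f' * b d.2.2.ix) e.2.2.ix
      else 0

/-- the index set for `N` inequivalent classes. -/
abbrev IT (S : Set ℕ) (N n D E E' : ℕ) : Type :=
  (Fin N × Fin 4 × Fin 2 × SD S D) ⊕ (Fin N × Fin N × LU S n E × LV S E')

/-- an unknown function. -/
noncomputable def uT (b : Module.Basis S A R) {N n D E E' : ℕ} (t : IT S N n D E E' → A)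
    (i : Fin N) (m : Fin 4) (j : Fin 2) : R :=
  el b fun d => t (Sum.inl (i, m, j, d))

/-- the equations for `N` inequivalent classes: the functions `uT t i 0 0` have degree `n`, they
have the data `uT t i m j`, `m = 1, 2, 3`, and the matrices of the linear criterion have left
inverses. -/
structure QT (b : Module.Basis S A R) (ℓ N n D E E' : ℕ) (t : IT S N n D E E' → A) : Prop where
  deg : ∀ (i : Fin N) (d : SD S D), n ≤ (d.1 : ℕ) →
    t (Sum.inl (i, 0, 0, d)) = if (d.1 : ℕ) = n then 1 else 0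
  jt : ∀ i : Fin N, JT ℓ (fun _ : Unit => (1 : R)) (uT b t i 0 0) (fun j => uT b t i 1 j)
    (fun _ j => uT b t i 2 j) fun _ j => uT b t i 3 j
  inv : ∀ i i' : Fin N, i ≠ i' → ∀ c c' : LU S n E,
    ∑ e : LV S E', t (Sum.inr (i, i', c, e)) * Lam b ℓ n E E' (uT b t i 0 0) (uT b t i' 0 0)
      (fun j => uT b t i 1 j) (fun j => uT b t i' 1 j) c' e = if c = c' then 1 else 0

/-! ### Divisibility -/

/-- the index set for divisibility. -/
abbrev ID (S : Set ℕ) (D : ℕ) : Type := (Fin 4 × Fin 2 × Fin 2 × SD S D) ⊕ SD S D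

/-- an unknown function. -/
noncomputable def uD (b : Module.Basis S A R) {D : ℕ} (t : ID S D → A) (m : Fin 4)
    (i j : Fin 2) : R :=
  el b fun d => t (Sum.inl (m, i, j, d))

/-- the equations for divisibility: the function `uD t 0 0 0` is nonzero and has the data
`uD t m i j`, `m = 1, 2, 3`. -/
structure QD (b : Module.Basis S A R) (ℓ : ℕ) {D : ℕ} (p : Fin 2 → R) (t : ID S D → A) :
    Prop where
  jt : JT ℓ p (uD b t 0 0 0) (fun j => uD b t 1 0 j) (fun i j => uD b t 2 i j)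
    fun i j => uD b t 3 i j
  one : ∑ d : SD S D, t (Sum.inr d) * t (Sum.inl (0, 0, 0, d)) = 1

/-! ### Missing functions -/

/-- the index set for missing functions. -/
abbrev IN (S : Set ℕ) (g D : ℕ) : Type := (Fin (g + 3) × SD S D) ⊕ SD S (2 * D)

/-- an unknown function. -/
noncomputable def uN (b : Module.Basis S A R) {g D : ℕ} (t : IN S g D → A)
    (m : Fin (g + 3)) : R :=
  el b fun d => t (Sum.inl (m, d))

/-- the equations for missing functions: `a = uN t (g + 1)` and `q = uN t (g + 2)` satisfy a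
homogeneous monic equation, and a functional kills the multiples of `q` but not `a`. -/
structure QN (b : Module.Basis S A R) {g D : ℕ} (t : IN S g D → A) : Prop where
  eq : uN b t ⟨g + 1, by omega⟩ ^ (g + 1) + ∑ m : Fin (g + 1), uN b t ⟨m, by omega⟩ *
    uN b t ⟨g + 1, by omega⟩ ^ (m : ℕ) * uN b t ⟨g + 2, by omega⟩ ^ (g + 1 - (m : ℕ)) = 0
  ann : ∀ e : SD S D, ∑ d : SD S (2 * D), t (Sum.inr d) *
    b.repr (uN b t ⟨g + 2, by omega⟩ * b e.ix) d.ix = 0
  one : ∑ d : SD S (2 * D), t (Sum.inr d) * b.repr (uN b t ⟨g + 1, by omega⟩) d.ix = 1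

end

end Vale.Agent.P019P
end
end

section

end

section

section

/-!
# Galois stability
-/

namespace Vale.Agent.P019P

open Vale.Agent.P019

set_option linter.style.haveILetI false

open Polynomial

section galaux

variable {Ω : Type*} [Field Ω]

/-- conjugation homomorphisms. -/
theorem exists_conj [IsAlgClosed Ω] {L1 : Subfield Ω} {b b' : Ω} (hb : IsAlgebraic L1 b)
    (hb' : aeval b' (minpoly L1 b) = 0) :
    ∃ τ : rac L1 →+* Ω, (∀ c (hc : c ∈ L1), τ ⟨c, le_rac L1 hc⟩ = c) ∧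
      τ ⟨b, mem_rac.2 hb⟩ = b' := by
  haveI : Algebra.IsAlgebraic L1 (algebraicClosure L1 Ω) := algebraicClosure.isAlgebraic L1 Ω
  have h1 := Algebra.IsAlgebraic.range_eval_eq_rootSet_minpoly (F := L1)
    (K := algebraicClosure L1 Ω) Ω (⟨b, mem_algebraicClosure_iff.2 hb⟩ : algebraicClosure L1 Ω)
  have h2 : b' ∈ (minpoly L1 (⟨b, mem_algebraicClosure_iff.2 hb⟩ :
      algebraicClosure L1 Ω)).rootSet Ω := by
    rw [mem_rootSet]
    have h3 : minpoly L1 (⟨b, mem_algebraicClosure_iff.2 hb⟩ : algebraicClosure L1 Ω) =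
        minpoly L1 b := by
      rw [← minpoly.algebraMap_eq (algebraMap (algebraicClosure L1 Ω) Ω).injective]
      rfl
    rw [h3]
    exact ⟨minpoly.ne_zero hb.isIntegral, hb'⟩
  rw [← h1] at h2
  obtain ⟨ψ, hψ⟩ := h2
  let i : rac L1 →+* algebraicClosure L1 Ω :=
    { toFun := fun z => ⟨z.1, z.2⟩
      map_one' := rfl
      map_mul' := fun _ _ => rfl
      map_zero' := rfl
      map_add' := fun _ _ => rfl }
  refine ⟨ψ.toRingHom.comp i, fun c hc => ?_, hψ⟩
  have h4 := ψ.commutes ⟨c, hc⟩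
  exact h4

end galaux

section pigeon

/-- Pigeonhole for two nested equivalence relations. -/
theorem pigeon {α : Type*} (P : α → Prop) (R S : α → α → Prop)
    (hRs : ∀ x y, P x → P y → R x y → R y x)
    (hRt : ∀ x y z, P x → P y → P z → R x y → R y z → R x z) (hRr : ∀ x, P x → R x x)
    (N N' : ℕ)
    (h1 : ∀ x : Fin (N + 1) → α, (∀ i, P (x i)) → ∃ i j, i ≠ j ∧ R (x i) (x j))
    (h2 : ∀ x : Fin (N' + 1) → α, (∀ i, P (x i)) → (∀ i j, R (x i) (x j)) →
      ∃ i j, i ≠ j ∧ S (x i) (x j))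
    (hinf : ∀ M : ℕ, ∃ x : Fin M → α, (∀ i, P (x i)) ∧ ∀ i j, i ≠ j → ¬ S (x i) (x j)) :
    False := by
  classical
  obtain ⟨x, hxP, hx⟩ := hinf (N * N' + 1)
  let s : Setoid (Fin (N * N' + 1)) :=
    { r := fun i j => R (x i) (x j)
      iseqv := ⟨fun i => hRr _ (hxP i), fun {i j} h => hRs _ _ (hxP i) (hxP j) h,
        fun {i j k} h h' => hRt _ _ _ (hxP i) (hxP j) (hxP k) h h'⟩ }
  let f : Fin (N * N' + 1) → Quotient s := fun i => Quotient.mk s i
  have hf : ∀ i j, f i = f j ↔ R (x i) (x j) := fun i j => Quotient.eq (r := s)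
  have hcard : (Finset.univ.image f).card ≤ N := by
    by_contra hcon
    push Not at hcon
    obtain ⟨t, ht, htc⟩ := Finset.exists_subset_card_eq (Nat.succ_le_of_lt hcon)
    have hpre : ∀ q : t, ∃ i, f i = (q : Quotient s) := by
      intro q
      have := ht q.2
      rw [Finset.mem_image] at this
      obtain ⟨i, -, hi⟩ := this
      exact ⟨i, hi⟩
    choose g hg using hpre
    let e : Fin (N + 1) ≃ t := (Finset.equivFinOfCardEq htc).symm
    obtain ⟨i, j, hij, hR⟩ := h1 (fun i => x (g (e i))) (fun i => hxP _)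
    apply hij
    have h3 := (hf _ _).2 hR
    rw [hg, hg] at h3
    exact e.injective (Subtype.ext h3)
  have hlt : (Finset.univ.image f).card * N' < (Finset.univ : Finset (Fin (N * N' + 1))).card := by
    rw [Finset.card_univ, Fintype.card_fin]
    exact Nat.lt_succ_of_le (Nat.mul_le_mul_right _ hcard)
  obtain ⟨q, -, hq⟩ := Finset.exists_lt_card_fiber_of_mul_lt_card_of_maps_to
    (fun i hi => Finset.mem_image_of_mem f hi) hlt
  obtain ⟨t, ht, htc⟩ := Finset.exists_subset_card_eq (Nat.succ_le_of_lt hq)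
  let e : Fin (N' + 1) ≃ t := (Finset.equivFinOfCardEq htc).symm
  have hfe : ∀ i, f (e i : Fin (N * N' + 1)) = q := by
    intro i
    have := ht (e i).2
    rw [Finset.mem_filter] at this
    exact this.2
  obtain ⟨i, j, hij, hS⟩ := h2 (fun i => x (e i : Fin (N * N' + 1))) (fun i => hxP _)
    (fun i j => (hf _ _).1 ((hfe i).trans (hfe j).symm))
  refine hx _ _ ?_ hS
  intro h3
  exact hij (e.injective (Subtype.ext h3))

end pigeon

section roots

variable {Ω : Type*} [Field Ω] [IsAlgClosed Ω]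

end roots

/-- S61 Galois stability. -/
theorem gal {Ω : Type*} [Field Ω] [IsAlgClosed Ω] (ℓ : ℕ) [Fact ℓ.Prime]
    [NeZero (ℓ : Ω)]
    {l1 L1 : Subfield Ω} (hl1 : IsAlgClosed l1) (hfg : FG l1 L1) {b : Ω} (hb : IsAlgebraic L1 b)
    (hbl : b ∉ l1) (X : Set Ω) (hX : ∀ x ∈ X, x ∈ L1 ∧ x ≠ 0)
    (hinf : ∀ N : ℕ, ∃ x : Fin N → Ω, (∀ i, x i ∈ X) ∧
      ∀ i j, i ≠ j → ¬ ∃ w ∈ L1, x i = x j * w ^ ℓ)
    (hpow : ∀ x ∈ X, ∃ r ∈ L1 ⊔ rac (adj l1 b), r ^ ℓ = x) :
    (∃ y0 ∈ rac (adj l1 b) ⊓ L1, y0 ∉ l1) ∧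
    ∀ x ∈ X, ∃ e ∈ rac (adj l1 b) ⊓ L1, ∃ w ∈ L1, x = e * w ^ ℓ := by
  classical
  have hℓ : ℓ.Prime := Fact.out
  haveI : NeZero ℓ := ⟨hℓ.ne_zero⟩
  have hlL : l1 ≤ L1 := hfg.le
  haveI : PerfectField L1 := hfg.perfect
  have hRl : RAC l1 := RAC_of_isAlgClosed l1 hl1
  -- a primitive root of unity
  obtain ⟨ζ, hζl, hζ⟩ : ∃ ζ ∈ l1, IsPrimitiveRoot ζ ℓ := finK_prim hl1 ℓ
  obtain ⟨B, hBdef⟩ : ∃ B, B = rac (adj l1 b) := ⟨_, rfl⟩
  have hBR : RAC B := by rw [hBdef]; exact RAC_rac _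
  haveI : PerfectField B := perfect_of_RAC hBR
  have hbB : b ∈ B := by rw [hBdef]; exact le_rac _ (mem_adj l1 b)
  have hlB : l1 ≤ B := by rw [hBdef]; exact (le_adj l1 b).trans (le_rac _)
  have hBA : B ≤ rac L1 := by
    intro z hz
    rw [hBdef, mem_rac] at hz
    have h1 : adj l1 b ≤ rac L1 := adj_le (hlL.trans (le_rac L1)) (mem_rac.2 hb)
    exact RAC_rac L1 z (isAlgebraic_mono h1 hz)
  -- STEP 1
  have step1 : ∀ b' : Ω, aeval b' (minpoly L1 b) = 0 → b' ∈ B := by
    intro b' hb'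
    by_contra hbB'
    obtain ⟨τ, hτL, hτb⟩ := exists_conj hb hb'
    obtain ⟨B', hB'def⟩ : ∃ B', B' = rac (adj l1 b') := ⟨_, rfl⟩
    have hB'R : RAC B' := by rw [hB'def]; exact RAC_rac _
    have hb'B' : b' ∈ B' := by rw [hB'def]; exact le_rac _ (mem_adj l1 b')
    have hlB' : l1 ≤ B' := by rw [hB'def]; exact (le_adj l1 b').trans (le_rac _)
    -- image of `B`
    have hadjA : adj l1 b ≤ rac L1 := adj_le (hlL.trans (le_rac L1)) (mem_rac.2 hb)
    have hadj : ∀ c (hc : c ∈ adj l1 b), τ ⟨c, hadjA hc⟩ ∈ adj l1 b' := by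
      have h1 : Vale.Agent.P019.adj l1 b ≤
          (Subfield.comap τ (adj l1 b')).map (rac L1).subtype := by
        refine Vale.Agent.P019.adj_le ?_ ?_
        · intro c hc
          refine ⟨⟨c, le_rac L1 (hlL hc)⟩, ?_, rfl⟩
          change τ ⟨c, le_rac L1 (hlL hc)⟩ ∈ adj l1 b'
          rw [hτL c (hlL hc)]
          exact le_adj l1 b' hc
        · refine ⟨⟨b, mem_rac.2 hb⟩, ?_, rfl⟩
          change τ ⟨b, mem_rac.2 hb⟩ ∈ adj l1 b'
          rw [hτb]
          exact mem_adj l1 b'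
      intro c hc
      obtain ⟨n, hn⟩ := mem_adj_iff.1 hc
      obtain ⟨a, ha, hae⟩ := h1 hn
      have h2 : (⟨c, hadjA hc⟩ : rac L1) ^ ringExpChar Ω ^ n = a := Subtype.ext hae.symm
      have h3 : (τ ⟨c, hadjA hc⟩) ^ ringExpChar Ω ^ n ∈ adj l1 b' := by
        rw [← map_pow, h2]
        exact ha
      exact mem_of_pow_q h3
    have hτB : ∀ c (hc : c ∈ B), τ ⟨c, hBA hc⟩ ∈ B' := by
      intro c hc
      rw [hB'def, mem_rac]
      have hc' : IsAlgebraic (adj l1 b) c := by
        rw [hBdef] at hc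
        exact mem_rac.1 hc
      exact isAlgebraic_image τ hadjA hadj (hBA hc) hc'
    -- the big field
    obtain ⟨Λ, hΛdef⟩ : ∃ Λ, Λ = pf (L1 ⊔ Subfield.closure (({b, b'} : Finset Ω) : Set Ω)) :=
      ⟨_, rfl⟩
    have hfgL : FG L1 Λ := ⟨{b, b'}, hΛdef⟩
    have hLΛ : L1 ≤ Λ := hfgL.le
    haveI : PerfectField Λ := hfgL.perfect
    have hbΛ : b ∈ Λ := by
      rw [hΛdef]
      exact (le_sup_right.trans (le_pf _) : Subfield.closure (({b, b'} : Finset Ω) : Set Ω) ≤ _)
        (Subfield.subset_closure (by simp))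
    have hb'Λ : b' ∈ Λ := by
      rw [hΛdef]
      exact (le_sup_right.trans (le_pf _) : Subfield.closure (({b, b'} : Finset Ω) : Set Ω) ≤ _)
        (Subfield.subset_closure (by simp))
    have hfgΛ : FG l1 Λ := hfg.trans hfgL
    -- Kummer descent for both
    have descent : ∀ (C : Subfield Ω) (c : Ω), C = rac (adj l1 c) → c ∈ Λ → ∀ x ∈ X, ∀ r ∈ L1 ⊔ C,
        r ^ ℓ = x → ∃ e ∈ C ⊓ Λ, ∃ w ∈ Λ, x = e * w ^ ℓ := by
      intro C c hC hcΛ x hx r hr hrx
      have hCR : RAC C := by rw [hC]; exact RAC_rac _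
      haveI : PerfectField C := perfect_of_RAC hCR
      have hlC : l1 ≤ C := by rw [hC]; exact (le_adj l1 c).trans (le_rac _)
      have hcC : c ∈ C := by rw [hC]; exact le_rac _ (mem_adj l1 c)
      have hadjC : adj l1 c ≤ C ⊓ Λ :=
        adj_le (le_inf hlC (hlL.trans hLΛ)) (Subfield.mem_inf.2 ⟨hcC, hcΛ⟩)
      refine kummer_descent ℓ (C ⊓ Λ) Λ C inf_le_right ?_ ?_ ζ ?_ hζ (hLΛ (hX x hx).1)
        (hX x hx).2 (sup_le_sup_right hLΛ C hr) hrx
      · intro z hz hza
        exact Subfield.mem_inf.2 ⟨hCR z (isAlgebraic_mono inf_le_left hza), hz⟩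
      · intro z hz
        rw [hC, mem_rac] at hz
        exact isAlgebraic_mono hadjC hz
      · exact hadjC (le_adj l1 c hζl)
    obtain ⟨N, hN⟩ := int_fin ℓ (E₁ := B ⊓ Λ) (E₂ := B' ⊓ Λ) (y := b') hl1 hfgΛ
      (le_inf hlB (hlL.trans hLΛ)) (le_inf hlB' (hlL.trans hLΛ)) inf_le_right inf_le_right
      (Subfield.mem_inf.2 ⟨hb'B', hb'Λ⟩)
      (fun h => hbB' (hBR b' (isAlgebraic_mono inf_le_left h)))
      (fun z hz => by
        have h1 := (Subfield.mem_inf.1 hz).1
        rw [hB'def, mem_rac] at h1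
        exact h1)
    obtain ⟨N', hN'⟩ := fk ℓ hfgL (hlL hζl) hζ
    refine pigeon (fun x => x ∈ X) (fun x y => ∃ w ∈ Λ, x = y * w ^ ℓ)
      (fun x y => ∃ w ∈ L1, x = y * w ^ ℓ) ?_ ?_ ?_ N N' ?_ ?_ hinf
    · rintro x y hx hy ⟨w, hw, h⟩
      have hw0 : w ≠ 0 := by
        rintro rfl
        rw [zero_pow hℓ.ne_zero, mul_zero] at h
        exact (hX x hx).2 h
      refine ⟨w⁻¹, Λ.inv_mem hw, ?_⟩
      rw [h, inv_pow, mul_inv_cancel_right₀ (pow_ne_zero _ hw0)]
    · rintro x y z - - - ⟨w, hw, h⟩ ⟨w', hw', h'⟩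
      refine ⟨w' * w, Λ.mul_mem hw' hw, ?_⟩
      rw [h, h', mul_pow, mul_assoc]
    · intro x _
      exact ⟨1, Λ.one_mem, by rw [one_pow, mul_one]⟩
    · intro x hx
      have h1 : ∀ i, ∃ e ∈ B ⊓ Λ, ∃ w ∈ Λ, x i = e * w ^ ℓ := by
        intro i
        obtain ⟨r, hr, hrx⟩ := hpow (x i) (hx i)
        rw [← hBdef] at hr
        exact descent B b hBdef hbΛ (x i) (hx i) r hr hrx
      have h2 : ∀ i, ∃ e ∈ B' ⊓ Λ, ∃ w ∈ Λ, x i = e * w ^ ℓ := by
        intro i
        obtain ⟨r, hr, hrx⟩ := hpow (x i) (hx i)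
        rw [← hBdef] at hr
        have hrA : r ∈ rac L1 := (sup_le (le_rac L1) hBA) hr
        have h3 := image_sup τ (le_rac L1) hBA hτL hτB hr hrA
        refine descent B' b' hB'def hb'Λ (x i) (hx i) _ h3 ?_
        rw [← map_pow]
        have h4 : (⟨r, hrA⟩ : rac L1) ^ ℓ = ⟨x i, le_rac L1 (hX _ (hx i)).1⟩ := Subtype.ext hrx
        rw [h4]
        exact hτL _ (hX _ (hx i)).1
      choose e he w hw hew using h1
      choose e' he' w' hw' hew' using h2
      have hw0 : ∀ i, w i ≠ 0 := by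
        intro i h0
        have h3 := hew i
        rw [h0, zero_pow hℓ.ne_zero, mul_zero] at h3
        exact (hX _ (hx i)).2 h3
      have he0 : ∀ i, e i ≠ 0 := by
        intro i h0
        have h3 := hew i
        rw [h0, zero_mul] at h3
        exact (hX _ (hx i)).2 h3
      obtain ⟨i, j, hij, v, hv, hv0, hvij⟩ := hN e (fun i => ⟨he i, he0 i, e' i, he' i,
        w' i / w i, Λ.div_mem (hw' i) (hw i), by
          rw [div_pow, ← mul_div_assoc, ← hew' i, hew i,
            mul_div_cancel_right₀ _ (pow_ne_zero _ (hw0 i))]⟩)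
      refine ⟨i, j, hij, v * w i / w j,
        Λ.div_mem (Λ.mul_mem (Subfield.mem_inf.1 hv).2 (hw i)) (hw j), ?_⟩
      rw [hew i, hew j, hvij, div_pow, mul_pow]
      have h4 := pow_ne_zero ℓ (hw0 j)
      field_simp
    · intro x hx hR
      have hx0 : ∀ i, x i ≠ 0 := fun i => (hX _ (hx i)).2
      obtain ⟨i, j, hij, v, hv, hv0, hvij⟩ := hN' (fun i => x i / x 0) (fun i => by
        obtain ⟨w, hw, h⟩ := hR i 0
        refine ⟨L1.div_mem (hX _ (hx i)).1 (hX _ (hx 0)).1, div_ne_zero (hx0 i) (hx0 0), w, hw, ?_⟩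
        rw [h, mul_div_cancel_left₀ _ (hx0 0)])
      refine ⟨i, j, hij, v, hv, ?_⟩
      have h0 := hx0 0
      field_simp at hvij
      exact hvij
  -- STEP 2
  have hbtr : ¬ IsAlgebraic l1 b := fun h => hbl (hRl b h)
  have step2 : ∃ y0 ∈ B ⊓ L1, y0 ∉ l1 := by
    by_contra hcon
    push Not at hcon
    apply hbtr
    have hmon := minpoly.monic hb.isIntegral
    have hcoef : ∀ i, (((minpoly L1 b).coeff i : L1) : Ω) ∈ l1 := by
      intro i
      apply hcon
      exact Subfield.mem_inf.2 ⟨coeff_mem_of_roots hmon step1 i, ((minpoly L1 b).coeff i).2⟩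
    have hlift : minpoly L1 b ∈ Polynomial.lifts (Subfield.inclusion hlL) := by
      rw [Polynomial.lifts_iff_coeff_lifts]
      intro i
      exact ⟨⟨_, hcoef i⟩, Subtype.ext rfl⟩
    obtain ⟨Q, hQ⟩ := hlift
    refine ⟨Q, ?_, ?_⟩
    · rintro rfl
      rw [map_zero] at hQ
      exact hmon.ne_zero hQ.symm
    · have h1 := minpoly.aeval L1 b
      rw [← hQ, coe_mapRingHom, aeval_def, eval₂_map] at h1
      rw [aeval_def]
      exact h1
  -- STEP 3
  obtain ⟨y0, hy0, hy0l⟩ := step2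
  refine ⟨⟨y0, by rw [← hBdef]; exact hy0, hy0l⟩, ?_⟩
  intro x hx
  rw [← hBdef]
  have hy0B : IsAlgebraic (adj l1 b) y0 := by
    have h1 := (Subfield.mem_inf.1 hy0).1
    rw [hBdef, mem_rac] at h1
    exact h1
  have hbalg : IsAlgebraic (adj l1 y0) b := exchange (fun h => hy0l (hRl y0 h)) hy0B
  have hadjE : adj l1 y0 ≤ B ⊓ L1 := adj_le (le_inf hlB hlL) hy0
  have hBE : ∀ z ∈ B, IsAlgebraic (B ⊓ L1 : Subfield Ω) z := by
    intro z hz
    rw [hBdef, mem_rac] at hz
    have h1 : adj l1 b ≤ rac (adj l1 y0) :=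
      adj_le ((le_adj l1 y0).trans (le_rac _)) (mem_rac.2 hbalg)
    have h2 := RAC_rac _ z (isAlgebraic_mono h1 hz)
    exact isAlgebraic_mono hadjE (mem_rac.1 h2)
  obtain ⟨r, hr, hrx⟩ := hpow x hx
  rw [← hBdef] at hr
  exact kummer_descent ℓ (B ⊓ L1) L1 B inf_le_right
    (fun z hz hza => Subfield.mem_inf.2 ⟨hBR z (isAlgebraic_mono inf_le_left hza), hz⟩)
    hBE ζ (hadjE (le_adj l1 y0 hζl)) hζ (hX x hx).1 (hX x hx).2 hr hrx


end Vale.Agent.P019P
end
end

section

section

/-!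
# Assembly 4: lines go to fields of transcendence degree one
-/

namespace Vale.Agent.P019P

open Vale.Agent.P019

set_option linter.style.haveILetI false

open Polynomial

section glob

variable {K L : Type*} [Field K] [Field L] [PerfectField K] [PerfectField L] {ℓ : ℕ} [Fact ℓ.Prime]
  [NeZero (ℓ : K)] [NeZero (ℓ : L)]

/-- the local statement for a pair. -/
structure LF (M : Mdl K) (M' : Mdl L) (Θ : V ℓ K ≃ₗ[ZMod ℓ] V ℓ L) (t : K) (N' E : Subfield L) :
    Prop where
  sub : M'.Sub N'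
  le : N' ≤ E
  leF : E ≤ M'.F N'
  ne : ∃ y0 ∈ E, y0 ∉ N'
  rac : ∀ x ∈ M'.F N', IsAlgebraic E x → x ∈ E
  deg : ∀ y0 ∈ E, y0 ∉ N' → ∀ x ∈ E, IsAlgebraic (adj N' y0) x
  iff : ∀ u ∈ VS ℓ (M'.F N'), Θ.symm u ∈ VS ℓ (adj M.k t) ↔ u ∈ VS ℓ E

variable {M : Mdl K} {M' : Mdl L} {Θ : V ℓ K ≃ₗ[ZMod ℓ] V ℓ L}

end glob

end Vale.Agent.P019P
end
end

section

section

/-!
# Composite valuation rings, unique extensions
-/

namespace Vale.Agent.P019P

open Vale.Agent.P019

set_option linter.style.haveILetI false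
set_option linter.unusedSectionVars false

open Polynomial Filter

/-- composite valuation ring: the elements of `W` whose residue lies in `P`. -/
noncomputable def compos {K : Type*} [Field K] (W : ValuationSubring K)
    (P : ValuationSubring (IsLocalRing.ResidueField W)) : ValuationSubring K where
  carrier := {z | z ∈ W ∧ rs W z ∈ P}
  mul_mem' := by
    rintro x y ⟨hx, hx'⟩ ⟨hy, hy'⟩
    exact ⟨mul_mem hx hy, by rw [rs_mul hx hy]; exact mul_mem hx' hy'⟩
  one_mem' := ⟨one_mem _, by rw [rs_one]; exact one_mem _⟩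
  add_mem' := by
    rintro x y ⟨hx, hx'⟩ ⟨hy, hy'⟩
    exact ⟨add_mem hx hy, by rw [rs_add hx hy]; exact add_mem hx' hy'⟩
  zero_mem' := ⟨zero_mem _, by rw [rs_zero]; exact zero_mem _⟩
  neg_mem' := by
    rintro x ⟨hx, hx'⟩
    exact ⟨neg_mem hx, by rw [rs_neg hx]; exact neg_mem hx'⟩
  mem_or_inv_mem' := by
    intro x
    by_cases h0 : W.valuation x = 1
    · have hx := mem_of_val h0
      have h1 : W.valuation x⁻¹ = 1 := by rw [map_inv₀, h0, inv_one]
      rcases P.mem_or_inv_mem (rs W x) with h | h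
      · exact Or.inl ⟨hx, h⟩
      · exact Or.inr ⟨mem_of_val h1, by rw [rs_inv h0]; exact h⟩
    · rcases W.mem_or_inv_mem x with h | h
      · left
        have h1 : W.valuation x < 1 := lt_of_le_of_ne ((W.valuation_le_one_iff x).2 h) h0
        exact ⟨h, by rw [(rs_eq_zero h).2 h1]; exact zero_mem _⟩
      · right
        have h2 : W.valuation x⁻¹ ≠ 1 := by
          rw [map_inv₀]
          intro h3
          exact h0 (inv_eq_one.1 h3)
        have h1 : W.valuation x⁻¹ < 1 := lt_of_le_of_ne ((W.valuation_le_one_iff _).2 h) h2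
        exact ⟨h, by rw [(rs_eq_zero h).2 h1]; exact zero_mem _⟩

theorem mem_compos {K : Type*} [Field K] {W : ValuationSubring K}
    {P : ValuationSubring (IsLocalRing.ResidueField W)} {z : K} :
    z ∈ compos W P ↔ z ∈ W ∧ rs W z ∈ P := Iff.rfl

end Vale.Agent.P019P
end
end

section

section

/-!
# Residues of the constants, adapted functionals and their transfer
-/

namespace Vale.Agent.P019P

open Vale.Agent.P019

set_option linter.style.haveILetI false
set_option linter.unusedSectionVars false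

open Polynomial Filter

section rbar

variable {K : Type*} [Field K]

/-- the field of the residues of the elements of `k ∩ W`. -/
noncomputable def rbar (k : Subfield K) (W : ValuationSubring K) :
    Subfield (IsLocalRing.ResidueField W) where
  carrier := {c | ∃ z ∈ k, z ∈ W ∧ rs W z = c}
  mul_mem' := by
    rintro _ _ ⟨x, hx, hxW, rfl⟩ ⟨y, hy, hyW, rfl⟩
    exact ⟨x * y, k.mul_mem hx hy, mul_mem hxW hyW, rs_mul hxW hyW⟩
  one_mem' := ⟨1, k.one_mem, one_mem _, rs_one⟩
  add_mem' := by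
    rintro _ _ ⟨x, hx, hxW, rfl⟩ ⟨y, hy, hyW, rfl⟩
    exact ⟨x + y, k.add_mem hx hy, add_mem hxW hyW, rs_add hxW hyW⟩
  zero_mem' := ⟨0, k.zero_mem, zero_mem _, rs_zero⟩
  neg_mem' := by
    rintro _ ⟨x, hx, hxW, rfl⟩
    exact ⟨-x, k.neg_mem hx, neg_mem hxW, rs_neg hxW⟩
  inv_mem' := by
    rintro _ ⟨x, hx, hxW, rfl⟩
    by_cases h : W.valuation x = 1
    · refine ⟨x⁻¹, k.inv_mem hx, ?_, rs_inv h⟩
      rw [← W.valuation_le_one_iff, map_inv₀, h, inv_one]
    · have h0 : rs W x = 0 := by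
        rw [rs_eq_zero hxW]
        exact lt_of_le_of_ne ((W.valuation_le_one_iff x).2 hxW) h
      exact ⟨0, k.zero_mem, zero_mem _, by rw [h0, inv_zero, rs_zero]⟩

theorem mem_rbar {k : Subfield K} {W : ValuationSubring K} {c : IsLocalRing.ResidueField W} :
    c ∈ rbar k W ↔ ∃ z ∈ k, z ∈ W ∧ rs W z = c := Iff.rfl

theorem rs_mem_rbar {k : Subfield K} {W : ValuationSubring K} {z : K} (hz : z ∈ k)
    (hzW : z ∈ W) : rs W z ∈ rbar k W := ⟨z, hz, hzW, rfl⟩

theorem rbar_eq_bar {k : Subfield K} {W : ValuationSubring K} (h : TrivOn W k) :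
    rbar k W = bar h := by
  ext c
  rw [mem_rbar, mem_bar]
  exact ⟨fun ⟨z, hz, _, hc⟩ => ⟨z, hz, hc⟩, fun ⟨z, hz, hc⟩ => ⟨z, hz, h z hz, hc⟩⟩

theorem rbar_mono {k k' : Subfield K} (h : k ≤ k') (W : ValuationSubring K) :
    rbar k W ≤ rbar k' W := fun _ ⟨z, hz, hzW, hc⟩ => ⟨z, h hz, hzW, hc⟩

/-- the residue field of the constants is algebraically closed. -/
theorem rbar_ac {k : Subfield K} (hk : IsAlgClosed k) (W : ValuationSubring K) :
    IsAlgClosed (rbar k W) := by
  classical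
  apply IsAlgClosed.of_exists_root
  intro p hp hirr
  have hdeg : p.natDegree ≠ 0 := (natDegree_pos_iff_degree_pos.2 (degree_pos_of_irreducible hirr)).ne'
  set n := p.natDegree with hn
  have hz : ∀ i : ℕ, ∃ z ∈ k, z ∈ W ∧ rs W z = (p.coeff i : IsLocalRing.ResidueField W) :=
    fun i => (p.coeff i).2
  choose z hzk hzW hzr using hz
  -- the lift to `k`
  set P : k[X] := X ^ n + ∑ i ∈ Finset.range n, C (⟨z i, hzk i⟩ : k) * X ^ i with hP
  have hlt : (∑ i ∈ Finset.range n, C (⟨z i, hzk i⟩ : k) * X ^ i).degree < (n : WithBot ℕ) := by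
    rw [← mem_degreeLT]
    refine Submodule.sum_mem _ fun i hi => ?_
    rw [mem_degreeLT]
    refine lt_of_le_of_lt (degree_C_mul_X_pow_le i _) ?_
    exact_mod_cast Finset.mem_range.1 hi
  have hPm : P.Monic := monic_X_pow_add hlt
  have hPd : P.degree ≠ 0 := by
    rw [hP, degree_add_eq_left_of_degree_lt (by rwa [degree_X_pow]), degree_X_pow]
    exact_mod_cast hdeg
  obtain ⟨x, hx⟩ := IsAlgClosed.exists_root P hPd
  have hxK : (x : K) ^ n + ∑ i ∈ Finset.range n, z i * (x : K) ^ i = 0 := by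
    have h1 : P.eval x = 0 := hx
    rw [hP, eval_add, eval_pow, eval_X, eval_finsetSum] at h1
    have h2 := congrArg (fun y : k => (y : K)) h1
    simpa using h2
  -- integrality
  set Q : W[X] := X ^ n + ∑ i ∈ Finset.range n, C (⟨z i, hzW i⟩ : W) * X ^ i with hQ
  have hlt' : (∑ i ∈ Finset.range n, C (⟨z i, hzW i⟩ : W) * X ^ i).degree < (n : WithBot ℕ) := by
    rw [← mem_degreeLT]
    refine Submodule.sum_mem _ fun i hi => ?_
    rw [mem_degreeLT]
    refine lt_of_le_of_lt (degree_C_mul_X_pow_le i _) ?_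
    exact_mod_cast Finset.mem_range.1 hi
  have hQm : Q.Monic := monic_X_pow_add hlt'
  have hint : IsIntegral W (x : K) := by
    refine ⟨Q, hQm, ?_⟩
    rw [hQ, eval₂_add, eval₂_pow, eval₂_X, eval₂_finsetSum]
    have h3 : ∀ i, eval₂ (algebraMap W K) (x : K) (C (⟨z i, hzW i⟩ : W) * X ^ i) =
        z i * (x : K) ^ i := by
      intro i
      rw [eval₂_mul, eval₂_C, eval₂_pow, eval₂_X]
      rfl
    rw [Finset.sum_congr rfl fun i _ => h3 i]
    exact hxK
  obtain ⟨y, hy⟩ := IsIntegrallyClosed.isIntegral_iff.1 hint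
  have hyx : (y : K) = (x : K) := hy
  have hxW : (x : K) ∈ W := hyx ▸ y.2
  refine ⟨⟨rs W (x : K), rs_mem_rbar x.2 hxW⟩, ?_⟩
  have hyW : y ^ n + ∑ i ∈ Finset.range n, (⟨z i, hzW i⟩ : W) * y ^ i = 0 := by
    apply Subtype.ext
    have h4 := hxK
    rw [← hyx] at h4
    push_cast
    simpa using h4
  have hres := congrArg (IsLocalRing.residue W) hyW
  rw [map_add, map_pow, map_sum, map_zero] at hres
  have e1 : IsLocalRing.residue W y = rs W (x : K) := by
    rw [rs_of_mem hxW]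
    congr 1
    exact Subtype.ext hyx
  have e2 : ∀ i, IsLocalRing.residue W ((⟨z i, hzW i⟩ : W) * y ^ i) =
      (p.coeff i : IsLocalRing.ResidueField W) * rs W (x : K) ^ i := by
    intro i
    rw [map_mul, map_pow, e1, ← hzr i, rs_of_mem (hzW i)]
  rw [e1, Finset.sum_congr rfl fun i _ => e2 i] at hres
  apply Subtype.ext
  rw [hp.as_sum, eval_add, eval_pow, eval_X, eval_finsetSum]
  rw [← hn]
  simpa using hres

end rbar

section RF

variable {K : Type*} [Field K]

/-- the perfect closure of the residue field. -/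
def RFP (W : ValuationSubring K) : Type _ :=
  perfectClosure (IsLocalRing.ResidueField W) (AlgebraicClosure (IsLocalRing.ResidueField W))

noncomputable instance (W : ValuationSubring K) : Field (RFP W) :=
  inferInstanceAs (Field (perfectClosure (IsLocalRing.ResidueField W)
    (AlgebraicClosure (IsLocalRing.ResidueField W))))

instance (W : ValuationSubring K) : PerfectField (RFP W) :=
  inferInstanceAs (PerfectField (perfectClosure (IsLocalRing.ResidueField W)
    (AlgebraicClosure (IsLocalRing.ResidueField W))))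

/-- the embedding of the residue field in its perfect closure. -/
noncomputable def rf (W : ValuationSubring K) : IsLocalRing.ResidueField W →+* RFP W :=
  algebraMap (IsLocalRing.ResidueField W) (perfectClosure (IsLocalRing.ResidueField W)
    (AlgebraicClosure (IsLocalRing.ResidueField W)))

theorem rf_pow (W : ValuationSubring K) (x : RFP W) :
    ∃ (m : ℕ) (y : IsLocalRing.ResidueField W),
      rf W y = x ^ ringExpChar (IsLocalRing.ResidueField W) ^ m := by
  have h := x.2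
  rw [mem_perfectClosure_iff] at h
  obtain ⟨m, y, hy⟩ := h
  refine ⟨m, y, Subtype.ext ?_⟩
  exact hy

theorem rf_injective (W : ValuationSubring K) : Function.Injective (rf W) := (rf W).injective

/-- residues in the perfect closure. -/
noncomputable def rsP (W : ValuationSubring K) (z : K) : RFP W := rf W (rs W z)

/-- residues of the constants. -/
noncomputable def rbarP (k : Subfield K) (W : ValuationSubring K) : Subfield (RFP W) :=
  (rbar k W).map (rf W)

theorem mem_rbarP {k : Subfield K} {W : ValuationSubring K} {c : RFP W} :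
    c ∈ rbarP k W ↔ ∃ z ∈ k, z ∈ W ∧ rsP W z = c := by
  constructor
  · rintro ⟨_, ⟨z, hz, hzW, rfl⟩, rfl⟩
    exact ⟨z, hz, hzW, rfl⟩
  · rintro ⟨z, hz, hzW, rfl⟩
    exact ⟨_, ⟨z, hz, hzW, rfl⟩, rfl⟩

theorem rf_mem_rbarP {k : Subfield K} {W : ValuationSubring K} {c : IsLocalRing.ResidueField W} :
    rf W c ∈ rbarP k W ↔ c ∈ rbar k W :=
  ⟨fun ⟨_, hy, h⟩ => by rwa [← rf_injective W h], fun h => ⟨c, h, rfl⟩⟩

theorem rbarP_ac {k : Subfield K} (hk : IsAlgClosed k) (W : ValuationSubring K) :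
    IsAlgClosed (rbarP k W) := by
  have hl := rbar_ac hk W
  let e0 : rbar k W →+* rbarP k W := ((rf W).comp (rbar k W).subtype).codRestrict (rbarP k W)
    fun x => ⟨x, x.2, rfl⟩
  have hb : Function.Bijective e0 := by
    refine ⟨e0.injective, ?_⟩
    rintro ⟨_, ⟨x, hx, rfl⟩⟩
    exact ⟨⟨x, hx⟩, rfl⟩
  let e := RingEquiv.ofBijective e0 hb
  apply IsAlgClosed.of_exists_root
  intro p hp hirr
  obtain ⟨c, hc⟩ := IsAlgClosed.exists_root (p.map (e.symm : rbarP k W →+* rbar k W)) (by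
    rw [degree_map]
    exact (degree_pos_of_irreducible hirr).ne')
  refine ⟨e c, ?_⟩
  have h1 : e.symm (p.eval (e c)) = 0 := by
    rw [IsRoot.def, eval_map] at hc
    rw [← hc]
    have h2 := hom_eval₂ p (RingHom.id _) (e.symm : rbarP k W →+* rbar k W) (e c)
    rw [RingHom.comp_id] at h2
    simpa using h2
  rwa [map_eq_zero] at h1

/-- the composite of a valuation ring with a valuation ring of the perfect closure of its
residue field. -/
noncomputable def comP (W : ValuationSubring K) (Q : ValuationSubring (RFP W)) :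
    ValuationSubring K := compos W (Q.comap (rf W))

theorem mem_comP {W : ValuationSubring K} {Q : ValuationSubring (RFP W)} {z : K} :
    z ∈ comP W Q ↔ z ∈ W ∧ rsP W z ∈ Q := mem_compos

end RF

section adp

variable {ℓ : ℕ} [Fact ℓ.Prime] {K L : Type*} [Field K] [Field L]

/-- the functional `f` is adapted to the valuation ring `W`: its kernel consists of the unit
classes, and every functional forming a C-pair with `f` kills `U1 W`. -/
structure Adp (W : ValuationSubring K) (f : V ℓ K →ₗ[ZMod ℓ] ZMod ℓ) : Prop where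
  ne : f ≠ 0
  ker : ∀ v, f v = 0 ↔ v ∈ UC ℓ W
  le : U1 ℓ W ≤ H f

/-- the valuation ring `O` corresponds to the valuation ring `W` with functional `f`. -/
structure TrA (Θ : V ℓ K ≃ₗ[ZMod ℓ] V ℓ L) (W : ValuationSubring K)
    (f : V ℓ K →ₗ[ZMod ℓ] ZMod ℓ) (O : ValuationSubring L) : Prop where
  unit : ∀ z : L, O.valuation z = 1 → f (Θ.symm (cl ℓ z)) = 0
  iff : ∀ v, Θ v ∈ U1 ℓ O ↔ v ∈ U1 ℓ W

end adp

end Vale.Agent.P019P
end
end
namespace AFast982234x1657a
@[reducible] noncomputable def a0.{u1} {x1 : Type u1} [x2 : Field x1] {x3 : ValuationSubring x1} {x4 : Subfield x1} : Zero ↥(Vale.Agent.P019P.rbar x4 x3) := inferInstance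
end AFast982234x1657a
attribute [local instance] AFast982234x1657a.a0

section

section

/-!
# Rationality of the curves corresponding to good elements
-/

namespace Vale.Agent.P019

open Polynomial Filter

set_option linter.unusedSectionVars false

section shift

variable {K : Type*} [Field K] {ℓ : ℕ} [Fact ℓ.Prime] {k : Subfield K}

end shift

variable {K L : Type*} [Field K] [Field L] [CharZero K] [CharZero L] {ℓ : ℕ} [Fact ℓ.Prime]
  {k : Subfield K} {l : Subfield L} {Θ : V ℓ K ≃ₗ[ZMod ℓ] V ℓ L}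

omit [CharZero K] in
theorem ne_ae (k : Subfield K) (a : K) : ∀ᶠ c in ae k, c ≠ a := by
  rw [ae_iff]
  refine (Set.finite_singleton a).subset ?_
  rintro c ⟨-, hc⟩
  rw [not_not] at hc
  exact hc

end Vale.Agent.P019
end
end

section

section

/-!
# Generic good elements
-/

namespace Vale.Agent.P019P

open Vale.Agent.P019

set_option linter.style.haveILetI false
set_option linter.unusedSectionVars false

open Polynomial Filter

variable {K : Type*} [Field K] [PerfectField K] {k : Subfield K}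

/-- algebraic independence of a pair. -/
def Ind (k : Subfield K) (x y : K) : Prop := x ∉ k ∧ ¬ IsAlgebraic (adj k x) y

theorem Ind.symm (hk : IsAlgClosed k) {x y : K} (h : Ind k x y) : Ind k y x := by
  have hxk : ¬ IsAlgebraic k x := fun h' => h.1 (RAC_of_isAlgClosed k hk x h')
  refine ⟨fun hy => h.2 (isAlgebraic_of_mem (le_adj k x hy)), fun h' => h.2 (exchange hxk h')⟩

/-- an affine line over `k` meets a subfield containing `k` in at most one point, unless it is
contained in it. -/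
theorem gen_one {F : Subfield K} (hkF : k ≤ F) {u v : K} (h : u ∈ F → v ∉ F) :
    ∀ᶠ c in ae k, u + c * v ∉ F := by
  rw [ae_iff]
  apply Set.Subsingleton.finite
  rintro c ⟨hc, hc1⟩ c' ⟨hc', hc1'⟩
  rw [not_not] at hc1 hc1'
  by_contra hne
  have hd : c - c' ≠ 0 := sub_ne_zero.2 hne
  have hv : v ∈ F := by
    have : v = ((u + c * v) - (u + c' * v)) / (c - c') := by field_simp; ring
    rw [this]
    exact F.div_mem (F.sub_mem hc1 hc1') (F.sub_mem (hkF hc) (hkF hc'))
  have hu : u ∈ F := by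
    have : u = (u + c * v) - c * v := by ring
    rw [this]
    exact F.sub_mem hc1 (F.mul_mem (hkF hc) hv)
  exact h hu hv

theorem gen_avoid (hk : (k : Set K).Infinite) {ι : Type*} [DecidableEq ι] (s : Finset ι) (E : ι → Subfield K) (t : ι → K)
    (hE : ∀ i ∈ s, k ≤ E i) (ht : ∀ i ∈ s, t i ≠ 0) (hz : ∀ i ∈ s, ∃ z, z ∉ E i) :
    ∃ y, ∀ i ∈ s, y * t i ∉ E i := by
  induction s using Finset.induction_on with
  | empty => exact ⟨0, by simp⟩
  | insert j s hj ih =>
    obtain ⟨y, hy⟩ := ih (fun i hi => hE i (Finset.mem_insert_of_mem hi))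
      (fun i hi => ht i (Finset.mem_insert_of_mem hi))
      (fun i hi => hz i (Finset.mem_insert_of_mem hi))
    obtain ⟨z₀, hz₀⟩ := hz j (Finset.mem_insert_self j s)
    set z : K := z₀ / t j with hzdef
    have hzt : z * t j ∉ E j := by
      rw [hzdef, div_mul_cancel₀ _ (ht j (Finset.mem_insert_self j s))]; exact hz₀
    have h1 : ∀ᶠ c in ae k, ∀ i ∈ insert j s, y * t i + c * (z * t i) ∉ E i := by
      rw [Filter.eventually_all_finset]
      intro i hi
      refine gen_one (hE i hi) (fun hu => ?_)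
      rcases Finset.mem_insert.1 hi with rfl | hi'
      · exact hzt
      · exact absurd hu (hy i hi')
    have := ae_neBot hk
    obtain ⟨c, hc⟩ := h1.exists
    refine ⟨y + c * z, fun i hi => ?_⟩
    have := hc i hi
    rwa [← mul_assoc, ← add_mul] at this

/-- the algebraic closure of a simple extension is proper. -/
theorem gen_proper (hk : IsAlgClosed k)
    (htr : ∃ x y : K, x ∉ k ∧ ¬ IsAlgebraic (adj k x) y) (a : K) :
    ∃ z, z ∉ rac (adj k a) := by
  obtain ⟨x, y, hx, hy⟩ := htr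
  by_contra hcon
  push Not at hcon
  have hxk : ¬ IsAlgebraic k x := fun h' => hx (RAC_of_isAlgClosed k hk x h')
  have h1 : IsAlgebraic (adj k x) a := exchange hxk (mem_rac.1 (hcon x))
  have h2 : adj k a ≤ rac (adj k x) :=
    adj_le ((le_adj k x).trans (le_rac _)) (mem_rac.2 h1)
  exact hy (isAlgebraic_rac (isAlgebraic_mono h2 (mem_rac.1 (hcon y))))

theorem gen_bert (hk : IsAlgClosed k) (hfg : FG k (⊤ : Subfield K)) {x y : K} (hx : x ∉ k)
    (hy : y ∉ rac (adj k x)) : ∀ᶠ c in ae k, Good k (x + c * y) := by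
  rw [ae_iff]
  exact bertini hk hfg hx (fun h => hy (mem_rac.2 h))

theorem gen_ind (hk : IsAlgClosed k) {b s : K} (hb : b ∉ k) (hs : s ∉ rac (adj k b)) :
    Ind k s b :=
  Ind.symm hk ⟨hb, fun h => hs (mem_rac.2 h)⟩

theorem exists_gen_add (hk : IsAlgClosed k) (hfg : FG k (⊤ : Subfield K))
    (htr : ∃ x y : K, x ∉ k ∧ ¬ IsAlgebraic (adj k x) y) (A B : Finset K)
    (hB : ∀ b ∈ B, Good k b) :
    ∃ t, ∀ a ∈ A, Good k (a + t) ∧ ∀ b ∈ B, Ind k (a + t) b := by
  classical
  have hki := infinite_of_isAlgClosed hk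
  have := ae_neBot hki
  obtain ⟨x, y, hx, hy⟩ := id htr
  obtain ⟨x₀, hx₀⟩ : ∃ x₀ : K, ∀ a ∈ A, a + x₀ ∉ k := by
    have h1 : ∀ᶠ c in ae k, ∀ a ∈ A, a + c * x ∉ k := by
      rw [Filter.eventually_all_finset]
      exact fun a _ => gen_one le_rfl (fun _ => hx)
    obtain ⟨c, hc⟩ := h1.exists
    exact ⟨c * x, hc⟩
  obtain ⟨y₀, hy₀⟩ := gen_avoid hki ((A.image fun a => a + x₀) ∪ B)
    (fun a => rac (adj k a)) (fun _ => 1)
    (fun a _ => (le_adj k a).trans (le_rac _)) (fun _ _ => one_ne_zero)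
    (fun a _ => gen_proper hk htr a)
  simp only [mul_one] at hy₀
  have h1 : ∀ᶠ c in ae k, ∀ a ∈ A, Good k (a + x₀ + c * y₀) := by
    rw [Filter.eventually_all_finset]
    intro a ha
    refine gen_bert hk hfg (hx₀ a ha) (hy₀ _ ?_)
    exact Finset.mem_union_left _ (Finset.mem_image_of_mem _ ha)
  have h2 : ∀ᶠ c in ae k, ∀ a ∈ A, ∀ b ∈ B, a + x₀ + c * y₀ ∉ rac (adj k b) := by
    rw [Filter.eventually_all_finset]
    intro a _
    rw [Filter.eventually_all_finset]
    intro b hb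
    exact gen_one ((le_adj k b).trans (le_rac _))
      (fun _ => hy₀ b (Finset.mem_union_right _ hb))
  obtain ⟨c, hc1, hc2⟩ := (h1.and h2).exists
  refine ⟨x₀ + c * y₀, fun a ha => ?_⟩
  rw [← add_assoc]
  exact ⟨hc1 a ha, fun b hb => gen_ind hk (hB b hb).1 (hc2 a ha b hb)⟩

theorem exists_gen_mul (hk : IsAlgClosed k) (hfg : FG k (⊤ : Subfield K))
    (htr : ∃ x y : K, x ∉ k ∧ ¬ IsAlgebraic (adj k x) y) (h t : K) (ht : Good k t) :
    ∃ s, Good k s ∧ Good k (h + s) ∧ Good k (s * t) ∧ Good k ((h + s) * t) ∧ Ind k s t ∧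
      Ind k (h + s) t := by
  classical
  have hki := infinite_of_isAlgClosed hk
  have := ae_neBot hki
  have ht0 : t ≠ 0 := fun h0 => ht.1 (h0 ▸ k.zero_mem)
  obtain ⟨x, hx⟩ : ∃ x : K, x ∉ k := ⟨t, ht.1⟩
  -- the element `x₁` with `x₁` and `x₁ t` not in `k`
  obtain ⟨x₁, hx₁⟩ := gen_avoid hki (Finset.univ : Finset Bool) (fun _ => k)
    (fun b => if b then t else 1) (fun _ _ => le_rfl)
    (fun b _ => by cases b <;> simp [ht0]) (fun _ _ => ⟨x, hx⟩)
  have hx₁1 : x₁ ∉ k := by simpa using hx₁ false (Finset.mem_univ _)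
  have hx₁t : x₁ * t ∉ k := by simpa using hx₁ true (Finset.mem_univ _)
  obtain ⟨x₀, hx₀1, hx₀2, hx₀3, hx₀4⟩ :
      ∃ x₀ : K, x₀ ∉ k ∧ h + x₀ ∉ k ∧ x₀ * t ∉ k ∧ (h + x₀) * t ∉ k := by
    have h1 : ∀ᶠ c in ae k, 0 + c * x₁ ∉ k := gen_one le_rfl (fun _ => hx₁1)
    have h2 : ∀ᶠ c in ae k, h + c * x₁ ∉ k := gen_one le_rfl (fun _ => hx₁1)
    have h3 : ∀ᶠ c in ae k, 0 + c * (x₁ * t) ∉ k := gen_one le_rfl (fun _ => hx₁t)
    have h4 : ∀ᶠ c in ae k, h * t + c * (x₁ * t) ∉ k := gen_one le_rfl (fun _ => hx₁t)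
    obtain ⟨c, ⟨⟨hc1, hc2⟩, hc3⟩, hc4⟩ := (((h1.and h2).and h3).and h4).exists
    refine ⟨c * x₁, by rwa [zero_add] at hc1, hc2, ?_, ?_⟩
    · rw [zero_add, ← mul_assoc] at hc3; exact hc3
    · have : (h + c * x₁) * t = h * t + c * (x₁ * t) := by ring
      rw [this]; exact hc4
  -- the direction
  obtain ⟨y₀, hy₀⟩ := gen_avoid hki
    ({(x₀, 1), (h + x₀, 1), (x₀ * t, t), ((h + x₀) * t, t), (t, 1)} : Finset (K × K))
    (fun i => rac (adj k i.1)) (fun i => i.2)
    (fun i _ => (le_adj k i.1).trans (le_rac _))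
    (fun i hi => by
      simp only [Finset.mem_insert, Finset.mem_singleton] at hi
      rcases hi with rfl | rfl | rfl | rfl | rfl <;> simp [ht0])
    (fun i _ => gen_proper hk htr i.1)
  have hy1 : y₀ ∉ rac (adj k x₀) := by simpa using hy₀ (x₀, 1) (by simp)
  have hy2 : y₀ ∉ rac (adj k (h + x₀)) := by simpa using hy₀ (h + x₀, 1) (by simp)
  have hy3 : y₀ * t ∉ rac (adj k (x₀ * t)) := hy₀ (x₀ * t, t) (by simp)
  have hy4 : y₀ * t ∉ rac (adj k ((h + x₀) * t)) := hy₀ ((h + x₀) * t, t) (by simp)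
  have hy5 : y₀ ∉ rac (adj k t) := by simpa using hy₀ (t, 1) (by simp)
  have g1 := gen_bert hk hfg hx₀1 hy1
  have g2 := gen_bert hk hfg hx₀2 hy2
  have g3 := gen_bert hk hfg hx₀3 hy3
  have g4 := gen_bert hk hfg hx₀4 hy4
  have g5 : ∀ᶠ c in ae k, x₀ + c * y₀ ∉ rac (adj k t) :=
    gen_one ((le_adj k t).trans (le_rac _)) (fun _ => hy5)
  have g6 : ∀ᶠ c in ae k, (h + x₀) + c * y₀ ∉ rac (adj k t) :=
    gen_one ((le_adj k t).trans (le_rac _)) (fun _ => hy5)
  obtain ⟨c, ⟨⟨⟨⟨⟨c1, c2⟩, c3⟩, c4⟩, c5⟩, c6⟩⟩ :=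
    (((((g1.and g2).and g3).and g4).and g5).and g6).exists
  refine ⟨x₀ + c * y₀, c1, ?_, ?_, ?_, gen_ind hk ht.1 c5, ?_⟩
  · rw [← add_assoc]; exact c2
  · have : (x₀ + c * y₀) * t = x₀ * t + c * (y₀ * t) := by ring
    rw [this]; exact c3
  · have : (h + (x₀ + c * y₀)) * t = (h + x₀) * t + c * (y₀ * t) := by ring
    rw [this]; exact c4
  · rw [← add_assoc]; exact gen_ind hk ht.1 c6

end Vale.Agent.P019P
end
end

section

section

/-!
# Effective divisors in a class, divisors of degree zero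
-/

namespace Vale.Agent.P019P

open Polynomial IntermediateField

variable {k F : Type*} [Field k] [Field F] [Algebra k F] [CFF k F]

namespace AuxFEff

theorem fe_dv_one : dv k (1 : F) = 0 :=
  (dv_eq_zero_iff one_ne_zero).2 ⟨1, (map_one _).symm⟩

theorem fe_dg_sum {α : Type*} (D : α →₀ ℤ) : dg D = ∑ P ∈ D.support, D P := by
  unfold dg
  rw [Finsupp.liftAddHom_apply]
  rfl

theorem fe_dg_nonneg {α : Type*} {D : α →₀ ℤ} (hD : 0 ≤ D) : 0 ≤ dg D := by
  rw [fe_dg_sum]
  exact Finset.sum_nonneg fun P _ => hD P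

theorem fe_eq_zero {α : Type*} {D : α →₀ ℤ} (hD : 0 ≤ D) (h0 : dg D = 0) : D = 0 := by
  rw [fe_dg_sum, Finset.sum_eq_zero_iff_of_nonneg fun P _ => hD P] at h0
  ext P
  by_cases hP : P ∈ D.support
  · exact h0 P hP
  · exact Finsupp.notMem_support_iff.1 hP

end AuxFEff

open AuxFEff

theorem dv_eq_iff {z w : F} (hz : z ≠ 0) (hw : w ≠ 0) :
    dv k z = dv k w ↔ ∃ a : k, a ≠ 0 ∧ w = a • z := by
  have h1 : dv k (w * z⁻¹) = dv k w - dv k z := by
    rw [dv_mul hw (inv_ne_zero hz), dv_inv, sub_eq_add_neg]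
  have h2 : w * z⁻¹ ≠ 0 := mul_ne_zero hw (inv_ne_zero hz)
  constructor
  · intro h
    have h3 : dv k (w * z⁻¹) = 0 := by rw [h1, h, sub_self]
    obtain ⟨a, ha⟩ := (dv_eq_zero_iff h2).1 h3
    have h4 : w = a • z := by
      rw [Algebra.smul_def, ← ha, mul_assoc, inv_mul_cancel₀ hz, mul_one]
    refine ⟨a, ?_, h4⟩
    rintro rfl
    exact hw (by rw [h4, zero_smul])
  · rintro ⟨a, ha, h4⟩
    have h5 : w * z⁻¹ = algebraMap k F a := by
      rw [h4, Algebra.smul_def, mul_assoc, mul_inv_cancel₀ hz, mul_one]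
    have h6 : dv k (w * z⁻¹) = 0 := (dv_eq_zero_iff h2).2 ⟨a, h5⟩
    rw [h1] at h6
    exact (sub_eq_zero.1 h6).symm

theorem mem_LL_dv {D : Plk k F →₀ ℤ} {z : F} (hz : z ≠ 0) : z ∈ LL k D ↔ 0 ≤ D + dv k z := by
  constructor
  · intro h P
    have h1 := (Or.resolve_left h hz) P
    rw [Finsupp.add_apply, dv_apply]
    show 0 ≤ _
    linarith
  · intro h
    right
    intro P
    have h1 := h P
    rw [Finsupp.add_apply, dv_apply] at h1
    have h2 : (0 : Plk k F →₀ ℤ) P = 0 := rfl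
    rw [h2] at h1
    linarith

/-- effective divisors in a class and functions. -/
theorem eff_iff {D E : Plk k F →₀ ℤ} :
    (0 ≤ E ∧ E - D ∈ prn k F) ↔ ∃ z ∈ LL k D, z ≠ 0 ∧ E = D + dv k z := by
  constructor
  · rintro ⟨hE, z, hz, h⟩
    have h1 : E = D + dv k z := by rw [← h]; abel
    exact ⟨z, (mem_LL_dv hz).2 (by rw [← h1]; exact hE), hz, h1⟩
  · rintro ⟨z, hzD, hz, h1⟩
    refine ⟨by rw [h1]; exact (mem_LL_dv hz).1 hzD, z, hz, ?_⟩
    rw [h1]
    abel

/-- there is a place. -/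
theorem exists_place_cff (k F : Type*) [Field k] [Field F] [Algebra k F] [CFF k F] :
    Nonempty (Plk k F) := by
  obtain ⟨x, hx, _⟩ := CFF.ex (k := k) (F := F)
  have hx0 : x ≠ 0 := by
    rintro rfl
    exact hx (isAlgebraic_zero)
  have h1 : dv k x ≠ 0 := by
    intro h
    obtain ⟨a, ha⟩ := (dv_eq_zero_iff hx0).1 h
    exact hx (by rw [ha]; exact isAlgebraic_algebraMap a)
  obtain ⟨P, _⟩ := Finsupp.ne_iff.1 h1
  exact ⟨P⟩

theorem LL_neg {D : Plk k F →₀ ℤ} (hD : dg D < 0) : Module.finrank k (LL k D) = 0 := by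
  have h : LL k D = ⊥ := by
    rw [Submodule.eq_bot_iff]
    intro z hz
    by_contra hz0
    have h1 := fe_dg_nonneg ((mem_LL_dv hz0).1 hz)
    rw [map_add, dg_dv, add_zero] at h1
    linarith
  rw [h]
  exact finrank_bot k F

theorem LL_prin {D : Plk k F →₀ ℤ} (hD : D ∈ prn k F) : Module.finrank k (LL k D) = 1 := by
  obtain ⟨u, hu, rfl⟩ := hD
  have h : LL k (dv k u) = Submodule.span k {u⁻¹} := by
    apply le_antisymm
    · intro z hz
      by_cases hz0 : z = 0
      · rw [hz0]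
        exact Submodule.zero_mem _
      have h1 := (mem_LL_dv hz0).1 hz
      have h2 : dg (dv k u + dv k z) = 0 := by rw [map_add, dg_dv, dg_dv, add_zero]
      have h3 := fe_eq_zero h1 h2
      rw [← dv_mul hu hz0] at h3
      obtain ⟨a, ha⟩ := (dv_eq_zero_iff (mul_ne_zero hu hz0)).1 h3
      rw [Submodule.mem_span_singleton]
      refine ⟨a, ?_⟩
      rw [Algebra.smul_def, ← ha, mul_comm u z, mul_assoc, mul_inv_cancel₀ hu, mul_one]
    · rw [Submodule.span_singleton_le_iff_mem]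
      rw [mem_LL_dv (inv_ne_zero hu), dv_inv, add_neg_cancel]
  rw [h]
  exact finrank_span_singleton (inv_ne_zero hu)

theorem LL_zero {D : Plk k F →₀ ℤ} (hD : dg D = 0) (hD' : D ∉ prn k F) :
    Module.finrank k (LL k D) = 0 := by
  have h : LL k D = ⊥ := by
    rw [Submodule.eq_bot_iff]
    intro z hz
    by_contra hz0
    have h1 := (mem_LL_dv hz0).1 hz
    have h2 : dg (D + dv k z) = 0 := by rw [map_add, dg_dv, hD, add_zero]
    have h3 := fe_eq_zero h1 h2
    apply hD'
    refine ⟨z⁻¹, inv_ne_zero hz0, ?_⟩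
    rw [dv_inv]
    exact eq_neg_of_add_eq_zero_left h3
  rw [h]
  exact finrank_bot k F

end Vale.Agent.P019P
end
end

section

section

/-!
# Frobenius on a function field over the algebraic closure of a finite field
-/

namespace Vale.Agent.P019P

open Polynomial IntermediateField

/-- extension of an endomorphism to a simple extension. -/
theorem ffrob_extend {K F : Type*} [Field K] [Field F] [Algebra K F] {y : F} (hy : K⟮y⟯ = ⊤)
    (hint : IsIntegral K y) (τ : K →+* K) (hτ : (minpoly K y).map τ = minpoly K y) :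
    ∃ σ : F →+* F, (∀ a : K, σ (algebraMap K F a) = algebraMap K F (τ a)) ∧ σ y = y := by
  set e : AdjoinRoot (minpoly K y) ≃ₐ[K] F :=
    (adjoinRootEquivAdjoin K hint).trans ((IntermediateField.equivOfEq hy).trans topEquiv) with he
  have he1 : e (AdjoinRoot.root (minpoly K y)) = y := by
    simp only [he, AlgEquiv.trans_apply, adjoinRootEquivAdjoin_apply_root]
    rfl
  have hev : (minpoly K y).eval₂ ((algebraMap K F).comp τ) y = 0 := by
    rw [← Polynomial.eval₂_map, hτ]
    exact minpoly.aeval K y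
  refine ⟨(AdjoinRoot.lift ((algebraMap K F).comp τ) y hev).comp (e.symm : F →+* _), fun a => ?_,
    ?_⟩
  · have h1 : e.symm (algebraMap K F a) = AdjoinRoot.of (minpoly K y) a := by
      rw [AlgEquiv.commutes]
      rfl
    show AdjoinRoot.lift ((algebraMap K F).comp τ) y hev (e.symm (algebraMap K F a)) = _
    rw [h1, AdjoinRoot.lift_of]
    rfl
  · have h1 : e.symm y = AdjoinRoot.root (minpoly K y) := by
      rw [AlgEquiv.symm_apply_eq]
      exact he1.symm
    show AdjoinRoot.lift ((algebraMap K F).comp τ) y hev (e.symm y) = _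
    rw [h1, AdjoinRoot.lift_root]

/-- existence of Frobenius. -/
theorem exists_frob (k F : Type*) [Field k] [Field F] [Algebra k F] [CFF k F] {p : ℕ}
    [Fact p.Prime] [CharP k p] (hf : ∀ a : k, a ≠ 0 → ∃ n : ℕ, 0 < n ∧ a ^ n = 1) :
    ∃ (m : ℕ) (σ : F ≃+* F) (x : F), 0 < m ∧
      (∀ a : k, σ (algebraMap k F a) = algebraMap k F (a ^ p ^ m)) ∧
      (∀ a : k, x ≠ algebraMap k F a) ∧ σ x = x := by
  have : IsAlgClosed k := CFF.ac F
  obtain ⟨x, hx, hfin, hsep⟩ := exists_sep k F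
  obtain ⟨y, hy⟩ := Field.exists_primitive_element k⟮x⟯ F
  have hint : IsIntegral k⟮x⟯ y := IsIntegral.of_finite k⟮x⟯ y
  obtain ⟨m, hm, hfix⟩ := exists_frob_fix (F := F) (x := x) hf (minpoly k⟮x⟯ y).coeffs
  obtain ⟨τ, hτ1, hτ2⟩ := exists_frob_adj hx (p := p) m
  have hfix' := hfix τ hτ1 hτ2
  have hτ : (minpoly k⟮x⟯ y).map τ = minpoly k⟮x⟯ y := by
    ext n
    rw [Polynomial.coeff_map]
    by_cases h0 : (minpoly k⟮x⟯ y).coeff n = 0
    · rw [h0, map_zero]
    · rw [hfix' _ (Polynomial.coeff_mem_coeffs h0)]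
  obtain ⟨σ, hσ1, hσ2⟩ := ffrob_extend hy hint τ hτ
  have hσk : ∀ a : k, σ (algebraMap k F a) = algebraMap k F (a ^ p ^ m) := fun a => by
    rw [IsScalarTower.algebraMap_apply k k⟮x⟯ F a, hσ1, hτ1,
      ← IsScalarTower.algebraMap_apply k k⟮x⟯ F]
  have hσx : σ x = x := by
    have h1 := hσ1 (AdjoinSimple.gen k x)
    rw [hτ2] at h1
    exact h1
  have hsurj : Function.Surjective σ := by
    have hk : ∀ a : k, algebraMap k F a ∈ σ.fieldRange := fun a => by
      obtain ⟨b, hb⟩ := IsAlgClosed.exists_pow_nat_eq a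
        (pow_pos (Fact.out : p.Prime).pos m)
      exact ⟨algebraMap k F b, by rw [hσk, hb]⟩
    have hK : ∀ a : k⟮x⟯, algebraMap k⟮x⟯ F a ∈ σ.fieldRange := fun a => by
      have h1 : k⟮x⟯ ≤ σ.fieldRange.toIntermediateField hk :=
        adjoin_simple_le_iff.2 (show x ∈ σ.fieldRange from ⟨x, hσx⟩)
      exact h1 a.2
    intro z
    have h2 : k⟮x⟯⟮y⟯ ≤ σ.fieldRange.toIntermediateField hK :=
      adjoin_simple_le_iff.2 (show y ∈ σ.fieldRange from ⟨y, hσ2⟩)
    rw [hy] at h2
    exact h2 (show z ∈ (⊤ : IntermediateField k⟮x⟯ F) from IntermediateField.mem_top)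
  refine ⟨m, RingEquiv.ofBijective σ ⟨σ.injective, hsurj⟩, x, hm, hσk, fun a ha => ?_, hσx⟩
  apply hx
  rw [ha]
  exact isAlgebraic_algebraMap a

end Vale.Agent.P019P
end
end

section

end

section

section

/-!
# Existence of the approximating valuation rings
-/

namespace Vale.Agent.P019P

open Vale.Agent.P019

section comp

variable {L Ω : Type*} [Field L] [Field Ω]

/-- composite of a place with a valuation ring. -/
noncomputable def mondComp (P : Pl L Ω) (D : ValuationSubring Ω) : ValuationSubring L where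
  carrier := {x | x ∈ P.O ∧ P.ev x ∈ D}
  mul_mem' := by
    rintro x y ⟨hx, hx'⟩ ⟨hy, hy'⟩
    exact ⟨mul_mem hx hy, by rw [P.ev_mul hx hy]; exact mul_mem hx' hy'⟩
  one_mem' := ⟨one_mem _, by rw [P.ev_one]; exact one_mem _⟩
  add_mem' := by
    rintro x y ⟨hx, hx'⟩ ⟨hy, hy'⟩
    exact ⟨add_mem hx hy, by rw [P.ev_add hx hy]; exact add_mem hx' hy'⟩
  zero_mem' := ⟨zero_mem _, by rw [P.ev_zero]; exact zero_mem _⟩
  neg_mem' := by
    rintro x ⟨hx, hx'⟩
    exact ⟨neg_mem hx, by rw [P.ev_neg hx]; exact neg_mem hx'⟩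
  mem_or_inv_mem' := by
    intro x
    by_cases hx : x ∈ P.O
    · by_cases hx' : P.ev x ∈ D
      · exact Or.inl ⟨hx, hx'⟩
      · right
        have hU : P.U x := ⟨hx, fun h0 => hx' (by rw [h0]; exact zero_mem _)⟩
        refine ⟨hU.inv_mem, ?_⟩
        rw [hU.ev_inv]
        exact (D.mem_or_inv_mem _).resolve_left hx'
    · right
      have h1 : P.O.valuation x⁻¹ < 1 := by
        rw [map_inv₀]
        refine inv_lt_one_of_one_lt₀ (not_le.1 fun h => hx ((P.O.valuation_le_one_iff x).1 h))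
      exact ⟨P.mem_of_lt h1, by rw [P.ev_of_lt h1]; exact zero_mem _⟩

theorem mond_lt_iff {O : ValuationSubring L} {x : L} : O.valuation x < 1 ↔
    x = 0 ∨ x⁻¹ ∉ O := by
  by_cases hx : x = 0
  · simp [hx]
  have h : O.valuation x ≠ 0 := (Valuation.ne_zero_iff _).2 hx
  rw [← ValuationSubring.valuation_le_one_iff, map_inv₀, not_le,
    one_lt_inv₀ (zero_lt_iff.2 h)]
  simp [hx]

theorem mondComp_lt {P : Pl L Ω} {D : ValuationSubring Ω} {x : L} (h : P.O.valuation x < 1) :
    (mondComp P D).valuation x < 1 := by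
  rw [mond_lt_iff] at h ⊢
  exact h.imp_right fun h1 h2 => h1 h2.1

theorem mondComp_lt' {P : Pl L Ω} {D : ValuationSubring Ω} {x : L} (hx : P.U x)
    (h : D.valuation (P.ev x) < 1) : (mondComp P D).valuation x < 1 := by
  rw [mond_lt_iff] at h ⊢
  refine Or.inr fun h2 => ?_
  rcases h with h | h
  · exact hx.2 h
  · have h3 := h2.2
    rw [hx.ev_inv] at h3
    exact h h3

theorem mondComp_eq {P : Pl L Ω} {D : ValuationSubring Ω} {x : L} (hx : P.U x)
    (h : D.valuation (P.ev x) = 1) : (mondComp P D).valuation x = 1 := by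
  have hmem : x ∈ mondComp P D := ⟨hx.1, (D.valuation_le_one_iff _).1 h.le⟩
  refine le_antisymm ((ValuationSubring.valuation_le_one_iff _ _).2 hmem) (not_lt.1 fun h1 => ?_)
  rw [mond_lt_iff] at h1
  rcases h1 with h1 | h1
  · exact hx.ne_zero h1
  · apply h1
    refine ⟨hx.inv_mem, ?_⟩
    rw [hx.ev_inv, ← D.valuation_le_one_iff, map_inv₀, h, inv_one]

end comp

section target

universe v

/-- the target field of the place. -/
theorem mond_target (κ : Type v) [Field κ] : ∃ (Ω : Type v) (_ : Field Ω) (_ : IsAlgClosed Ω)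
    (ι : κ →+* Ω) (X Y : Ω) (F : Subfield Ω), (∀ c, ι c ∈ F) ∧ X ∈ F ∧ (∀ c, X ≠ ι c) ∧
      Transcendental F Y := by
  let κ₁ := RatFunc κ
  let κ₂ := RatFunc κ₁
  let Ω := AlgebraicClosure κ₂
  let j : κ₁ →+* Ω := (algebraMap κ₂ Ω).comp (algebraMap κ₁ κ₂)
  refine ⟨Ω, inferInstance, inferInstance, j.comp (algebraMap κ κ₁), j RatFunc.X,
    algebraMap κ₂ Ω RatFunc.X, j.fieldRange, fun c => ⟨_, rfl⟩, ⟨_, rfl⟩, fun c h => ?_, ?_⟩
  · have h1 : (RatFunc.X : κ₁) = algebraMap κ κ₁ c := j.injective h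
    have h2 : Transcendental κ (RatFunc.X : κ₁) := RatFunc.transcendental_X
    exact h2 (h1 ▸ isAlgebraic_algebraMap c)
  · have h1 : Transcendental κ₁ (RatFunc.X : κ₂) := RatFunc.transcendental_X
    intro h2
    refine h1 (IsAlgebraic.of_ringHom_of_comp_eq (f := j.rangeRestrictField)
      (g := algebraMap κ₂ Ω) h2 ?_ (algebraMap κ₂ Ω).injective ?_)
    · rintro ⟨_, x, rfl⟩
      exact ⟨x, rfl⟩
    · rfl

end target

variable {L : Type*} [Field L] {l : Subfield L} {w : ValuationSubring L} {u ϖ : L}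

/-- Proof. Let `A` be the subring of `L` generated by `w ⊓ l`, `u`, `ϖ`: it is a polynomial ring
in `u`, `ϖ` over `w ⊓ l`. Let `κ` be the residue field of `w ⊓ l` (or of `w`) and `Ω` an
algebraic closure of `κ(X, Y)`, `φ : A → Ω`, `u ↦ X`, `ϖ ↦ Y`, the residue map on `w ⊓ l`.
`exists_place` (P019/Place.lean) extends `φ` to `ψ : O₁ → Ω` on a valuation ring `O₁` of `L`.
Let `D` be a valuation ring of `Ω` containing `κ(X)` with `D.valuation Y < 1` (for instance by
`exists_place` for the subring `κ(X)[Y]` and `Y ↦ 0`, or `Vale.Agent.P019.exists_over`), and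
`q = {x ∈ O₁ | ψ x ∈ D}`. For `c ∈ l`, `c` small, `c * ϖ ^ (-b)` is in the maximal ideal of `O₁`,
so it is small at `q`. `ψ (u - c) = X - ψ c` is a non-zero element of `κ(X)`. -/
theorem exists_qmon (h : AlgebraicIndependent l ![u, ϖ]) : ∃ q, QMon l w q u ϖ := by
  classical
  obtain ⟨Ω, _, _, ι, X, Y, F, hιF, hXF, hXι, hY⟩ := mond_target (IsLocalRing.ResidueField w)
  obtain ⟨D, hDF, hDY⟩ := exists_triv F Y hY
  have hY0 : Y ≠ 0 := by
    rintro rfl
    exact hY (isAlgebraic_zero)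
  -- the constants
  let R : ValuationSubring l := w.comap l.subtype
  let jR : R →+* w :=
    { toFun := fun r => ⟨((r : l) : L), r.2⟩
      map_one' := rfl
      map_mul' := fun _ _ => rfl
      map_zero' := rfl
      map_add' := fun _ _ => rfl }
  let g : MvPolynomial (Fin 2) R →+* L :=
    MvPolynomial.eval₂Hom (l.subtype.comp R.subtype) ![u, ϖ]
  have hg : Function.Injective g := by
    have h1 : g = (MvPolynomial.aeval ![u, ϖ] : MvPolynomial (Fin 2) l →ₐ[l] L).toRingHom.comp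
        (MvPolynomial.map R.subtype) := by
      refine MvPolynomial.ringHom_ext (fun r => ?_) fun i => ?_
      · simp [g]
        rfl
      · simp [g]
    rw [h1, RingHom.coe_comp]
    exact Function.Injective.comp h (MvPolynomial.map_injective _ Subtype.val_injective)
  let e : MvPolynomial (Fin 2) R ≃+* g.range := RingEquiv.ofBijective g.rangeRestrict
    ⟨fun a b hab => hg (congrArg Subtype.val hab), g.rangeRestrict_surjective⟩
  let φ0 : MvPolynomial (Fin 2) R →+* Ω :=
    MvPolynomial.eval₂Hom ((ι.comp (IsLocalRing.residue w)).comp jR) ![X, Y]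
  obtain ⟨O, ψ, h1, h2⟩ := exists_place (F := L) (C := Ω) g.range (φ0.comp e.symm.toRingHom)
  let P : Pl L Ω := ⟨O, ψ, h2⟩
  have hev : ∀ p : MvPolynomial (Fin 2) R, g p ∈ P.O ∧ P.ev (g p) = φ0 p := by
    intro p
    obtain ⟨h', h3⟩ := h1 (g p) ⟨p, rfl⟩
    refine ⟨h', ?_⟩
    rw [P.ev_of_mem h']
    change ψ ⟨g p, h'⟩ = _
    rw [h3]
    change φ0 (e.symm ⟨g p, _⟩) = _
    have h4 : (⟨g p, ⟨p, rfl⟩⟩ : g.range) = e p := Subtype.ext rfl
    rw [h4, RingEquiv.symm_apply_apply]
  have hu : u ∈ P.O ∧ P.ev u = X := by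
    have h3 := hev (MvPolynomial.X 0)
    simpa [g, φ0] using h3
  have hϖ : ϖ ∈ P.O ∧ P.ev ϖ = Y := by
    have h3 := hev (MvPolynomial.X 1)
    simpa [g, φ0] using h3
  have hc : ∀ c (hc : c ∈ l) (hcw : c ∈ w), c ∈ P.O ∧
      P.ev c = ι (IsLocalRing.residue w ⟨c, hcw⟩) := by
    intro c hc hcw
    have h3 := hev (MvPolynomial.C (⟨⟨c, hc⟩, hcw⟩ : R))
    simp only [g, φ0, MvPolynomial.coe_eval₂Hom, MvPolynomial.eval₂_C] at h3
    exact h3
  have hϖU : P.U ϖ := ⟨hϖ.1, by rw [hϖ.2]; exact hY0⟩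
  have hclt : ∀ c ∈ l, w.valuation c < 1 → P.O.valuation c < 1 := by
    intro c hcl hcw
    have hcw' : c ∈ w := (w.valuation_le_one_iff c).1 hcw.le
    obtain ⟨h3, h4⟩ := hc c hcl hcw'
    rw [← P.ev_eq_zero_iff h3, h4, map_eq_zero, IsLocalRing.residue_eq_zero_iff]
    exact (ValuationSubring.valuation_lt_one_iff w ⟨c, hcw'⟩).2 hcw
  have hcst : ∀ c ∈ l, c ∈ mondComp P D ↔ c ∈ w := by
    intro c hcl
    constructor
    · intro h3
      by_contra h4
      have hc0 : c ≠ 0 := by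
        rintro rfl
        exact h4 (zero_mem _)
      have h5 : w.valuation c⁻¹ < 1 := by
        rw [map_inv₀]
        exact inv_lt_one_of_one_lt₀ (not_le.1 fun h => h4 ((w.valuation_le_one_iff c).1 h))
      have h6 := hclt c⁻¹ (l.inv_mem hcl) h5
      rw [mond_lt_iff, inv_inv] at h6
      exact h6.resolve_left (inv_ne_zero hc0) h3.1
    · intro h3
      obtain ⟨h4, h5⟩ := hc c hcl h3
      exact ⟨h4, by rw [h5]; exact hDF _ (hιF _)⟩
  refine ⟨mondComp P D, ⟨hcst, hϖU.ne_zero, ?_, ?_, ?_, ?_⟩⟩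
  · exact mondComp_lt' hϖU (by rw [hϖ.2]; exact hDY)
  · intro c hcl hc0 hc1 b
    have hcw : c ∈ w := (hcst c hcl).1 (((mondComp P D).valuation_le_one_iff c).1 hc1.le)
    have hcw1 : w.valuation c < 1 := by
      refine lt_of_le_of_ne ((w.valuation_le_one_iff c).2 hcw) fun h3 => ?_
      have h4 : c⁻¹ ∈ w := by
        rw [← w.valuation_le_one_iff, map_inv₀, h3, inv_one]
      have h5 := (hcst c⁻¹ (l.inv_mem hcl)).2 h4
      rw [mond_lt_iff] at hc1
      exact hc1.resolve_left hc0 h5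
    have h3 : P.O.valuation (c * ϖ ^ (-b)) < 1 := by
      rw [map_mul, (P.U_iff.1 (hϖU.zpow (-b))), mul_one]
      exact hclt c hcl hcw1
    have h4 := mondComp_lt (D := D) h3
    have h5 : 0 < (mondComp P D).valuation ϖ ^ b :=
      zpow_pos (zero_lt_iff.2 ((Valuation.ne_zero_iff _).2 hϖU.ne_zero)) b
    rw [map_mul, map_zpow₀, zpow_neg, ← div_eq_mul_inv, div_lt_one₀ h5] at h4
    exact h4
  · exact ⟨hu.1, by rw [hu.2]; exact hDF _ hXF⟩
  · intro c hcl hcq
    have hcw := (hcst c hcl).1 hcq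
    obtain ⟨h3, h4⟩ := hc c hcl hcw
    have h5 : P.ev (u - c) = X - ι (IsLocalRing.residue w ⟨c, hcw⟩) := by
      rw [P.ev_sub hu.1 h3, hu.2, h4]
    have h6 : P.ev (u - c) ≠ 0 := by
      rw [h5]
      exact sub_ne_zero.2 (hXι _)
    refine mondComp_eq ⟨sub_mem hu.1 h3, h6⟩ ?_
    rw [h5]
    exact TrivOn.eq_one hDF (sub_mem hXF (hιF _)) (sub_ne_zero.2 (hXι _))

end Vale.Agent.P019P
end
end

section

section

/-!
# The place at infinity of a ring with a degree basis
-/

namespace Vale.Agent.P019P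

open Polynomial IntermediateField TensorProduct

section

variable {K R F : Type*} [Field K] [CommRing R] [Algebra K R] [Field F]
  [Algebra R F] [IsFractionRing R F] {S : Set ℕ} {g : ℕ}
  {b : Module.Basis S K R}

theorem h4FrB_dgr_one (h : IsDB b) (hS : Sgp g S) : dgr b (1 : R) = 0 := by
  have h1 := dgr_algebraMap h hS 1
  rwa [map_one] at h1

theorem h4FrB_wd (h : IsDB b) (hS : Sgp g S) {a c a' c' : R} (ha : a ≠ 0) (hc : c ≠ 0)
    (ha' : a' ≠ 0) (hc' : c' ≠ 0)
    (e : algebraMap R F a / algebraMap R F c = algebraMap R F a' / algebraMap R F c') :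
    (dgr b c : ℤ) - dgr b a = dgr b c' - dgr b a' := by
  have hinj := IsFractionRing.injective R F
  have hc1 : algebraMap R F c ≠ 0 := fun h0 => hc (hinj (by rw [h0, map_zero]))
  have hc1' : algebraMap R F c' ≠ 0 := fun h0 => hc' (hinj (by rw [h0, map_zero]))
  rw [div_eq_div_iff hc1 hc1', ← map_mul, ← map_mul] at e
  have e1 := hinj e
  have h1 := (dgr_mul h hS ha hc').2
  have h2 := (dgr_mul h hS ha' hc).2
  rw [e1, h2] at h1
  omega

theorem h4FrB_frac (h : IsDB b) (hS : Sgp g S) (w : F) :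
    ∃ a c : R, c ≠ 0 ∧ w = algebraMap R F a / algebraMap R F c := by
  have := h4_domain h hS
  obtain ⟨a, c, hc, hw⟩ := IsFractionRing.div_surjective (A := R) w
  exact ⟨a, c, nonZeroDivisors.ne_zero hc, hw.symm⟩

open Classical in
/-- the valuation at infinity. -/
noncomputable def h4FrB_v (h : IsDB b) (hS : Sgp g S) (w : F) : ℤ :=
  if w = 0 then 0 else (dgr b (h4FrB_frac h hS w).choose_spec.choose : ℤ) -
    dgr b (h4FrB_frac h hS w).choose

theorem h4FrB_v_zero (h : IsDB b) (hS : Sgp g S) : h4FrB_v h hS (0 : F) = 0 := by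
  unfold h4FrB_v
  rw [if_pos rfl]

theorem h4FrB_v_div (h : IsDB b) (hS : Sgp g S) {a c : R} (ha : a ≠ 0) (hc : c ≠ 0) :
    h4FrB_v h hS (algebraMap R F a / algebraMap R F c) = (dgr b c : ℤ) - dgr b a := by
  have hinj := IsFractionRing.injective R F
  have ha1 : algebraMap R F a ≠ 0 := fun h0 => ha (hinj (by rw [h0, map_zero]))
  have hc1 : algebraMap R F c ≠ 0 := fun h0 => hc (hinj (by rw [h0, map_zero]))
  have hw0 : algebraMap R F a / algebraMap R F c ≠ 0 := div_ne_zero ha1 hc1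
  unfold h4FrB_v
  rw [if_neg hw0]
  obtain ⟨hc', hw⟩ := (h4FrB_frac h hS
    (algebraMap R F a / algebraMap R F c)).choose_spec.choose_spec
  refine h4FrB_wd (F := F) h hS ?_ hc' ha hc hw.symm
  intro h0
  exact hw0 (hw.trans (div_eq_zero_iff.2 (Or.inl ((congrArg _ h0).trans (map_zero _)))))

theorem h4FrB_v_map (h : IsDB b) (hS : Sgp g S) {a : R} (ha : a ≠ 0) :
    h4FrB_v h hS (algebraMap R F a) = -(dgr b a : ℤ) := by
  have hd := h4_domain h hS
  have h1 := h4FrB_v_div (F := F) h hS ha one_ne_zero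
  rw [map_one, div_one, h4FrB_dgr_one h hS] at h1
  rw [h1]
  push_cast
  ring

theorem h4FrB_frac' (h : IsDB b) (hS : Sgp g S) {w : F} (hw : w ≠ 0) :
    ∃ a c : R, a ≠ 0 ∧ c ≠ 0 ∧ w = algebraMap R F a / algebraMap R F c := by
  obtain ⟨a, c, hc, e⟩ := h4FrB_frac h hS w
  refine ⟨a, c, ?_, hc, e⟩
  rintro rfl
  rw [map_zero, zero_div] at e
  exact hw e

theorem h4FrB_v_mul (h : IsDB b) (hS : Sgp g S) {w w' : F} (hw : w ≠ 0) (hw' : w' ≠ 0) :
    h4FrB_v h hS (w * w') = h4FrB_v h hS w + h4FrB_v h hS w' := by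
  obtain ⟨a, c, ha, hc, rfl⟩ := h4FrB_frac' h hS hw
  obtain ⟨a', c', ha', hc', rfl⟩ := h4FrB_frac' h hS hw'
  have h1 := dgr_mul h hS ha ha'
  have h2 := dgr_mul h hS hc hc'
  have e : algebraMap R F a / algebraMap R F c * (algebraMap R F a' / algebraMap R F c') =
      algebraMap R F (a * a') / algebraMap R F (c * c') := by
    rw [map_mul, map_mul, div_mul_div_comm]
  rw [e, h4FrB_v_div h hS h1.1 h2.1, h4FrB_v_div h hS ha hc, h4FrB_v_div h hS ha' hc', h1.2, h2.2]
  push_cast
  ring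

theorem h4FrB_v_add (h : IsDB b) (hS : Sgp g S) {w w' : F} (hw : w ≠ 0) (hw' : w' ≠ 0)
    (hs : w + w' ≠ 0) :
    min (h4FrB_v h hS w) (h4FrB_v h hS w') ≤ h4FrB_v h hS (w + w') := by
  obtain ⟨a, c, ha, hc, rfl⟩ := h4FrB_frac' h hS hw
  obtain ⟨a', c', ha', hc', rfl⟩ := h4FrB_frac' h hS hw'
  have hinj := IsFractionRing.injective R F
  have hc1 : algebraMap R F c ≠ 0 := fun h0 => hc (hinj (by rw [h0, map_zero]))
  have hc1' : algebraMap R F c' ≠ 0 := fun h0 => hc' (hinj (by rw [h0, map_zero]))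
  have e : algebraMap R F a / algebraMap R F c + algebraMap R F a' / algebraMap R F c' =
      algebraMap R F (a * c' + c * a') / algebraMap R F (c * c') := by
    rw [map_add, map_mul, map_mul, map_mul, div_add_div _ _ hc1 hc1']
  rw [e] at hs
  have hn : a * c' + c * a' ≠ 0 := by
    intro h0
    rw [h0, map_zero, zero_div] at hs
    exact hs rfl
  have h1 := dgr_mul h hS hc hc'
  have h2 := dgr_mul h hS ha hc'
  have h3 := dgr_mul h hS hc ha'
  have h4 := dgr_add_le b (a * c') (c * a')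
  rw [e, h4FrB_v_div h hS hn h1.1, h4FrB_v_div h hS ha hc, h4FrB_v_div h hS ha' hc', h1.2]
  rw [h2.2, h3.2] at h4
  omega

theorem h4FrB_v_one (h : IsDB b) (hS : Sgp g S) : h4FrB_v h hS (1 : F) = 0 := by
  have h1 := h4FrB_v_mul (F := F) h hS one_ne_zero one_ne_zero
  rw [mul_one] at h1
  omega

theorem h4FrB_v_inv (h : IsDB b) (hS : Sgp g S) {w : F} (hw : w ≠ 0) :
    h4FrB_v h hS w⁻¹ = - h4FrB_v h hS w := by
  have h1 := h4FrB_v_mul (F := F) h hS hw (inv_ne_zero hw)
  rw [mul_inv_cancel₀ hw, h4FrB_v_one h hS] at h1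
  omega

theorem h4FrB_v_neg (h : IsDB b) (hS : Sgp g S) {w : F} (hw : w ≠ 0) :
    h4FrB_v h hS (-w) = h4FrB_v h hS w := by
  have hn : (-1 : F) ≠ 0 := neg_ne_zero.2 one_ne_zero
  have h1 := h4FrB_v_mul (F := F) h hS hn hn
  rw [neg_mul_neg, mul_one, h4FrB_v_one h hS] at h1
  have h2 := h4FrB_v_mul (F := F) h hS hn hw
  rw [neg_one_mul] at h2
  omega

/-- the valuation ring at infinity. -/
noncomputable def h4FrB_O (h : IsDB b) (hS : Sgp g S) : ValuationSubring F where
  carrier := {w | w = 0 ∨ 0 ≤ h4FrB_v h hS w}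
  mul_mem' := by
    rintro w w' hw hw'
    by_cases h1 : w = 0
    · left; rw [h1, zero_mul]
    by_cases h2 : w' = 0
    · left; rw [h2, mul_zero]
    right
    rw [h4FrB_v_mul h hS h1 h2]
    have h3 := hw.resolve_left h1
    have h4 := hw'.resolve_left h2
    omega
  one_mem' := Or.inr (h4FrB_v_one h hS).ge
  add_mem' := by
    rintro w w' hw hw'
    by_cases h1 : w = 0
    · rw [h1, zero_add]; exact hw'
    by_cases h2 : w' = 0
    · rw [h2, add_zero]; exact hw
    by_cases h5 : w + w' = 0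
    · exact Or.inl h5
    right
    have h3 := hw.resolve_left h1
    have h4 := hw'.resolve_left h2
    exact (le_min h3 h4).trans (h4FrB_v_add h hS h1 h2 h5)
  zero_mem' := Or.inl rfl
  neg_mem' := by
    rintro w hw
    by_cases h1 : w = 0
    · left; rw [h1, neg_zero]
    right
    rw [h4FrB_v_neg h hS h1]
    exact hw.resolve_left h1
  mem_or_inv_mem' := by
    intro w
    by_cases h1 : w = 0
    · exact Or.inl (Or.inl h1)
    · rcases le_or_gt 0 (h4FrB_v h hS w) with h2 | h2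
      · exact Or.inl (Or.inr h2)
      · right
        right
        rw [h4FrB_v_inv h hS h1]
        omega

theorem h4FrB_mem (h : IsDB b) (hS : Sgp g S) (w : F) :
    w ∈ h4FrB_O h hS ↔ w = 0 ∨ 0 ≤ h4FrB_v h hS w := Iff.rfl

theorem h4FrB_isOrd (h : IsDB b) (hS : Sgp g S) :
    IsOrd (h4FrB_O (F := F) h hS) (h4FrB_v h hS) where
  zero := h4FrB_v_zero h hS
  mul := fun _ _ hx hy => h4FrB_v_mul h hS hx hy
  add := fun _ _ hx hy hxy => h4FrB_v_add h hS hx hy hxy
  mem := fun _ => Iff.rfl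
  one := by
    refine ⟨algebraMap R F (b ⟨2 * g, hS.large _ le_rfl⟩) /
      algebraMap R F (b ⟨2 * g + 1, hS.large _ (by omega)⟩), ?_⟩
    rw [h4FrB_v_div h hS (b.ne_zero _) (b.ne_zero _), dgr_basis, dgr_basis]
    push_cast
    ring

end

variable {K R F : Type*} [Field K] [IsAlgClosed K] [CommRing R] [Algebra K R] [Field F]
  [Algebra R F] [IsFractionRing R F] [Algebra K F] [IsScalarTower K R F] {S : Set ℕ} {g : ℕ}
  {b : Module.Basis S K R} [CFF K F]

/-- the place at infinity. -/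
theorem h4_place (h : IsDB b) (hS : Sgp g S) : ∃ P₀ : Plk K F,
    ∀ z : R, z ≠ 0 → ord P₀ (algebraMap R F z) = -(dgr b z : ℤ) := by
  have hcst : ∀ a : K, algebraMap K F a ∈ h4FrB_O (F := F) h hS := by
    intro a
    rw [h4FrB_mem, IsScalarTower.algebraMap_apply K R F]
    by_cases h0 : algebraMap K R a = 0
    · left; rw [h0, map_zero]
    · right
      rw [h4FrB_v_map h hS h0, dgr_algebraMap h hS]
      simp
  have htop : h4FrB_O (F := F) h hS ≠ ⊤ := by
    intro ht
    have h1 : algebraMap R F (b ⟨2 * g + 1, hS.large _ (by omega)⟩) ∈ h4FrB_O (F := F) h hS := by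
      rw [ht]
      trivial
    rw [h4FrB_mem, h4FrB_v_map h hS (b.ne_zero _), dgr_basis] at h1
    rcases h1 with h1 | h1
    · exact b.ne_zero _ (IsFractionRing.injective R F (by rw [h1, map_zero]))
    · push_cast at h1
      omega
  let P₀ : Plk K F := ⟨h4FrB_O h hS, hcst, htop⟩
  have hord : ord P₀ = h4FrB_v h hS := IsOrd.unique (ord_spec P₀) (h4FrB_isOrd h hS)
  exact ⟨P₀, fun z hz => by rw [hord, h4FrB_v_map h hS hz]⟩

end Vale.Agent.P019P
end
end

section

section

/-!
# Generic non-solvability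
-/

universe u

namespace Vale.Agent.P019P

attribute [local instance] MvPolynomial.algebraMvPolynomial

theorem h4SysG_lift {K L k : Type*} [Field K] [Field L] [Field k] [IsAlgClosed k] [Algebra K L]
    [Algebra K k] [Module.Finite K L] : Nonempty (L →ₐ[K] k) := ⟨IsAlgClosed.lift⟩

section

variable {A₀ : Type u} [CommRing A₀] {ι : Type} [Finite ι] [IsDomain A₀] {k : Type u} [Field k]
  [IsAlgClosed k] [Algebra A₀ k]
  {Q : ∀ (A : Type u) [CommRing A] [Algebra A₀ A], (ι → A) → Prop}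

/-- no solution over an algebraically closed field: no generic solution. -/
theorem IsSys.gen (hQ : IsSys Q) (hinj : Function.Injective (algebraMap A₀ k))
    (h : ¬ ∃ t, Q k t) : ∃ δ : A₀, δ ≠ 0 ∧ ∀ (K : Type u) [Field K] [Algebra A₀ K],
      algebraMap A₀ K δ ≠ 0 → ¬ ∃ t, Q K t := by
  obtain ⟨E, hE⟩ := hQ
  let K₀ := FractionRing A₀
  haveI : FaithfulSMul A₀ k := (faithfulSMul_iff_algebraMap_injective A₀ k).2 hinj
  letI : Algebra K₀ k := FractionRing.liftAlgebra A₀ k
  haveI : IsScalarTower A₀ K₀ k := FractionRing.isScalarTower_liftAlgebra A₀ k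
  let I : Ideal (MvPolynomial ι A₀) := Ideal.span E
  let J : Ideal (MvPolynomial ι K₀) := I.map (algebraMap (MvPolynomial ι A₀) (MvPolynomial ι K₀))
  have hJ : J = ⊤ := by
    by_contra hJ
    obtain ⟨M, hM, hJM⟩ := Ideal.exists_le_maximal J hJ
    letI : Field (MvPolynomial ι K₀ ⧸ M) := Ideal.Quotient.field M
    haveI : Module.Finite K₀ (MvPolynomial ι K₀ ⧸ M) :=
      finite_of_finite_type_of_isJacobsonRing K₀ (MvPolynomial ι K₀ ⧸ M)
    obtain ⟨φ⟩ : Nonempty ((MvPolynomial ι K₀ ⧸ M) →ₐ[K₀] k) := h4SysG_lift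
    let ψ : MvPolynomial ι K₀ →ₐ[K₀] k := φ.comp (Ideal.Quotient.mkₐ K₀ M)
    apply h
    refine ⟨fun i => ψ (MvPolynomial.X i), ?_⟩
    rw [hE]
    intro e he
    have h1 : ψ (algebraMap (MvPolynomial ι A₀) (MvPolynomial ι K₀) e) = 0 := by
      have h2 : algebraMap (MvPolynomial ι A₀) (MvPolynomial ι K₀) e ∈ M :=
        hJM (Ideal.mem_map_of_mem _ (Ideal.subset_span he))
      change φ (Ideal.Quotient.mk M _) = 0
      rw [Ideal.Quotient.eq_zero_iff_mem.2 h2, map_zero]
    rw [← h1]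
    change MvPolynomial.aeval (fun i => ψ (MvPolynomial.X i)) e =
      ψ (MvPolynomial.map (algebraMap A₀ K₀) e)
    rw [← MvPolynomial.aeval_map_algebraMap K₀]
    have h3 : MvPolynomial.aeval (fun i => ψ (MvPolynomial.X i)) = ψ := by
      rw [← MvPolynomial.comp_aeval, MvPolynomial.aeval_X_left, AlgHom.comp_id]
    rw [h3]
  have h1 : (1 : MvPolynomial ι K₀) ∈ J := by
    rw [hJ]
    trivial
  rw [IsLocalization.mem_map_algebraMap_iff
    ((nonZeroDivisors A₀).map (MvPolynomial.C (σ := ι)))] at h1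
  obtain ⟨⟨⟨p, hp⟩, ⟨_, δ, hδ, rfl⟩⟩, hpδ⟩ := h1
  refine ⟨δ, nonZeroDivisors.ne_zero hδ, ?_⟩
  intro K _ _ hδK ⟨t, ht⟩
  apply hδK
  rw [hE] at ht
  have h2 : I ≤ RingHom.ker (MvPolynomial.aeval t : MvPolynomial ι A₀ →ₐ[A₀] K) := by
    rw [Ideal.span_le]
    intro e he
    exact ht e he
  have h3 : p = MvPolynomial.C δ := by
    rw [one_mul] at hpδ
    exact (MvPolynomial.map_injective _ (IsFractionRing.injective A₀ K₀) hpδ).symm
  have h4 := h2 hp
  rw [h3, RingHom.mem_ker, MvPolynomial.aeval_C] at h4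
  exact h4

end

end Vale.Agent.P019P
end
end

section

section

/-!
# Systems of equations in the base changes of a ring
-/

universe u

namespace Vale.Agent.P019P

open Polynomial IntermediateField TensorProduct

section

variable {A₀ : Type u} [CommRing A₀] {R₀ : Type u} [CommRing R₀] [Algebra A₀ R₀]

/-- the map of the base changes. -/
noncomputable def bc (R₀ : Type u) [CommRing R₀] [Algebra A₀ R₀] {A A' : Type u} [CommRing A]
    [Algebra A₀ A] [CommRing A'] [Algebra A₀ A'] (φ : A →ₐ[A₀] A') :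
    A ⊗[A₀] R₀ →+* A' ⊗[A₀] R₀ :=
  (Algebra.TensorProduct.map φ (AlgHom.id A₀ R₀) : A ⊗[A₀] R₀ →ₐ[A₀] A' ⊗[A₀] R₀)

variable {A A' : Type u} [CommRing A] [Algebra A₀ A] [CommRing A'] [Algebra A₀ A']
  (φ : A →ₐ[A₀] A') {S : Set ℕ} (b : Module.Basis S A₀ R₀)

theorem bc_tmul (a : A) (r : R₀) : bc R₀ φ (a ⊗ₜ r) = φ a ⊗ₜ r := by
  change Algebra.TensorProduct.map φ (AlgHom.id A₀ R₀) (a ⊗ₜ r) = _
  rw [Algebra.TensorProduct.map_tmul, AlgHom.id_apply]

theorem bc_smul (a : A) (z : A ⊗[A₀] R₀) : bc R₀ φ (a • z) = φ a • bc R₀ φ z := by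
  induction z using TensorProduct.induction_on with
  | zero => rw [smul_zero, map_zero, smul_zero]
  | tmul x r =>
    rw [TensorProduct.smul_tmul', bc_tmul, bc_tmul, TensorProduct.smul_tmul', smul_eq_mul,
      map_mul, smul_eq_mul]
  | add x y hx hy => rw [smul_add, map_add, hx, hy, map_add, smul_add]

theorem bc_basis (d : S) : bc R₀ φ (b.baseChange A d) = b.baseChange A' d := by
  rw [Module.Basis.baseChange_apply, Module.Basis.baseChange_apply, bc_tmul, map_one]

theorem bc_el {D : ℕ} (t : SD S D → A) :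
    bc R₀ φ (el (b.baseChange A) t) = el (b.baseChange A') fun d => φ (t d) := by
  unfold el
  rw [map_sum]
  refine Finset.sum_congr rfl fun d _ => ?_
  rw [bc_smul, bc_basis]

theorem bc_repr (z : A ⊗[A₀] R₀) (d : S) :
    (b.baseChange A').repr (bc R₀ φ z) d = φ ((b.baseChange A).repr z d) := by
  induction z using TensorProduct.induction_on with
  | zero => rw [map_zero, map_zero, map_zero, Finsupp.zero_apply, Finsupp.zero_apply, map_zero]
  | tmul x r =>
    rw [bc_tmul, Module.Basis.baseChange_repr_tmul, Module.Basis.baseChange_repr_tmul, map_smul]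
  | add x y hx hy =>
    rw [map_add, map_add, map_add, Finsupp.add_apply, Finsupp.add_apply, hx, hy, map_add]

end

section

variable {A₀ : Type u} [CommRing A₀] {R₀ : Type u} [CommRing R₀] [Algebra A₀ R₀] {S : Set ℕ}
  {ι : Type}

/-- equations between natural scalars are systems. -/
theorem isSys_eq (G H : ∀ (A : Type u) [CommRing A] [Algebra A₀ A], (ι → A) → A)
    (nat : ∀ (A A' : Type u) [CommRing A] [Algebra A₀ A] [CommRing A'] [Algebra A₀ A']
      (φ : A →ₐ[A₀] A') (t : ι → A), φ (G A t) = G A' fun i => φ (t i))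
    (nat' : ∀ (A A' : Type u) [CommRing A] [Algebra A₀ A] [CommRing A'] [Algebra A₀ A']
      (φ : A →ₐ[A₀] A') (t : ι → A), φ (H A t) = H A' fun i => φ (t i)) :
    IsSys fun (A : Type u) [CommRing A] [Algebra A₀ A] (t : ι → A) => G A t = H A t := by
  obtain ⟨E, hE⟩ := isSys_scalar (A₀ := A₀) (ι := ι) (fun A _ _ t => G A t - H A t)
    (fun A A' _ _ _ _ φ t => by rw [map_sub, nat A A' φ t, nat' A A' φ t])
  exact ⟨E, fun A _ _ t => sub_eq_zero.symm.trans (hE A t)⟩

/-- equations between natural elements of the base changes are systems. -/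
theorem isSys_ring (b : Module.Basis S A₀ R₀)
    (X Y : ∀ (A : Type u) [CommRing A] [Algebra A₀ A], (ι → A) → A ⊗[A₀] R₀)
    (nat : ∀ (A A' : Type u) [CommRing A] [Algebra A₀ A] [CommRing A'] [Algebra A₀ A']
      (φ : A →ₐ[A₀] A') (t : ι → A), bc R₀ φ (X A t) = X A' fun i => φ (t i))
    (nat' : ∀ (A A' : Type u) [CommRing A] [Algebra A₀ A] [CommRing A'] [Algebra A₀ A']
      (φ : A →ₐ[A₀] A') (t : ι → A), bc R₀ φ (Y A t) = Y A' fun i => φ (t i)) :
    IsSys fun (A : Type u) [CommRing A] [Algebra A₀ A] (t : ι → A) => X A t = Y A t := by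
  obtain ⟨E, hE⟩ := IsSys.all (A₀ := A₀) (ι := ι) (J := S)
    (Q := fun d A _ _ t =>
      (b.baseChange A).repr (X A t) d = (b.baseChange A).repr (Y A t) d)
    (fun d => isSys_eq
      (fun A _ _ t => (b.baseChange A).repr (X A t) d)
      (fun A _ _ t => (b.baseChange A).repr (Y A t) d)
      (fun A A' _ _ _ _ φ t => by rw [← nat A A' φ t, bc_repr])
      (fun A A' _ _ _ _ φ t => by rw [← nat' A A' φ t, bc_repr]))
  refine ⟨E, fun A _ _ t => Iff.trans ?_ (hE A t)⟩
  constructor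
  · intro h d
    rw [h]
  · intro h
    exact (b.baseChange A).repr.injective (Finsupp.ext h)

end

end Vale.Agent.P019P
end
end

section

section

/-!
# The equations for divisibility and for missing functions are systems
-/

universe u

namespace Vale.Agent.P019P

open Polynomial IntermediateField TensorProduct

variable {A₀ : Type u} [CommRing A₀] {R₀ : Type u} [CommRing R₀] [Algebra A₀ R₀] {S : Set ℕ}

theorem h4DSys_congr {ι : Type}
    {Q Q' : ∀ (A : Type u) [CommRing A] [Algebra A₀ A], (ι → A) → Prop} (h : IsSys Q)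
    (hQ : ∀ (A : Type u) [CommRing A] [Algebra A₀ A] (t : ι → A), Q' A t ↔ Q A t) :
    IsSys Q' := by
  obtain ⟨E, hE⟩ := h
  exact ⟨E, fun A _ _ t => (hQ A t).trans (hE A t)⟩

theorem h4DSys_uD {A A' : Type u} [CommRing A] [Algebra A₀ A] [CommRing A'] [Algebra A₀ A']
    (φ : A →ₐ[A₀] A') (b : Module.Basis S A₀ R₀) {D : ℕ} (t : ID S D → A) (m : Fin 4)
    (i j : Fin 2) :
    bc R₀ φ (uD (b.baseChange A) t m i j) = uD (b.baseChange A') (fun x => φ (t x)) m i j :=
  bc_el φ b fun d => t (Sum.inl (m, i, j, d))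

theorem h4DSys_uN {A A' : Type u} [CommRing A] [Algebra A₀ A] [CommRing A'] [Algebra A₀ A']
    (φ : A →ₐ[A₀] A') (b : Module.Basis S A₀ R₀) {g D : ℕ} (t : IN S g D → A)
    (m : Fin (g + 3)) :
    bc R₀ φ (uN (b.baseChange A) t m) = uN (b.baseChange A') (fun x => φ (t x)) m :=
  bc_el φ b fun d => t (Sum.inl (m, d))

theorem isSys_QD (b : Module.Basis S A₀ R₀) (ℓ D : ℕ) (p : Fin 2 → R₀) :
    IsSys fun (A : Type u) [CommRing A] [Algebra A₀ A] (t : ID S D → A) =>
      QD (b.baseChange A) ℓ (fun i => (1 : A) ⊗ₜ[A₀] p i) t := by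
  have h1 : ∀ ij : Fin 2 × Fin 2,
      IsSys fun (A : Type u) [CommRing A] [Algebra A₀ A] (t : ID S D → A) =>
        ((1 : A) ⊗ₜ[A₀] p ij.1) * uD (b.baseChange A) t 1 0 ij.2 ^ ℓ =
          uD (b.baseChange A) t 0 0 0 * uD (b.baseChange A) t 2 ij.1 ij.2 := fun ij =>
    isSys_ring b
      (fun A _ _ t => ((1 : A) ⊗ₜ[A₀] p ij.1) * uD (b.baseChange A) t 1 0 ij.2 ^ ℓ)
      (fun A _ _ t => uD (b.baseChange A) t 0 0 0 * uD (b.baseChange A) t 2 ij.1 ij.2)
      (fun A A' _ _ _ _ φ t => by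
        rw [map_mul, map_pow, bc_tmul, map_one, h4DSys_uD])
      (fun A A' _ _ _ _ φ t => by
        rw [map_mul, h4DSys_uD, h4DSys_uD])
  have h2 : IsSys fun (A : Type u) [CommRing A] [Algebra A₀ A] (t : ID S D → A) =>
      ∑ i : Fin 2, ∑ j : Fin 2, uD (b.baseChange A) t 3 i j * uD (b.baseChange A) t 2 i j = 1 :=
    isSys_ring b
      (fun A _ _ t =>
        ∑ i : Fin 2, ∑ j : Fin 2, uD (b.baseChange A) t 3 i j * uD (b.baseChange A) t 2 i j)
      (fun A _ _ t => 1)
      (fun A A' _ _ _ _ φ t => by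
        simp only [map_sum, map_mul, h4DSys_uD])
      (fun A A' _ _ _ _ φ t => by rw [map_one])
  have h3 : IsSys fun (A : Type u) [CommRing A] [Algebra A₀ A] (t : ID S D → A) =>
      ∑ d : SD S D, t (Sum.inr d) * t (Sum.inl (0, 0, 0, d)) = 1 :=
    isSys_eq
      (fun A _ _ t => ∑ d : SD S D, t (Sum.inr d) * t (Sum.inl (0, 0, 0, d)))
      (fun A _ _ t => 1)
      (fun A A' _ _ _ _ φ t => by simp only [map_sum, map_mul])
      (fun A A' _ _ _ _ φ t => by rw [map_one])
  refine h4DSys_congr ((IsSys.all h1).and (h2.and h3)) fun A _ _ t => ?_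
  constructor
  · rintro ⟨⟨ha, hb⟩, hc⟩
    exact ⟨fun ij => ha ij.1 ij.2, hb, hc⟩
  · rintro ⟨ha, hb, hc⟩
    exact ⟨⟨fun i j => ha (i, j), hb⟩, hc⟩

theorem h4DSys_QN1 (b : Module.Basis S A₀ R₀) (g D : ℕ) :
    IsSys fun (A : Type u) [CommRing A] [Algebra A₀ A] (t : IN S g D → A) =>
      uN (b.baseChange A) t ⟨g + 1, by omega⟩ ^ (g + 1) +
        ∑ m : Fin (g + 1), uN (b.baseChange A) t ⟨m, by omega⟩ *
          uN (b.baseChange A) t ⟨g + 1, by omega⟩ ^ (m : ℕ) *
          uN (b.baseChange A) t ⟨g + 2, by omega⟩ ^ (g + 1 - (m : ℕ)) = 0 :=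
  isSys_ring b
    (fun A _ _ t => uN (b.baseChange A) t ⟨g + 1, by omega⟩ ^ (g + 1) +
      ∑ m : Fin (g + 1), uN (b.baseChange A) t ⟨m, by omega⟩ *
        uN (b.baseChange A) t ⟨g + 1, by omega⟩ ^ (m : ℕ) *
        uN (b.baseChange A) t ⟨g + 2, by omega⟩ ^ (g + 1 - (m : ℕ)))
    (fun A _ _ t => 0)
    (fun A A' _ _ _ _ φ t => by
      rw [map_add, map_pow, map_sum, h4DSys_uN]
      congr 1
      refine Finset.sum_congr rfl fun m _ => ?_
      rw [map_mul, map_mul, map_pow, map_pow, h4DSys_uN, h4DSys_uN, h4DSys_uN])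
    (fun A A' _ _ _ _ φ t => by rw [map_zero])

/-- the equations `ann`. -/
noncomputable def h4DSys_G2 (b : Module.Basis S A₀ R₀) (g D : ℕ) (e : SD S D) (A : Type u)
    [CommRing A] [Algebra A₀ A] (t : IN S g D → A) : A :=
  ∑ d : SD S (2 * D), t (Sum.inr d) *
    (b.baseChange A).repr (uN (b.baseChange A) t ⟨g + 2, by omega⟩ *
      (b.baseChange A) e.ix) d.ix

/-- the equation `one`. -/
noncomputable def h4DSys_G3 (b : Module.Basis S A₀ R₀) (g D : ℕ) (A : Type u)
    [CommRing A] [Algebra A₀ A] (t : IN S g D → A) : A :=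
  ∑ d : SD S (2 * D), t (Sum.inr d) *
    (b.baseChange A).repr (uN (b.baseChange A) t ⟨g + 1, by omega⟩) d.ix

theorem h4DSys_G2_nat (b : Module.Basis S A₀ R₀) (g D : ℕ) (e : SD S D) (A A' : Type u)
    [CommRing A] [Algebra A₀ A] [CommRing A'] [Algebra A₀ A'] (φ : A →ₐ[A₀] A')
    (t : IN S g D → A) :
    φ (h4DSys_G2 b g D e A t) = h4DSys_G2 b g D e A' fun i => φ (t i) := by
  unfold h4DSys_G2
  rw [map_sum]
  refine Finset.sum_congr rfl fun d _ => ?_
  rw [map_mul, ← bc_repr, map_mul, h4DSys_uN, bc_basis]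

theorem h4DSys_G3_nat (b : Module.Basis S A₀ R₀) (g D : ℕ) (A A' : Type u)
    [CommRing A] [Algebra A₀ A] [CommRing A'] [Algebra A₀ A'] (φ : A →ₐ[A₀] A')
    (t : IN S g D → A) :
    φ (h4DSys_G3 b g D A t) = h4DSys_G3 b g D A' fun i => φ (t i) := by
  unfold h4DSys_G3
  rw [map_sum]
  refine Finset.sum_congr rfl fun d _ => ?_
  rw [map_mul, ← bc_repr, h4DSys_uN]

theorem h4DSys_QN2 (b : Module.Basis S A₀ R₀) (g D : ℕ) (e : SD S D) :
    IsSys fun (A : Type u) [CommRing A] [Algebra A₀ A] (t : IN S g D → A) =>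
      h4DSys_G2 b g D e A t = 0 :=
  isSys_scalar (h4DSys_G2 b g D e)
    (fun A A' _ _ _ _ φ t => h4DSys_G2_nat b g D e A A' φ t)

theorem h4DSys_QN3 (b : Module.Basis S A₀ R₀) (g D : ℕ) :
    IsSys fun (A : Type u) [CommRing A] [Algebra A₀ A] (t : IN S g D → A) =>
      h4DSys_G3 b g D A t = 1 :=
  isSys_eq (h4DSys_G3 b g D) (fun A _ _ t => 1)
    (fun A A' _ _ _ _ φ t => h4DSys_G3_nat b g D A A' φ t)
    (fun A A' _ _ _ _ φ t => by rw [map_one])

theorem isSys_QN (b : Module.Basis S A₀ R₀) (g D : ℕ) :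
    IsSys fun (A : Type u) [CommRing A] [Algebra A₀ A] (t : IN S g D → A) =>
      QN (b.baseChange A) t := by
  refine h4DSys_congr ((h4DSys_QN1 b g D).and
    ((IsSys.all (h4DSys_QN2 b g D)).and (h4DSys_QN3 b g D))) fun A _ _ t => ?_
  constructor
  · rintro ⟨ha, hb, hc⟩
    exact ⟨ha, hb, hc⟩
  · rintro ⟨ha, hb, hc⟩
    exact ⟨ha, hb, hc⟩

end Vale.Agent.P019P
end
end

section

end

section

end

section

end

section

end

section

end

section

section

/-!
Extension of a partially additive and multiplicative map to a ring homomorphism.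
-/

namespace Vale.Agent.P019

theorem extend_hom {K L : Type*} [Field K] [Field L] (G : Set K) (Ind : K → K → Prop)
    (α : K → L) (hsymm : ∀ x y, Ind x y → Ind y x)
    (hadd : ∀ x y, x ∈ G → y ∈ G → x + y ∈ G → Ind x y → α (x + y) = α x + α y)
    (hmul : ∀ x y, x ∈ G → y ∈ G → x * y ∈ G → Ind x y → α (x * y) = α x * α y)
    (hne : ∀ x ∈ G, α x ≠ 0)
    (hgen : ∀ (A B : Finset K), (∀ b ∈ B, b ∈ G) →
      ∃ t, ∀ a ∈ A, a + t ∈ G ∧ ∀ b ∈ B, Ind (a + t) b)
    (hgenmul : ∀ h t, t ∈ G → ∃ s, s ∈ G ∧ h + s ∈ G ∧ s * t ∈ G ∧ (h + s) * t ∈ G ∧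
      Ind s t ∧ Ind (h + s) t) :
    ∃ A : K →+* L, ∀ x ∈ G, A x = α x := by
  classical
  -- a reference shift for each `h`
  have h0 : ∀ h : K, ∃ t, t ∈ G ∧ h + t ∈ G := by
    intro h
    obtain ⟨t, ht⟩ := hgen {0, h} ∅ (by simp)
    refine ⟨t, ?_, (ht h (by simp)).1⟩
    simpa using (ht 0 (by simp)).1
  choose τ hτ1 hτ2 using h0
  -- the difference does not depend on the shift
  have key : ∀ h t, t ∈ G → h + t ∈ G → α (h + t) = (α (h + τ h) - α (τ h)) + α t := by
    intro h t ht1 ht2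
    obtain ⟨s, hs⟩ := hgen {0, t, h, h + t, τ h, h + τ h} {t, h + t, τ h, h + τ h} (by
      intro b hb
      simp only [Finset.mem_insert, Finset.mem_singleton] at hb
      rcases hb with rfl | rfl | rfl | rfl
      exacts [ht1, ht2, hτ1 h, hτ2 h])
    have s0 := hs 0 (by simp)
    rw [zero_add] at s0
    have sh := hs h (by simp)
    -- comparison lemma
    have cmp : ∀ u, u ∈ G → h + u ∈ G → h + u + s ∈ G → Ind s (h + u) → Ind (h + s) u →
        α (h + u) + α s = α (h + s) + α u := by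
      intro u hu1 hu2 hu3 hu4 hu5
      have e1 := hadd (h + u) s hu2 s0.1 hu3 (hsymm _ _ hu4)
      have e2 := hadd (h + s) u sh.1 hu1 (by
        have : h + s + u = h + u + s := by ring
        rw [this]; exact hu3) hu5
      have e3 : h + s + u = h + u + s := by ring
      rw [e3] at e2
      rw [← e1, ← e2]
    have c1 := cmp t ht1 ht2 (hs (h + t) (by simp)).1 (s0.2 (h + t) (by simp))
      (sh.2 t (by simp))
    have c2 := cmp (τ h) (hτ1 h) (hτ2 h) (hs (h + τ h) (by simp)).1 (s0.2 (h + τ h) (by simp))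
      (sh.2 (τ h) (by simp))
    linear_combination c1 - c2
  set A : K → L := fun h => α (h + τ h) - α (τ h) with hA
  have key' : ∀ h t, t ∈ G → h + t ∈ G → α (h + t) = A h + α t := key
  -- additivity
  have Aadd : ∀ x y, A (x + y) = A x + A y := by
    intro x y
    obtain ⟨t, ht⟩ := hgen {0, y, τ x, x + y + τ x} {τ x, x + τ x} (by
      intro b hb
      simp only [Finset.mem_insert, Finset.mem_singleton] at hb
      rcases hb with rfl | rfl
      exacts [hτ1 x, hτ2 x])
    have t0 := ht 0 (by simp)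
    rw [zero_add] at t0
    have ty := ht y (by simp)
    have tt := ht (τ x) (by simp)
    have txy := ht (x + y + τ x) (by simp)
    have e1 : x + y + (τ x + t) = (x + τ x) + (y + t) := by ring
    have e2 : x + y + τ x + t = (x + τ x) + (y + t) := by ring
    have hin : (x + τ x) + (y + t) ∈ G := by rw [← e2]; exact txy.1
    have a1 := hadd (x + τ x) (y + t) (hτ2 x) ty.1 hin (hsymm _ _ (ty.2 (x + τ x) (by simp)))
    have a2 := key' (x + y) (τ x + t) tt.1 (by rw [e1]; exact hin)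
    have a3 := hadd (τ x) t (hτ1 x) t0.1 tt.1 (hsymm _ _ (t0.2 (τ x) (by simp)))
    have a4 := key' x (τ x) (hτ1 x) (hτ2 x)
    have a5 := key' y t t0.1 ty.1
    rw [e1, a1, a3, a4, a5] at a2
    linear_combination -a2
  -- the value on `G`
  have AG : ∀ x ∈ G, A x = α x := by
    intro x hx
    obtain ⟨t, ht⟩ := hgen {0, x} {x} (by simpa using hx)
    have t0 := ht 0 (by simp)
    rw [zero_add] at t0
    have tx := ht x (by simp)
    have a1 := hadd x t hx t0.1 tx.1 (hsymm _ _ (t0.2 x (by simp)))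
    have a2 := key' x t t0.1 tx.1
    rw [a1] at a2
    linear_combination -a2
  -- multiplicativity against `G`
  have AmG : ∀ h, ∀ t ∈ G, A (h * t) = A h * A t := by
    intro h t ht
    obtain ⟨s, hs1, hs2, hs3, hs4, hs5, hs6⟩ := hgenmul h t ht
    have a1 := hmul (h + s) t hs2 ht hs4 hs6
    have a2 := hmul s t hs1 ht hs3 hs5
    have a3 := Aadd (h * t) (s * t)
    rw [← add_mul, AG _ hs4, AG _ hs3, a1, a2] at a3
    have a4 := key' h s hs1 hs2
    rw [AG t ht]
    rw [a4] at a3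
    linear_combination -a3
  have Amul : ∀ x y, A (x * y) = A x * A y := by
    intro x y
    have a1 := AmG x (y + τ y) (hτ2 y)
    have a2 := AmG x (τ y) (hτ1 y)
    rw [mul_add, Aadd, a2, Aadd y (τ y)] at a1
    linear_combination a1
  have A1 : A 1 = 1 := by
    have a1 := AmG 1 (τ 0) (hτ1 0)
    rw [one_mul] at a1
    have hn : A (τ 0) ≠ 0 := by rw [AG _ (hτ1 0)]; exact hne _ (hτ1 0)
    have := mul_right_cancel₀ hn (a1.symm.trans (one_mul _).symm)
    exact this
  have A0 : A 0 = 0 := by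
    have := Aadd 0 0
    rw [add_zero] at this
    linear_combination -this
  exact ⟨{ toFun := A, map_one' := A1, map_mul' := Amul, map_zero' := A0, map_add' := Aadd },
    fun x hx => AG x hx⟩

end Vale.Agent.P019
end
end
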