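import Vale.Agent.P019.MathlibFull
import Vale.Agent.P019.MathlibFull2
import Vale.Agent.P019.MathlibUsed
import Vale.Agent.P019.Bd4.B1
import Vale.Agent.P019.Bd4.B3
import Vale.Agent.P019.Bd4.B2
import Vale.Agent.P019.Bd4.B4
import Vale.Agent.P019.Bd4.B5
import Vale.Agent.P019.Bd4.B6

set_option linter.all false

namespace AFast6df17cx12a
@[reducible] noncomputable def a0.{u1} {x1 : ℕ} {x2 : Type u1} [x3 : Field x2] : SMulZeroClass (ZMod x1) (Vale.Agent.P019.V x1 x2) := inferInstance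
@[reducible] def a1.{u1} {x1 : Type u1} [x2 : Field x1] {x3 : Subfield x1} : CommSemiring ↥x3 := inferInstance
@[reducible] noncomputable def a2.{u1} {x1 : ℕ} {x2 : Type u1} [x3 : Field x2] : SMul (ZMod x1) (Vale.Agent.P019.V x1 x2) := inferInstance
theorem a3.{u1} {x1 : Type u1} [x2 : Field x1] {x3 : ValuationSubring x1} : MulHomClass (Valuation x1 x3.ValueGroup) x1 x3.ValueGroup := inferInstance
@[reducible] noncomputable def a4.{u1} {x1 : ℕ} {x2 : Type u1} [x3 : Field x2] : DistribSMul (ZMod x1) (Vale.Agent.P019.V x1 x2) := inferInstance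
@[reducible] noncomputable def a5.{u1} {x1 : ℕ} {x2 : Type u1} [x3 : Field x2] : AddCommMonoid (Vale.Agent.P019.V x1 x2) := inferInstance
theorem a6.{u1} {x1 : Type u1} [x2 : Field x1] {x3 : ValuationSubring x1} : ZeroLEOneClass x3.ValueGroup := inferInstance
@[reducible] noncomputable def a7.{u1} {x1 : Type u1} [x2 : Field x1] {x3 : ValuationSubring x1} : One x3.ValueGroup := inferInstance
@[reducible] noncomputable def a8.{u1} {x1 : ℕ} {x2 : Type u1} [x3 : Field x2] [x4 : Fact (Nat.Prime x1)] : DistribMulAction (ZMod x1) (Vale.Agent.P019.V x1 x2) := inferInstance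
theorem a9.{u1} {x1 : ℕ} [x2 : Fact (Nat.Prime x1)] {x3 : Type u1} [x4 : Field x3] : AddMonoidHomClass (Vale.Agent.P019.V x1 x3 →ₗ[ZMod x1] ZMod x1) (Vale.Agent.P019.V x1 x3) (ZMod x1) := inferInstance
@[reducible] def a10.{u1} {x1 : Type u1} [x2 : Field x1] {x3 : Subfield x1} : Monoid ↥x3 := inferInstance
theorem a11.{u1} {x1 : Type u1} [x2 : Field x1] : SubsemiringClass (Subfield x1) x1 := inferInstance
@[reducible] def a12.{u1} {x1 : Type u1} [x2 : Field x1] {x3 : Subfield x1} : Semiring ↥x3 := inferInstance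
@[reducible] noncomputable def a13.{u1} {x1 : ℕ} {x2 : Type u1} [x3 : Field x2] {x4 : ValuationSubring x2} : SMul (ZMod x1) (Vale.Agent.P019.V x1 (IsLocalRing.ResidueField ↥x4)) := inferInstance
theorem a14.{u1} {x1 : Type u1} [x2 : Field x1] {x3 : Subfield x1} : SubsemiringClass (IntermediateField (↥x3) x1) x1 := inferInstance
@[reducible] noncomputable def a15.{u1} {x1 : ℕ} {x2 : Type u1} [x3 : Field x2] {x4 : ValuationSubring x2} : SMulZeroClass (ZMod x1) (Vale.Agent.P019.V x1 (IsLocalRing.ResidueField ↥x4)) := inferInstance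
@[reducible] noncomputable def a16.{u1} {x1 : ℕ} {x2 : Type u1} [x3 : Field x2] {x4 : ValuationSubring x2} : SMulZeroClass (ZMod x1) (Vale.Agent.P019.V x1 (Vale.Agent.P019P.RFP x4)) := inferInstance
theorem a17.{u1, u2} {x1 : Type u1} {x2 : Type u2} [x3 : Field x1] [x4 : Field x2] : RingHomClass (x1 ≃+* x2) x1 x2 := inferInstance
@[reducible] noncomputable def a18.{u1} {x1 : Type u1} [x2 : Field x1] {x3 : ValuationSubring x1} : MulZeroClass x3.ValueGroup := inferInstance
@[reducible] def a19.{u1} {x1 : Type u1} [x2 : Field x1] {x3 : Subfield x1} {x4 : IntermediateField (↥x3) x1} : CommRing ↥x4 := inferInstance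
@[reducible] noncomputable def a20.{u1} {x1 : Type u1} [x2 : Field x1] {x3 : ValuationSubring x1} : Preorder x3.ValueGroup := inferInstance
@[reducible] noncomputable def a21.{u1} {x1 : Type u1} [x2 : Field x1] {x3 : ValuationSubring x1} : PartialOrder x3.ValueGroup := inferInstance
theorem a22.{u1} {x1 : ℕ} [x2 : Fact (Nat.Prime x1)] {x3 : Type u1} [x4 : Field x3] : DistribMulActionSemiHomClass (Vale.Agent.P019.V x1 x3 →ₗ[ZMod x1] ZMod x1) (⇑(RingHom.id (ZMod x1))) (Vale.Agent.P019.V x1 x3) (ZMod x1) := inferInstance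
@[reducible] noncomputable def a23.{u1} {x1 : Type u1} [x2 : Field x1] {x3 : ValuationSubring x1} : Zero x3.ValueGroup := inferInstance
@[reducible] noncomputable def a24.{u1} {x1 : ℕ} {x2 : Type u1} [x3 : Field x2] {x4 : ValuationSubring x2} : DistribSMul (ZMod x1) (Vale.Agent.P019.V x1 (IsLocalRing.ResidueField ↥x4)) := inferInstance
@[reducible] def a25.{u1} {x1 : Type u1} [x2 : Field x1] {x3 : Subfield x1} : Mul ↥x3 := inferInstance
theorem a26.{u1, u2} {x1 : Type u1} {x2 : Type u2} [x3 : Field x1] [x4 : Field x2] : MonoidWithZeroHomClass (x1 →+* x2) x1 x2 := inferInstance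
@[reducible] noncomputable def a27.{u1} {x1 : Type u1} [x2 : Field x1] {x3 : ValuationSubring x1} : LT x3.ValueGroup := inferInstance
@[reducible] def a28.{u1} {x1 : Type u1} [x2 : Field x1] {x3 : Subfield x1} : Distrib ↥x3 := inferInstance
@[reducible] def a29.{u1} {x1 : Type u1} [x2 : Field x1] {x3 : Subfield x1} : Zero ↥x3 := inferInstance
@[reducible] def a30.{u1} {x1 : Type u1} [x2 : Field x1] {x3 : Subfield x1} : SMul ↥x3 ↥x3 := inferInstance
@[reducible] noncomputable def a31.{u1} {x1 : ℕ} {x2 : Type u1} [x3 : Field x2] {x4 : ValuationSubring x2} : AddCommMonoid (Vale.Agent.P019.V x1 (IsLocalRing.ResidueField ↥x4)) := inferInstance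
@[reducible] noncomputable def a32.{u1} {x1 : Type u1} [x2 : Field x1] {x3 : ValuationSubring x1} : Mul x3.ValueGroup := inferInstance
@[reducible] def a33.{u1} {x1 : Type u1} [x2 : Field x1] {x3 : Subfield x1} : NonAssocSemiring ↥x3 := inferInstance
@[reducible] def a34.{u1} {x1 : Type u1} [x2 : Field x1] {x3 : Subfield x1} {x4 : IntermediateField (↥x3) x1} : Semiring ↥x4 := inferInstance
theorem a35.{u1} {x1 : Type u1} [x2 : Field x1] {x3 : Subfield x1} : SubmonoidClass (IntermediateField (↥x3) x1) x1 := inferInstance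
@[reducible] noncomputable def a36.{u1} {x1 : ℕ} {x2 : Type u1} [x3 : Field x2] : Zero (Vale.Agent.P019.V x1 x2) := inferInstance
theorem a37.{u1} {x1 : Type u1} [x2 : Field x1] {x3 : ValuationSubring x1} : PosMulMono x3.ValueGroup := inferInstance
@[reducible] noncomputable def a38.{u1} {x1 : ℕ} {x2 : Type u1} [x3 : Field x2] {x4 : ValuationSubring x2} : DistribSMul (ZMod x1) (Vale.Agent.P019.V x1 (Vale.Agent.P019P.RFP x4)) := inferInstance
@[reducible] noncomputable def a39.{u1} {x1 : Type u1} [x2 : Field x1] {x3 : ValuationSubring x1} : LE x3.ValueGroup := inferInstance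
theorem a40.{u1} {x1 : Type u1} [x2 : Field x1] {x3 : ValuationSubring x1} : Nontrivial x3.ValueGroup := inferInstance
@[reducible] noncomputable def a41.{u1} {x1 : ℕ} {x2 : Type u1} [x3 : Field x2] : Add (Vale.Agent.P019.V x1 x2) := inferInstance
@[reducible] noncomputable def a42.{u1} {x1 : ℕ} {x2 : Type u1} [x3 : Field x2] {x4 : ValuationSubring x2} : DistribMulAction (ZMod x1) (Vale.Agent.P019.V x1 (IsLocalRing.ResidueField ↥x4)) := inferInstance
theorem a43.{u1, u2} {x1 : Type u1} {x2 : Type u2} [x3 : Field x1] [x4 : Field x2] : MulHomClass (x1 ≃+* x2) x1 x2 := inferInstance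
@[reducible] noncomputable def a44.{u1} {x1 : Type u1} [x2 : Field x1] {x3 : ValuationSubring x1} : MulZeroOneClass x3.ValueGroup := inferInstance
theorem a45.{u1, u2} {x1 : Type u1} {x2 : Type u2} [x3 : Field x1] [x4 : Field x2] : MonoidHomClass (x1 →+* x2) x1 x2 := inferInstance
@[reducible] noncomputable def a46.{u1} {x1 : ℕ} {x2 : Type u1} [x3 : Field x2] : AddCommMagma (Vale.Agent.P019.V x1 x2) := inferInstance
@[reducible] def a47.{u1} {x1 : Type u1} [x2 : Field x1] {x3 : Subfield x1} {x4 : IntermediateField (↥x3) x1} : Pow ↥x4 ℕ := inferInstance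
@[reducible] def a48.{u1} {x1 : Type u1} [x2 : Field x1] {x3 : Subfield x1} {x4 : IntermediateField (↥x3) x1} : NonAssocSemiring ↥x4 := inferInstance
@[reducible] noncomputable def a49.{u1} {x1 : ℕ} {x2 : Type u1} [x3 : Field x2] : AddCommSemigroup (Vale.Agent.P019.V x1 x2) := inferInstance
@[reducible] noncomputable def a50.{u1} {x1 : Type u1} [x2 : Field x1] {x3 : ValuationSubring x1} : SemilatticeInf x3.ValueGroup := inferInstance
@[reducible] noncomputable def a51.{u1} {x1 : ℕ} {x2 : Type u1} [x3 : Field x2] {x4 : ValuationSubring x2} : Zero (Vale.Agent.P019.V x1 (IsLocalRing.ResidueField ↥x4)) := inferInstance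
@[reducible] noncomputable def a52.{u1} {x1 : ℕ} {x2 : Type u1} [x3 : Field x2] : AddZeroClass (Vale.Agent.P019.V x1 x2) := inferInstance
@[reducible] noncomputable def a53.{u1} {x1 : Type u1} [x2 : Field x1] {x3 : ValuationSubring x1} : Lattice x3.ValueGroup := inferInstance
@[reducible] noncomputable def a54.{u1} {x1 : ℕ} {x2 : Type u1} [x3 : Field x2] : AddMonoid (Vale.Agent.P019.V x1 x2) := inferInstance
theorem a55.{u1} {x1 : Type u1} [x2 : Field x1] {x3 : Subfield x1} : Nontrivial ↥x3 := inferInstance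
@[reducible] noncomputable def a56.{u1} {x1 : Type u1} [x2 : Field x1] {x3 : Subfield x1} : Module (↥x3) (Polynomial ↥x3) := inferInstance
@[reducible] noncomputable def a57.{u1} {x1 : Type u1} [x2 : Field x1] {x3 : ValuationSubring x1} : MulOneClass x3.ValueGroup := inferInstance
theorem a58.{u1} {x1 : Type u1} [x2 : Field x1] {x3 : ValuationSubring x1} : MonoidHomClass (Valuation x1 x3.ValueGroup) x1 x3.ValueGroup := inferInstance
@[reducible] noncomputable def a59.{u1} {x1 : ℕ} {x2 : Type u1} [x3 : Field x2] {x4 : ValuationSubring x2} : SubNegMonoid ↥(Vale.Agent.P019P.UC x1 x4) := inferInstance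
@[reducible] noncomputable def a60.{u1} {x1 : ℕ} {x2 : Type u1} [x3 : Field x2] : AddZero (Vale.Agent.P019.V x1 x2) := inferInstance
@[reducible] noncomputable def a61.{u1} {x1 : ℕ} {x2 : Type u1} [x3 : Field x2] {x4 : ValuationSubring x2} : AddGroup ↥(Vale.Agent.P019P.UC x1 x4) := inferInstance
@[reducible] noncomputable def a62.{u1} {x1 : Type u1} [x2 : Field x1] {x3 : ValuationSubring x1} : MonoidWithZero x3.ValueGroup := inferInstance
@[reducible] def a63.{u1} {x1 : Type u1} [x2 : Field x1] {x3 : Subfield x1} : Module (↥x3) x1 := inferInstance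
@[reducible] noncomputable def a64.{u1} {x1 : Type u1} [x2 : Field x1] {x3 : Subfield x1} {x4 : Finset x1} : Module (↥(Vale.Agent.P019P.gsp x3 x4)) (Polynomial ↥(Vale.Agent.P019P.gsp x3 x4)) := inferInstance
@[reducible] noncomputable def a65.{u1} {x1 : ℕ} {x2 : Type u1} [x3 : Field x2] {x4 : ValuationSubring x2} : SMul (ZMod x1) (Vale.Agent.P019.V x1 (Vale.Agent.P019P.RFP x4)) := inferInstance
@[reducible] def a66.{u1} {x1 : Type u1} [x2 : Field x1] {x3 : Subfield x1} : CommRing ↥x3 := inferInstance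
@[reducible] def a67.{u1} {x1 : Type u1} [x2 : Field x1] {x3 : Subfield x1} {x4 : IntermediateField (↥x3) x1} : Algebra (↥x4) x1 := inferInstance
theorem a68.{u1, u2} {x1 : Type u1} {x2 : Type u2} [x3 : Field x1] [x4 : Field x2] : NonUnitalRingHomClass (x1 ≃+* x2) x1 x2 := inferInstance
@[reducible] noncomputable def a69.{u1} {x1 : Type u1} [x2 : Field x1] {x3 : Subfield x1} : Algebra (↥x3) (Polynomial ↥x3) := inferInstance
@[reducible] noncomputable def a70.{u1} {x1 : ℕ} {x2 : Type u1} [x3 : Field x2] [x4 : Fact (Nat.Prime x1)] : MulAction (ZMod x1) (Vale.Agent.P019.V x1 x2) := inferInstance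
@[reducible] noncomputable def a71.{u1} {x1 : Type u1} [x2 : Field x1] {x3 : ValuationSubring x1} : MulOne x3.ValueGroup := inferInstance
@[reducible] def a72.{u1} {x1 : Type u1} [x2 : Field x1] {x3 : Subfield x1} {x4 : IntermediateField (↥x3) x1} : CommSemiring ↥x4 := inferInstance
@[reducible] noncomputable def a73.{u1} {x1 : ℕ} {x2 : Type u1} [x3 : Field x2] {x4 : ValuationSubring x2} : AddZeroClass (Vale.Agent.P019.V x1 (IsLocalRing.ResidueField ↥x4)) := inferInstance
@[reducible] noncomputable def a74.{u1} {x1 : ℕ} {x2 : Type u1} [x3 : Field x2] : SubNegMonoid (Vale.Agent.P019.V x1 x2) := inferInstance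
@[reducible] noncomputable def a75.{u1} {x1 : ℕ} {x2 : Type u1} [x3 : Field x2] {x4 : ValuationSubring x2} : AddMonoid (Vale.Agent.P019.V x1 (IsLocalRing.ResidueField ↥x4)) := inferInstance
theorem a76.{u1} {x1 : Type u1} [x2 : Field x1] {x3 : ValuationSubring x1} : PosMulReflectLT x3.ValueGroup := inferInstance
end AFast6df17cx12a
attribute [local instance] AFast6df17cx12a.a0 AFast6df17cx12a.a1 AFast6df17cx12a.a2
  AFast6df17cx12a.a3 AFast6df17cx12a.a4 AFast6df17cx12a.a5 AFast6df17cx12a.a6 AFast6df17cx12a.a7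
  AFast6df17cx12a.a8 AFast6df17cx12a.a9 AFast6df17cx12a.a10 AFast6df17cx12a.a11
  AFast6df17cx12a.a12 AFast6df17cx12a.a13 AFast6df17cx12a.a14 AFast6df17cx12a.a15
  AFast6df17cx12a.a16 AFast6df17cx12a.a17 AFast6df17cx12a.a18 AFast6df17cx12a.a19
  AFast6df17cx12a.a20 AFast6df17cx12a.a21 AFast6df17cx12a.a22 AFast6df17cx12a.a23
  AFast6df17cx12a.a24 AFast6df17cx12a.a25 AFast6df17cx12a.a26 AFast6df17cx12a.a27
  AFast6df17cx12a.a28 AFast6df17cx12a.a29 AFast6df17cx12a.a30 AFast6df17cx12a.a31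
  AFast6df17cx12a.a32 AFast6df17cx12a.a33 AFast6df17cx12a.a34 AFast6df17cx12a.a35
  AFast6df17cx12a.a36 AFast6df17cx12a.a37 AFast6df17cx12a.a38 AFast6df17cx12a.a39
  AFast6df17cx12a.a40 AFast6df17cx12a.a41 AFast6df17cx12a.a42 AFast6df17cx12a.a43
  AFast6df17cx12a.a44 AFast6df17cx12a.a45 AFast6df17cx12a.a46 AFast6df17cx12a.a47
  AFast6df17cx12a.a48 AFast6df17cx12a.a49 AFast6df17cx12a.a50 AFast6df17cx12a.a51
  AFast6df17cx12a.a52 AFast6df17cx12a.a53 AFast6df17cx12a.a54 AFast6df17cx12a.a55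
  AFast6df17cx12a.a56 AFast6df17cx12a.a57 AFast6df17cx12a.a58 AFast6df17cx12a.a59
  AFast6df17cx12a.a60 AFast6df17cx12a.a61 AFast6df17cx12a.a62 AFast6df17cx12a.a63
  AFast6df17cx12a.a64 AFast6df17cx12a.a65 AFast6df17cx12a.a66 AFast6df17cx12a.a67
  AFast6df17cx12a.a68 AFast6df17cx12a.a69 AFast6df17cx12a.a70 AFast6df17cx12a.a71
  AFast6df17cx12a.a72 AFast6df17cx12a.a73 AFast6df17cx12a.a74 AFast6df17cx12a.a75
  AFast6df17cx12a.a76
namespace AFast6df17cx12b
@[reducible] def a0.{u1} {x1 : Type u1} [x2 : Field x1] {x3 : Subfield x1} {x4 : IntermediateField (↥x3) x1} : Algebra ↥x3 ↥x4 := inferInstance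
theorem a1.{u1} {x1 : Type u1} [x2 : Field x1] {x3 : Subfield x1} : IsScalarTower (↥x3) (↥x3) x1 := inferInstance
theorem a2.{u1, u2} {x1 : Type u1} {x2 : Type u2} [x3 : Field x1] [x4 : Field x2] : AddHomClass (x1 ≃+* x2) x1 x2 := inferInstance
theorem a3.{u1, u2} {x1 : Type u1} {x2 : Type u2} [x3 : Field x1] [x4 : Field x2] : AddMonoidHomClass (x1 →+* x2) x1 x2 := inferInstance
@[reducible] def a4.{u1} {x1 : Type u1} [x2 : Field x1] {x3 : Subfield x1} {x4 : IntermediateField (↥x3) x1} : Module ↥x3 ↥x4 := inferInstance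
theorem a5.{u1, u2} {x1 : ℕ} {x2 : Type u1} [x3 : Field x2] {x4 : ValuationSubring x2} {x5 : Type u2} [x6 : Field x5] {x7 : ValuationSubring x5} : ZeroHomClass (Vale.Agent.P019.V x1 (IsLocalRing.ResidueField ↥x4) ≃ₗ[ZMod x1] Vale.Agent.P019.V x1 (IsLocalRing.ResidueField ↥x7)) (Vale.Agent.P019.V x1 (IsLocalRing.ResidueField ↥x4)) (Vale.Agent.P019.V x1 (IsLocalRing.ResidueField ↥x7)) := inferInstance
theorem a6.{u1, u2} {x1 : Type u1} {x2 : Type u2} [x3 : Field x1] [x4 : Field x2] : AddMonoidHomClass (x1 ≃+* x2) x1 x2 := inferInstance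
theorem a7.{u1, u2} {x1 : ℕ} {x2 : Type u1} [x3 : Field x2] {x4 : ValuationSubring x2} {x5 : Type u2} [x6 : Field x5] {x7 : ValuationSubring x5} : AddMonoidHomClass (Vale.Agent.P019.V x1 (IsLocalRing.ResidueField ↥x4) ≃ₗ[ZMod x1] Vale.Agent.P019.V x1 (IsLocalRing.ResidueField ↥x7)) (Vale.Agent.P019.V x1 (IsLocalRing.ResidueField ↥x4)) (Vale.Agent.P019.V x1 (IsLocalRing.ResidueField ↥x7)) := inferInstance
theorem a8.{u1, u2} {x1 : ℕ} {x2 : Type u1} [x3 : Field x2] {x4 : ValuationSubring x2} {x5 : Type u2} [x6 : Field x5] {x7 : ValuationSubring x5} : DistribMulActionSemiHomClass (Vale.Agent.P019.V x1 (IsLocalRing.ResidueField ↥x4) ≃ₗ[ZMod x1] Vale.Agent.P019.V x1 (IsLocalRing.ResidueField ↥x7)) (⇑(RingHom.id (ZMod x1))) (Vale.Agent.P019.V x1 (IsLocalRing.ResidueField ↥x4)) (Vale.Agent.P019.V x1 (IsLocalRing.ResidueField ↥x7)) := inferInstance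
theorem a9.{u1} {x1 : Type u1} [x2 : Field x1] {x3 : Subfield x1} [x4 : IsAlgClosed ↥x3] : PerfectField ↥x3 := inferInstance
theorem a10.{u1} {x1 : Type u1} [x2 : Field x1] {x3 : ValuationSubring x1} : AddMonoidHomClass (IsLocalRing.ResidueField ↥x3 →+* Vale.Agent.P019P.RFP x3) (IsLocalRing.ResidueField ↥x3) (Vale.Agent.P019P.RFP x3) := inferInstance
theorem a11.{u1, u2} {x1 : ℕ} {x2 : Type u1} [x3 : Field x2] {x4 : ValuationSubring x2} {x5 : Type u2} [x6 : Field x5] {x7 : ValuationSubring x5} : SemilinearMapClass (Vale.Agent.P019.V x1 (IsLocalRing.ResidueField ↥x4) ≃ₗ[ZMod x1] Vale.Agent.P019.V x1 (IsLocalRing.ResidueField ↥x7)) (RingHom.id (ZMod x1)) (Vale.Agent.P019.V x1 (IsLocalRing.ResidueField ↥x4)) (Vale.Agent.P019.V x1 (IsLocalRing.ResidueField ↥x7)) := inferInstance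
theorem a12.{u1} {x1 : Type u1} [x2 : Field x1] {x3 : Subfield x1} {x4 : IntermediateField (↥x3) x1} : IsScalarTower ↥x3 ↥x3 ↥x4 := inferInstance
theorem a13.{u1} {x1 : ℕ} [x2 : Fact (Nat.Prime x1)] {x3 : Type u1} [x4 : Field x3] {x5 : ValuationSubring x3} : Module.Projective (ZMod x1) (Vale.Agent.P019.V x1 (IsLocalRing.ResidueField ↥x5)) := inferInstance
theorem a14.{u1} {x1 : ℕ} [x2 : Fact (Nat.Prime x1)] {x3 : Type u1} [x4 : Field x3] {x5 : ValuationSubring x3} : AddMonoidHomClass (↥(Vale.Agent.P019P.UC x1 x5) →ₗ[ZMod x1] Vale.Agent.P019.V x1 (IsLocalRing.ResidueField ↥x5)) (↥(Vale.Agent.P019P.UC x1 x5)) (Vale.Agent.P019.V x1 (IsLocalRing.ResidueField ↥x5)) := inferInstance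
theorem a15.{u1} {x1 : ℕ} [x2 : Fact (Nat.Prime x1)] {x3 : Type u1} [x4 : Field x3] {x5 : ValuationSubring x3} : DistribMulActionSemiHomClass (↥(Vale.Agent.P019P.UC x1 x5) →ₗ[ZMod x1] Vale.Agent.P019.V x1 (IsLocalRing.ResidueField ↥x5)) (⇑(RingHom.id (ZMod x1))) (↥(Vale.Agent.P019P.UC x1 x5)) (Vale.Agent.P019.V x1 (IsLocalRing.ResidueField ↥x5)) := inferInstance
end AFast6df17cx12b
attribute [local instance] AFast6df17cx12b.a0 AFast6df17cx12b.a1 AFast6df17cx12b.a2
  AFast6df17cx12b.a3 AFast6df17cx12b.a4 AFast6df17cx12b.a5 AFast6df17cx12b.a6 AFast6df17cx12b.a7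
  AFast6df17cx12b.a8 AFast6df17cx12b.a9 AFast6df17cx12b.a10 AFast6df17cx12b.a11
  AFast6df17cx12b.a12 AFast6df17cx12b.a13 AFast6df17cx12b.a14 AFast6df17cx12b.a15
attribute [local instance] O19.fr O19.tf O19.pj O19.fl

section

end

section

section

/-!
# Closed pairs
-/

namespace Vale.Agent.P019P

open Vale.Agent.P019

set_option linter.style.haveILetI false

open Polynomial

section ctb

variable {K : Type*} [Field K]

theorem ctb_sup {E F : Subfield K} (hE : (E : Set K).Countable) (hF : (F : Set K).Countable) :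
    ((E ⊔ F : Subfield K) : Set K).Countable := by
  have h : E ⊔ F ≤ Subfield.closure ((E : Set K) ∪ F) :=
    sup_le (fun x hx => Subfield.subset_closure (Or.inl hx))
      (fun x hx => Subfield.subset_closure (Or.inr hx))
  exact (ctb_closure (hE.union hF)).mono h

end ctb

section chain

variable {K : Type*} [Field K]

end chain

namespace Mdl

variable {K : Type*} [Field K] (M : Mdl K)

/-- every element comes from a countable field of constants. -/
theorem exists_ctb (z : K) : ∃ S : Set K, S.Countable ∧ (∀ s ∈ S, s ∈ M.k) ∧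
    z ∈ M.K0 ⊔ Subfield.closure S := by
  have hz : z ∈ Subfield.closure ((M.K0 : Set K) ∪ M.k) := by
    have h1 : (⊤ : Subfield K) ≤ Subfield.closure ((M.K0 : Set K) ∪ M.k) := by
      rw [← M.sup]
      exact sup_le (fun x hx => Subfield.subset_closure (Or.inl hx))
        (fun x hx => Subfield.subset_closure (Or.inr hx))
    exact h1 trivial
  induction hz using Subfield.closure_induction with
  | mem x hx =>
    rcases hx with hx | hx
    · exact ⟨∅, Set.countable_empty, by simp, (le_sup_left : M.K0 ≤ _) hx⟩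
    · exact ⟨{x}, Set.countable_singleton x, by simpa using hx,
        (le_sup_right : Subfield.closure {x} ≤ M.K0 ⊔ _) (Subfield.subset_closure rfl)⟩
  | one => exact ⟨∅, Set.countable_empty, by simp, Subfield.one_mem _⟩
  | add x y _ _ hx hy =>
    obtain ⟨S, hS, hSk, hx⟩ := hx
    obtain ⟨T, hT, hTk, hy⟩ := hy
    refine ⟨S ∪ T, hS.union hT, ?_, Subfield.add_mem _ ?_ ?_⟩
    · rintro s (hs | hs)
      exacts [hSk s hs, hTk s hs]
    · exact sup_le_sup_left (Subfield.closure_mono Set.subset_union_left) _ hx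
    · exact sup_le_sup_left (Subfield.closure_mono Set.subset_union_right) _ hy
  | neg x _ hx =>
    obtain ⟨S, hS, hSk, hx⟩ := hx
    exact ⟨S, hS, hSk, Subfield.neg_mem _ hx⟩
  | inv x _ hx =>
    obtain ⟨S, hS, hSk, hx⟩ := hx
    exact ⟨S, hS, hSk, Subfield.inv_mem _ hx⟩
  | mul x y _ _ hx hy =>
    obtain ⟨S, hS, hSk, hx⟩ := hx
    obtain ⟨T, hT, hTk, hy⟩ := hy
    refine ⟨S ∪ T, hS.union hT, ?_, Subfield.mul_mem _ ?_ ?_⟩
    · rintro s (hs | hs)
      exacts [hSk s hs, hTk s hs]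
    · exact sup_le_sup_left (Subfield.closure_mono Set.subset_union_left) _ hx
    · exact sup_le_sup_left (Subfield.closure_mono Set.subset_union_right) _ hy

/-- enlarging a countable field of constants. -/
theorem exists_big (hk : ¬ (M.k : Set K).Countable) {N : Subfield K} (hN : M.Sub N)
    (hc : (N : Set K).Countable) (Z : Set K) (hZ : Z.Countable) :
    ∃ N₂, M.Sub N₂ ∧ (N₂ : Set K).Countable ∧ N ≤ N₂ ∧ (∃ a ∈ N₂, a ∉ N) ∧
      ∀ z ∈ Z, z ∈ M.F N₂ := by
  choose S hS hSk hSz using M.exists_ctb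
  obtain ⟨a, hak, haN⟩ : ∃ a ∈ M.k, a ∉ N := by
    by_contra hcon
    push Not at hcon
    exact hk (hc.mono hcon)
  set T : Set K := {a} ∪ ⋃ z ∈ Z, S z with hT
  have hTc : T.Countable :=
    (Set.countable_singleton a).union (hZ.biUnion (fun z _ => hS z))
  have hTk : Subfield.closure T ≤ M.k := by
    rw [Subfield.closure_le]
    rintro s (hs | hs)
    · rw [Set.mem_singleton_iff.1 hs]; exact hak
    · obtain ⟨z, _, hs⟩ := Set.mem_iUnion₂.1 hs
      exact hSk z s hs
  have h0 : N ≤ rac (N ⊔ Subfield.closure T) := le_sup_left.trans (le_rac _)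
  have h1 : Subfield.closure T ≤ rac (N ⊔ Subfield.closure T) := le_sup_right.trans (le_rac _)
  refine ⟨rac (N ⊔ Subfield.closure T), sub_rac (hN.ge.trans le_sup_left)
    (sup_le hN.le hTk), ctb_rac (ctb_sup hc (ctb_closure hTc)), h0,
    ⟨a, h1 (Subfield.subset_closure (Or.inl rfl)), haN⟩, ?_⟩
  intro z hz
  refine sup_le_sup_left ?_ M.K0 (hSz z)
  refine (Subfield.closure_mono ?_).trans h1
  exact (Set.subset_biUnion_of_mem (u := fun z => S z) hz).trans Set.subset_union_right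

variable {M}

end Mdl

section CP

variable {K L : Type*} [Field K] [Field L] {ℓ : ℕ}

/-- closed pairs of countable algebraically closed fields of constants. -/
structure CP (M : Mdl K) (M' : Mdl L) (Θ : V ℓ K ≃ₗ[ZMod ℓ] V ℓ L) (N : Subfield K)
    (N' : Subfield L) : Prop where
  sub : M.Sub N
  sub' : M'.Sub N'
  ctb : (N : Set K).Countable
  ctb' : (N' : Set L).Countable
  map : ∀ v, v ∈ VS ℓ (M.F N) ↔ Θ v ∈ VS ℓ (M'.F N')
  inf : ∀ S : Finset K, (∀ s ∈ S, s ∈ M.F N) →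
    ∃ N₀, M.Sub N₀ ∧ N₀ ≤ N ∧ N₀ ≠ N ∧ (∀ s ∈ S, s ∈ M.F N₀)
  inf' : ∀ S : Finset L, (∀ s ∈ S, s ∈ M'.F N') →
    ∃ N₀, M'.Sub N₀ ∧ N₀ ≤ N' ∧ N₀ ≠ N' ∧ (∀ s ∈ S, s ∈ M'.F N₀)

/-- the state of the construction. -/
structure St (M : Mdl K) (M' : Mdl L) where
  N : Subfield K
  N' : Subfield L
  sub : M.Sub N
  sub' : M'.Sub N'
  ctb : (N : Set K).Countable
  ctb' : (N' : Set L).Countable

end CP

end Vale.Agent.P019P
end
end

section

section

/-!
# Linear disjointness
-/

namespace Vale.Agent.P019P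

open Vale.Agent.P019

set_option linter.style.haveILetI false
set_option linter.unusedSectionVars false

open Polynomial

section ld

variable {Ω : Type*} [Field Ω]

/-- linear independence over a relatively algebraically closed extension. -/
theorem ld_indep [PerfectField Ω] {E K B : Subfield Ω} [PerfectField E] (hEK : E ≤ K)
    (hEB : E ≤ B) (hrac : ∀ z ∈ K, IsAlgebraic E z → z ∈ E) (hB : ∀ b ∈ B, IsAlgebraic E b)
    {ι : Type*} [Fintype ι] {p : ι → Ω} (hp : ∀ i, p i ∈ B) (h : LinearIndependent E p) :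
    LinearIndependent K p := by
  classical
  obtain ⟨γ, hγ, hC⟩ := ul1_primitive (E := E) (Set.range p) (Set.finite_range p) (by
    rintro _ ⟨i, rfl⟩
    exact hB _ (hp i))
  set V := IntermediateField.adjoin E {γ} with hV
  set d := (minpoly E γ).natDegree with hd
  haveI : FiniteDimensional E V := IntermediateField.adjoin.finiteDimensional hγ.isIntegral
  have hfr : Module.finrank E V = d := IntermediateField.adjoin.finrank hγ.isIntegral
  have hpV : ∀ i, p i ∈ V := fun i => by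
    rw [← hC]
    exact IntermediateField.subset_adjoin E _ ⟨i, rfl⟩
  let p' : ι → V := fun i => ⟨p i, hpV i⟩
  have hp' : LinearIndependent E p' :=
    LinearIndependent.of_comp V.val.toLinearMap h
  have hs : LinearIndepOn E id (Set.range p') := hp'.linearIndepOn_id
  let b := Module.Basis.extend hs
  haveI : Fintype (hs.extend (Set.subset_univ _)) := FiniteDimensional.fintypeBasisIndex b
  have hcard : Fintype.card (hs.extend (Set.subset_univ _)) = d := by
    rw [← hfr, Module.finrank_eq_card_basis b]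
  -- the basis stays independent
  have hb : LinearIndependent K (fun i => ((b i : V) : Ω)) := by
    rw [linearIndependent_iff_card_le_finrank_span, hcard]
    have h1 : LinearIndependent K fun i : Fin d => γ ^ (i : ℕ) :=
      (_root_.linearIndependent_pow (K := K) γ).comp (Fin.castLE (ul1_natDegree hEK hrac hγ))
        (Fin.castLE_injective _)
    have h2 := finrank_span_eq_card h1
    rw [Fintype.card_fin] at h2
    rw [← h2]
    have hfin : FiniteDimensional K (Submodule.span K (Set.range fun i => ((b i : V) : Ω))) :=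
      FiniteDimensional.span_of_finite K (Set.finite_range _)
    refine Submodule.finrank_mono ?_
    rw [Submodule.span_le]
    rintro _ ⟨i, rfl⟩
    have h3 : γ ^ (i : ℕ) ∈ V := pow_mem (IntermediateField.mem_adjoin_simple_self E γ) (i : ℕ)
    have h4 := b.sum_repr ⟨_, h3⟩
    have h5 := congrArg (fun x : V => (x : Ω)) h4
    simp only at h5
    rw [SetLike.mem_coe]
    simp only
    rw [← h5]
    change V.val (∑ j, (b.repr ⟨_, h3⟩) j • b j) ∈ _
    rw [map_sum]
    refine Submodule.sum_mem _ fun j _ => ?_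
    rw [map_smul]
    have h6 : ((b.repr ⟨_, h3⟩) j • V.val (b j) : Ω) =
        (Subfield.inclusion hEK ((b.repr ⟨_, h3⟩) j)) • (V.val (b j) : Ω) := rfl
    rw [h6]
    exact Submodule.smul_mem _ _ (Submodule.subset_span ⟨j, rfl⟩)
  have hsub : ∀ i, p' i ∈ hs.extend (Set.subset_univ _) := fun i =>
    hs.subset_extend _ ⟨i, rfl⟩
  have h7 := hb.comp (fun i => (⟨p' i, hsub i⟩ : hs.extend (Set.subset_univ _)))
    (fun i j hij => hp'.injective (congrArg Subtype.val hij))
  have h8 : (fun i => ((b i : V) : Ω)) ∘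
      (fun i => (⟨p' i, hsub i⟩ : hs.extend (Set.subset_univ _))) = p := by
    funext i
    simp only [Function.comp_apply, b]
    rw [Module.Basis.extend_apply_self]
  rw [h8] at h7
  exact h7

/-- linear independence over a compositum with an algebraic extension. -/
theorem ld_tower [PerfectField Ω] {E F K B : Subfield Ω} [PerfectField E] (hEF : E ≤ F)
    (hFK : F ≤ K) (hEB : E ≤ B) (hrac : ∀ z ∈ K, IsAlgebraic E z → z ∈ E)
    (hB : ∀ b ∈ B, IsAlgebraic E b) {ι : Type*} [Fintype ι] {p : ι → Ω} (hp : ∀ i, p i ∈ K)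
    (h : LinearIndependent F p) : LinearIndependent (F ⊔ B : Subfield Ω) p := by
  classical
  have hBF : ∀ b ∈ B, IsAlgebraic F b := fun b hb => isAlgebraic_mono hEF (hB b hb)
  obtain ⟨T, hTB, hTspan, hTind⟩ := exists_linearIndependent E (B : Set Ω)
  have hBT : ∀ x ∈ F ⊔ B, x ∈ Submodule.span F T := by
    intro x hx
    have h1 := mem_span_of_mem_sup F B hBF hx
    refine (Submodule.span_le.2 ?_ : Submodule.span F (B : Set Ω) ≤ Submodule.span F T) h1
    intro y hy
    have h2 : y ∈ Submodule.span E T := by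
      rw [hTspan]
      exact Submodule.subset_span hy
    clear hy
    induction h2 using Submodule.span_induction with
    | mem y hy => exact Submodule.subset_span hy
    | zero => exact Submodule.zero_mem _
    | add y z _ _ hy hz => exact Submodule.add_mem _ hy hz
    | smul a y _ hy =>
      exact Submodule.smul_mem (Submodule.span F T) (Subfield.inclusion hEF a) hy
  rw [Fintype.linearIndependent_iff]
  intro g hg
  have h1 : ∀ i, ∃ f : T →₀ F, Finsupp.linearCombination F ((↑) : T → Ω) f = (g i : Ω) := by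
    intro i
    have h2 := hBT _ (g i).2
    rw [Finsupp.mem_span_iff_linearCombination] at h2
    exact h2
  choose f hf using h1
  let S : Finset T := Finset.univ.biUnion fun i => (f i).support
  have hS : ∀ i, (f i).support ⊆ S := fun i =>
    Finset.subset_biUnion_of_mem (fun i => (f i).support) (Finset.mem_univ i)
  have hgi : ∀ i, (g i : Ω) = ∑ j ∈ S, ((f i j : F) : Ω) * (j : Ω) := by
    intro i
    rw [← hf i, Finsupp.linearCombination_apply, Finsupp.sum_of_support_subset _ (hS i)]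
    · rfl
    · intro j _
      exact zero_smul F _
  have h3 : ∑ j ∈ S, (∑ i, ((f i j : F) : Ω) * p i) * (j : Ω) = 0 := by
    have h4 : ∑ i, (g i : Ω) * p i = 0 := hg
    rw [← h4]
    simp only [hgi, Finset.sum_mul]
    rw [Finset.sum_comm]
    refine Finset.sum_congr rfl fun i _ => Finset.sum_congr rfl fun j _ => ?_
    ring
  have hmem : ∀ j, (∑ i, ((f i j : F) : Ω) * p i) ∈ K := fun j =>
    K.sum_mem fun i _ => K.mul_mem (hFK (f i j).2) (hp i)
  have h5 : LinearIndependent K (fun j : S => ((j : T) : Ω)) := by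
    refine ld_indep (E := E) (K := K) (B := B) (hEF.trans hFK) hEB hrac hB
      (fun j => hTB (j : T).2) ?_
    exact hTind.comp (fun j : S => (j : T)) Subtype.val_injective
  rw [Fintype.linearIndependent_iff] at h5
  have h6 := h5 (fun j => ⟨_, hmem j⟩) (by
    change ∑ j : S, (∑ i, ((f i (j : T) : F) : Ω) * p i) * (((j : T)) : Ω) = 0
    rw [← h3, ← Finset.sum_coe_sort S])
  rw [Fintype.linearIndependent_iff] at h
  have h7 : ∀ j ∈ S, ∀ i, f i j = 0 := by
    intro j hj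
    exact h (fun i => f i j) (congrArg Subtype.val (h6 ⟨j, hj⟩))
  intro i
  apply Subtype.ext
  rw [hgi i]
  refine Finset.sum_eq_zero fun j hj => ?_
  rw [h7 j hj i]
  exact zero_mul _

/-- linearly independent powers bound the degree. -/
theorem ld_card {F : Subfield Ω} {θ : Ω} {d : ℕ}
    (h : LinearIndependent F fun i : Fin d => θ ^ (i : ℕ)) (halg : IsAlgebraic F θ) :
    d ≤ (minpoly F θ).natDegree := by
  haveI : FiniteDimensional F (IntermediateField.adjoin F {θ}) :=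
    IntermediateField.adjoin.finiteDimensional halg.isIntegral
  rw [← IntermediateField.adjoin.finrank halg.isIntegral]
  have h1 : LinearIndependent F fun i : Fin d =>
      (IntermediateField.AdjoinSimple.gen F θ) ^ (i : ℕ) := by
    refine LinearIndependent.of_comp (IntermediateField.adjoin F {θ}).val.toLinearMap ?_
    exact h
  have h2 := h1.fintype_card_le_finrank
  rwa [Fintype.card_fin] at h2

attribute [-instance] AFast6df17cx12a.a0 AFast6df17cx12a.a1 AFast6df17cx12a.a2 AFast6df17cx12a.a3 AFast6df17cx12a.a4 AFast6df17cx12a.a5 AFast6df17cx12a.a6 AFast6df17cx12a.a7 AFast6df17cx12a.a8 AFast6df17cx12a.a9 AFast6df17cx12a.a10 AFast6df17cx12a.a11 AFast6df17cx12a.a12 AFast6df17cx12a.a13 AFast6df17cx12a.a14 AFast6df17cx12a.a15 AFast6df17cx12a.a16 AFast6df17cx12a.a17 AFast6df17cx12a.a18 AFast6df17cx12a.a19 AFast6df17cx12a.a20 AFast6df17cx12a.a21 AFast6df17cx12a.a22 AFast6df17cx12a.a23 AFast6df17cx12a.a24 AFast6df17cx12a.a25 AFast6df17cx12a.a26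 AFast6df17cx12a.a27 AFast6df17cx12a.a28 AFast6df17cx12a.a29 AFast6df17cx12a.a30 AFast6df17cx12a.a31 AFast6df17cx12a.a32 AFast6df17cx12a.a33 AFast6df17cx12a.a34 AFast6df17cx12a.a35 AFast6df17cx12a.a36 AFast6df17cx12a.a37 AFast6df17cx12a.a38 AFast6df17cx12a.a39 AFast6df17cx12a.a40 AFast6df17cx12a.a41 AFast6df17cx12a.a42 AFast6df17cx12a.a43 AFast6df17cx12a.a44 AFast6df17cx12a.a45 AFast6df17cx12a.a46 AFast6df17cx12a.a47 AFast6df17cx12a.a48 AFast6df17cx12a.a49 AFast6df17cx12a.a50 AFast6df17cx12a.a51 AFast6df17cx12a.a52 AFast6df17cx12a.a53 AFast6df17cx12a.a54 AFast6df17cx12a.a55 AFast6df17cx12a.a56 AFast6df17cx12a.a57 AFast6df17cx12a.a58 AFast6df17cx12a.a59 AFast6df17cx12a.a60 AFast6df17cx12a.a61 AFast6df17cx12a.a62 AFast6df17cx12a.a63 AFast6df17cx12a.a64 AFast6df17cx12a.a65 AFast6df17cx12a.a66 AFast6df17cx12a.a67 AFast6df17cx12a.a68 AFast6df17cx12a.a69 AFast6df17cx12a.a70 AFast6df17cx12a.a71 AFast6df17cx12a.a72 AFast6df17cx12a.a73 AFast6df17cx12a.a74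 AFast6df17cx12a.a75 AFast6df17cx12a.a76 AFast6df17cx12b.a0 AFast6df17cx12b.a1 AFast6df17cx12b.a2 AFast6df17cx12b.a3 AFast6df17cx12b.a4 AFast6df17cx12b.a5 AFast6df17cx12b.a6 AFast6df17cx12b.a7 AFast6df17cx12b.a8 AFast6df17cx12b.a9 AFast6df17cx12b.a10 AFast6df17cx12b.a11 AFast6df17cx12b.a12 AFast6df17cx12b.a13 AFast6df17cx12b.a14 AFast6df17cx12b.a15 in
/-- degrees do not drop if the constants are extended. -/
theorem ld_deg [PerfectField Ω] {E K R : Subfield Ω} [PerfectField E] (hEK : E ≤ K) (hER : E ≤ R)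
    (hR : IsAlgClosed R) (hrac : ∀ z ∈ K, IsAlgebraic E z → z ∈ E) {s θ : Ω} (hsK : s ∈ K)
    (hs : ¬ IsAlgebraic R s) (hK : ∀ z ∈ K, IsAlgebraic (adj E s) z) (hθ : θ ∈ K) :
    (minpoly (adj E s) θ).natDegree ≤ (minpoly (adj R s) θ).natDegree := by
  have hlR : rac E ≤ R := (RAC_of_isAlgClosed R hR).le hER
  have hlac : IsAlgClosed (rac E) := isAlgClosed_of_RAC hR (RAC_rac E) hlR
  -- step 1
  have h1 : (minpoly (adj E s) θ).natDegree ≤ (minpoly (adj (rac E) s) θ).natDegree := by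
    have e1 : adj (rac E) s = adj E s ⊔ rac E := by
      apply le_antisymm
      · exact adj_le le_sup_right ((le_sup_left : adj E s ≤ _) (mem_adj E s))
      · exact sup_le (adj_mono (le_rac E) s) (le_adj _ s)
    rw [e1]
    have h2 := ld_tower (E := E) (F := adj E s) (K := pf K) (B := rac E) (le_adj E s)
      (pf_mono (Vale.Agent.P019.adj_le hEK hsK)) (le_rac E) (fun z hz halg => by
        obtain ⟨n, hn⟩ := mem_pf.1 hz
        exact mem_of_pow_q (hrac _ hn (halg.pow _)))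
      (fun b hb => mem_rac.1 hb) (fun i => (pf K).pow_mem (le_pf K hθ) _)
      (_root_.linearIndependent_pow (K := adj E s) θ)
    exact ld_card h2 (isAlgebraic_mono le_sup_left (hK θ hθ))
  -- step 2
  refine h1.trans (ul1_natDegree (adj_mono hlR s) ?_
    (isAlgebraic_mono (adj_mono (le_rac E) s) (hK θ hθ)))
  intro z hz halg
  obtain ⟨n, hn⟩ := mem_adj_iff.1 hz
  refine mem_of_pow_q (n := n) ?_
  refine rac_sup_gen (l := rac E) (A := adj (rac E) s) (B := R) (RAC_rac E) (le_adj _ s) hlR hR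
    (Fre.of_one (y := s) (fun a ha => isAlgebraic_of_mem ha) hs) ?_ (halg.pow _)
  refine (Vale.Agent.P019.adj_le le_sup_right ?_ : Vale.Agent.P019.adj R s ≤ _) hn
  exact (le_sup_left : adj (rac E) s ≤ _) (mem_adj _ s)

/-- `ℓ`-th powers after an extension of the constants. -/
theorem ld_pow [IsAlgClosed Ω] (ℓ : ℕ) [Fact ℓ.Prime] {E K R F : Subfield Ω} [PerfectField E]
    [PerfectField K] (hEK : E ≤ K) (hER : E ≤ R) (hR : IsAlgClosed R)
    (hrac : ∀ z ∈ K, IsAlgebraic E z → z ∈ E) {ζ : Ω} (hζE : ζ ∈ E) (hζ : IsPrimitiveRoot ζ ℓ)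
    {s : Ω} (hsK : s ∈ K) (hs : ¬ IsAlgebraic R s) (hK : ∀ z ∈ K, IsAlgebraic (adj E s) z)
    (hF : adj R s ≤ F) (hFrac : ∀ z ∈ F, IsAlgebraic (adj R s) z → z ∈ adj R s) {w z : Ω}
    (hw : w ∈ K ⊔ F) (hz : z ∈ K) (hz0 : z ≠ 0) (hwz : w ^ ℓ = z) :
    ∃ e ∈ E, ∃ u ∈ K, z = e * u ^ ℓ := by
  have hℓ : 0 < ℓ := (Fact.out : ℓ.Prime).pos
  haveI : PerfectField R := inferInstance
  have hKR : ∀ x ∈ K, IsAlgebraic (adj R s) x := fun x hx =>
    isAlgebraic_mono (adj_mono hER s) (hK x hx)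
  have h1 : ∀ x ∈ K ⊔ adj R s, IsAlgebraic (adj R s) x := by
    intro x hx
    have h2 : K ⊔ adj R s ≤ rac (adj R s) :=
      sup_le (fun y hy => mem_rac.2 (hKR y hy)) (le_rac _)
    exact mem_rac.1 (h2 hx)
  have hwalg : IsAlgebraic (adj R s) w :=
    IsAlgebraic.of_pow hℓ (by rw [hwz]; exact hKR z hz)
  have h2 : w ∈ K ⊔ adj R s := by
    refine alg_sup (E := adj R s) (R := F) (B := K ⊔ adj R s) hF le_sup_right hFrac h1 ?_ hwalg
    refine (sup_le (le_sup_left.trans le_sup_right) le_sup_left : K ⊔ F ≤ F ⊔ (K ⊔ adj R s)) hw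
  have h3 : w ∈ K ⊔ R := by
    refine (sup_le le_sup_left (adj_le le_sup_right ?_) : K ⊔ adj R s ≤ K ⊔ R) h2
    exact (le_sup_left : K ≤ K ⊔ R) hsK
  have hlR : rac E ≤ R := (RAC_of_isAlgClosed R hR).le hER
  have hlac : IsAlgClosed (rac E) := isAlgClosed_of_RAC hR (RAC_rac E) hlR
  have h4 : w ∈ K ⊔ rac E := by
    refine rac_sup_gen (l := rac E) (A := K ⊔ rac E) (B := R) (RAC_rac E) le_sup_right hlR hR
      (Fre.of_one (y := s) ?_ hs) ?_ (IsAlgebraic.of_pow hℓ ?_)
    · intro a ha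
      have h5 : K ⊔ rac E ≤ rac (adj (rac E) s) :=
        sup_le (fun y hy => mem_rac.2 (isAlgebraic_mono (adj_mono (le_rac E) s) (hK y hy)))
          ((le_adj _ s).trans (le_rac _))
      exact mem_rac.1 (h5 ha)
    · exact (sup_le_sup_right le_sup_left R : K ⊔ R ≤ (K ⊔ rac E) ⊔ R) h3
    · rw [hwz]
      exact isAlgebraic_of_mem ((le_sup_left : K ≤ K ⊔ rac E) hz)
  exact kummer_descent ℓ E K (rac E) hEK hrac (fun b hb => mem_rac.1 hb) ζ hζE hζ hz hz0 h4 hwz

end ld

end Vale.Agent.P019P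
end
end

section

section

/-!
# Residue fields of transferred valuations: the kernel of the functional
-/

namespace Vale.Agent.P019P

open Vale.Agent.P019

set_option linter.style.haveILetI false
set_option linter.unusedSectionVars false

open Polynomial Filter

section resmap

variable {K : Type*} [Field K] {ℓ : ℕ} [Fact ℓ.Prime]

theorem resA_ne_zero {W : ValuationSubring K} {z : K} (hz : W.valuation z = 1) : z ≠ 0 := by
  rintro rfl
  rw [map_zero] at hz
  exact zero_ne_one hz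

theorem cl_mem_UC {W : ValuationSubring K} {u : K} (hu : W.valuation u = 1) :
    cl ℓ u ∈ UC ℓ W := ⟨u, hu, rfl⟩

/-- `U1` consists of unit classes. -/
theorem U1_le_UC (W : ValuationSubring K) : U1 ℓ W ≤ UC ℓ W := by
  rintro _ ⟨m, hm, rfl⟩
  exact ⟨1 + m, val_one_add hm, rfl⟩

/-- the class of the residue depends only on the class of the unit. -/
theorem resA_wd {W : ValuationSubring K} {z z' : K} (hz : W.valuation z = 1)
    (hz' : W.valuation z' = 1) (h : cl ℓ z = cl ℓ z') :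
    cl ℓ (rs W z) = cl ℓ (rs W z') := by
  have hℓ : ℓ ≠ 0 := (Fact.out : ℓ.Prime).ne_zero
  obtain ⟨w, hw0, hw⟩ := (cl_eq_iff ℓ (resA_ne_zero hz) (resA_ne_zero hz')).1 h
  have h1 : W.valuation w = 1 := by
    have h2 := congrArg W.valuation hw
    rw [hz, map_mul, hz', one_mul, map_pow] at h2
    exact (pow_eq_one_iff_of_nonneg zero_le hℓ).1 h2.symm
  have h3 : rs W z = rs W z' * rs W w ^ ℓ := by
    rw [hw, rs_mul (mem_of_val hz') (pow_mem (mem_of_val h1) ℓ), rs_pow (mem_of_val h1)]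
  have h4 : rs W z' ≠ 0 := (rs_ne_zero (mem_of_val hz')).2 hz'
  have h5 : rs W w ≠ 0 := (rs_ne_zero (mem_of_val h1)).2 h1
  rw [h3, cl_mul ℓ h4 (pow_ne_zero _ h5), cl_pow_self, add_zero]

/-- the residue map on classes of units. -/
theorem exists_resmap (W : ValuationSubring K) :
    ∃ r : UC ℓ W →ₗ[ZMod ℓ] V ℓ (IsLocalRing.ResidueField W),
      (∀ (u : K) (hu : W.valuation u = 1), r ⟨cl ℓ u, cl_mem_UC hu⟩ = cl ℓ (rs W u)) ∧
      Function.Surjective r ∧ ∀ v : UC ℓ W, r v = 0 ↔ (v : V ℓ K) ∈ U1 ℓ W := by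
  classical
  have hex : ∀ v : UC ℓ W, ∃ z : K, W.valuation z = 1 ∧ (v : V ℓ K) = cl ℓ z := fun v => v.2
  choose z hz hzv using hex
  let r0 : UC ℓ W →+ V ℓ (IsLocalRing.ResidueField W) :=
    { toFun := fun v => cl ℓ (rs W (z v))
      map_zero' := by
        have h1 : cl ℓ (z 0) = cl ℓ (1 : K) := by
          rw [← hzv 0, cl_one]; rfl
        rw [resA_wd (hz 0) (map_one _) h1, rs_one, cl_one]
      map_add' := by
        intro v w
        have hzw : W.valuation (z v * z w) = 1 := by rw [map_mul, hz v, hz w, one_mul]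
        have h1 : cl ℓ (z (v + w)) = cl ℓ (z v * z w) := by
          rw [cl_mul ℓ (resA_ne_zero (hz v)) (resA_ne_zero (hz w)), ← hzv, ← hzv, ← hzv]
          rfl
        rw [resA_wd (hz (v + w)) hzw h1, rs_mul (mem_of_val (hz v)) (mem_of_val (hz w)),
          cl_mul ℓ ((rs_ne_zero (mem_of_val (hz v))).2 (hz v))
            ((rs_ne_zero (mem_of_val (hz w))).2 (hz w))] }
  let r : UC ℓ W →ₗ[ZMod ℓ] V ℓ (IsLocalRing.ResidueField W) :=
    AddMonoidHom.toZModLinearMap ℓ r0
  have hr : ∀ v, r v = cl ℓ (rs W (z v)) := fun v => rfl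
  have hr1 : ∀ (u : K) (hu : W.valuation u = 1), r ⟨cl ℓ u, cl_mem_UC hu⟩ = cl ℓ (rs W u) := by
    intro u hu
    rw [hr]
    exact resA_wd (hz _) hu (hzv _).symm
  refine ⟨r, hr1, ?_, ?_⟩
  · intro c
    obtain ⟨d, hd0, rfl⟩ := cl_surj ℓ c
    obtain ⟨u, hu, rfl⟩ := rs_surj d
    have hu1 : W.valuation u = 1 := (rs_ne_zero hu).1 hd0
    exact ⟨⟨cl ℓ u, cl_mem_UC hu1⟩, hr1 u hu1⟩
  · intro v
    rw [hr, ← cl_mem_U1_iff (hz v), hzv v]

end resmap

section one

variable {F : Type*} [Field F] [PerfectField F] {ℓ : ℕ} [Fact ℓ.Prime] [NeZero (ℓ : F)]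

theorem noCtr {k : Subfield F} (hk : IsAlgClosed k) (hfg : FG k (⊤ : Subfield F)) {x : F}
    (hx : x ∉ k) : NoCtr ℓ F := by
  intro h hh
  refine LinearMap.ext fun v => ?_
  obtain ⟨z, hz0, rfl⟩ := cl_surj ℓ v
  rw [LinearMap.zero_apply]
  by_contra hne
  have hzk : z ∉ k := by
    intro hzk
    apply hne
    rw [line_cl_const hk hzk, map_zero]
  haveI : NeZero ℓ := ⟨(Fact.out : ℓ.Prime).ne_zero⟩
  have key : ∀ c ∈ k, c ≠ 0 → ∃ a : ZMod ℓ, cl ℓ (z - c) = a • cl ℓ z := by
    intro c hc hc0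
    have e1 : cl ℓ (z / c) = cl ℓ z := by
      rw [cl_div ℓ hz0 hc0, line_cl_const hk hc, sub_zero]
    have h1 : z / c ≠ 1 := by
      intro h1
      rw [div_eq_one_iff_eq hc0] at h1
      exact hzk (h1 ▸ hc)
    obtain ⟨a, ha⟩ := hh (z / c) (div_ne_zero hz0 hc0) h1 (by rw [e1]; exact hne)
    refine ⟨a, ?_⟩
    have hzc : z - c ≠ 0 := by
      intro h0
      exact hzk (sub_eq_zero.1 h0 ▸ hc)
    have e2 : 1 - z / c = (-(z - c)) / c := by
      field_simp
      ring
    rw [e2, cl_div ℓ (neg_ne_zero.2 hzc) hc0, line_cl_const hk hc, sub_zero,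
      finB_cl_neg hk, e1] at ha
    exact ha
  have h1 : {c : F | c ∈ k} ⊆ {0} ∪ ⋃ a : ZMod ℓ, {c : F | c ∈ k ∧ cl ℓ (z - c) = a • cl ℓ z} := by
    intro c hc
    by_cases hc0 : c = 0
    · exact Or.inl hc0
    · obtain ⟨a, ha⟩ := key c hc hc0
      exact Or.inr (Set.mem_iUnion.2 ⟨a, hc, ha⟩)
  have h2 : {c : F | c ∈ k}.Finite :=
    ((Set.finite_singleton 0).union (Set.finite_iUnion fun a =>
      dist_top (ℓ := ℓ) hk hfg hzk (a • cl ℓ z))).subset h1
  exact infinite_of_isAlgClosed hk h2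

/-- `exists_nr` without goodness. -/
theorem exists_nr' {k : Subfield F} (hk : IsAlgClosed k) (hfg : FG k (⊤ : Subfield F)) {y : F}
    (hy : y ∉ k) {U : Submodule (ZMod ℓ) (V ℓ F)}
    (hfin : ((U ⊓ VS ℓ (adj k y) : Submodule (ZMod ℓ) (V ℓ F)) : Set (V ℓ F)).Finite) :
    ∃ g₀ ∈ adj k y, ∀ i j : ZMod ℓ, i • cl ℓ g₀ + j • cl ℓ (1 - g₀) ∈ U → i = 0 ∧ j = 0 := by
  haveI : NeZero ℓ := ⟨(Fact.out : ℓ.Prime).ne_zero⟩
  set S : Set (V ℓ F) := ((U ⊓ VS ℓ (adj k y) : Submodule (ZMod ℓ) (V ℓ F)) : Set (V ℓ F))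
    with hS
  have hyc : ∀ c ∈ k, y - c ≠ 0 := by
    intro c hc h0
    apply hy
    rw [sub_eq_zero.1 h0]
    exact hc
  have hcl : ∀ c ∈ k, cl ℓ (y - c) ∈ VS ℓ (adj k y) := fun c hc =>
    cl_mem_VS ((adj k y).sub_mem (mem_adj k y) (le_adj k y hc))
  have hinf : {c : F | c ∈ k}.Infinite := infinite_of_isAlgClosed hk
  -- the point `b`
  obtain ⟨b, hb, hb1⟩ : ∃ b ∈ k, ∀ j : ZMod ℓ, j ≠ 0 → j • cl ℓ (y - b) ∉ S := by
    have hf : (⋃ j : ZMod ℓ, ⋃ s ∈ S, {c : F | c ∈ k ∧ cl ℓ (y - c) = j⁻¹ • s}).Finite :=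
      Set.finite_iUnion fun j => hfin.biUnion fun s _ => dist_top (ℓ := ℓ) hk hfg hy _
    obtain ⟨b, hb, hbn⟩ := (hinf.sdiff hf).nonempty
    refine ⟨b, hb, fun j hj hjS => hbn ?_⟩
    refine Set.mem_iUnion.2 ⟨j, Set.mem_biUnion hjS ⟨hb, ?_⟩⟩
    rw [smul_smul, inv_mul_cancel₀ hj, one_smul]
  obtain ⟨a, ha, hab, ha1⟩ : ∃ a ∈ k, a ≠ b ∧ ∀ i j : ZMod ℓ, i ≠ 0 →
      i • cl ℓ (y - a) + j • cl ℓ (y - b) ∉ S := by
    have hf : ({b} ∪ ⋃ i : ZMod ℓ, ⋃ j : ZMod ℓ, ⋃ s ∈ S,
        {c : F | c ∈ k ∧ cl ℓ (y - c) = i⁻¹ • (s - j • cl ℓ (y - b))}).Finite :=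
      (Set.finite_singleton b).union (Set.finite_iUnion fun i => Set.finite_iUnion fun j =>
        hfin.biUnion fun s _ => dist_top (ℓ := ℓ) hk hfg hy _)
    obtain ⟨a, ha, han⟩ := (hinf.sdiff hf).nonempty
    refine ⟨a, ha, fun h => han (Or.inl h), fun i j hi hijS => han (Or.inr ?_)⟩
    refine Set.mem_iUnion.2 ⟨i, Set.mem_iUnion.2 ⟨j, Set.mem_biUnion hijS ⟨ha, ?_⟩⟩⟩
    rw [add_sub_cancel_right, smul_smul, inv_mul_cancel₀ hi, one_smul]
  have hd : b - a ≠ 0 := sub_ne_zero.2 hab.symm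
  have hdk : b - a ∈ k := k.sub_mem hb ha
  have hg : (y - a) / (b - a) ∈ adj k y :=
    (adj k y).div_mem ((adj k y).sub_mem (mem_adj k y) (le_adj k y ha)) (le_adj k y hdk)
  have e1 : cl ℓ ((y - a) / (b - a)) = cl ℓ (y - a) := by
    rw [cl_div ℓ (hyc _ ha) hd, line_cl_const hk hdk, sub_zero]
  have e2 : cl ℓ (1 - (y - a) / (b - a)) = cl ℓ (y - b) := by
    have h3 : 1 - (y - a) / (b - a) = (-(y - b)) / (b - a) := by
      field_simp
      ring
    rw [h3, cl_div ℓ (neg_ne_zero.2 (hyc _ hb)) hd, line_cl_const hk hdk,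
      sub_zero, finB_cl_neg hk]
  refine ⟨_, hg, fun i j hij => ?_⟩
  rw [e1, e2] at hij
  have hijS : i • cl ℓ (y - a) + j • cl ℓ (y - b) ∈ S :=
    ⟨hij, Submodule.add_mem _ (Submodule.smul_mem _ _ (hcl a ha))
      (Submodule.smul_mem _ _ (hcl b hb))⟩
  by_cases hi : i = 0
  · refine ⟨hi, ?_⟩
    by_contra hj
    rw [hi, zero_smul, zero_add] at hijS
    exact hb1 j hj hijS
  · exact absurd hijS (ha1 i j hi)

/-- a class is a unit class iff the functional vanishes. -/
theorem IsUnif.mem_UC_iff {O : ValuationSubring F} {π : F} (h : IsUnif O π) (v : V ℓ F) :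
    v ∈ UC ℓ O ↔ h.fn ℓ v = 0 := by
  constructor
  · rintro ⟨z, hz, rfl⟩
    exact h.fn_unit ℓ z hz
  · intro hv
    exact h.exists_unit_of_fn ℓ v hv

end one

variable {K L : Type*} [Field K] [Field L] [PerfectField K] [PerfectField L] {ℓ : ℕ}
  [Fact ℓ.Prime] [NeZero (ℓ : K)] [NeZero (ℓ : L)] {Θ : V ℓ K ≃ₗ[ZMod ℓ] V ℓ L}

/-- existence of transferred valuations. -/
theorem exists_tr0 {k : Subfield K} (hk : IsAlgClosed k) (hfgk : FG k (⊤ : Subfield K))
    {l : Subfield L} (hl : IsAlgClosed l) (hΘ : Compatible Θ) {F : Subfield K} (hkF : k ≤ F)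
    (hfg : FG k F) {W : ValuationSubring K} {π θ : K} (hW : Nice W F π θ) {y : K} (hy : y ∉ k)
    (hyW : TrivOn W (adj k y)) : ∃ O : ValuationSubring L, Tr Θ W π O := by
  have hfin := hW.finite (ℓ := ℓ) hk hkF hfg (le_adj k y) hyW
  obtain ⟨g₀, -, hg₀⟩ := exists_nr' hk hfgk hy hfin
  obtain ⟨O, hO1, hO2⟩ := transfer hΘ (exists_neg hk) (exists_neg hl) hW.unif g₀ hg₀
  exact ⟨O, fun _ => hO1, hO2⟩

/-- the kernel of the transferred functional consists of the unit classes. -/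
theorem Tr.uc (hΘ : Compatible Θ) (hnegK : ∃ i : K, i ^ ℓ = -1) (hnegL : ∃ i : L, i ^ ℓ = -1)
    {W : ValuationSubring K} {π : K} {O : ValuationSubring L} (hW : IsUnif W π)
    (hT : Tr Θ W π O) (hNC : NoCtr ℓ (IsLocalRing.ResidueField W)) (v : V ℓ L) :
    v ∈ UC ℓ O ↔ hW.fn ℓ (Θ.symm v) = 0 := by
  constructor
  · rintro ⟨z, hz, rfl⟩
    exact hT.unit hW z hz
  intro hv
  by_contra hvn
  obtain ⟨f', hf'v, hf'U⟩ := Submodule.exists_le_ker_of_notMem hvn
  have hf'1 : ∀ z : L, O.valuation z = 1 → f' (cl ℓ z) = 0 := fun z hz => hf'U (cl_mem_UC hz)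
  set f : V ℓ K →ₗ[ZMod ℓ] ZMod ℓ := f' ∘ₗ Θ.toLinearMap with hf
  have hfU1 : ∀ w ∈ U1 ℓ W, f w = 0 := fun w hw =>
    hf'U (U1_le_UC O ((hT.iff w).2 hw))
  have hpair : ∀ g : V ℓ K →ₗ[ZMod ℓ] ZMod ℓ, (∀ w ∈ U1 ℓ W, g w = 0) → CPair f g := by
    intro g hg
    have h1 : CPair f' (g ∘ₗ Θ.symm.toLinearMap) := by
      refine cpair_of_U1 hnegL O f' _ hf'1 fun w hw => hg _ ?_
      rw [← hT.iff]
      change Θ (Θ.symm w) ∈ _
      rwa [LinearEquiv.apply_symm_apply]
    have h2 := hΘ.cpair h1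
    have h3 : (g ∘ₗ Θ.symm.toLinearMap) ∘ₗ Θ.toLinearMap = g := by
      ext w
      simp
    rwa [h3] at h2
  obtain ⟨r, hr1, hrs, hrk⟩ := exists_resmap (ℓ := ℓ) W
  obtain ⟨s, hs⟩ := LinearMap.exists_rightInverse_of_surjective r (LinearMap.range_eq_top.2 hrs)
  set h : V ℓ (IsLocalRing.ResidueField W) →ₗ[ZMod ℓ] ZMod ℓ :=
    f ∘ₗ (UC ℓ W).subtype ∘ₗ s with hh
  have hhr : ∀ w : UC ℓ W, h (r w) = f w := by
    intro w
    have h1 : r (s (r w) - w) = 0 := by
      rw [map_sub, sub_eq_zero]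
      exact LinearMap.congr_fun hs (r w)
    have h2 := hfU1 _ ((hrk _).1 h1)
    have h3 : f ((s (r w) - w : UC ℓ W) : V ℓ K) = f (s (r w) : V ℓ K) - f (w : V ℓ K) := by
      rw [← map_sub]; rfl
    rw [h3, sub_eq_zero] at h2
    exact h2
  have hh0 : h = 0 := by
    apply hNC
    intro x hx0 hx1 hhx
    obtain ⟨u, hu, rfl⟩ := rs_surj x
    have hu1 : W.valuation u = 1 := (rs_ne_zero hu).1 hx0
    have hu2 : 1 - u ∈ W := sub_mem (one_mem W) hu
    have e1 : rs W (1 - u) = 1 - rs W u := by rw [rs_sub (one_mem W) hu, rs_one]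
    have hu3 : W.valuation (1 - u) = 1 := by
      rw [← rs_ne_zero hu2, e1]
      exact sub_ne_zero.2 (Ne.symm hx1)
    have hfu : f (cl ℓ u) = h (cl ℓ (rs W u)) := by
      rw [← hr1 u hu1, hhr]
    set a : ZMod ℓ := f (cl ℓ (1 - u)) / f (cl ℓ u) with ha
    have hfu0 : f (cl ℓ u) ≠ 0 := by rw [hfu]; exact hhx
    have hw : cl ℓ (1 - u) - a • cl ℓ u ∈ U1 ℓ W := by
      by_contra hwn
      obtain ⟨g, hg1, hg2⟩ := Submodule.exists_le_ker_of_notMem hwn
      apply hg1
      have h4 := hpair g (fun w hw => hg2 hw) u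
      rw [map_sub, map_smul, smul_eq_mul, ha]
      field_simp
      linear_combination h4
    refine ⟨a, ?_⟩
    have h5 := (hrk (⟨cl ℓ (1 - u), cl_mem_UC hu3⟩ - a • ⟨cl ℓ u, cl_mem_UC hu1⟩)).2 hw
    rw [map_sub, map_smul, hr1 _ hu3, hr1 _ hu1, sub_eq_zero, e1] at h5
    exact h5
  have hfunit : ∀ z, W.valuation z = 1 → f (cl ℓ z) = 0 := by
    intro z hz
    have h6 := hhr ⟨cl ℓ z, cl_mem_UC hz⟩
    rw [hh0, LinearMap.zero_apply] at h6
    exact h6.symm
  have h7 := hW.eq_smul_fn ℓ f hfunit (Θ.symm v)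
  rw [hv, mul_zero] at h7
  apply hf'v
  have h8 : f (Θ.symm v) = f' v := by
    rw [hf, LinearMap.comp_apply]
    change f' (Θ (Θ.symm v)) = _
    rw [LinearEquiv.apply_symm_apply]
  rw [← h8, h7]

end Vale.Agent.P019P
end
end

section

section

/-!
# The isomorphism of the residue fields
-/

namespace Vale.Agent.P019P

open Vale.Agent.P019

set_option linter.all false
set_option linter.style.haveILetI false
set_option linter.unusedSectionVars false

open Polynomial Filter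
open scoped TensorProduct

section resmap

variable {F : Type*} [Field F] {ℓ : ℕ}

theorem rc_ne {O : ValuationSubring F} {z : F} (h : O.valuation z = 1) : z ≠ 0 := by
  rintro rfl
  rw [map_zero] at h
  exact zero_ne_one h

theorem rc_rs_ne {O : ValuationSubring F} {z : F} (h : O.valuation z = 1) : rs O z ≠ 0 :=
  (rs_ne_zero (mem_of_val h)).2 h

/-- the class of the residue only depends on the class of the unit. -/
theorem rc_well {O : ValuationSubring F} (hℓ : ℓ ≠ 0) {x y : F} (hx : O.valuation x = 1)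
    (hy : O.valuation y = 1) (h : cl ℓ x = cl ℓ y) : cl ℓ (rs O x) = cl ℓ (rs O y) := by
  obtain ⟨w, hw, hxy⟩ := (cl_eq_iff ℓ (rc_ne hx) (rc_ne hy)).1 h
  have h1 : O.valuation w ^ ℓ = 1 := by
    rw [hxy, map_mul, hy, one_mul, map_pow] at hx
    exact hx
  have hw1 : O.valuation w = 1 := (pow_eq_one_iff_of_nonneg zero_le hℓ).1 h1
  have hwm := mem_of_val hw1
  have h2 : rs O x = rs O y * rs O w ^ ℓ := by
    rw [hxy, rs_mul (mem_of_val hy) (pow_mem hwm ℓ), rs_pow hwm]
  exact (cl_eq_iff ℓ (rc_rs_ne hx) (rc_rs_ne hy)).2 ⟨rs O w, rc_rs_ne hw1, h2⟩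

/-- the residue map on the unit classes. -/
theorem exists_rc (hℓ : ℓ ≠ 0) (O : ValuationSubring F) :
    ∃ r : UC ℓ O →ₗ[ZMod ℓ] V ℓ (IsLocalRing.ResidueField O),
      (∀ (z : F) (hz : O.valuation z = 1) (v : UC ℓ O), (v : V ℓ F) = cl ℓ z →
        r v = cl ℓ (rs O z)) ∧ Function.Surjective r ∧
      ∀ v : UC ℓ O, r v = 0 ↔ (v : V ℓ F) ∈ U1 ℓ O := by
  classical
  have hex : ∀ v : UC ℓ O, ∃ z : F, O.valuation z = 1 ∧ (v : V ℓ F) = cl ℓ z := fun v =>
    mem_UC.1 v.2
  choose f hf1 hf2 using hex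
  have key : ∀ (z : F) (hz : O.valuation z = 1) (v : UC ℓ O), (v : V ℓ F) = cl ℓ z →
      cl ℓ (rs O (f v)) = cl ℓ (rs O z) := fun z hz v hv =>
    rc_well hℓ (hf1 v) hz (by rw [← hf2 v, hv])
  let r₀ : UC ℓ O →+ V ℓ (IsLocalRing.ResidueField O) :=
    { toFun := fun v => cl ℓ (rs O (f v))
      map_zero' := by
        rw [key 1 (map_one _) 0 (cl_one ℓ).symm, rs_one, cl_one]
      map_add' := by
        intro v w
        have h1 : O.valuation (f v * f w) = 1 := by rw [map_mul, hf1, hf1, one_mul]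
        rw [key (f v * f w) h1 (v + w) (by
          rw [cl_mul ℓ (rc_ne (hf1 v)) (rc_ne (hf1 w)), ← hf2 v, ← hf2 w]; rfl),
          rs_mul (mem_of_val (hf1 v)) (mem_of_val (hf1 w)),
          cl_mul ℓ (rc_rs_ne (hf1 v)) (rc_rs_ne (hf1 w))] }
  refine ⟨AddMonoidHom.toZModLinearMap ℓ r₀, fun z hz v hv => key z hz v hv, ?_, ?_⟩
  · intro c
    obtain ⟨a, ha, rfl⟩ := cl_surj ℓ c
    obtain ⟨z, hz, rfl⟩ := rs_surj a
    have hz1 : O.valuation z = 1 := (rs_ne_zero hz).1 ha
    exact ⟨⟨cl ℓ z, mem_UC.2 ⟨z, hz1, rfl⟩⟩, key z hz1 _ rfl⟩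
  · intro v
    change cl ℓ (rs O (f v)) = 0 ↔ _
    constructor
    · intro h
      obtain ⟨c, hc, hcv⟩ := (cl_eq_zero_iff ℓ (rc_rs_ne (hf1 v))).1 h
      obtain ⟨w, hw, rfl⟩ := rs_surj c
      have hw1 : O.valuation w = 1 := (rs_ne_zero hw).1 hc
      have hwl : O.valuation (w ^ ℓ) = 1 := by rw [map_pow, hw1, one_pow]
      have h1 : O.valuation (f v - w ^ ℓ) < 1 := by
        rw [← rs_eq (mem_of_val (hf1 v)) (mem_of_val hwl), rs_pow hw, hcv]
      have h2 := cl_sub_cl_mem_U1 (ℓ := ℓ) hwl h1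
      rw [cl_pow_self, sub_zero, ← hf2 v] at h2
      exact h2
    · intro h
      obtain ⟨m, hm, hv⟩ := mem_U1.1 h
      rw [key (1 + m) (val_one_add hm) v hv]
      have h1 : rs O (1 + m) = rs O 1 := by
        rw [rs_eq (mem_of_val (val_one_add hm)) (one_mem O), add_sub_cancel_left]
        exact hm
      rw [h1, rs_one, cl_one]

theorem rc_orth_self (hneg : ∃ i : F, i ^ ℓ = -1) (x : F) : Orth (cl ℓ x) (cl ℓ x) := by
  by_cases hx : x = 0
  · rw [hx, cl_zero]
    exact orth_zero_left _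
  by_cases hx1 : x = 1
  · rw [hx1, cl_one]
    exact orth_zero_left _
  have hxi : x⁻¹ ≠ 0 := inv_ne_zero hx
  have h1 : 1 - x ≠ 0 := sub_ne_zero.2 (Ne.symm hx1)
  have h2 : 1 - x⁻¹ ≠ 0 := by
    intro h
    have h3 : x⁻¹ = 1 := (sub_eq_zero.1 h).symm
    exact hx1 (by rw [← inv_inv x, h3, inv_one])
  have h4 : (1 - x) = (-x) * (1 - x⁻¹) := by
    field_simp
    ring
  have h5 : cl ℓ (1 - x) = cl ℓ x + cl ℓ (1 - x⁻¹) := by
    rw [h4, cl_mul ℓ (neg_ne_zero.2 hx) h2, cl_neg ℓ hneg]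
  have h6 : cl ℓ x = cl ℓ (1 - x) - cl ℓ (1 - x⁻¹) := by rw [h5]; abel
  have a1 : Orth (cl ℓ x) (cl ℓ (1 - x)) := orth_one_sub x
  have a2 : Orth (cl ℓ x) (cl ℓ (1 - x⁻¹)) := by
    have := (orth_one_sub (ℓ := ℓ) x⁻¹).neg_left
    rwa [cl_inv, neg_neg] at this
  have h7 := a1.sub_right a2
  rwa [← h6] at h7

theorem rc_neg {O : ValuationSubring F} (hneg : ∃ i : F, i ^ ℓ = -1) (hℓ : ℓ ≠ 0) :
    ∃ i : IsLocalRing.ResidueField O, i ^ ℓ = -1 := by
  obtain ⟨i, hi⟩ := hneg
  have h1 : O.valuation i = 1 := by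
    have : O.valuation i ^ ℓ = 1 := by rw [← map_pow, hi, Valuation.map_neg, map_one]
    exact (pow_eq_one_iff_of_nonneg zero_le hℓ).1 this
  refine ⟨rs O i, ?_⟩
  rw [← rs_pow (mem_of_val h1), hi, rs_neg (one_mem O), rs_one]

/-- a linear map which respects the Steinberg relations respects orthogonality. -/
theorem rc_orth {F' : Type*} [Field F'] {g : V ℓ F →ₗ[ZMod ℓ] V ℓ F'}
    (hg : ∀ x : F, Orth (g (cl ℓ x)) (g (cl ℓ (1 - x)))) {u w : V ℓ F} (h : Orth u w) :
    Orth (g u) (g w) := by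
  have key : R ℓ F ≤ (R ℓ F').comap (TensorProduct.map g g) := by
    unfold R
    rw [Submodule.span_le]
    rintro _ ⟨x, y, hxy, rfl⟩
    have hy : (y : F) = 1 - x := by rw [← hxy]; ring
    have h1 := hg (x : F)
    rw [← hy, cl_unit, cl_unit] at h1
    rw [SetLike.mem_coe, Submodule.mem_comap, TensorProduct.map_tmul]
    exact h1
  have h2 := key h
  rwa [Submodule.mem_comap, TensorProduct.map_tmul] at h2

/-- the specialization map. -/
theorem exists_sp (hneg : ∃ i : F, i ^ ℓ = -1) (hℓ : ℓ ≠ 0) (O : ValuationSubring F)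
    (φ : V ℓ F →ₗ[ZMod ℓ] ZMod ℓ) (hφ : ∀ v, v ∈ UC ℓ O ↔ φ v = 0) (v₀ : V ℓ F)
    (h₀ : φ v₀ = 1) :
    ∃ sp : V ℓ F →ₗ[ZMod ℓ] V ℓ (IsLocalRing.ResidueField O),
      (∀ z, O.valuation z = 1 → sp (cl ℓ z) = cl ℓ (rs O z)) ∧
      ∀ u w, Orth u w → Orth (sp u) (sp w) := by
  obtain ⟨r, hr1, -, hr3⟩ := exists_rc hℓ O
  let pr : V ℓ F →ₗ[ZMod ℓ] UC ℓ O :=
    LinearMap.codRestrict (UC ℓ O) (LinearMap.id - φ.smulRight v₀) (fun v => by
      rw [hφ, LinearMap.sub_apply, LinearMap.id_apply, LinearMap.smulRight_apply, map_sub,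
        map_smul, h₀, smul_eq_mul, mul_one, sub_self])
  have hpr : ∀ v, φ v = 0 → ((pr v : UC ℓ O) : V ℓ F) = v := by
    intro v hv
    change v - φ v • v₀ = v
    rw [hv, zero_smul, sub_zero]
  have hunit : ∀ z, O.valuation z = 1 → φ (cl ℓ z) = 0 := fun z hz =>
    (hφ _).1 (mem_UC.2 ⟨z, hz, rfl⟩)
  have h1 : ∀ z, O.valuation z = 1 → (r ∘ₗ pr) (cl ℓ z) = cl ℓ (rs O z) := fun z hz =>
    hr1 z hz _ (hpr _ (hunit z hz))
  have h2 : ∀ m, O.valuation m < 1 → (r ∘ₗ pr) (cl ℓ (1 + m)) = 0 := by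
    intro m hm
    have h3 := hunit _ (val_one_add hm)
    change r (pr (cl ℓ (1 + m))) = 0
    rw [hr3, hpr _ h3]
    exact cl_mem_U1 hm
  refine ⟨r ∘ₗ pr, h1, fun u w huw => rc_orth (fun x => ?_) huw⟩
  set sp := r ∘ₗ pr with hsp
  by_cases hx0 : x = 0
  · rw [hx0, cl_zero, map_zero]
    exact orth_zero_left _
  rcases lt_trichotomy (O.valuation x) 1 with h | h | h
  · have h4 : sp (cl ℓ (1 - x)) = 0 := by
      rw [sub_eq_add_neg]
      exact h2 _ (by rwa [Valuation.map_neg])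
    rw [h4]
    exact orth_zero_right _
  · have h4 : O.valuation (1 - x) ≤ 1 := by
      refine le_trans (O.valuation.map_sub _ _) ?_
      rw [map_one, h]
      simp
    rcases h4.lt_or_eq with h5 | h5
    · have h6 : sp (cl ℓ x) = 0 := by
        have e : x = 1 + (-(1 - x)) := by ring
        rw [e]
        exact h2 _ (by rwa [Valuation.map_neg])
      rw [h6]
      exact orth_zero_left _
    · rw [h1 x h, h1 _ h5, rs_sub (one_mem O) (mem_of_val h), rs_one]
      exact orth_one_sub _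
  · have hinv : O.valuation x⁻¹ < 1 := by
      rw [map_inv₀]
      exact inv_lt_one_of_one_lt₀ h
    have e1 : (1 - x) = (-x) * (1 + -x⁻¹) := by field_simp; ring
    have hm : O.valuation (-x⁻¹) < 1 := by rwa [Valuation.map_neg]
    have e2 : cl ℓ (1 - x) = cl ℓ x + cl ℓ (1 + -x⁻¹) := by
      rw [e1, cl_mul ℓ (neg_ne_zero.2 hx0) (one_add_ne_zero hm), cl_neg ℓ hneg]
    rw [e2, map_add, h2 _ hm, add_zero]
    obtain ⟨c, -, hc⟩ := cl_surj ℓ (sp (cl ℓ x))
    rw [← hc]
    exact rc_orth_self (rc_neg hneg hℓ) c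

end resmap

/-- induced isomorphisms. -/
theorem exists_induced {R M N A B : Type*} [Ring R] [AddCommGroup M] [AddCommGroup N]
    [AddCommGroup A] [AddCommGroup B] [Module R M] [Module R N] [Module R A] [Module R B]
    (f : M →ₗ[R] A) (hf : Function.Surjective f) (g : N →ₗ[R] B) (hg : Function.Surjective g)
    (e : M ≃ₗ[R] N) (h : ∀ v, g (e v) = 0 ↔ f v = 0) :
    ∃ T : A ≃ₗ[R] B, ∀ v, T (f v) = g (e v) := by
  have hk : (LinearMap.ker f).map (e : M →ₗ[R] N) = LinearMap.ker g := by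
    ext w
    constructor
    · rintro ⟨v, hv, rfl⟩
      exact (h v).2 hv
    · intro hw
      refine ⟨e.symm w, ?_, by simp⟩
      have := (h (e.symm w)).1 (by rw [LinearEquiv.apply_symm_apply]; exact hw)
      exact this
  refine ⟨(f.quotKerEquivOfSurjective hf).symm.trans
    ((Submodule.Quotient.equiv _ _ e hk).trans (g.quotKerEquivOfSurjective hg)), fun v => ?_⟩
  have h1 : (f.quotKerEquivOfSurjective hf).symm (f v) = Submodule.Quotient.mk v := by
    rw [LinearEquiv.symm_apply_eq]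
    rfl
  rw [LinearEquiv.trans_apply, h1]
  rfl

/-- compatibility from the Steinberg relations on both sides. -/
theorem compatible_of {K L : Type*} [Field K] [Field L] {ℓ : ℕ} {Θ : V ℓ K ≃ₗ[ZMod ℓ] V ℓ L}
    (h1 : ∀ x : K, Orth (Θ (cl ℓ x)) (Θ (cl ℓ (1 - x))))
    (h2 : ∀ x : L, Orth (Θ.symm (cl ℓ x)) (Θ.symm (cl ℓ (1 - x)))) : Compatible Θ := by
  unfold Compatible
  apply le_antisymm
  · rw [Submodule.map_le_iff_le_comap]
    conv_lhs => unfold R
    rw [Submodule.span_le]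
    rintro _ ⟨x, y, hxy, rfl⟩
    have hy : (y : K) = 1 - x := by rw [← hxy]; ring
    have h := h1 (x : K)
    rw [← hy, cl_unit, cl_unit] at h
    rw [SetLike.mem_coe, Submodule.mem_comap, TensorProduct.map_tmul]
    exact h
  · conv_lhs => unfold R
    rw [Submodule.span_le]
    rintro _ ⟨x, y, hxy, rfl⟩
    have hy : (y : L) = 1 - x := by rw [← hxy]; ring
    have h := h2 (x : L)
    rw [← hy, cl_unit, cl_unit] at h
    refine ⟨_, h, ?_⟩
    rw [TensorProduct.map_tmul]
    simp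

variable {K L : Type*} [Field K] [Field L] [PerfectField K] [PerfectField L] {ℓ : ℕ}
  [Fact ℓ.Prime] [NeZero (ℓ : K)] [NeZero (ℓ : L)] {Θ : V ℓ K ≃ₗ[ZMod ℓ] V ℓ L}

/-- `Θ'` is induced by `Θ` on the residue fields. -/
def ResMap (ℓ : ℕ) {K L : Type*} [Field K] [Field L] (Θ : V ℓ K ≃ₗ[ZMod ℓ] V ℓ L)
    (W : ValuationSubring K) (O : ValuationSubring L)
    (Θ' : V ℓ (IsLocalRing.ResidueField W) ≃ₗ[ZMod ℓ] V ℓ (IsLocalRing.ResidueField O)) : Prop :=
  ∀ (z : K) (z' : L), W.valuation z = 1 → O.valuation z' = 1 → Θ (cl ℓ z) = cl ℓ z' →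
    Θ' (cl ℓ (rs W z)) = cl ℓ (rs O z')

/-- the isomorphism of the residue fields. -/
theorem Tr.res (hΘ : Compatible Θ) (hnegK : ∃ i : K, i ^ ℓ = -1) (hnegL : ∃ i : L, i ^ ℓ = -1)
    {W : ValuationSubring K} {π : K} {O : ValuationSubring L} (hW : IsUnif W π)
    (hT : Tr Θ W π O) (hNC : NoCtr ℓ (IsLocalRing.ResidueField W)) :
    ∃ Θ' : V ℓ (IsLocalRing.ResidueField W) ≃ₗ[ZMod ℓ] V ℓ (IsLocalRing.ResidueField O),
      Compatible Θ' ∧ ResMap ℓ Θ W O Θ' := by
  have hℓ : ℓ ≠ 0 := (Fact.out : ℓ.Prime).ne_zero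
  have hUC : ∀ v, Θ v ∈ UC ℓ O ↔ v ∈ UC ℓ W := by
    intro v
    rw [hT.uc hΘ hnegK hnegL hW hNC, LinearEquiv.symm_apply_apply, hW.mem_UC_iff]
  have hmap : (UC ℓ W).map (Θ : V ℓ K →ₗ[ZMod ℓ] V ℓ L) = UC ℓ O := by
    ext w
    constructor
    · rintro ⟨v, hv, rfl⟩
      exact (hUC v).2 hv
    · intro hw
      refine ⟨Θ.symm w, ?_, by simp⟩
      exact (hUC _).1 (by rw [LinearEquiv.apply_symm_apply]; exact hw)
  obtain ⟨rW, rW1, rW2, rW3⟩ := exists_rc hℓ W
  obtain ⟨rO, rO1, rO2, rO3⟩ := exists_rc hℓ O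
  let e : UC ℓ W ≃ₗ[ZMod ℓ] UC ℓ O := Θ.ofSubmodules (UC ℓ W) (UC ℓ O) hmap
  have he : ∀ v : UC ℓ W, ((e v : UC ℓ O) : V ℓ L) = Θ v := fun v => rfl
  obtain ⟨Θ', hΘ'⟩ := exists_induced rW rW2 rO rO2 e fun v => by
    rw [rW3, rO3, he]
    exact hT.iff v
  have hres : ResMap ℓ Θ W O Θ' := by
    intro z z' hz hz' hzz
    have h1 := hΘ' ⟨cl ℓ z, mem_UC.2 ⟨z, hz, rfl⟩⟩
    rw [rW1 z hz _ rfl] at h1
    rw [h1]
    exact rO1 z' hz' _ (by rw [he]; exact hzz)
  refine ⟨Θ', ?_, hres⟩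
  obtain ⟨spO, so1, so2⟩ := exists_sp hnegL hℓ O ((hW.fn ℓ) ∘ₗ (Θ.symm : V ℓ L →ₗ[ZMod ℓ] V ℓ K))
    (fun v => hT.uc hΘ hnegK hnegL hW hNC v) (Θ (cl ℓ π)) (by
      rw [LinearMap.comp_apply, LinearEquiv.coe_coe, LinearEquiv.symm_apply_apply]
      exact hW.fn_self ℓ)
  obtain ⟨spW, sw1, sw2⟩ := exists_sp hnegK hℓ W (hW.fn ℓ) (fun v => hW.mem_UC_iff v) (cl ℓ π)
    (hW.fn_self ℓ)
  refine compatible_of (fun a => ?_) fun a => ?_
  · by_cases ha0 : a = 0
    · rw [ha0, cl_zero, map_zero]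
      exact orth_zero_left _
    by_cases ha1 : 1 - a = 0
    · rw [ha1, cl_zero, map_zero]
      exact orth_zero_right _
    obtain ⟨x, hx, rfl⟩ := rs_surj a
    have hx1 : W.valuation x = 1 := (rs_ne_zero hx).1 ha0
    have e1 : rs W (1 - x) = 1 - rs W x := by rw [rs_sub (one_mem W) hx, rs_one]
    have hx2 : W.valuation (1 - x) = 1 :=
      (rs_ne_zero (sub_mem (one_mem W) hx)).1 (by rw [e1]; exact ha1)
    have key : ∀ y : K, W.valuation y = 1 → Θ' (cl ℓ (rs W y)) = spO (Θ (cl ℓ y)) := by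
      intro y hy
      obtain ⟨y', hy', hyy⟩ := mem_UC.1 ((hUC (cl ℓ y)).2 (mem_UC.2 ⟨y, hy, rfl⟩))
      rw [hres y y' hy hy' hyy, hyy, so1 y' hy']
    rw [← e1, key x hx1, key _ hx2]
    exact so2 _ _ (hΘ.orth (orth_one_sub x))
  · by_cases ha0 : a = 0
    · rw [ha0, cl_zero, map_zero]
      exact orth_zero_left _
    by_cases ha1 : 1 - a = 0
    · rw [ha1, cl_zero, map_zero]
      exact orth_zero_right _
    obtain ⟨x, hx, rfl⟩ := rs_surj a
    have hx1 : O.valuation x = 1 := (rs_ne_zero hx).1 ha0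
    have e1 : rs O (1 - x) = 1 - rs O x := by rw [rs_sub (one_mem O) hx, rs_one]
    have hx2 : O.valuation (1 - x) = 1 :=
      (rs_ne_zero (sub_mem (one_mem O) hx)).1 (by rw [e1]; exact ha1)
    have key : ∀ y : L, O.valuation y = 1 →
        Θ'.symm (cl ℓ (rs O y)) = spW (Θ.symm (cl ℓ y)) := by
      intro y hy
      have h3 : Θ.symm (cl ℓ y) ∈ UC ℓ W := (hUC _).1 (by
        rw [LinearEquiv.apply_symm_apply]
        exact mem_UC.2 ⟨y, hy, rfl⟩)
      obtain ⟨z, hz, hzy⟩ := mem_UC.1 h3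
      have h4 : Θ (cl ℓ z) = cl ℓ y := by rw [← hzy, LinearEquiv.apply_symm_apply]
      rw [hzy, sw1 z hz, LinearEquiv.symm_apply_eq]
      exact (hres z y hz hy h4).symm
    rw [← e1, key x hx1, key _ hx2]
    exact sw2 _ _ (hΘ.symm.orth (orth_one_sub x))

end Vale.Agent.P019P
end
end

section

section

/-!
# Transfer of valuation rings with adapted functionals
-/

namespace Vale.Agent.P019P

open Vale.Agent.P019

set_option linter.style.haveILetI false
set_option linter.unusedSectionVars false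
set_option linter.unusedVariables false

open Polynomial Filter

variable {K L : Type*} [Field K] [Field L] {ℓ : ℕ} [Fact ℓ.Prime]
  {Θ : V ℓ K ≃ₗ[ZMod ℓ] V ℓ L}

theorem Adp.H_eq (hneg : ∃ i : K, i ^ ℓ = -1) {W : ValuationSubring K}
    {f : V ℓ K →ₗ[ZMod ℓ] ZMod ℓ} (h : Adp W f) : H f = U1 ℓ W :=
  le_antisymm (H_le_U1 hneg W f (fun z hz => (h.ker _).2 (cl_mem_UC hz))) h.le

/-- an adapted functional takes the value `1`. -/
theorem Adp.exists_one {W : ValuationSubring K} {f : V ℓ K →ₗ[ZMod ℓ] ZMod ℓ} (h : Adp W f) :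
    ∃ v₀ : V ℓ K, f v₀ = 1 := by
  have h1 : ∃ v, f v ≠ 0 := by
    by_contra hcon
    push Not at hcon
    exact h.ne (LinearMap.ext hcon)
  obtain ⟨v, hv⟩ := h1
  refine ⟨(f v)⁻¹ • v, ?_⟩
  rw [map_smul, smul_eq_mul, inv_mul_cancel₀ hv]

/-- discrete valuations are adapted. -/
theorem IsUnif.adp {K : Type*} [Field K] [PerfectField K] {ℓ : ℕ} [Fact ℓ.Prime]
    [NeZero (ℓ : K)] (hneg : ∃ i : K, i ^ ℓ = -1) {W : ValuationSubring K} {π : K}
    (hW : IsUnif W π) : Adp W (hW.fn ℓ) := by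
  refine ⟨fun h0 => ?_, fun v => (hW.mem_UC_iff v).symm, U1_le_H hW⟩
  have h1 := hW.fn_self ℓ
  rw [h0, LinearMap.zero_apply] at h1
  exact zero_ne_one h1

/-- existence of transferred valuations. -/
theorem exists_trA (hΘ : Compatible Θ) (hnegK : ∃ i : K, i ^ ℓ = -1)
    (hnegL : ∃ i : L, i ^ ℓ = -1) {W : ValuationSubring K} {f : V ℓ K →ₗ[ZMod ℓ] ZMod ℓ}
    (hW : Adp W f) {g₀ : K}
    (h₀ : ∀ i j : ZMod ℓ, i • cl ℓ g₀ + j • cl ℓ (1 - g₀) ∈ U1 ℓ W → i = 0 ∧ j = 0) :
    ∃ O : ValuationSubring L, TrA Θ W f O := by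
  have hH := hW.H_eq hnegK
  obtain ⟨O, h1, h2⟩ := exists_transfer hΘ hnegL f g₀ (by rw [hH]; exact h₀)
  refine ⟨O, h1, fun v => ⟨?_, ?_⟩⟩
  · rintro ⟨m, hm, hv⟩
    have := h2 m hm
    rw [← hv, LinearEquiv.symm_apply_apply, hH] at this
    exact this
  · intro hv
    have h3 : H (f ∘ₗ Θ.symm.toLinearMap) ≤ U1 ℓ O :=
      H_le_U1 hnegL O _ (fun z hz => h1 z hz)
    apply h3
    rw [← hH] at hv
    have := (hΘ.symm.mem_H (f := f) (v := Θ v))
    rw [LinearEquiv.symm_apply_apply] at this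
    exact this.1 hv

/-- the kernel of the transferred functional consists of the unit classes. -/
theorem TrA.uc (hΘ : Compatible Θ) (hnegK : ∃ i : K, i ^ ℓ = -1)
    (hnegL : ∃ i : L, i ^ ℓ = -1) {W : ValuationSubring K} {f : V ℓ K →ₗ[ZMod ℓ] ZMod ℓ}
    (hW : Adp W f) {O : ValuationSubring L} (hT : TrA Θ W f O)
    (hNC : NoCtr ℓ (IsLocalRing.ResidueField W)) (v : V ℓ L) :
    v ∈ UC ℓ O ↔ f (Θ.symm v) = 0 := by
  constructor
  · rintro ⟨z, hz, rfl⟩
    exact hT.unit z hz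
  intro hv
  by_contra hvn
  obtain ⟨f', hf'v, hf'U⟩ := Submodule.exists_le_ker_of_notMem hvn
  have hf'1 : ∀ z : L, O.valuation z = 1 → f' (cl ℓ z) = 0 := fun z hz => hf'U (cl_mem_UC hz)
  set F : V ℓ K →ₗ[ZMod ℓ] ZMod ℓ := f' ∘ₗ Θ.toLinearMap with hF
  have hfU1 : ∀ w ∈ U1 ℓ W, F w = 0 := fun w hw =>
    hf'U (U1_le_UC O ((hT.iff w).2 hw))
  have hpair : ∀ g : V ℓ K →ₗ[ZMod ℓ] ZMod ℓ, (∀ w ∈ U1 ℓ W, g w = 0) → CPair F g := by
    intro g hg
    have h1 : CPair f' (g ∘ₗ Θ.symm.toLinearMap) := by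
      refine cpair_of_U1 hnegL O f' _ hf'1 fun w hw => hg _ ?_
      rw [← hT.iff]
      change Θ (Θ.symm w) ∈ _
      rwa [LinearEquiv.apply_symm_apply]
    have h2 := hΘ.cpair h1
    have h3 : (g ∘ₗ Θ.symm.toLinearMap) ∘ₗ Θ.toLinearMap = g := by
      ext w
      simp
    rwa [h3] at h2
  obtain ⟨r, hr1, hrs, hrk⟩ := exists_resmap (ℓ := ℓ) W
  obtain ⟨s, hs⟩ := LinearMap.exists_rightInverse_of_surjective r (LinearMap.range_eq_top.2 hrs)
  set h : V ℓ (IsLocalRing.ResidueField W) →ₗ[ZMod ℓ] ZMod ℓ :=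
    F ∘ₗ (UC ℓ W).subtype ∘ₗ s with hh
  have hhr : ∀ w : UC ℓ W, h (r w) = F w := by
    intro w
    have h1 : r (s (r w) - w) = 0 := by
      rw [map_sub, sub_eq_zero]
      exact LinearMap.congr_fun hs (r w)
    have h2 := hfU1 _ ((hrk _).1 h1)
    have h3 : F ((s (r w) - w : UC ℓ W) : V ℓ K) = F (s (r w) : V ℓ K) - F (w : V ℓ K) := by
      rw [← map_sub]; rfl
    rw [h3, sub_eq_zero] at h2
    exact h2
  have hh0 : h = 0 := by
    apply hNC
    intro x hx0 hx1 hhx
    obtain ⟨u, hu, rfl⟩ := rs_surj x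
    have hu1 : W.valuation u = 1 := (rs_ne_zero hu).1 hx0
    have hu2 : 1 - u ∈ W := sub_mem (one_mem W) hu
    have e1 : rs W (1 - u) = 1 - rs W u := by rw [rs_sub (one_mem W) hu, rs_one]
    have hu3 : W.valuation (1 - u) = 1 := by
      rw [← rs_ne_zero hu2, e1]
      exact sub_ne_zero.2 (Ne.symm hx1)
    have hfu : F (cl ℓ u) = h (cl ℓ (rs W u)) := by
      rw [← hr1 u hu1, hhr]
    set a : ZMod ℓ := F (cl ℓ (1 - u)) / F (cl ℓ u) with ha
    have hfu0 : F (cl ℓ u) ≠ 0 := by rw [hfu]; exact hhx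
    have hw : cl ℓ (1 - u) - a • cl ℓ u ∈ U1 ℓ W := by
      by_contra hwn
      obtain ⟨g, hg1, hg2⟩ := Submodule.exists_le_ker_of_notMem hwn
      apply hg1
      have h4 := hpair g (fun w hw => hg2 hw) u
      rw [map_sub, map_smul, smul_eq_mul, ha]
      field_simp
      linear_combination h4
    refine ⟨a, ?_⟩
    have h5 := (hrk (⟨cl ℓ (1 - u), cl_mem_UC hu3⟩ - a • ⟨cl ℓ u, cl_mem_UC hu1⟩)).2 hw
    rw [map_sub, map_smul, hr1 _ hu3, hr1 _ hu1, sub_eq_zero, e1] at h5
    exact h5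
  have hfunit : ∀ z, W.valuation z = 1 → F (cl ℓ z) = 0 := by
    intro z hz
    have h6 := hhr ⟨cl ℓ z, cl_mem_UC hz⟩
    rw [hh0, LinearMap.zero_apply] at h6
    exact h6.symm
  obtain ⟨z, hz, hzv⟩ := mem_UC.1 ((hW.ker _).1 hv)
  have h7 := hfunit z hz
  rw [← hzv] at h7
  apply hf'v
  have h8 : F (Θ.symm v) = f' v := by
    rw [hF, LinearMap.comp_apply]
    change f' (Θ (Θ.symm v)) = _
    rw [LinearEquiv.apply_symm_apply]
  rw [← h8, h7]

/-- the isomorphism of the residue fields. -/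
theorem TrA.res (hΘ : Compatible Θ) (hnegK : ∃ i : K, i ^ ℓ = -1)
    (hnegL : ∃ i : L, i ^ ℓ = -1) {W : ValuationSubring K} {f : V ℓ K →ₗ[ZMod ℓ] ZMod ℓ}
    (hW : Adp W f) {O : ValuationSubring L} (hT : TrA Θ W f O)
    (hNC : NoCtr ℓ (IsLocalRing.ResidueField W)) :
    ∃ Θ' : V ℓ (IsLocalRing.ResidueField W) ≃ₗ[ZMod ℓ] V ℓ (IsLocalRing.ResidueField O),
      Compatible Θ' ∧ ResMap ℓ Θ W O Θ' := by
  have hℓ : ℓ ≠ 0 := (Fact.out : ℓ.Prime).ne_zero
  have hUC : ∀ v, Θ v ∈ UC ℓ O ↔ v ∈ UC ℓ W := by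
    intro v
    rw [hT.uc hΘ hnegK hnegL hW hNC, LinearEquiv.symm_apply_apply, hW.ker]
  have hmap : (UC ℓ W).map (Θ : V ℓ K →ₗ[ZMod ℓ] V ℓ L) = UC ℓ O := by
    ext w
    constructor
    · rintro ⟨v, hv, rfl⟩
      exact (hUC v).2 hv
    · intro hw
      refine ⟨Θ.symm w, ?_, by simp⟩
      exact (hUC _).1 (by rw [LinearEquiv.apply_symm_apply]; exact hw)
  obtain ⟨rW, rW1, rW2, rW3⟩ := exists_rc hℓ W
  obtain ⟨rO, rO1, rO2, rO3⟩ := exists_rc hℓ O
  let e : UC ℓ W ≃ₗ[ZMod ℓ] UC ℓ O := Θ.ofSubmodules (UC ℓ W) (UC ℓ O) hmap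
  have he : ∀ v : UC ℓ W, ((e v : UC ℓ O) : V ℓ L) = Θ v := fun v => rfl
  obtain ⟨Θ', hΘ'⟩ := exists_induced rW rW2 rO rO2 e fun v => by
    rw [rW3, rO3, he]
    exact hT.iff v
  have hres : ResMap ℓ Θ W O Θ' := by
    intro z z' hz hz' hzz
    have h1 := hΘ' ⟨cl ℓ z, mem_UC.2 ⟨z, hz, rfl⟩⟩
    rw [rW1 z hz _ rfl] at h1
    rw [h1]
    exact rO1 z' hz' _ (by rw [he]; exact hzz)
  obtain ⟨v₀, hv₀⟩ := hW.exists_one
  refine ⟨Θ', ?_, hres⟩
  obtain ⟨spO, so1, so2⟩ := exists_sp hnegL hℓ O (f ∘ₗ (Θ.symm : V ℓ L →ₗ[ZMod ℓ] V ℓ K))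
    (fun v => hT.uc hΘ hnegK hnegL hW hNC v) (Θ v₀) (by
      rw [LinearMap.comp_apply, LinearEquiv.coe_coe, LinearEquiv.symm_apply_apply]
      exact hv₀)
  obtain ⟨spW, sw1, sw2⟩ := exists_sp hnegK hℓ W f (fun v => (hW.ker v).symm) v₀ hv₀
  refine compatible_of (fun a => ?_) fun a => ?_
  · by_cases ha0 : a = 0
    · rw [ha0, cl_zero, map_zero]
      exact orth_zero_left _
    by_cases ha1 : 1 - a = 0
    · rw [ha1, cl_zero, map_zero]
      exact orth_zero_right _
    obtain ⟨x, hx, rfl⟩ := rs_surj a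
    have hx1 : W.valuation x = 1 := (rs_ne_zero hx).1 ha0
    have e1 : rs W (1 - x) = 1 - rs W x := by rw [rs_sub (one_mem W) hx, rs_one]
    have hx2 : W.valuation (1 - x) = 1 :=
      (rs_ne_zero (sub_mem (one_mem W) hx)).1 (by rw [e1]; exact ha1)
    have key : ∀ y : K, W.valuation y = 1 → Θ' (cl ℓ (rs W y)) = spO (Θ (cl ℓ y)) := by
      intro y hy
      obtain ⟨y', hy', hyy⟩ := mem_UC.1 ((hUC (cl ℓ y)).2 (mem_UC.2 ⟨y, hy, rfl⟩))
      rw [hres y y' hy hy' hyy, hyy, so1 y' hy']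
    rw [← e1, key x hx1, key _ hx2]
    exact so2 _ _ (hΘ.orth (orth_one_sub x))
  · by_cases ha0 : a = 0
    · rw [ha0, cl_zero, map_zero]
      exact orth_zero_left _
    by_cases ha1 : 1 - a = 0
    · rw [ha1, cl_zero, map_zero]
      exact orth_zero_right _
    obtain ⟨x, hx, rfl⟩ := rs_surj a
    have hx1 : O.valuation x = 1 := (rs_ne_zero hx).1 ha0
    have e1 : rs O (1 - x) = 1 - rs O x := by rw [rs_sub (one_mem O) hx, rs_one]
    have hx2 : O.valuation (1 - x) = 1 :=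
      (rs_ne_zero (sub_mem (one_mem O) hx)).1 (by rw [e1]; exact ha1)
    have key : ∀ y : L, O.valuation y = 1 →
        Θ'.symm (cl ℓ (rs O y)) = spW (Θ.symm (cl ℓ y)) := by
      intro y hy
      have h3 : Θ.symm (cl ℓ y) ∈ UC ℓ W := (hUC _).1 (by
        rw [LinearEquiv.apply_symm_apply]
        exact mem_UC.2 ⟨y, hy, rfl⟩)
      obtain ⟨z, hz, hzy⟩ := mem_UC.1 h3
      have h4 : Θ (cl ℓ z) = cl ℓ y := by rw [← hzy, LinearEquiv.apply_symm_apply]
      rw [hzy, sw1 z hz, LinearEquiv.symm_apply_eq]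
      exact (hres z y hz hy h4).symm
    rw [← e1, key x hx1, key _ hx2]
    exact sw2 _ _ (hΘ.symm.orth (orth_one_sub x))

end Vale.Agent.P019P
end
end

section

section

/-!
# Independent elements and residue fields
-/

namespace Vale.Agent.P019P

open Vale.Agent.P019

set_option linter.style.haveILetI false
set_option linter.unusedSectionVars false

open Polynomial Filter

section lift

variable {K : Type*} [Field K] [PerfectField K]

theorem e1a_bar_congr {O : ValuationSubring K} {E E' : Subfield K} (h : TrivOn O E)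
    (h' : TrivOn O E') (hE : E = E') : bar h = bar h' := by
  subst hE
  rfl

theorem e1a_empty (k : Subfield K) : Indp k ∅ := fun _ _ v hv =>
  absurd hv (Finset.notMem_empty v)


/-- reduction of independent elements. -/
theorem indp_red {k : Subfield K} [PerfectField k] {B : Finset K} (hB : Indp k B)
    {O : ValuationSubring K} (hO : TrivOn O k) (h : TrivOn O (gsp k B)) :
    ∃ B' : Finset (IsLocalRing.ResidueField O), B'.card = B.card ∧ Indp (bar hO) B' ∧
      gsp (bar hO) B' = bar h := by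
  classical
  haveI : PerfectField (IsLocalRing.ResidueField O) := rs_perfect hO
  haveI : PerfectField (bar hO) := bar_perfect hO
  induction B using Finset.induction_on with
  | empty =>
    refine ⟨∅, rfl, e1a_empty _, ?_⟩
    rw [gsp_empty (bar hO)]
    exact e1a_bar_congr _ _ (gsp_empty k).symm
  | insert v B hv ih =>
    have h1 : TrivOn O (gsp k B) := h.mono (gsp_mono k (Finset.subset_insert v B))
    obtain ⟨B', hcard, hind, hg⟩ := ih (hB.mono (Finset.subset_insert v B)) h1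
    have hv' : ¬ IsAlgebraic (gsp k B) v :=
      hB B (Finset.subset_insert v B) v (Finset.mem_insert_self v B) hv
    have hE := gsp_insert k B v
    have h2 : TrivOn O (adj (gsp k B) v) := by
      rw [← hE]
      exact h
    have hr : ¬ IsAlgebraic (gsp (bar hO) B') (rs O v) := by
      rw [hg]
      exact fun h' => hv' (isAlgebraic_of_bar h1 h2 h')
    have hrB : rs O v ∉ B' := fun h' => hr (isAlgebraic_of_mem (mem_gsp h'))
    refine ⟨insert (rs O v) B', ?_, hind.insert hr, ?_⟩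
    · rw [Finset.card_insert_of_notMem hrB, Finset.card_insert_of_notMem hv, hcard]
    · rw [gsp_insert, hg, ← bar_adj h1 h2]
      exact e1a_bar_congr _ _ hE.symm

/-- the residue fields of nice valuations. -/
theorem Nice.td {k : Subfield K} [PerfectField k] {B : Finset K} (hB : Indp k B)
    {W : ValuationSubring K} {π θ : K} (hW : Nice W (gsp k B) π θ) (hWk : TrivOn W k) :
    Td (bar hWk) B.card ∧ FG (bar hWk) (⊤ : Subfield (IsLocalRing.ResidueField W)) := by
  obtain ⟨B', h1, h2, h3⟩ := indp_red hB hWk hW.triv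
  refine ⟨⟨B', h1, h2, fun z => ?_⟩, hW.fg (le_gsp k B) (gsp_fg k B) hWk⟩
  rw [h3]
  exact hW.alg_bar z

/-- for almost all `a`, every valuation subring over `t = a` is nice. -/
theorem e1a_nice {k F : Subfield K} [PerfectField F] (hkF : k ≤ F)
    (hfg : FG k (⊤ : Subfield K)) {t : K} (ht : ¬ IsAlgebraic F t)
    (hta : ∀ z : K, IsAlgebraic (adj F t) z) :
    ∃ θ : K, ∀ᶠ a in ae F, ∀ W : ValuationSubring K, Over W F t a →
      Nice W F (t - a) θ := by
  classical
  haveI : PerfectField (adj F t) := perfect_adj _ _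
  obtain ⟨θ, hθ⟩ := exists_prim (hkF.trans (le_adj _ t)) hfg hta
  refine ⟨θ, ?_⟩
  have hθalg : IsAlgebraic (adj F t) θ := hta θ
  set Ψ := minpoly (adj F t) θ with hΨ
  have hΨm : Ψ.Monic := minpoly.monic hθalg.isIntegral
  have hΨs : Ψ.Separable := PerfectField.separable_of_irreducible
    (minpoly.irreducible hθalg.isIntegral)
  obtain ⟨m, y, hy, hcoef⟩ := exists_common_root (E := F) (t := t)
    (Ψ.support.image (fun i => ((Ψ.coeff i : adj F t) : K))) (by
      intro z hz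
      obtain ⟨i, -, rfl⟩ := Finset.mem_image.1 hz
      exact (Ψ.coeff i).2)
  have hcoef' : ∀ i, ((Ψ.coeff i : adj F t) : K) ∈ Vale.Agent.P019.adj F y := by
    intro i
    by_cases hi : i ∈ Ψ.support
    · exact hcoef _ (Finset.mem_image_of_mem _ hi)
    · rw [notMem_support_iff.1 hi]
      exact Subfield.zero_mem _
  have hyF : ¬ IsAlgebraic F y := by
    intro h'
    apply ht
    rw [← hy]
    exact h'.pow _
  -- descend the minimal polynomial
  set F' := IntermediateField.adjoin F {y} with hF'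
  have hle : Vale.Agent.P019.adj F y ≤ adj F t := by
    rw [← hy, adj_pow]
    exact adj0_le_adj F y
  have hF'le : ∀ z : F', (z : K) ∈ adj F t := fun z => hle (mem_adjoin_simple.1 z.2)
  let j : F' →+* adj F t :=
    { toFun := fun z => ⟨z, hF'le z⟩
      map_one' := rfl
      map_mul' := fun _ _ => rfl
      map_zero' := rfl
      map_add' := fun _ _ => rfl }
  have hl : Ψ ∈ Polynomial.lifts j := by
    rw [Polynomial.lifts_iff_coeff_lifts]
    intro n
    exact ⟨⟨Ψ.coeff n, mem_adjoin_simple.2 (hcoef' n)⟩, rfl⟩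
  obtain ⟨Φ, hΦ⟩ := hl
  have hΦ' : Φ.map j = Ψ := hΦ
  have hΦm : Φ.Monic := by
    rw [← hΦ'] at hΨm
    exact Polynomial.monic_of_injective j.injective hΨm
  have hΦs : Φ.Separable := by
    rw [← hΦ'] at hΨs
    exact (Polynomial.separable_map j).1 hΨs
  have hΦr : aeval θ Φ = 0 := by
    have h1 : aeval θ Ψ = 0 := minpoly.aeval _ _
    rw [← hΦ', aeval_def, eval₂_map] at h1
    rw [aeval_def]
    exact h1
  have hcore := frp_core_ae hyF F' hF' Φ hΦm hΦr hΦs
  -- every element has a power in the plain field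
  set N0 : Subfield K := Vale.Agent.P019.adj (Vale.Agent.P019.adj F y) θ with hN0
  have hall : ∀ z : K, ∃ n : ℕ, z ^ (ringExpChar K) ^ n ∈ N0 := by
    intro z
    rw [← mem_pf]
    have h1 : Vale.Agent.P019.adj (adj F t) θ ≤ pf N0 := by
      refine Vale.Agent.P019.adj_le ?_ (le_pf _ (Vale.Agent.P019.mem_adj _ _))
      refine pf_mono ?_
      refine Vale.Agent.P019.adj_le ((Vale.Agent.P019.le_adj F y).trans
        (Vale.Agent.P019.le_adj _ θ)) ?_
      rw [← hy]
      exact Subfield.pow_mem _ (Vale.Agent.P019.le_adj _ θ (Vale.Agent.P019.mem_adj F y)) _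
    exact h1 (hθ z)
  rw [ae_iff] at hcore ⊢
  refine (hcore.image (fun c => c ^ (ringExpChar K) ^ m)).subset ?_
  rintro a ⟨haF, ha⟩
  obtain ⟨c, hcF, hca⟩ := exists_root_q F haF m
  refine ⟨c, ⟨hcF, ?_⟩, hca⟩
  intro hc
  apply ha
  intro W hW
  obtain ⟨c', hc'F, hc'a, hWc⟩ := Over.root haF hy hW
  have hcc : c' = c := pow_q_inj (hc'a.trans hca.symm)
  rw [hcc] at hWc
  obtain ⟨h1, h2, h3, h4⟩ := hc W hWc
  have hπ : (y - c) ^ (ringExpChar K) ^ m = t - a := by
    rw [sub_pow_q, hy, hca]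
  have hne : t - a ≠ 0 := by
    intro h0
    apply ht
    rw [sub_eq_zero.1 h0]
    exact isAlgebraic_of_mem haF
  refine ⟨inferInstance, ⟨hne, hW.lt, ?_⟩, hW.triv, h1, ?_, h4⟩
  · intro z hz0
    obtain ⟨n, hn⟩ := hall z
    obtain ⟨i, hi⟩ := h2 _ hn (pow_ne_zero _ hz0)
    refine ⟨n + m, i, ?_⟩
    have e2 : ((y - c) ^ (ringExpChar K) ^ m) ^ i = ((y - c) ^ i) ^ (ringExpChar K) ^ m := by
      rw [← zpow_natCast, ← zpow_natCast, ← zpow_mul, ← zpow_mul, mul_comm]
    have e : z ^ (ringExpChar K) ^ (n + m) * (t - a) ^ i =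
        (z ^ (ringExpChar K) ^ n * (y - c) ^ i) ^ (ringExpChar K) ^ m := by
      rw [← hπ, e2, pow_add, pow_mul, mul_pow]
    rw [e, map_pow, hi, one_pow]
  · intro z hz
    obtain ⟨n, hn⟩ := hall z
    refine frp_res hW.triv h1 h4 hz (n := n) (h3 _ hn ?_)
    rw [map_pow]
    exact pow_le_one₀ zero_le hz

/-- there is a nice valuation over `t = b` for almost all `b`. -/
theorem exists_over_nice {k : Subfield K} (hk : IsAlgClosed k) (hfg : FG k (⊤ : Subfield K))
    {B : Finset K} (hB : Indp k B) {t : K} (ht : ¬ IsAlgebraic (gsp k B) t)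
    (halg : ∀ z : K, IsAlgebraic (adj (gsp k B) t) z) :
    ∃ θ : K, ∀ᶠ b in ae k, (∃ W : ValuationSubring K, Over W (gsp k B) t b) ∧
      ∀ W : ValuationSubring K, Over W (gsp k B) t b → Nice W (gsp k B) (t - b) θ := by
  haveI := gsp_perfect k B
  obtain ⟨θ, hθ⟩ := e1a_nice (le_gsp k B) hfg ht halg
  refine ⟨θ, ?_⟩
  rw [ae_iff] at hθ ⊢
  refine hθ.subset ?_
  rintro b ⟨hb, hb'⟩
  refine ⟨le_gsp k B hb, fun h => hb' ⟨exists_over ht (le_gsp k B hb), h⟩⟩

end lift

end Vale.Agent.P019P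
end
end

section

section

/-!
# Invariance of the genus
-/

namespace Vale.Agent.P019P

section

variable {k F k' F' : Type*} [Field k] [Field F] [Algebra k F] [Field k'] [Field F']
  [Algebra k' F']

/-- transport of a place along a semilinear isomorphism. -/
private def cIsoMap (e : F ≃+* F') (e₀ : k ≃+* k')
    (h : ∀ a, e (algebraMap k F a) = algebraMap k' F' (e₀ a)) (P : Plk k F) : Plk k' F' :=
  ⟨P.1.comap (e.symm : F' →+* F), by
    refine ⟨fun b => ?_, fun ht => P.2.2 ?_⟩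
    · rw [ValuationSubring.mem_comap]
      have h1 : (e.symm : F' →+* F) (algebraMap k' F' b) = algebraMap k F (e₀.symm b) := by
        rw [RingEquiv.coe_toRingHom, RingEquiv.symm_apply_eq, h, RingEquiv.apply_symm_apply]
      rw [h1]
      exact P.2.1 _
    · rw [eq_top_iff]
      intro z _
      have h1 : e z ∈ P.1.comap (e.symm : F' →+* F) := by rw [ht]; exact ValuationSubring.mem_top _
      rw [ValuationSubring.mem_comap, RingEquiv.coe_toRingHom, RingEquiv.symm_apply_apply] at h1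
      exact h1⟩

private theorem mem_cIsoMap (e : F ≃+* F') (e₀ : k ≃+* k')
    (h : ∀ a, e (algebraMap k F a) = algebraMap k' F' (e₀ a)) (P : Plk k F) (w : F') :
    w ∈ (cIsoMap e e₀ h P).1 ↔ e.symm w ∈ P.1 := Iff.rfl

/-- the bijection between the places. -/
private def cIsoEquiv (e : F ≃+* F') (e₀ : k ≃+* k')
    (h : ∀ a, e (algebraMap k F a) = algebraMap k' F' (e₀ a)) : Plk k F ≃ Plk k' F' where
  toFun := cIsoMap e e₀ h
  invFun := cIsoMap e.symm e₀.symm fun b => by
    rw [RingEquiv.symm_apply_eq, h, RingEquiv.apply_symm_apply]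
  left_inv P := by
    apply Subtype.ext
    ext z
    rw [mem_cIsoMap, mem_cIsoMap, RingEquiv.symm_symm, RingEquiv.symm_apply_apply]
  right_inv Q := by
    apply Subtype.ext
    ext w
    rw [mem_cIsoMap, mem_cIsoMap, RingEquiv.symm_symm, RingEquiv.apply_symm_apply]

private theorem ord_cIsoEquiv [CFF k F] [CFF k' F'] (e : F ≃+* F') (e₀ : k ≃+* k')
    (h : ∀ a, e (algebraMap k F a) = algebraMap k' F' (e₀ a)) (P : Plk k F) (z : F) :
    ord (cIsoEquiv e e₀ h P) (e z) = ord P z := by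
  have hP := ord_spec P
  have key : IsOrd (cIsoEquiv e e₀ h P).1 fun w => ord P (e.symm w) :=
    { zero := by rw [map_zero]; exact hP.zero
      mul := fun x y hx hy => by
        rw [map_mul]
        exact hP.mul _ _ (by simpa using hx) (by simpa using hy)
      add := fun x y hx hy hxy => by
        rw [map_add]
        refine hP.add _ _ (by simpa using hx) (by simpa using hy) ?_
        rw [← map_add, map_ne_zero_iff e.symm e.symm.injective]
        exact hxy
      mem := fun x => by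
        have h1 : x ∈ (cIsoEquiv e e₀ h P).1 ↔ e.symm x ∈ P.1 := Iff.rfl
        rw [h1, hP.mem]
        simp
      one := by
        obtain ⟨π, hπ⟩ := hP.one
        exact ⟨e π, by rw [RingEquiv.symm_apply_apply]; exact hπ⟩ }
  have h2 := IsOrd.unique (ord_spec (cIsoEquiv e e₀ h P)) key
  rw [h2]
  simp only [RingEquiv.symm_apply_apply]

private theorem mem_LL_cIso [CFF k F] [CFF k' F'] (e : F ≃+* F') (e₀ : k ≃+* k')
    (h : ∀ a, e (algebraMap k F a) = algebraMap k' F' (e₀ a)) (D : Plk k' F' →₀ ℤ) (z : F) :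
    z ∈ LL k (Finsupp.equivMapDomain (cIsoEquiv e e₀ h).symm D) ↔ e z ∈ LL k' D := by
  rw [mem_LL, mem_LL, map_eq_zero_iff e e.injective]
  refine or_congr Iff.rfl ⟨fun H Q => ?_, fun H P => ?_⟩
  · obtain ⟨P, rfl⟩ := (cIsoEquiv e e₀ h).surjective Q
    rw [ord_cIsoEquiv]
    have := H P
    rwa [Finsupp.equivMapDomain_apply, Equiv.symm_symm] at this
  · rw [Finsupp.equivMapDomain_apply, Equiv.symm_symm, ← ord_cIsoEquiv e e₀ h]
    exact H _

private theorem finrank_cIso [CFF k F] [CFF k' F'] (e : F ≃+* F') (e₀ : k ≃+* k')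
    (h : ∀ a, e (algebraMap k F a) = algebraMap k' F' (e₀ a)) (D : Plk k' F' →₀ ℤ) :
    Module.finrank k (LL k (Finsupp.equivMapDomain (cIsoEquiv e e₀ h).symm D)) =
      Module.finrank k' (LL k' D) := by
  let j : LL k (Finsupp.equivMapDomain (cIsoEquiv e e₀ h).symm D) ≃+ LL k' D :=
    { toFun := fun z => ⟨e z.1, (mem_LL_cIso e e₀ h D z.1).1 z.2⟩
      invFun := fun w => ⟨e.symm w.1, (mem_LL_cIso e e₀ h D _).2 (by
        rw [RingEquiv.apply_symm_apply]; exact w.2)⟩
      left_inv := fun z => Subtype.ext (e.symm_apply_apply z.1)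
      right_inv := fun w => Subtype.ext (e.apply_symm_apply w.1)
      map_add' := fun x y => Subtype.ext (map_add e x.1 y.1) }
  have h1 := lift_rank_eq_of_equiv_equiv (e₀ : k → k') j e₀.bijective (fun a m => by
    apply Subtype.ext
    change e (a • m.1) = e₀ a • e m.1
    rw [Algebra.smul_def, Algebra.smul_def, map_mul, h])
  have h2 := congrArg Cardinal.toNat h1
  rwa [Cardinal.toNat_lift, Cardinal.toNat_lift] at h2

private theorem dg_cIso {A B : Type*} (φ : A ≃ B) (D : A →₀ ℤ) :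
    dg (Finsupp.equivMapDomain φ D) = dg D := by
  rw [Finsupp.equivMapDomain_eq_mapDomain]
  unfold dg
  rw [Finsupp.liftAddHom_apply, Finsupp.liftAddHom_apply,
    Finsupp.sum_mapDomain_index_addMonoidHom]

end

/-- the genus is invariant under (semilinear) isomorphisms. -/
theorem gen_eq {k F k' F' : Type*} [Field k] [Field F] [Algebra k F] [CFF k F]
    [Field k'] [Field F'] [Algebra k' F'] [CFF k' F'] (e : F ≃+* F') (e₀ : k ≃+* k')
    (h : ∀ a, e (algebraMap k F a) = algebraMap k' F' (e₀ a)) : gen k F = gen k' F' := by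
  have key : ((gen k F : ℕ) : ℤ) = gen k' F' := by
    refine gen_unique (c := dg (can k F) + 1) fun D hD => ?_
    have h1 := dg_cIso (cIsoEquiv e e₀ h).symm D
    rw [← finrank_cIso e e₀ h D, ← h1]
    exact RR_large (by rw [h1]; omega)
  exact_mod_cast key

end Vale.Agent.P019P
end
end

section

section

/-!
# The discriminant of a graded basis
-/

namespace Vale.Agent.P019P

open Polynomial IntermediateField

section

variable {k F : Type*} [Field k] [Field F] [Algebra k F] [CFF k F]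

/-- vanishing at the points of a finite set is a small number of conditions. -/
theorem finrank_vanish {n : ℕ} {e : Fin n → F} (S : Finset (Plk k F))
    (he : ∀ P ∈ S, ∀ i, e i ∈ Mge P 0) :
    ∃ N : Submodule k (Fin n → k), n ≤ Module.finrank k N + S.card ∧
      ∀ v ∈ N, ∀ P ∈ S, ∑ i, v i • e i ∈ Mge P 1 := by
  have hres : ∀ P : S, ∀ i, ∃ c : k, e i - algebraMap k F c ∈ Mge P.1 1 := by
    intro P i
    rcases mem_Mge.1 (he P.1 P.2 i) with h0 | h0
    · exact ⟨0, by rw [h0, map_zero, sub_zero]; exact Submodule.zero_mem _⟩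
    · obtain ⟨c, hc⟩ := exists_cst P.1 ((mem_iff_ord P.1 _).2 (Or.inr h0))
      refine ⟨c, ?_⟩
      rcases hc with hc | hc
      · rw [← hc, sub_self]; exact Submodule.zero_mem _
      · exact Or.inr hc
  choose c hc using hres
  refine ⟨LinearMap.ker (Matrix.mulVecLin (Matrix.of c)), ?_, ?_⟩
  · have h1 := LinearMap.finrank_range_add_finrank_ker (Matrix.mulVecLin (Matrix.of c))
    have h2 : Module.finrank k (LinearMap.range (Matrix.mulVecLin (Matrix.of c))) ≤ S.card :=
      (Submodule.finrank_le _).trans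
        (by rw [Module.finrank_fintype_fun_eq_card, Fintype.card_coe])
    rw [Module.finrank_fin_fun] at h1
    omega
  · intro v hv P hP
    have h3 : ∑ i, c ⟨P, hP⟩ i * v i = 0 := congrFun (LinearMap.mem_ker.1 hv) ⟨P, hP⟩
    have h5 : ∑ i, v i • algebraMap k F (c ⟨P, hP⟩ i) = 0 := by
      have h6 : ∀ i, v i • algebraMap k F (c ⟨P, hP⟩ i) =
          algebraMap k F (c ⟨P, hP⟩ i * v i) := by
        intro i
        rw [Algebra.smul_def, ← map_mul, mul_comm]
      rw [Finset.sum_congr rfl fun i _ => h6 i, ← map_sum, h3, map_zero]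
    have h4 : ∑ i, v i • e i = ∑ i, v i • (e i - algebraMap k F (c ⟨P, hP⟩ i)) := by
      simp only [smul_sub]
      rw [Finset.sum_sub_distrib, h5, sub_zero]
    rw [h4]
    exact Submodule.sum_mem _ fun i _ => Submodule.smul_mem _ _ (hc ⟨P, hP⟩ i)

/-- the discriminant. -/
theorem exists_disc {x : F} (hx : ∀ a : k, x ≠ algebraMap k F a) [Algebra.IsSeparable k⟮x⟯ F] :
    ∃ Δ : k[X], Δ ≠ 0 ∧
      (Δ.natDegree : ℤ) ≤ 2 * gen k F - 2 + 2 * Module.finrank k⟮x⟯ F ∧
      ∀ c : k, (X - C c) ^ (Module.finrank k⟮x⟯ F - (fib_finite hx c).toFinset.card) ∣ Δ := by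
  classical
  obtain ⟨e, a, he, ha⟩ := exists_GrB hx
  obtain ⟨-, hfd⟩ := finite_of_notMem hx
  have hmul : ∀ i j, e i * e j ∈ Mr k x ((a i + a j : ℕ) : ℤ) := fun i j => by
    rw [Nat.cast_add]
    exact Mr_mul (he.mem i) (he.mem j)
  choose T hTd hT using fun i j => he.exists_trace hx rfl (hmul i j)
  have hpos : 0 < Module.finrank k⟮x⟯ F := Module.finrank_pos
  have hne : Nonempty (Fin (Module.finrank k⟮x⟯ F)) := ⟨⟨0, hpos⟩⟩
  have hdisc := Algebra.discr_not_zero_of_basis k⟮x⟯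
    (basisOfLinearIndependentOfCardEqFinrank he.ind (Fintype.card_fin _))
  rw [coe_basisOfLinearIndependentOfCardEqFinrank, Algebra.discr_def] at hdisc
  have hdet : algebraMap k⟮x⟯ F (Algebra.traceMatrix k⟮x⟯ e).det =
      aeval x (Matrix.of T).det := by
    rw [RingHom.map_det, AlgHom.map_det]
    congr 1
    ext i j
    change algebraMap k⟮x⟯ F (Algebra.trace k⟮x⟯ F (e i * e j)) = aeval x (T i j)
    exact hT i j
  refine ⟨(Matrix.of T).det, ?_, ?_, ?_⟩
  · intro h0
    rw [h0, map_zero] at hdet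
    exact hdisc ((map_eq_zero _).1 hdet)
  · have h1 := natDegree_det_le' (Matrix.of T) a a hTd
    have h2 : ((Matrix.of T).det.natDegree : ℤ) ≤ ∑ i, (a i : ℤ) + ∑ i, (a i : ℤ) := by
      exact_mod_cast h1
    rw [ha] at h2
    linarith
  · intro c
    have hS : ∀ P ∈ (fib_finite hx c).toFinset, ∀ i, e i ∈ Mge P 0 := by
      intro P hP i
      have h1 : 0 < ord P (x - algebraMap k F c) := (Set.Finite.mem_toFinset (fib_finite hx c)).1 hP
      have h2 : x ∈ Mge P 0 := by
        have h3 : x = (x - algebraMap k F c) + algebraMap k F c := by ring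
        rw [h3]
        exact Submodule.add_mem _ (Or.inr h1.le) (Or.inr (ord_const P c).ge)
      have h4 : 0 ≤ ord P x := by
        rcases h2 with h2 | h2
        · rw [h2, ord_zero]
        · exact h2
      have h5 : pol k x P = 0 := by
        rw [pol_apply]
        exact max_eq_left (by omega)
      have h6 := mem_Mr.1 (he.mem i) P
      rwa [h5, mul_zero, neg_zero] at h6
    obtain ⟨N, hN1, hN2⟩ := finrank_vanish (fib_finite hx c).toFinset hS
    refine (pow_dvd_pow _ (by omega)).trans (pow_dvd_det (Matrix.of T) c N ?_)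
    intro v hv
    funext i
    have hsum : e i * ∑ j, v j • e j = ∑ j, v j • (e i * e j) := by
      rw [Finset.mul_sum]
      exact Finset.sum_congr rfl fun j _ => mul_smul_comm _ _ _
    have hmem : e i * ∑ j, v j • e j ∈ Mr k x ((a i + ∑ j, a j : ℕ) : ℤ) := by
      rw [hsum]
      refine Submodule.sum_mem _ fun j _ => Submodule.smul_mem _ _ ?_
      refine (flt_Mr hx).mono ?_ (hmul i j)
      have h7 := Finset.single_le_sum (f := a) (fun _ _ => Nat.zero_le _) (Finset.mem_univ j)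
      exact_mod_cast Nat.add_le_add_left h7 _
    have h0 : ∀ P : Plk k F, 0 < ord P (x - algebraMap k F c) →
        e i * ∑ j, v j • e j ∈ Mge P 1 := by
      intro P hP
      have hP' : P ∈ (fib_finite hx c).toFinset := (Set.Finite.mem_toFinset (fib_finite hx c)).2 hP
      have h8 := mul_mem_Mge (hS P hP' i) (hN2 v hv P hP')
      rwa [zero_add] at h8
    have hτ : algebraMap k⟮x⟯ F (Algebra.trace k⟮x⟯ F (e i * ∑ j, v j • e j)) =
        aeval x (∑ j, C (v j) * T i j) := by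
      rw [hsum, map_sum, map_sum, map_sum]
      refine Finset.sum_congr rfl fun j _ => ?_
      rw [LinearMap.map_smul_of_tower, Algebra.smul_def, map_mul,
        ← IsScalarTower.algebraMap_apply k k⟮x⟯ F, hT i j, map_mul, aeval_C]
    have h9 := he.trace_eval hx rfl hmem h0 hτ
    rw [eval_finsetSum] at h9
    change ∑ j, (T i j).eval c * v j = 0
    rw [← h9]
    refine Finset.sum_congr rfl fun j _ => ?_
    rw [eval_mul, eval_C, mul_comm]

end

end Vale.Agent.P019P
end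
end

section

section

/-!
# The inequality of Riemann and Hurwitz
-/

namespace Vale.Agent.P019P

open Polynomial IntermediateField

section

variable {k F : Type*} [Field k] [Field F] [Algebra k F] [CFF k F]

/-- the fibres have at most `n` points. -/
theorem crh_card_le {x : F} (hx : ∀ a : k, x ≠ algebraMap k F a) (c : k) :
    (fib_finite hx c).toFinset.card ≤ Module.finrank k⟮x⟯ F := by
  have h1 := fib_sum hx c
  have h2 : ((fib_finite hx c).toFinset.card : ℤ) ≤
      ∑ P ∈ (fib_finite hx c).toFinset, ord P (x - algebraMap k F c) := by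
    rw [Finset.card_eq_sum_ones, Nat.cast_sum]
    refine Finset.sum_le_sum fun P hP => ?_
    rw [Set.Finite.mem_toFinset] at hP
    have h3 : 0 < ord P (x - algebraMap k F c) := hP
    push_cast
    omega
  rw [h1] at h2
  exact_mod_cast h2

/-- Riemann-Hurwitz. -/
theorem RH {x : F} (hx : ∀ a : k, x ≠ algebraMap k F a) [Algebra.IsSeparable k⟮x⟯ F]
    (s : Finset k) :
    ∑ c ∈ s, ((Module.finrank k⟮x⟯ F : ℤ) - (fib_finite hx c).toFinset.card) ≤
      2 * gen k F - 2 + 2 * Module.finrank k⟮x⟯ F := by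
  classical
  obtain ⟨Δ, hΔ, hdeg, hdvd⟩ := exists_disc hx
  refine le_trans ?_ hdeg
  obtain ⟨r, hr⟩ : ∃ r : k → ℕ, r = fun c =>
      Module.finrank k⟮x⟯ F - (fib_finite hx c).toFinset.card := ⟨_, rfl⟩
  have hcast : ∀ c ∈ s, ((Module.finrank k⟮x⟯ F : ℤ) - (fib_finite hx c).toFinset.card) =
      ((r c : ℕ) : ℤ) := by
    intro c _
    rw [hr]
    exact (Nat.cast_sub (crh_card_le hx c)).symm
  rw [Finset.sum_congr rfl hcast, ← Nat.cast_sum]
  have hco : (s : Set k).Pairwise (Function.onFun IsCoprime fun c => (X - C c) ^ r c) := by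
    intro a _ b _ hab
    exact (Polynomial.isCoprime_X_sub_C_of_isUnit_sub
      ((sub_ne_zero.mpr hab).isUnit)).pow
  have hprod : ∏ c ∈ s, (X - C c) ^ r c ∣ Δ :=
    Finset.prod_dvd_of_coprime hco fun c _ => by rw [hr]; exact hdvd c
  have h3 := Polynomial.natDegree_le_of_dvd hprod hΔ
  rw [Polynomial.natDegree_prod_of_monic _ _ fun c _ => (monic_X_sub_C c).pow _] at h3
  have h4 : ∀ c ∈ s, ((X - C c) ^ r c).natDegree = r c := fun c _ => by
    rw [Polynomial.natDegree_pow, Polynomial.natDegree_X_sub_C, mul_one]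
  rw [Finset.sum_congr rfl h4] at h3
  exact_mod_cast h3

end

end Vale.Agent.P019P
end
end

section

section

/-!
# Purely inseparable extensions of degree `p` of function fields
-/

namespace Vale.Agent.P019P

set_option linter.style.haveILetI false
set_option linter.unusedSectionVars false

open Polynomial IntermediateField

theorem frob_fin_aux {K V : Type*} [Field K] [AddCommGroup V] [Module K V]
    (h : 0 < Module.finrank K V) : Module.Finite K V :=
  Module.finite_of_finrank_pos h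

theorem frob_mul_aux (F K A : Type*) [Field F] [Field K] [Field A] [Algebra F K] [Algebra F A]
    [Algebra K A] [IsScalarTower F K A] :
    Module.finrank F K * Module.finrank K A = Module.finrank F A :=
  Module.finrank_mul_finrank F K A

/-- a subfield over which the field is purely inseparable of degree `p` consists of the
`p`-th powers. -/
theorem frob_step {k E : Type*} [Field k] [Field E] [Algebra k E] [CFF k E] {p : ℕ}
    [Fact p.Prime] [CharP E p] (S : Subfield E) (hS : ∀ a : k, algebraMap k E a ∈ S) {z : E}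
    (hz : z ∉ S) (hzp : z ^ p ∈ S) (htop : S ⊔ Subfield.closure {z} = ⊤) (a : E) :
    a ∈ S ↔ ∃ b : E, b ^ p = a := by
  have hp : p.Prime := Fact.out
  -- the subfield of `p`-th powers
  obtain ⟨P, hP⟩ : ∃ P : Subfield E, P = (frobenius E p).fieldRange := ⟨_, rfl⟩
  have hPm : ∀ x : E, x ∈ P ↔ ∃ b : E, b ^ p = x := by
    intro x
    rw [hP, RingHom.mem_fieldRange]
    rfl
  have hPS : P ≤ S := by
    have h1 : S ⊔ Subfield.closure {z} ≤ S.comap (frobenius E p) := by
      refine sup_le (fun x hx => ?_) ?_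
      · rw [Subfield.mem_comap, frobenius_def]
        exact pow_mem hx p
      · rw [Subfield.closure_le, Set.singleton_subset_iff]
        simpa [frobenius_def] using hzp
    intro x hx
    obtain ⟨b, rfl⟩ := (hPm x).1 hx
    have h2 : b ∈ S.comap (frobenius E p) := h1 (by rw [htop]; exact Subfield.mem_top b)
    simpa [frobenius_def] using h2
  haveI hac : IsAlgClosed k := CFF.ac E
  have hkP : ∀ c : k, algebraMap k E c ∈ P := by
    intro c
    obtain ⟨d, hd⟩ := IsAlgClosed.exists_pow_nat_eq c hp.pos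
    exact (hPm _).2 ⟨algebraMap k E d, by rw [← map_pow, hd]⟩
  obtain ⟨t, ht, hfin, hsep⟩ := exists_sep k E
  -- `P (t) = E`
  let A : IntermediateField P E := P⟮t⟯
  have hA : A = ⊤ := by
    have hkA : ∀ c : k⟮t⟯, algebraMap k⟮t⟯ E c ∈ A.toSubfield := by
      intro c
      have h1 : k⟮t⟯.toSubfield ≤ A.toSubfield := by
        rw [IntermediateField.adjoin_toSubfield, Subfield.closure_le]
        rintro x (⟨c, rfl⟩ | hx)
        · exact A.algebraMap_mem ⟨algebraMap k E c, hkP c⟩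
        · rw [Set.mem_singleton_iff.1 hx]
          exact mem_adjoin_simple_self P t
      exact h1 c.2
    let B : IntermediateField k⟮t⟯ E :=
      { A.toSubfield with algebraMap_mem' := hkA }
    haveI : Algebra.IsSeparable B E := Algebra.isSeparable_tower_top_of_isSeparable k⟮t⟯ B E
    haveI : CharP B p := inferInstance
    haveI : IsPurelyInseparable B E := by
      rw [isPurelyInseparable_iff_pow_mem B p]
      intro x
      refine ⟨1, ⟨⟨x ^ p ^ 1, ?_⟩, rfl⟩⟩
      show x ^ p ^ 1 ∈ A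
      rw [pow_one]
      exact A.algebraMap_mem ⟨x ^ p, (hPm _).2 ⟨x, rfl⟩⟩
    rw [eq_top_iff]
    intro x _
    obtain ⟨y, hy⟩ := IsPurelyInseparable.surjective_algebraMap_of_isSeparable B E x
    have := y.2
    rw [← hy]
    exact this
  have htP : t ∉ P := by
    intro h
    have h1 : A = ⊥ := by
      rw [eq_bot_iff]
      exact adjoin_simple_le_iff.2 (IntermediateField.mem_bot.2 ⟨⟨t, h⟩, rfl⟩)
    apply hz
    apply hPS
    have h2 : z ∈ (⊥ : IntermediateField P E) := by rw [← h1, hA]; trivial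
    obtain ⟨y, hy⟩ := IntermediateField.mem_bot.1 h2
    rw [← hy]
    exact y.2
  have hfr : Module.finrank P E = p := by
    have hirr : Irreducible (X ^ p - C (⟨t ^ p, (hPm _).2 ⟨t, rfl⟩⟩ : P)) := by
      refine X_pow_sub_C_irreducible_of_prime hp fun b hb => htP ?_
      have h1 : (b : E) ^ p = t ^ p := congrArg (fun x : P => (x : E)) hb
      have h2 : (b : E) = t := frobenius_inj E p h1
      rw [← h2]
      exact b.2
    have hmin : minpoly P t = X ^ p - C (⟨t ^ p, (hPm _).2 ⟨t, rfl⟩⟩ : P) := by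
      symm
      refine minpoly.eq_of_irreducible_of_monic hirr ?_ (monic_X_pow_sub_C _ hp.ne_zero)
      simp only [map_sub, map_pow, aeval_X, aeval_C]
      exact sub_self _
    have hint : IsIntegral P t := by
      by_contra h
      have := minpoly.eq_zero h
      rw [hmin] at this
      exact X_pow_sub_C_ne_zero hp.pos _ this
    have h3 := IntermediateField.adjoin.finrank hint
    rw [hmin, natDegree_X_pow_sub_C] at h3
    have h4 : Module.finrank P A = p := h3
    rw [hA, IntermediateField.finrank_top'] at h4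
    exact h4
  -- the intermediate field `S`
  let S' : IntermediateField P E :=
    { S with algebraMap_mem' := fun x => hPS x.2 }
  have hmul := frob_mul_aux P S' E
  rw [hfr] at hmul
  have hdvd : Module.finrank P S' ∣ p := ⟨_, hmul.symm⟩
  rcases (Nat.dvd_prime hp).1 hdvd with h1 | h1
  · constructor
    · intro ha
      have h2 : S' = ⊥ := IntermediateField.finrank_eq_one_iff.1 h1
      have h3 : a ∈ S' := ha
      rw [h2] at h3
      obtain ⟨y, hy⟩ := IntermediateField.mem_bot.1 h3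
      exact (hPm a).1 (by rw [← hy]; exact y.2)
    · rintro hb
      exact hPS ((hPm a).2 hb)
  · exfalso
    rw [h1] at hmul
    have h2 : Module.finrank S' E = 1 := by
      have := Nat.eq_of_mul_eq_mul_left hp.pos (hmul.trans (mul_one p).symm)
      exact this
    have h3 : S' = ⊤ := by
      have h4 : Module.finrank P S' = Module.finrank P E := by rw [h1, hfr]
      haveI : FiniteDimensional P E := frob_fin_aux (by rw [hfr]; exact hp.pos)
      exact IntermediateField.eq_of_le_of_finrank_eq le_top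
        (by rw [h4, IntermediateField.finrank_top'])
    apply hz
    have h5 : z ∈ S' := by rw [h3]; trivial
    exact h5

end Vale.Agent.P019P
end
end

section

section

/-!
# The genus of the function fields with a given perfect closure
-/

namespace Vale.Agent.P019P

open Vale.Agent.P019

set_option linter.style.haveILetI false
set_option linter.unusedSectionVars false

open Polynomial IntermediateField

variable {F : Type*} [Field F] {k : Subfield F}

theorem fg_of_cff (E : IntermediateField k F) [CFF k E] : E.FG := by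
  obtain ⟨x, _, hfin⟩ := CFF.ex (k := k) (F := E)
  haveI : Algebra.EssFiniteType k k⟮x⟯ :=
    IntermediateField.essFiniteType_iff.2 ⟨{x}, by rw [Finset.coe_singleton]⟩
  haveI : Algebra.EssFiniteType k⟮x⟯ E := inferInstance
  haveI : Algebra.EssFiniteType k E := Algebra.EssFiniteType.comp k k⟮x⟯ E
  exact IntermediateField.essFiniteType_iff.1 inferInstance

theorem exists_nonconst (E : IntermediateField k F) [CFF k E] : ∃ x ∈ E, x ∉ k := by
  obtain ⟨x, hx, _⟩ := CFF.ex (k := k) (F := E)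
  refine ⟨x, x.2, fun h => hx ?_⟩
  have h1 : x = algebraMap k E ⟨x, h⟩ := Subtype.ext rfl
  rw [h1]
  exact isAlgebraic_algebraMap _

theorem cff_le (h : Cv k) {E E' : IntermediateField k F} [CFF k E] (hE : E ≤ E') (hE' : E'.FG) :
    CFF k E' := by
  obtain ⟨x, hx, hxk⟩ := exists_nonconst E
  exact cff_of h E' hE' (hE hx) hxk

/-- one step. -/
theorem gen_step {E E' : IntermediateField k F} [CFF k E] [CFF k E'] {z : F}
    (hz : z ^ ringExpChar F ∈ E) (hE : E' = E ⊔ k⟮z⟯) : gen k E' = gen k E := by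
  by_cases hzE : z ∈ E
  · have h1 : E' = E := by
      rw [hE, sup_eq_left, IntermediateField.adjoin_simple_le_iff]
      exact hzE
    subst h1
    rfl
  have hle : E ≤ E' := hE ▸ le_sup_left
  have hzE' : z ∈ E' := by
    rw [hE]
    exact (le_sup_right : k⟮z⟯ ≤ E ⊔ k⟮z⟯) (IntermediateField.mem_adjoin_simple_self k z)
  have hq : ringExpChar F ≠ 1 := by
    intro h1
    rw [h1, pow_one] at hz
    exact hzE hz
  obtain ⟨p, hp⟩ := CharP.exists F
  have hpq : ringExpChar F = p ∧ p.Prime := by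
    have h1 : ringExpChar F = max p 1 := by rw [ringExpChar, ringChar.eq F p]
    rcases CharP.char_is_prime_or_zero F p with h2 | h2
    · exact ⟨by rw [h1]; exact max_eq_left h2.one_lt.le, h2⟩
    · subst h2
      exact absurd (by rw [h1]; simp) hq
  rw [hpq.1] at hz
  haveI : Fact p.Prime := ⟨hpq.2⟩
  haveI : CharP E' p := (algebraMap E' F).charP (algebraMap E' F).injective p
  haveI : CharP k p := (algebraMap k F).charP (algebraMap k F).injective p
  let S : Subfield E' := E.toSubfield.comap (algebraMap E' F)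
  have hS : ∀ a : k, algebraMap k E' a ∈ S := fun a => E.algebraMap_mem a
  have htop : S ⊔ Subfield.closure {(⟨z, hzE'⟩ : E')} = ⊤ := by
    set T : Subfield E' := S ⊔ Subfield.closure {(⟨z, hzE'⟩ : E')} with hT
    let M : IntermediateField k F :=
      { T.map (algebraMap E' F) with
        algebraMap_mem' := fun a => ⟨algebraMap k E' a, (le_sup_left : S ≤ T) (hS a), rfl⟩ }
    have hM : E' ≤ M := by
      rw [hE]
      refine sup_le ?_ ?_
      · intro w hw
        exact ⟨⟨w, hle hw⟩, (le_sup_left : S ≤ T) hw, rfl⟩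
      · rw [IntermediateField.adjoin_simple_le_iff]
        exact ⟨⟨z, hzE'⟩, (le_sup_right : Subfield.closure {(⟨z, hzE'⟩ : E')} ≤ T)
          (Subfield.subset_closure rfl), rfl⟩
    rw [eq_top_iff]
    rintro w -
    obtain ⟨v, hv, hvw⟩ := hM w.2
    have h1 : v = w := Subtype.ext hvw
    rw [← h1]
    exact hv
  have hstep := frob_step (k := k) (p := p) S hS (z := ⟨z, hzE'⟩) hzE hz htop
  have hpowmem : ∀ b : E', (b : F) ^ p ∈ E := fun b => (hstep (b ^ p)).2 ⟨b, rfl⟩
  let e1 : E' →+* E :=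
    ((frobenius F p).comp (algebraMap E' F)).codRestrict E.toSubfield hpowmem
  have he1 : Function.Bijective e1 := by
    refine ⟨e1.injective, ?_⟩
    intro a
    obtain ⟨b, hb⟩ := (hstep ⟨a, hle a.2⟩).1 a.2
    refine ⟨b, Subtype.ext ?_⟩
    have h2 : (b : F) ^ p = (a : F) := congrArg Subtype.val hb
    exact h2
  haveI : IsAlgClosed k := CFF.ac E
  haveI : PerfectRing k p := PerfectField.toPerfectRing p
  refine gen_eq (RingEquiv.ofBijective e1 he1) (frobeniusEquiv k p) ?_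
  intro a
  apply Subtype.ext
  change ((algebraMap k E' a : E') : F) ^ p = ((frobeniusEquiv k p a : k) : F)
  rw [frobeniusEquiv_apply, frobenius_def]
  rfl

theorem gen_steps (h : Cv k) (n : ℕ) : ∀ {E E' : IntermediateField k F} [CFF k E] [CFF k E']
    {z : F}, z ^ ringExpChar F ^ n ∈ E → E' = E ⊔ k⟮z⟯ → gen k E' = gen k E := by
  induction n with
  | zero =>
    intro E E' _ _ z hz hE
    rw [pow_zero, pow_one] at hz
    have h1 : E' = E := by
      rw [hE, sup_eq_left, IntermediateField.adjoin_simple_le_iff]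
      exact hz
    subst h1
    rfl
  | succ n ih =>
    intro E E' _ _ z hz hE
    set w := z ^ ringExpChar F with hw
    have hwn : w ^ ringExpChar F ^ n ∈ E := by
      rw [hw, ← pow_mul, ← pow_succ']
      exact hz
    have hFG : (E ⊔ k⟮w⟯).FG := fg_sup (fg_of_cff E) ⟨{w}, by rw [Finset.coe_singleton]⟩
    haveI : CFF k (E ⊔ k⟮w⟯ : IntermediateField k F) := cff_le h le_sup_left hFG
    have h1 : gen k (E ⊔ k⟮w⟯ : IntermediateField k F) = gen k E := ih hwn rfl
    rw [← h1]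
    refine gen_step (z := z) ?_ ?_
    · exact (le_sup_right : k⟮w⟯ ≤ E ⊔ k⟮w⟯) (IntermediateField.mem_adjoin_simple_self k w)
    · rw [hE, sup_assoc]
      congr 1
      rw [eq_comm, sup_eq_right, IntermediateField.adjoin_simple_le_iff]
      exact pow_mem (IntermediateField.mem_adjoin_simple_self k z) _

theorem gen_adjoin (h : Cv k) {E : IntermediateField k F} [CFF k E] [IsPurelyInseparable E F]
    (T : Finset F) : ∀ (E' : IntermediateField k F) [CFF k E'],
    E' = E ⊔ IntermediateField.adjoin k (T : Set F) → gen k E' = gen k E := by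
  classical
  induction T using Finset.induction_on with
  | empty =>
    intro E' _ hE
    have h1 : E' = E := by simpa using hE
    subst h1
    rfl
  | insert z T _ ih =>
    intro E' _ hE
    have hFG : (E ⊔ IntermediateField.adjoin k (T : Set F)).FG := fg_sup (fg_of_cff E) ⟨T, rfl⟩
    haveI : CFF k (E ⊔ IntermediateField.adjoin k (T : Set F) : IntermediateField k F) :=
      cff_le h le_sup_left hFG
    rw [← ih _ rfl]
    haveI : ExpChar E (ringExpChar F) := (algebraMap E F).expChar (algebraMap E F).injective _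
    obtain ⟨n, w, hw⟩ := (isPurelyInseparable_iff_pow_mem E (ringExpChar F)).1
      (inferInstance : IsPurelyInseparable E F) z
    refine gen_steps h n (z := z) ?_ ?_
    · rw [← hw]
      exact (le_sup_left : E ≤ _) w.2
    · rw [hE, sup_assoc]
      congr 1
      rw [← IntermediateField.adjoin_union, Finset.coe_insert, Set.union_singleton]

/-- the genus does not depend on the model. -/
theorem gen_model_eq (h : Cv k) (F0 F1 : IntermediateField k F) [CFF k F0] [CFF k F1]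
    [IsPurelyInseparable F0 F] [IsPurelyInseparable F1 F] : gen k F0 = gen k F1 := by
  obtain ⟨T0, hT0⟩ := fg_of_cff F0
  obtain ⟨T1, hT1⟩ := fg_of_cff F1
  have hFG : (F0 ⊔ F1).FG := fg_sup (fg_of_cff F0) (fg_of_cff F1)
  haveI : CFF k (F0 ⊔ F1 : IntermediateField k F) := cff_le h le_sup_left hFG
  have h0 : gen k (F0 ⊔ F1 : IntermediateField k F) = gen k F0 :=
    gen_adjoin h T1 (F0 ⊔ F1) (by rw [hT1])
  have h1 : gen k (F0 ⊔ F1 : IntermediateField k F) = gen k F1 :=
    gen_adjoin h T0 (F0 ⊔ F1) (by rw [hT0, sup_comm])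
  rw [← h0, h1]

end Vale.Agent.P019P
end
end

section

section

/-!
# The consequence of Riemann-Hurwitz used for residue curves
-/

namespace Vale.Agent.P019P

set_option linter.style.haveILetI false
set_option linter.unusedSectionVars false

open Polynomial IntermediateField

namespace AuxGRH

/-- counting: positive integers, at most `N` of them prime to `ℓ ≥ 2`. -/
theorem two_card_le {α : Type*} (A : Finset α) (f : α → ℤ) (hf : ∀ P ∈ A, 0 < f P) {ℓ : ℕ}
    (hℓ : 2 ≤ ℓ) (N : ℕ) (hN : {P | P ∈ A ∧ ¬ (ℓ : ℤ) ∣ f P}.encard ≤ N) :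
    2 * (A.card : ℤ) ≤ ∑ P ∈ A, f P + N := by
  classical
  have h1 : {P | P ∈ A ∧ ¬ (ℓ : ℤ) ∣ f P} = ((A.filter fun P => ¬ (ℓ : ℤ) ∣ f P : Finset α) : Set α) := by
    ext P
    simp
  rw [h1, Set.encard_coe_eq_coe_finsetCard] at hN
  have h2 : (A.filter fun P => ¬ (ℓ : ℤ) ∣ f P).card ≤ N := by exact_mod_cast hN
  have h3 : ∀ P ∈ A, (2 : ℤ) - (if ¬ (ℓ : ℤ) ∣ f P then 1 else 0) ≤ f P := by
    intro P hP
    have h4 := hf P hP
    split_ifs with h5
    · have h6 : (ℓ : ℤ) ≤ f P := Int.le_of_dvd h4 h5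
      have h7 : (2 : ℤ) ≤ ℓ := by exact_mod_cast hℓ
      omega
    · omega
  have h4 := Finset.sum_le_sum h3
  rw [Finset.sum_sub_distrib, Finset.sum_const, nsmul_eq_mul] at h4
  have h5 : (∑ P ∈ A, (if ¬ (ℓ : ℤ) ∣ f P then (1 : ℤ) else 0)) =
      ((A.filter fun P => ¬ (ℓ : ℤ) ∣ f P).card : ℤ) := by
    rw [Finset.card_filter]
    push_cast
    rfl
  have h6 : ((A.filter fun P => ¬ (ℓ : ℤ) ∣ f P).card : ℤ) ≤ N := by exact_mod_cast h2
  rw [h5] at h4
  linarith

end AuxGRH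

/-- five points with at most `N` places of order prime to `ℓ` in each fibre. -/
theorem rh_five {k F : Type*} [Field k] [Field F] [Algebra k F] [CFF k F] {x : F}
    (hx : ∀ a : k, x ≠ algebraMap k F a) [Algebra.IsSeparable k⟮x⟯ F] {ℓ : ℕ} (hℓ : 2 ≤ ℓ)
    (N : ℕ) (s : Finset k) (hs : s.card = 5)
    (hN : ∀ c ∈ s, {P : Plk k F | 0 < ord P (x - algebraMap k F c) ∧
      ¬ (ℓ : ℤ) ∣ ord P (x - algebraMap k F c)}.encard ≤ N) :
    Module.finrank k⟮x⟯ F ≤ 4 * gen k F + 5 * N := by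
  have key := RH hx s
  set n : ℕ := Module.finrank k⟮x⟯ F with hn
  have h1 : ∀ c ∈ s, (n : ℤ) - N ≤ 2 * ((n : ℤ) - (fib_finite hx c).toFinset.card) := by
    intro c hc
    have h2 := AuxGRH.two_card_le (fib_finite hx c).toFinset
      (fun P => ord P (x - algebraMap k F c))
      (fun P hP => by simpa using hP) hℓ N (by
        refine le_trans (le_of_eq ?_) (hN c hc)
        congr 1
        ext P
        simp)
    rw [fib_sum hx c] at h2
    linarith
  have h2 := Finset.sum_le_sum h1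
  rw [Finset.sum_const, hs, nsmul_eq_mul, ← Finset.mul_sum] at h2
  have h3 : (n : ℤ) ≤ 4 * gen k F + 5 * N := by
    push_cast at h2
    linarith
  exact_mod_cast h3

end Vale.Agent.P019P
end
end

section

section

/-!
# Places of a perfect field and of a function field with this perfect closure
-/

namespace Vale.Agent.P019P

open Vale.Agent.P019

set_option linter.style.haveILetI false
set_option linter.unusedSectionVars false

open Polynomial IntermediateField

namespace AuxFPl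

theorem mem_of_pow {K : Type*} [Field K] (O : ValuationSubring K) {w : K} {n : ℕ} (hn : n ≠ 0)
    (h : w ^ n ∈ O) : w ∈ O := by
  rw [← O.valuation_le_one_iff] at h ⊢
  by_contra hcon
  push Not at hcon
  have h2 := one_lt_pow₀ hcon hn
  rw [← map_pow] at h2
  exact absurd h (not_le.2 h2)

theorem q_pow_ne (F : Type*) [Field F] (n : ℕ) : ringExpChar F ^ n ≠ 0 :=
  pow_ne_zero _ (expChar_pos F (ringExpChar F)).ne'

variable {F : Type*} [Field F] {k : Subfield F} (F0 : IntermediateField k F)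

theorem exists_low [IsPurelyInseparable F0 F] (z : F) :
    ∃ (n : ℕ) (w : F0), (w : F) = z ^ ringExpChar F ^ n := by
  haveI : ExpChar F0 (ringExpChar F) :=
    (algebraMap F0 F).expChar (algebraMap F0 F).injective (ringExpChar F)
  obtain ⟨n, w, hw⟩ := IsPurelyInseparable.pow_mem F0 (ringExpChar F) z
  exact ⟨n, w, hw⟩

variable {F0}

theorem mem_iff (O : ValuationSubring F0) {z : F} {n : ℕ} {w : F0}
    (h : (w : F) = z ^ ringExpChar F ^ n) :
    (∃ (m : ℕ) (v : F0), v ∈ O ∧ (v : F) = z ^ ringExpChar F ^ m) ↔ w ∈ O := by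
  constructor
  · rintro ⟨m, v, hv, hvz⟩
    apply mem_of_pow O (q_pow_ne F m)
    have h1 : w ^ ringExpChar F ^ m = v ^ ringExpChar F ^ n := by
      apply Subtype.ext
      rw [SubmonoidClass.coe_pow, SubmonoidClass.coe_pow, h, hvz, ← pow_mul, ← pow_mul,
        mul_comm]
    rw [h1]
    exact pow_mem hv _
  · intro hw
    exact ⟨n, w, hw, h⟩

end AuxFPl

variable {F : Type*} [Field F] {k : Subfield F} (F0 : IntermediateField k F) [CFF k F0]
  [IsPurelyInseparable F0 F]

/-- the valuation ring of `F` over a valuation ring of `F0`. -/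
noncomputable def vExt (O : ValuationSubring F0) : ValuationSubring F where
  carrier := {z | ∃ (n : ℕ) (w : F0), w ∈ O ∧ (w : F) = z ^ ringExpChar F ^ n}
  mul_mem' := by
    rintro z z' ⟨n, w, hw, hz⟩ ⟨n', w', hw', hz'⟩
    refine ⟨n + n', w ^ ringExpChar F ^ n' * w' ^ ringExpChar F ^ n,
      mul_mem (pow_mem hw _) (pow_mem hw' _), ?_⟩
    rw [MulMemClass.coe_mul, SubmonoidClass.coe_pow, SubmonoidClass.coe_pow, hz, hz', mul_pow,
      ← pow_mul, ← pow_mul, ← pow_add, ← pow_add, add_comm n' n]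
  one_mem' := ⟨0, 1, one_mem O, by simp⟩
  add_mem' := by
    rintro z z' ⟨n, w, hw, hz⟩ ⟨n', w', hw', hz'⟩
    refine ⟨n + n', w ^ ringExpChar F ^ n' + w' ^ ringExpChar F ^ n,
      add_mem (pow_mem hw _) (pow_mem hw' _), ?_⟩
    rw [AddMemClass.coe_add, SubmonoidClass.coe_pow, SubmonoidClass.coe_pow, hz, hz',
      add_pow_expChar_pow, ← pow_mul, ← pow_mul, ← pow_add, ← pow_add, add_comm n' n]
  zero_mem' := ⟨0, 0, zero_mem O, by simp⟩
  neg_mem' := by
    rintro z ⟨n, w, hw, hz⟩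
    refine ⟨n, (-1) ^ ringExpChar F ^ n * w, mul_mem (pow_mem (neg_mem (one_mem O)) _) hw, ?_⟩
    rw [neg_pow z, ← hz]
    rfl
  mem_or_inv_mem' := by
    intro z
    obtain ⟨n, w, hw⟩ := AuxFPl.exists_low F0 z
    rcases O.mem_or_inv_mem w with h | h
    · exact Or.inl ⟨n, w, h, hw⟩
    · refine Or.inr ⟨n, w⁻¹, h, ?_⟩
      rw [inv_pow, ← hw]
      rfl

theorem AuxFPl.mem_vExt (O : ValuationSubring F0) {z : F} {n : ℕ} {w : F0}
    (h : (w : F) = z ^ ringExpChar F ^ n) : z ∈ vExt F0 O ↔ w ∈ O := AuxFPl.mem_iff O h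

theorem AuxFPl.mem_vExt' (O : ValuationSubring F0) (w : F0) : (w : F) ∈ vExt F0 O ↔ w ∈ O :=
  AuxFPl.mem_vExt F0 O (n := 0) (by rw [pow_zero, pow_one])

/-- places of `F` and places of `F0`. -/
noncomputable def plRes : Plc k ≃ Plk k F0 where
  toFun O := ⟨O.1.comap (algebraMap F0 F), by
    refine ⟨fun a => O.2.1 a a.2, fun h => O.2.2 ?_⟩
    rw [eq_top_iff]
    intro z _
    obtain ⟨n, w, hw⟩ := AuxFPl.exists_low F0 z
    apply AuxFPl.mem_of_pow O.1 (AuxFPl.q_pow_ne F n)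
    rw [← hw]
    have h1 : w ∈ O.1.comap (algebraMap F0 F) := by rw [h]; exact ValuationSubring.mem_top w
    exact h1⟩
  invFun P := ⟨vExt F0 P.1, by
    refine ⟨fun a ha => ⟨0, algebraMap k F0 ⟨a, ha⟩, P.2.1 _, ?_⟩, fun h => P.2.2 ?_⟩
    · rw [pow_zero, pow_one]; rfl
    · rw [eq_top_iff]
      intro w _
      rw [← AuxFPl.mem_vExt' F0, h]
      exact ValuationSubring.mem_top _⟩
  left_inv := by
    intro O
    apply Subtype.ext
    ext z
    obtain ⟨n, w, hw⟩ := AuxFPl.exists_low F0 z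
    change z ∈ vExt F0 (O.1.comap (algebraMap F0 F)) ↔ _
    rw [AuxFPl.mem_vExt F0 _ hw]
    change (w : F) ∈ O.1 ↔ _
    rw [hw]
    exact ⟨AuxFPl.mem_of_pow O.1 (AuxFPl.q_pow_ne F n), fun h => pow_mem h _⟩
  right_inv := by
    intro P
    apply Subtype.ext
    ext w
    exact AuxFPl.mem_vExt' F0 P.1 w

theorem mem_plRes (O : Plc k) (z : F0) : z ∈ (plRes F0 O).1 ↔ (z : F) ∈ O.1 := Iff.rfl

namespace AuxFPl

theorem ord_one {K : Type*} [Field K] {O : ValuationSubring K} {f : K → ℤ} (hf : IsOrd O f) :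
    f 1 = 0 := by
  have h := hf.mul 1 1 one_ne_zero one_ne_zero
  rw [mul_one] at h
  omega

theorem ord_pow {K : Type*} [Field K] {O : ValuationSubring K} {f : K → ℤ} (hf : IsOrd O f)
    {x : K} (hx : x ≠ 0) (n : ℕ) : f (x ^ n) = n * f x := by
  induction n with
  | zero => rw [pow_zero, ord_one hf]; simp
  | succ n ih =>
    rw [pow_succ, hf.mul _ _ (pow_ne_zero _ hx) hx, ih]
    push_cast
    ring

theorem ord_inv {K : Type*} [Field K] {O : ValuationSubring K} {f : K → ℤ} (hf : IsOrd O f)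
    {x : K} (hx : x ≠ 0) : f x⁻¹ = - f x := by
  have h := hf.mul x x⁻¹ hx (inv_ne_zero hx)
  rw [mul_inv_cancel₀ hx, ord_one hf] at h
  omega

theorem ord_zpow {K : Type*} [Field K] {O : ValuationSubring K} {f : K → ℤ} (hf : IsOrd O f)
    {x : K} (hx : x ≠ 0) (n : ℤ) : f (x ^ n) = n * f x := by
  cases n with
  | ofNat n =>
    rw [Int.ofNat_eq_natCast, zpow_natCast]; exact ord_pow hf hx n
  | negSucc n =>
    rw [zpow_negSucc, ord_inv hf (pow_ne_zero _ hx), ord_pow hf hx, Int.negSucc_eq]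
    push_cast
    ring

theorem ord_eq_zero_iff {K : Type*} [Field K] {O : ValuationSubring K} {f : K → ℤ}
    (hf : IsOrd O f) {x : K} (hx : x ≠ 0) : f x = 0 ↔ O.valuation x = 1 := by
  have h1 := hf.mem x
  have h2 := hf.mem x⁻¹
  rw [ord_inv hf hx] at h2
  have h3 : O.valuation x⁻¹ ≤ 1 ↔ 1 ≤ O.valuation x := by
    rw [map_inv₀]
    have hpos : 0 < O.valuation x := by
      rw [zero_lt_iff]; exact (Valuation.ne_zero_iff _).2 hx
    exact inv_le_one₀ hpos
  rw [← O.valuation_le_one_iff] at h1 h2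
  rw [h3] at h2
  have hx' := inv_ne_zero hx
  constructor
  · intro h
    apply le_antisymm
    · rw [h1]; right; omega
    · rw [h2]; right; omega
  · intro h
    have h4 := h1.1 h.le
    have h5 := h2.1 h.ge
    have h6 := h4.resolve_left hx
    have h7 := h5.resolve_left hx'
    omega

end AuxFPl

/-- unramified classes. -/
theorem cl_mem_UC_iff {ℓ : ℕ} [Fact ℓ.Prime] [NeZero (ℓ : F)] (O : Plc k) {z : F0} (hz : z ≠ 0) :
    cl ℓ (z : F) ∈ UC ℓ O.1 ↔ (ℓ : ℤ) ∣ ord (plRes F0 O) z := by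
  have hO := ord_spec (plRes F0 O)
  set f := ord (plRes F0 O) with hf
  have hzF : (z : F) ≠ 0 := fun h => hz (Subtype.ext h)
  rw [mem_UC]
  constructor
  · rintro ⟨w, hw, hzw⟩
    have hw0 : w ≠ 0 := by rintro rfl; rw [map_zero] at hw; exact zero_ne_one hw
    obtain ⟨t, ht0, hzt⟩ := (cl_eq_iff ℓ hzF hw0).1 hzw
    obtain ⟨n, W, hW⟩ := AuxFPl.exists_low F0 w
    obtain ⟨m, T, hT⟩ := AuxFPl.exists_low F0 t
    have hW0 : W ≠ 0 := by
      rintro rfl
      exact pow_ne_zero _ hw0 hW.symm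
    have hT0 : T ≠ 0 := by
      rintro rfl
      exact pow_ne_zero _ ht0 hT.symm
    have key : z ^ ringExpChar F ^ (n + m) =
        W ^ ringExpChar F ^ m * (T ^ ringExpChar F ^ n) ^ ℓ := by
      apply Subtype.ext
      rw [MulMemClass.coe_mul, SubmonoidClass.coe_pow, SubmonoidClass.coe_pow,
        SubmonoidClass.coe_pow, SubmonoidClass.coe_pow, hW, hT, hzt, mul_pow]
      congr 1
      · rw [← pow_mul, pow_add]
      · rw [← pow_mul, ← pow_mul, ← pow_mul, pow_add]
        congr 1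
        ring
    have hWu : (plRes F0 O).1.valuation W = 1 := by
      have h1 : ∀ x : F0, (plRes F0 O).1.valuation x ≤ 1 ↔ O.1.valuation (x : F) ≤ 1 := by
        intro x
        rw [ValuationSubring.valuation_le_one_iff, ValuationSubring.valuation_le_one_iff]
        exact mem_plRes F0 O x
      have h2 : O.1.valuation (W : F) = 1 := by
        rw [hW, map_pow, hw, one_pow]
      have h3 := (h1 W).2 h2.le
      have h4 := (h1 W⁻¹).2 (by
        have : ((W⁻¹ : F0) : F) = (W : F)⁻¹ := rfl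
        rw [this, map_inv₀, h2, inv_one])
      apply le_antisymm h3
      rw [map_inv₀] at h4
      have hpos : 0 < (plRes F0 O).1.valuation W := by
        rw [zero_lt_iff]; exact (Valuation.ne_zero_iff _).2 hW0
      exact (inv_le_one₀ hpos).1 h4
    have hfW : f W = 0 := (AuxFPl.ord_eq_zero_iff hO hW0).2 hWu
    have h5 := congrArg f key
    rw [AuxFPl.ord_pow hO hz, hO.mul _ _ (pow_ne_zero _ hW0) (pow_ne_zero _ (pow_ne_zero _ hT0)),
      AuxFPl.ord_pow hO hW0, hfW, mul_zero, zero_add, AuxFPl.ord_pow hO (pow_ne_zero _ hT0)] at h5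
    have h6 : (ℓ : ℤ) ∣ ((ringExpChar F ^ (n + m) : ℕ) : ℤ) * f z := ⟨_, h5⟩
    have hq := q_ne_zero ℓ F
    have hp : Prime (ℓ : ℤ) := Nat.prime_iff_prime_int.1 (Fact.out : ℓ.Prime)
    rcases hp.dvd_or_dvd h6 with h7 | h7
    · exfalso
      rw [Nat.cast_pow] at h7
      have h8 := hp.dvd_of_dvd_pow h7
      apply hq
      rw [ZMod.natCast_eq_zero_iff]
      exact_mod_cast h8
    · exact h7
  · rintro ⟨m, hm⟩
    obtain ⟨π, hπ⟩ := hO.one
    have hπ0 : π ≠ 0 := by
      rintro rfl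
      rw [hO.zero] at hπ
      exact zero_ne_one hπ
    have hw0 : z * ((π ^ m) ^ ℓ)⁻¹ ≠ 0 :=
      mul_ne_zero hz (inv_ne_zero (pow_ne_zero _ (zpow_ne_zero _ hπ0)))
    have hfw : f (z * ((π ^ m) ^ ℓ)⁻¹) = 0 := by
      rw [hO.mul _ _ hz (inv_ne_zero (pow_ne_zero _ (zpow_ne_zero _ hπ0))),
        AuxFPl.ord_inv hO (pow_ne_zero _ (zpow_ne_zero _ hπ0)),
        AuxFPl.ord_pow hO (zpow_ne_zero _ hπ0), AuxFPl.ord_zpow hO hπ0, hπ, hm]
      ring
    have hu := (AuxFPl.ord_eq_zero_iff hO hw0).1 hfw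
    set w : F0 := z * ((π ^ m) ^ ℓ)⁻¹ with hwdef
    refine ⟨(w : F), ?_, ?_⟩
    · have h1 : ∀ x : F0, (plRes F0 O).1.valuation x ≤ 1 ↔ O.1.valuation (x : F) ≤ 1 := by
        intro x
        rw [ValuationSubring.valuation_le_one_iff, ValuationSubring.valuation_le_one_iff]
        exact mem_plRes F0 O x
      have h3 := (h1 w).1 hu.le
      have h4 := (h1 w⁻¹).1 (by rw [map_inv₀, hu, inv_one])
      apply le_antisymm h3
      have h5 : ((w⁻¹ : F0) : F) = (w : F)⁻¹ := rfl
      rw [h5, map_inv₀] at h4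
      have hpos : 0 < O.1.valuation (w : F) := by
        rw [zero_lt_iff]
        exact (Valuation.ne_zero_iff _).2 (fun h => hw0 (Subtype.ext h))
      exact (inv_le_one₀ hpos).1 h4
    · have hwF : (w : F) ≠ 0 := fun h => hw0 (Subtype.ext h)
      have hπF : ((π ^ m : F0) : F) ≠ 0 := fun h => zpow_ne_zero m hπ0 (Subtype.ext h)
      rw [cl_eq_iff ℓ hzF hwF]
      refine ⟨((π ^ m : F0) : F), hπF, ?_⟩
      have h1 : z = w * (π ^ m) ^ ℓ := by
        rw [hwdef, inv_mul_cancel_right₀ (pow_ne_zero _ (zpow_ne_zero _ hπ0))]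
      have h2 := congrArg (fun x : F0 => (x : F)) h1
      exact h2

end Vale.Agent.P019P
end
end

section

section

/-!
# Semilinear isomorphisms act on places and divisors
-/

namespace Vale.Agent.P019P

open Polynomial IntermediateField

namespace AuxFAct

section

variable {F : Type*} [Field F] {O : ValuationSubring F} {f g : F → ℤ}

theorem f_one (hf : IsOrd O f) : f 1 = 0 := by
  have h := hf.mul 1 1 one_ne_zero one_ne_zero
  rw [mul_one] at h
  omega

theorem f_inv (hf : IsOrd O f) {z : F} (hz : z ≠ 0) : f z⁻¹ = - f z := by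
  have h := hf.mul z z⁻¹ hz (inv_ne_zero hz)
  rw [mul_inv_cancel₀ hz, f_one hf] at h
  omega

theorem f_pow (hf : IsOrd O f) {z : F} (hz : z ≠ 0) (n : ℕ) : f (z ^ n) = n * f z := by
  induction n with
  | zero => rw [pow_zero, f_one hf]; simp
  | succ n ih =>
    rw [pow_succ, hf.mul _ _ (pow_ne_zero n hz) hz, ih]
    push_cast
    ring

theorem f_zpow (hf : IsOrd O f) {z : F} (hz : z ≠ 0) (n : ℤ) : f (z ^ n) = n * f z := by
  rcases Int.eq_nat_or_neg n with ⟨m, rfl | rfl⟩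
  · rw [zpow_natCast, f_pow hf hz]
  · rw [zpow_neg, zpow_natCast, f_inv hf (pow_ne_zero m hz), f_pow hf hz]
    ring

theorem nonneg_iff (hf : IsOrd O f) (hg : IsOrd O g) {z : F} (hz : z ≠ 0) :
    0 ≤ f z ↔ 0 ≤ g z := by
  have h1 := hf.mem z
  have h2 := hg.mem z
  constructor
  · intro h
    exact (h2.1 (h1.2 (Or.inr h))).resolve_left hz
  · intro h
    exact (h1.1 (h2.2 (Or.inr h))).resolve_left hz

theorem zero_iff (hf : IsOrd O f) (hg : IsOrd O g) {z : F} (hz : z ≠ 0) (h : f z = 0) :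
    g z = 0 := by
  have h1 := (nonneg_iff hf hg hz).1 h.ge
  have h2 := (nonneg_iff hf hg (inv_ne_zero hz)).1 (by rw [f_inv hf hz, h]; simp)
  rw [f_inv hg hz] at h2
  omega

end

end AuxFAct

open AuxFAct in
/-- the normalised valuation is unique. -/
theorem IsOrd.ext {F : Type*} [Field F] {O : ValuationSubring F} {f g : F → ℤ}
    (hf : IsOrd O f) (hg : IsOrd O g) : f = g := by
  obtain ⟨π, hπ⟩ := hf.one
  obtain ⟨π', hπ'⟩ := hg.one
  have hπ0 : π ≠ 0 := by
    rintro rfl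
    rw [hf.zero] at hπ
    exact zero_ne_one hπ
  have hπ0' : π' ≠ 0 := by
    rintro rfl
    rw [hg.zero] at hπ'
    exact zero_ne_one hπ'
  have key : ∀ z, z ≠ 0 → g z = f z * g π := by
    intro z hz
    have h1 : z * π ^ (-f z) ≠ 0 := mul_ne_zero hz (zpow_ne_zero _ hπ0)
    have h2 : f (z * π ^ (-f z)) = 0 := by
      rw [hf.mul _ _ hz (zpow_ne_zero _ hπ0), f_zpow hf hπ0, hπ]
      ring
    have h3 := zero_iff hf hg h1 h2
    rw [hg.mul _ _ hz (zpow_ne_zero _ hπ0), f_zpow hg hπ0] at h3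
    linarith
  have h0 : 0 ≤ g π := (nonneg_iff hf hg hπ0).1 (by rw [hπ]; exact zero_le_one)
  have h1 := key π' hπ0'
  rw [hπ'] at h1
  have h2 : g π = 1 := Int.eq_one_of_mul_eq_one_left h0 h1.symm
  funext z
  by_cases hz : z = 0
  · rw [hz, hf.zero, hg.zero]
  · rw [key z hz, h2, mul_one]

section

variable {k F k' F' : Type*} [Field k] [Field F] [Algebra k F] [CFF k F]
  [Field k'] [Field F'] [Algebra k' F'] [CFF k' F']

/-- the action of a semilinear isomorphism on places. -/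
noncomputable def plEquiv (e : F ≃+* F') (e₀ : k ≃+* k')
    (h : ∀ a, e (algebraMap k F a) = algebraMap k' F' (e₀ a)) : Plk k F ≃ Plk k' F' where
  toFun P := ⟨P.1.comap (e.symm : F' →+* F), by
    refine ⟨fun b => ?_, fun hP => P.2.2 ?_⟩
    · rw [ValuationSubring.mem_comap]
      have h1 : (e.symm : F' →+* F) (algebraMap k' F' b) = algebraMap k F (e₀.symm b) := by
        have h2 := h (e₀.symm b)
        rw [RingEquiv.apply_symm_apply] at h2
        rw [← h2]
        exact e.symm_apply_apply _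
      rw [h1]
      exact P.2.1 _
    · ext z
      refine ⟨fun _ => ValuationSubring.mem_top z, fun _ => ?_⟩
      have h1 : e z ∈ P.1.comap (e.symm : F' →+* F) := by
        rw [hP]; exact ValuationSubring.mem_top _
      rw [ValuationSubring.mem_comap] at h1
      have h2 : (e.symm : F' →+* F) (e z) = z := e.symm_apply_apply z
      rwa [h2] at h1⟩
  invFun P := ⟨P.1.comap (e : F →+* F'), by
    refine ⟨fun b => ?_, fun hP => P.2.2 ?_⟩
    · rw [ValuationSubring.mem_comap]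
      have h1 : (e : F →+* F') (algebraMap k F b) = algebraMap k' F' (e₀ b) := h b
      rw [h1]
      exact P.2.1 _
    · ext z
      refine ⟨fun _ => ValuationSubring.mem_top z, fun _ => ?_⟩
      have h1 : e.symm z ∈ P.1.comap (e : F →+* F') := by
        rw [hP]; exact ValuationSubring.mem_top _
      rw [ValuationSubring.mem_comap] at h1
      have h2 : (e : F →+* F') (e.symm z) = z := e.apply_symm_apply z
      rwa [h2] at h1⟩
  left_inv := by
    intro P
    refine Subtype.ext (ValuationSubring.ext _ _ fun z => ?_)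
    change (e.symm : F' →+* F) ((e : F →+* F') z) ∈ P.1 ↔ z ∈ P.1
    rw [show (e.symm : F' →+* F) ((e : F →+* F') z) = z from e.symm_apply_apply z]
  right_inv := by
    intro P
    refine Subtype.ext (ValuationSubring.ext _ _ fun z => ?_)
    change (e : F →+* F') ((e.symm : F' →+* F) z) ∈ P.1 ↔ z ∈ P.1
    rw [show (e : F →+* F') ((e.symm : F' →+* F) z) = z from e.apply_symm_apply z]

theorem AuxFAct.mem_plEquiv (e : F ≃+* F') (e₀ : k ≃+* k')
    (h : ∀ a, e (algebraMap k F a) = algebraMap k' F' (e₀ a)) (P : Plk k F) (z : F') :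
    z ∈ (plEquiv e e₀ h P).1 ↔ e.symm z ∈ P.1 := Iff.rfl

theorem ord_plEquiv (e : F ≃+* F') (e₀ : k ≃+* k')
    (h : ∀ a, e (algebraMap k F a) = algebraMap k' F' (e₀ a)) (P : Plk k F) (z : F) :
    ord (plEquiv e e₀ h P) (e z) = ord P z := by
  have hP := ord_spec P
  have h1 : IsOrd (plEquiv e e₀ h P).1 (fun z => ord P (e.symm z)) := by
    have hne : ∀ x : F', x ≠ 0 → e.symm x ≠ 0 := fun x hx h0 =>
      hx ((map_eq_zero_iff e.symm e.symm.injective).1 h0)
    refine ⟨?_, ?_, ?_, ?_, ?_⟩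
    · change ord P (e.symm 0) = 0
      rw [map_zero]
      exact hP.zero
    · intro x y hx hy
      change ord P (e.symm (x * y)) = ord P (e.symm x) + ord P (e.symm y)
      rw [map_mul]
      exact hP.mul _ _ (hne x hx) (hne y hy)
    · intro x y hx hy hxy
      change min (ord P (e.symm x)) (ord P (e.symm y)) ≤ ord P (e.symm (x + y))
      have h3 := hne _ hxy
      rw [map_add] at h3 ⊢
      exact hP.add _ _ (hne x hx) (hne y hy) h3
    · intro x
      rw [AuxFAct.mem_plEquiv, hP.mem, map_eq_zero_iff e.symm e.symm.injective]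
    · obtain ⟨π, hπ⟩ := hP.one
      exact ⟨e π, by change ord P (e.symm (e π)) = 1; rw [e.symm_apply_apply]; exact hπ⟩
  have h2 := IsOrd.ext (ord_spec (plEquiv e e₀ h P)) h1
  rw [h2]
  change ord P (e.symm (e z)) = ord P z
  rw [e.symm_apply_apply]

theorem dv_plEquiv (e : F ≃+* F') (e₀ : k ≃+* k')
    (h : ∀ a, e (algebraMap k F a) = algebraMap k' F' (e₀ a)) (z : F) :
    dv k' (e z) = (dv k z).mapDomain (plEquiv e e₀ h) := by
  ext Q
  obtain ⟨P, rfl⟩ := (plEquiv e e₀ h).surjective Q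
  rw [Finsupp.mapDomain_apply (plEquiv e e₀ h).injective, dv_apply, dv_apply, ord_plEquiv]

end

section

variable {k F : Type*} [Field k] [Field F] [Algebra k F] [CFF k F]

theorem semi_pow {e : F ≃+* F} {e₀ : k ≃+* k}
    (h : ∀ a, e (algebraMap k F a) = algebraMap k F (e₀ a)) (n : ℕ) (a : k) :
    (e ^ n) (algebraMap k F a) = algebraMap k F ((e₀ ^ n) a) := by
  induction n generalizing a with
  | zero => rfl
  | succ n ih =>
    rw [pow_succ, pow_succ, RingAut.mul_apply, RingAut.mul_apply, h, ih]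

theorem plEquiv_pow (e : F ≃+* F) (e₀ : k ≃+* k)
    (h : ∀ a, e (algebraMap k F a) = algebraMap k F (e₀ a)) (n : ℕ) :
    (plEquiv e e₀ h : Equiv.Perm (Plk k F)) ^ n = plEquiv (e ^ n) (e₀ ^ n) (semi_pow h n) := by
  induction n with
  | zero =>
    ext P
    rfl
  | succ n ih =>
    refine Equiv.ext fun P => ?_
    refine Subtype.ext (ValuationSubring.ext _ _ fun z => ?_)
    have h1 : ((plEquiv e e₀ h : Equiv.Perm (Plk k F)) ^ (n + 1)) P =
        plEquiv e e₀ h (((plEquiv e e₀ h : Equiv.Perm (Plk k F)) ^ n) P) := by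
      rw [pow_succ', Equiv.Perm.mul_apply]
    rw [h1, AuxFAct.mem_plEquiv, AuxFAct.mem_plEquiv, ih, AuxFAct.mem_plEquiv]
    have h2 : (e ^ (n + 1)).symm z = (e ^ n).symm (e.symm z) := by
      rw [RingEquiv.symm_apply_eq, pow_succ', RingAut.mul_apply, RingEquiv.apply_symm_apply,
        RingEquiv.apply_symm_apply]
    rw [h2]

end

end Vale.Agent.P019P
end
end

section

section

/-!
# Periodic places
-/

namespace Vale.Agent.P019P

open Polynomial IntermediateField

variable {k F : Type*} [Field k] [Field F] [Algebra k F] [CFF k F] {p m : ℕ} [Fact p.Prime]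
  [CharP k p]

namespace AuxFPer

theorem const_unique {P : Plk k F} {x : F} {c c' : k} (h : 0 < ord P (x - algebraMap k F c))
    (h' : 0 < ord P (x - algebraMap k F c')) : c = c' := by
  by_contra hne
  have h1 : x - algebraMap k F c ≠ 0 := by
    intro h0
    rw [h0, (ord_spec P).zero] at h
    exact lt_irrefl _ h
  have h2 : x - algebraMap k F c' ≠ 0 := by
    intro h0
    rw [h0, (ord_spec P).zero] at h'
    exact lt_irrefl _ h'
  have h3 : (x - algebraMap k F c') + -(x - algebraMap k F c) = algebraMap k F (c - c') := by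
    rw [map_sub]; ring
  have h4 : algebraMap k F (c - c') ≠ 0 := by
    rw [Ne, map_eq_zero, sub_eq_zero]
    exact hne
  have h5 := ord_le_add P h2 (neg_ne_zero.2 h1) (by rw [h3]; exact h4)
  rw [h3, ord_const, ord_neg] at h5
  rcases min_le_iff.1 h5 with h6 | h6
  · exact absurd h' (not_lt.2 h6)
  · exact absurd h (not_lt.2 h6)

theorem pow_x {σ : F ≃+* F} {x : F} (hσ : σ x = x) (n : ℕ) : (σ ^ n) x = x := by
  induction n with
  | zero => rfl
  | succ n ih => rw [pow_succ, RingAut.mul_apply, hσ, ih]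

theorem pow_c {σ₀ : k ≃+* k} (h0 : ∀ a : k, σ₀ a = a ^ p ^ m) (n : ℕ) (a : k) :
    (σ₀ ^ n) a = a ^ p ^ (m * n) := by
  induction n generalizing a with
  | zero => simp
  | succ n ih =>
    rw [pow_succ, RingAut.mul_apply, ih, h0, ← pow_mul, ← pow_add, mul_add, mul_one, add_comm]

theorem ord_pow_sub (σ : F ≃+* F) (σ₀ : k ≃+* k) (h0 : ∀ a : k, σ₀ a = a ^ p ^ m)
    (h : ∀ a, σ (algebraMap k F a) = algebraMap k F (σ₀ a)) {x : F} (hσ : σ x = x) (n : ℕ)
    (P : Plk k F) (c : k) :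
    ord (((plEquiv σ σ₀ h : Equiv.Perm (Plk k F)) ^ n) P)
      (x - algebraMap k F (c ^ p ^ (m * n))) = ord P (x - algebraMap k F c) := by
  have h1 := ord_plEquiv (σ ^ n) (σ₀ ^ n) (semi_pow h n) P (x - algebraMap k F c)
  rw [← plEquiv_pow, map_sub, pow_x hσ, semi_pow h n, pow_c h0] at h1
  exact h1

theorem ord_pow_x (σ : F ≃+* F) (σ₀ : k ≃+* k)
    (h : ∀ a, σ (algebraMap k F a) = algebraMap k F (σ₀ a)) {x : F} (hσ : σ x = x) (n : ℕ)
    (P : Plk k F) :
    ord (((plEquiv σ σ₀ h : Equiv.Perm (Plk k F)) ^ n) P) x = ord P x := by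
  have h1 := ord_plEquiv (σ ^ n) (σ₀ ^ n) (semi_pow h n) P x
  rw [← plEquiv_pow, pow_x hσ] at h1
  exact h1

theorem per_of_finite {α : Type*} (s : Equiv.Perm α) {A : Set α} (hA : A.Finite)
    (hs : ∀ a ∈ A, s a ∈ A) {a : α} (ha : a ∈ A) : ∃ n : ℕ, 0 < n ∧ (s ^ n) a = a := by
  have h1 : ∀ n : ℕ, (s ^ n) a ∈ A := by
    intro n
    induction n with
    | zero => exact ha
    | succ n ih => rw [pow_succ', Equiv.Perm.mul_apply]; exact hs _ ih
  obtain ⟨i, j, hij, h2⟩ := hA.exists_lt_map_eq_of_forall_mem h1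
  refine ⟨j - i, Nat.sub_pos_of_lt hij, ?_⟩
  have h3 : s ^ j = s ^ i * s ^ (j - i) := by rw [← pow_add, Nat.add_sub_cancel' hij.le]
  rw [h3, Equiv.Perm.mul_apply] at h2
  exact ((s ^ i).injective h2).symm

end AuxFPer

open AuxFPer

/-- there are only finitely many `q ^ n`-rational places. -/
theorem pl_fin (hm : 0 < m) (σ : F ≃+* F) (σ₀ : k ≃+* k) (h0 : ∀ a : k, σ₀ a = a ^ p ^ m)
    (h : ∀ a, σ (algebraMap k F a) = algebraMap k F (σ₀ a)) {x : F}
    (hx : ∀ a : k, x ≠ algebraMap k F a) (hσ : σ x = x) {n : ℕ} (hn : 0 < n) :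
    {P : Plk k F | ((plEquiv σ σ₀ h : Equiv.Perm (Plk k F)) ^ n) P = P}.Finite := by
  classical
  have hx0 : x ≠ 0 := fun h1 => hx 0 (by rw [h1, map_zero])
  have hp : 1 < p := (Fact.out : p.Prime).one_lt
  have hq : 1 < p ^ (m * n) := Nat.one_lt_pow (Nat.mul_pos hm hn).ne' hp
  let R : Finset k := (X ^ p ^ (m * n) - X : k[X]).roots.toFinset
  refine Set.Finite.subset (Set.Finite.union (dv_finite hx0)
    (Set.Finite.biUnion R.finite_toSet fun c _ => fib_finite hx c)) ?_
  intro P hP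
  change ((plEquiv σ σ₀ h : Equiv.Perm (Plk k F)) ^ n) P = P at hP
  by_cases hxP : x ∈ P.1
  · right
    obtain ⟨c, hc⟩ := exists_cst P hxP
    have hc := hc.resolve_left (hx c)
    have h1 := ord_pow_sub σ σ₀ h0 h hσ n P c
    rw [hP] at h1
    rw [← h1] at hc
    have h2 : 0 < ord P (x - algebraMap k F c) := by rw [← h1]; exact hc
    have h3 : c ^ p ^ (m * n) = c := const_unique hc h2
    have h4 : c ∈ R := by
      rw [Multiset.mem_toFinset, mem_roots (FiniteField.X_pow_card_sub_X_ne_zero k hq),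
        IsRoot.def, eval_sub, eval_pow, eval_X, h3, sub_self]
    exact Set.mem_biUnion (Finset.mem_coe.2 h4) h2
  · left
    change ord P x ≠ 0
    intro h1
    exact hxP (((ord_spec P).mem x).2 (Or.inr h1.ge))

/-- every place is rational over a finite field. -/
theorem pl_per (hf : ∀ a : k, a ≠ 0 → ∃ n : ℕ, 0 < n ∧ a ^ n = 1)
    (σ : F ≃+* F) (σ₀ : k ≃+* k) (h0 : ∀ a : k, σ₀ a = a ^ p ^ m)
    (h : ∀ a, σ (algebraMap k F a) = algebraMap k F (σ₀ a)) {x : F}
    (hx : ∀ a : k, x ≠ algebraMap k F a) (hσ : σ x = x) (P : Plk k F) :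
    ∃ n : ℕ, 0 < n ∧ ((plEquiv σ σ₀ h : Equiv.Perm (Plk k F)) ^ n) P = P := by
  classical
  have hx0 : x ≠ 0 := fun h1 => hx 0 (by rw [h1, map_zero])
  by_cases hxP : x ∈ P.1
  · obtain ⟨c, hc⟩ := exists_cst P hxP
    have hc := hc.resolve_left (hx c)
    obtain ⟨r, hr, hcr⟩ := exists_pow_fix (p := p) hf {c}
    have hcr := hcr c (Finset.mem_singleton_self c)
    have h1 : ∀ j : ℕ, c ^ p ^ (j * r) = c := by
      intro j
      induction j with
      | zero => simp
      | succ j ih => rw [add_mul, one_mul, pow_add, pow_mul, ih, hcr]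
    obtain ⟨n, hn, hPn⟩ := per_of_finite ((plEquiv σ σ₀ h : Equiv.Perm (Plk k F)) ^ r)
      (fib_finite hx c) (fun Q hQ => by
        have h2 := ord_pow_sub σ σ₀ h0 h hσ r Q c
        rw [h1 m] at h2
        change 0 < ord _ _
        rw [h2]
        exact hQ) hc
    exact ⟨r * n, Nat.mul_pos hr hn, by rw [pow_mul]; exact hPn⟩
  · have h1 : ord P x ≠ 0 := fun h1 => hxP (((ord_spec P).mem x).2 (Or.inr h1.ge))
    refine per_of_finite _ (dv_finite hx0) (fun Q hQ => ?_) h1
    have h2 := ord_pow_x σ σ₀ h hσ 1 Q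
    rw [pow_one] at h2
    change ord _ x ≠ 0
    rw [h2]
    exact hQ

end Vale.Agent.P019P
end
end

section

section

/-!
# The theorem on curves
-/

namespace Vale.Agent.P019P

open Vale.Agent.P019

set_option linter.style.haveILetI false
set_option linter.unusedSectionVars false

open Polynomial IntermediateField

variable {F : Type*} [Field F] [PerfectField F] {ℓ : ℕ} [Fact ℓ.Prime] [NeZero (ℓ : F)]
  {k : Subfield F}

/-- the perfect closure of `k(x, y)`. -/
theorem pure_pair {x y : F} (htop : adj (adj k x) y = ⊤) :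
    IsPurelyInseparable (IntermediateField.adjoin k ({x, y} : Set F)) F := by
  set F1 : IntermediateField k F := IntermediateField.adjoin k ({x, y} : Set F) with hF1
  haveI : ExpChar F1 (ringExpChar F) := (algebraMap F1 F).expChar (algebraMap F1 F).injective _
  rw [isPurelyInseparable_iff_pow_mem F1 (ringExpChar F)]
  intro z
  have hx : x ∈ F1 := IntermediateField.subset_adjoin k _ (by simp)
  have hy : y ∈ F1 := IntermediateField.subset_adjoin k _ (by simp)
  have h1 : adj (adj k x) y ≤ pf F1.toSubfield := by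
    refine adj_le (adj_le ?_ ?_) ?_
    · intro a ha
      exact le_pf _ (F1.algebraMap_mem ⟨a, ha⟩)
    · exact le_pf _ hx
    · exact le_pf _ hy
  rw [htop] at h1
  obtain ⟨n, hn⟩ := mem_pf.1 (h1 (Subfield.mem_top z))
  exact ⟨n, ⟨_, hn⟩, rfl⟩

/-- the genus bound and Riemann-Hurwitz for a model. -/
theorem curveRH_of (h : Cv k) (F0 : IntermediateField k F) [CFF k F0]
    [IsPurelyInseparable F0 F] : CurveRH ℓ k (gen k F0) := by
  classical
  constructor
  · intro x hx N s hs hs5 hN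
    obtain ⟨F1, hx1, hFG, hcff, hpi, hsep, hfin, hle⟩ := exists_sep_model h hx
    haveI := hcff
    haveI := hpi
    haveI := hsep
    rw [gen_model_eq h F0 F1]
    refine hle.trans ?_
    have hx1' : ∀ a : k, (⟨x, hx1⟩ : F1) ≠ algebraMap k F1 a := by
      intro a ha
      apply hx
      have h1 := congrArg Subtype.val ha
      change x = (a : F) at h1
      rw [h1]
      exact a.2
    let s' : Finset k := s.attach.image fun c => ⟨c.1, hs c.1 c.2⟩
    have hs' : s'.card = 5 := by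
      rw [Finset.card_image_of_injective, Finset.card_attach, hs5]
      intro c c' hcc
      exact Subtype.ext (congrArg (fun t : k => (t : F)) hcc)
    refine rh_five hx1' (Fact.out : ℓ.Prime).two_le N s' hs' ?_
    intro c hc
    have hcs : (c : F) ∈ s := by
      obtain ⟨c', _, hcc⟩ := Finset.mem_image.1 hc
      rw [← hcc]
      exact c'.2
    have hxc : (⟨x, hx1⟩ : F1) - algebraMap k F1 c ≠ 0 := fun h0 => hx1' c (sub_eq_zero.1 h0)
    refine le_trans ?_ (hN c hcs)
    have hinj : Function.Injective fun P : Plk k F1 => (((plRes F1).symm P : Plc k) :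
        ValuationSubring F) := fun P P' hPP =>
      (plRes F1).symm.injective (Subtype.ext hPP)
    rw [← hinj.encard_image]
    refine Set.encard_le_encard ?_
    rintro _ ⟨P, ⟨hP1, hP2⟩, rfl⟩
    set O := (plRes F1).symm P with hO
    have hPO : plRes F1 O = P := (plRes F1).apply_symm_apply P
    refine ⟨O.2, ?_, ?_⟩
    · rw [← hPO] at hP1
      have h2 : ((⟨x, hx1⟩ : F1) - algebraMap k F1 c)⁻¹ ∉ (plRes F1 O).1 := by
        rw [(ord_spec _).mem]
        push Not
        refine ⟨inv_ne_zero hxc, ?_⟩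
        have h3 := (ord_spec (plRes F1 O)).mul _ _ hxc (inv_ne_zero hxc)
        have h4 := (ord_spec (plRes F1 O)).mul 1 1 one_ne_zero one_ne_zero
        rw [mul_inv_cancel₀ hxc] at h3
        rw [mul_one] at h4
        omega
      rw [mem_plRes, ← O.1.valuation_le_one_iff, not_le] at h2
      change 1 < O.1.valuation ((x - c)⁻¹) at h2
      rw [map_inv₀] at h2
      have h5 : O.1.valuation (x - c) ≠ 0 := by
        rw [Valuation.ne_zero_iff]
        intro h6
        exact hxc (Subtype.ext h6)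
      exact (one_lt_inv₀ (zero_lt_iff.2 h5)).1 h2
    · rw [← hPO] at hP2
      intro h3
      exact hP2 ((cl_mem_UC_iff F1 O hxc).1 h3)
  · intro x y hx htop m n a ha hne h0
    set F1 : IntermediateField k F := IntermediateField.adjoin k ({x, y} : Set F) with hF1
    haveI : IsPurelyInseparable F1 F := pure_pair htop
    have hxm : x ∈ F1 := IntermediateField.subset_adjoin k _ (by simp)
    have hym : y ∈ F1 := IntermediateField.subset_adjoin k _ (by simp)
    have hFG : F1.FG := ⟨{x, y}, by rw [Finset.coe_insert, Finset.coe_singleton]⟩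
    haveI : CFF k F1 := cff_of h F1 hFG hxm hx
    rw [gen_model_eq h F0 F1]
    let x1 : F1 := ⟨x, hxm⟩
    let y1 : F1 := ⟨y, hym⟩
    have hx1 : ∀ a : k, x1 ≠ algebraMap k F1 a := by
      intro a ha
      apply hx
      have h1 := congrArg Subtype.val ha
      change x = (a : F) at h1
      rw [h1]
      exact a.2
    have htop1 : IntermediateField.adjoin k {x1, y1} = ⊤ := by
      have h1 : (IntermediateField.adjoin k ({x1, y1} : Set F1)).map F1.val = F1 := by
        rw [IntermediateField.adjoin_map, Set.image_pair]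
        rfl
      rw [eq_top_iff]
      rintro w -
      have h2 : (w : F) ∈ (IntermediateField.adjoin k ({x1, y1} : Set F1)).map F1.val := by
        rw [h1]; exact w.2
      obtain ⟨v, hv, hvw⟩ := h2
      have h3 : v = w := Subtype.ext hvw
      rw [← h3]
      exact hv
    refine gen_le hx1 htop1 (a := fun i j => ⟨a i j, ha i j⟩) ?_ ?_
    · obtain ⟨i, hi, j, hj, hij⟩ := hne
      exact ⟨i, hi, j, hj, fun h2 => hij (congrArg Subtype.val h2)⟩
    · apply (algebraMap F1 F).injective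
      rw [map_zero, ← h0, map_sum]
      refine Finset.sum_congr rfl fun i _ => ?_
      rw [map_sum]
      refine Finset.sum_congr rfl fun j _ => ?_
      rw [map_mul, map_mul, map_pow, map_pow]
      rfl

/-- Riemann-Hurwitz (all algebraically closed constants). -/
theorem exists_curveRH' (h : Cv k) : ∃ g : ℕ, CurveRH ℓ k g := by
  obtain ⟨F0, hFG, hcff, hpi⟩ := exists_model h
  exact ⟨gen k F0, curveRH_of h F0⟩

end Vale.Agent.P019P
end
end

section

section

/-!
# Units of `l(u, ϖ)`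
-/

namespace Vale.Agent.P019P

open Polynomial

section mongB

variable {L : Type*} [Field L] {l : Subfield L} {q : ValuationSubring L} {u ϖ : L}

/-- the value of `ϖ` is independent of the values of `l`. -/
theorem mong_exp (pne : ϖ ≠ 0) (plt : q.valuation ϖ < 1)
    (inf : ∀ c ∈ l, c ≠ 0 → q.valuation c < 1 → ∀ b : ℤ, q.valuation c < q.valuation ϖ ^ b)
    {c : L} (hc : c ∈ l) (hc0 : c ≠ 0) {n : ℤ} (h : q.valuation c = q.valuation ϖ ^ n) :
    n = 0 := by
  have hv0 : q.valuation ϖ ≠ 0 := (_root_.map_ne_zero _).2 pne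
  have hpos : 0 < q.valuation ϖ := zero_lt_iff.2 hv0
  rcases lt_trichotomy (q.valuation c) 1 with h1 | h1 | h1
  · exact absurd (inf c hc hc0 h1 n) (by rw [h]; exact lt_irrefl _)
  · rw [h1] at h
    have h2 : q.valuation ϖ ^ n = q.valuation ϖ ^ (0 : ℤ) := by rw [← h, zpow_zero]
    exact zpow_right_injective₀ hpos plt.ne h2
  · have h2 : q.valuation c⁻¹ < 1 := by
      rw [map_inv₀]
      exact inv_lt_one_of_one_lt₀ h1
    have h3 := inf c⁻¹ (l.inv_mem hc) (inv_ne_zero hc0) h2 (-n)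
    rw [map_inv₀, h, zpow_neg] at h3
    exact absurd h3 (lt_irrefl _)

/-- evaluation of polynomials in two variables. -/
noncomputable def ev2 (l : Subfield L) (u ϖ : L) : l[X][X] →+* L :=
  eval₂RingHom ((aeval u : l[X] →ₐ[l] L) : l[X] →+* L) ϖ

theorem ev2_sum (A : l[X][X]) :
    ev2 l u ϖ A = ∑ i ∈ A.support, aeval u (A.coeff i) * ϖ ^ i := by
  change eval₂ _ _ A = _
  rw [eval₂_eq_sum, sum_def]
  rfl

theorem mong_dom [IsAlgClosed l] (uq : u ∈ q)
    (ures : ∀ c ∈ l, c ∈ q → q.valuation (u - c) = 1) (pne : ϖ ≠ 0) (plt : q.valuation ϖ < 1)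
    (inf : ∀ c ∈ l, c ≠ 0 → q.valuation c < 1 → ∀ b : ℤ, q.valuation c < q.valuation ϖ ^ b)
    {A : l[X][X]} (hA : A ≠ 0) : ∃ b ∈ A.support,
      q.valuation (ev2 l u ϖ A - aeval u (A.coeff b) * ϖ ^ b) <
        q.valuation (aeval u (A.coeff b) * ϖ ^ b) := by
  have hv0 : q.valuation ϖ ≠ 0 := (_root_.map_ne_zero _).2 pne
  obtain ⟨b, hb, hmax⟩ := Finset.exists_max_image A.support
    (fun i => q.valuation (aeval u (A.coeff i) * ϖ ^ i)) (nonempty_support_iff.2 hA)
  refine ⟨b, hb, ?_⟩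
  have h1 : ev2 l u ϖ A - aeval u (A.coeff b) * ϖ ^ b =
      ∑ i ∈ A.support.erase b, aeval u (A.coeff i) * ϖ ^ i := by
    rw [ev2_sum, Finset.sum_erase_eq_sub hb]
  obtain ⟨c, hc0, -, -, hc⟩ := mong_norm uq ures (mem_support_iff.1 hb)
  have hcL : (c : L) ≠ 0 := fun h => hc0 (Subtype.ext h)
  have hcv : q.valuation (c : L) ≠ 0 := (_root_.map_ne_zero _).2 hcL
  rw [h1]
  refine Valuation.map_sum_lt _ ?_ fun i hi => ?_
  · rw [map_mul, hc, map_pow]
    exact mul_ne_zero hcv (pow_ne_zero _ hv0)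
  · obtain ⟨hib, hi⟩ := Finset.mem_erase.1 hi
    refine lt_of_le_of_ne (hmax i hi) fun heq => hib ?_
    obtain ⟨d, hd0, -, -, hd⟩ := mong_norm uq ures (mem_support_iff.1 hi)
    have hdL : (d : L) ≠ 0 := fun h => hd0 (Subtype.ext h)
    have hdv : q.valuation (d : L) ≠ 0 := (_root_.map_ne_zero _).2 hdL
    rw [map_mul, map_mul, hc, hd, map_pow, map_pow] at heq
    have h2 : q.valuation ((d : L) / c) = q.valuation ϖ ^ ((b : ℤ) - i) := by
      rw [map_div₀, zpow_sub₀ hv0, zpow_natCast, zpow_natCast,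
        div_eq_div_iff hcv (pow_ne_zero _ hv0), heq, mul_comm]
    have h3 := mong_exp pne plt inf (l.div_mem d.2 c.2) (div_ne_zero hdL hcL) h2
    omega

theorem mong_repr {z : L} (hz : z ∈ l ⊔ Subfield.closure ({u, ϖ} : Set L)) :
    ∃ A B : l[X][X], ev2 l u ϖ B ≠ 0 ∧ z * ev2 l u ϖ B = ev2 l u ϖ A := by
  have h1 : l ⊔ Subfield.closure ({u, ϖ} : Set L) =
      Subfield.closure ((l : Set L) ∪ {u, ϖ}) := by
    rw [Subfield.closure_union, Subfield.closure_eq]
  rw [h1, Subfield.mem_closure_iff] at hz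
  have h2 : Subring.closure ((l : Set L) ∪ {u, ϖ}) ≤ (ev2 l u ϖ).range := by
    rw [Subring.closure_le]
    rintro x (hx | hx)
    · refine ⟨C (C ⟨x, hx⟩), ?_⟩
      change eval₂ _ _ _ = _
      rw [eval₂_C]
      simp
      rfl
    · rcases hx with rfl | hx
      · refine ⟨C X, ?_⟩
        change eval₂ _ _ _ = _
        rw [eval₂_C]
        simp
      · rw [Set.mem_singleton_iff] at hx
        rw [hx]
        refine ⟨X, ?_⟩
        change eval₂ _ _ _ = _
        rw [eval₂_X]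
  obtain ⟨y, hy, y', hy', hz⟩ := hz
  by_cases h0 : y' = 0
  · refine ⟨0, 1, ?_, ?_⟩
    · rw [map_one]
      exact one_ne_zero
    · rw [← hz, h0, div_zero, zero_mul, map_zero]
  · obtain ⟨A, hA⟩ := h2 hy
    obtain ⟨B, hB⟩ := h2 hy'
    refine ⟨A, B, by rw [hB]; exact h0, ?_⟩
    rw [hA, hB, ← hz, div_mul_cancel₀ _ h0]

/-- units of `l(u, ϖ)` are congruent to units of `l(u)`. -/
theorem mong_unit [IsAlgClosed l] (uq : u ∈ q)
    (ures : ∀ c ∈ l, c ∈ q → q.valuation (u - c) = 1) (pne : ϖ ≠ 0) (plt : q.valuation ϖ < 1)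
    (inf : ∀ c ∈ l, c ≠ 0 → q.valuation c < 1 → ∀ b : ℤ, q.valuation c < q.valuation ϖ ^ b)
    {z : L} (hz : z ∈ l ⊔ Subfield.closure ({u, ϖ} : Set L)) (hz1 : q.valuation z = 1) :
    ∃ G H : l[X], (∀ i, q.valuation (G.coeff i : L) ≤ 1) ∧
      (∀ i, q.valuation (H.coeff i : L) ≤ 1) ∧ q.valuation (aeval u G) = 1 ∧
      q.valuation (aeval u H) = 1 ∧ q.valuation (z * aeval u H - aeval u G) < 1 := by
  have hv0 : q.valuation ϖ ≠ 0 := (_root_.map_ne_zero _).2 pne
  have hz0 : z ≠ 0 := by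
    rintro rfl
    rw [map_zero] at hz1
    exact zero_ne_one hz1
  obtain ⟨A, B, hB, hAB⟩ := mong_repr hz
  have hB0 : B ≠ 0 := by
    rintro rfl
    exact hB (map_zero _)
  have hA0 : A ≠ 0 := by
    rintro rfl
    rw [map_zero] at hAB
    exact (mul_ne_zero hz0 hB) hAB
  obtain ⟨a, ha, hAa⟩ := mong_dom uq ures pne plt inf hA0
  obtain ⟨b, hb, hBb⟩ := mong_dom uq ures pne plt inf hB0
  obtain ⟨c, hc0, -, hcle, hc⟩ := mong_norm uq ures (mem_support_iff.1 ha)
  obtain ⟨d, hd0, -, hdle, hd⟩ := mong_norm uq ures (mem_support_iff.1 hb)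
  have hcL : (c : L) ≠ 0 := fun h => hc0 (Subtype.ext h)
  have hcv : q.valuation (c : L) ≠ 0 := (_root_.map_ne_zero _).2 hcL
  have hdL : (d : L) ≠ 0 := fun h => hd0 (Subtype.ext h)
  have hdv : q.valuation (d : L) ≠ 0 := (_root_.map_ne_zero _).2 hdL
  have e1 : q.valuation (ev2 l u ϖ A) = q.valuation (c : L) * q.valuation ϖ ^ a := by
    have h1 := Valuation.map_eq_of_sub_lt (v := q.valuation) hAa
    rw [h1, map_mul, hc, map_pow]
  have e2 : q.valuation (ev2 l u ϖ B) = q.valuation (d : L) * q.valuation ϖ ^ b := by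
    have h1 := Valuation.map_eq_of_sub_lt (v := q.valuation) hBb
    rw [h1, map_mul, hd, map_pow]
  have e3 : q.valuation (d : L) * q.valuation ϖ ^ b = q.valuation (c : L) * q.valuation ϖ ^ a := by
    rw [← e1, ← e2, ← hAB, map_mul, hz1, one_mul]
  have e4 : q.valuation ((d : L) / c) = q.valuation ϖ ^ ((a : ℤ) - b) := by
    rw [map_div₀, zpow_sub₀ hv0, zpow_natCast, zpow_natCast,
      div_eq_div_iff hcv (pow_ne_zero _ hv0), e3, mul_comm]
  have e5 := mong_exp pne plt inf (l.div_mem d.2 c.2) (div_ne_zero hdL hcL) e4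
  have e6 : a = b := by omega
  subst e6
  have e7 : q.valuation (d : L) = q.valuation (c : L) :=
    mul_right_cancel₀ (pow_ne_zero _ hv0) e3
  have hval : ∀ x : L, q.valuation ((algebraMap l L c⁻¹) * x) =
      (q.valuation (c : L))⁻¹ * q.valuation x := by
    intro x
    rw [map_mul, map_inv₀, map_inv₀]
    rfl
  refine ⟨C c⁻¹ * A.coeff a, C c⁻¹ * B.coeff a, ?_, ?_, ?_, ?_, ?_⟩
  · intro i
    rw [coeff_C_mul]
    push_cast
    rw [map_mul, map_inv₀, inv_mul_le_iff₀ (zero_lt_iff.2 hcv), mul_one]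
    exact hcle i
  · intro i
    rw [coeff_C_mul]
    push_cast
    rw [map_mul, map_inv₀, inv_mul_le_iff₀ (zero_lt_iff.2 hcv), mul_one, ← e7]
    exact hdle i
  · rw [map_mul, aeval_C, hval, hc, inv_mul_cancel₀ hcv]
  · rw [map_mul, aeval_C, hval, hd, e7, inv_mul_cancel₀ hcv]
  · have h1 : z * aeval u (C c⁻¹ * B.coeff a) - aeval u (C c⁻¹ * A.coeff a) =
        algebraMap l L c⁻¹ * (((ev2 l u ϖ A - aeval u (A.coeff a) * ϖ ^ a) -
          z * (ev2 l u ϖ B - aeval u (B.coeff a) * ϖ ^ a)) * (ϖ ^ a)⁻¹) := by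
      rw [map_mul, map_mul, aeval_C, ← hAB]
      have h2 : ϖ ^ a ≠ 0 := pow_ne_zero _ pne
      field_simp
      ring
    rw [h1, hval, map_mul, map_inv₀, map_pow, inv_mul_lt_iff₀ (zero_lt_iff.2 hcv), mul_one,
      mul_inv_lt_iff₀ (pow_pos (zero_lt_iff.2 hv0) _)]
    refine lt_of_le_of_lt (Valuation.map_sub _ _ _) (max_lt ?_ ?_)
    · rw [map_mul, hc, map_pow] at hAa
      exact hAa
    · rw [map_mul, hz1, one_mul]
      rw [map_mul _ (aeval u (B.coeff a)), hd, e7, map_pow] at hBb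
      exact hBb

end mongB

end Vale.Agent.P019P
end
end

section

section

/-!
# Transfer of the solvability of finite systems of polynomial equations
-/

universe u

namespace Vale.Agent.P019P

section

variable {A₀ : Type u} [CommRing A₀] {ι : Type} [Finite ι] [IsDomain A₀] {k : Type u} [Field k]
  [IsAlgClosed k] [Algebra A₀ k]
  {Q : ∀ (A : Type u) [CommRing A] [Algebra A₀ A], (ι → A) → Prop} [Algebra.FiniteType ℤ A₀]

/-- from closures of finite fields to `k`. -/
theorem IsSys.low (hQ : IsSys Q) (hinj : Function.Injective (algebraMap A₀ k)) {δ : A₀}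
    (hδ : δ ≠ 0) (h : ∀ (κ : Type u) [Field κ] [IsAlgClosed κ] [Algebra A₀ κ],
      (∀ a : κ, a ≠ 0 → ∃ n : ℕ, 0 < n ∧ a ^ n = 1) → algebraMap A₀ κ δ ≠ 0 → ∃ t, Q κ t) :
    ∃ t, Q k t := by
  by_contra hcon
  obtain ⟨δ', hδ', h'⟩ := hQ.gen hinj hcon
  obtain ⟨κ, _, _, _, h1, h2⟩ := exists_spec (A := A₀) (mul_ne_zero hδ hδ')
  rw [map_mul] at h2
  exact h' κ (right_ne_zero_of_mul h2) (h κ h1 (left_ne_zero_of_mul h2))

omit [IsDomain A₀] [IsAlgClosed k] in
/-- from `k` to the closure of a finite field. -/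
theorem IsSys.up (hQ : IsSys Q) (hinj : Function.Injective (algebraMap A₀ k)) {δ : A₀}
    (hδ : δ ≠ 0) (h : ∃ t, Q k t) : ∃ (κ : Type u) (_ : Field κ) (_ : Algebra A₀ κ),
      IsAlgClosed κ ∧ (∀ a : κ, a ≠ 0 → ∃ n : ℕ, 0 < n ∧ a ^ n = 1) ∧
        algebraMap A₀ κ δ ≠ 0 ∧ ∃ t, Q κ t := by
  obtain ⟨E, hE⟩ := hQ
  obtain ⟨t, ht⟩ := h
  let C : Subalgebra A₀ k := Algebra.adjoin A₀ (Set.range t)
  have : Algebra.FiniteType A₀ C :=
    (Subalgebra.fg_iff_finiteType _).mp ⟨(Set.finite_range t).toFinset, by simp [C]⟩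
  have : Algebra.FiniteType ℤ C := Algebra.FiniteType.trans (S := A₀) inferInstance inferInstance
  have hδ' : algebraMap A₀ C δ ≠ 0 := by
    intro h0
    apply hδ
    apply hinj
    rw [map_zero]
    have := congrArg (algebraMap C k) h0
    rwa [← IsScalarTower.algebraMap_apply, map_zero] at this
  obtain ⟨κ, _, _, h1, h2, h3⟩ := exists_spec (A := C) hδ'
  let _ : Algebra A₀ κ := ((algebraMap C κ).comp (algebraMap A₀ C)).toAlgebra
  have : IsScalarTower A₀ C κ := IsScalarTower.of_algebraMap_eq fun _ => rfl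
  refine ⟨κ, inferInstance, inferInstance, h1, h2, ?_, ?_⟩
  · rw [IsScalarTower.algebraMap_apply A₀ C κ]
    exact h3
  · let t' : ι → C := fun i => ⟨t i, Algebra.subset_adjoin ⟨i, rfl⟩⟩
    refine ⟨fun i => algebraMap C κ (t' i), (hE κ _).mpr fun e he => ?_⟩
    have h4 : MvPolynomial.aeval t' e = 0 := by
      have h6 : (algebraMap C k) (MvPolynomial.aeval t' e) = 0 := by
        rw [← MvPolynomial.aeval_algebraMap_apply]
        exact (hE k t).mp ht e he
      exact (FaithfulSMul.algebraMap_injective C k) (by rw [h6, map_zero])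
    have h5 := MvPolynomial.aeval_algebraMap_apply (A := C) (B := κ) t' e
    rw [h4, map_zero] at h5
    exact h5

end

end Vale.Agent.P019P
end
end

section

section

/-!
# From function fields to their perfect closures
-/

namespace Vale.Agent.P019P

open Vale.Agent.P019

open scoped TensorProduct

section perf

variable {K K' : Type*} [Field K] [Field K'] [Algebra K K'] [IsPurelyInseparable K K']

theorem exists_pow_mem (x : K') : ∃ (n : ℕ) (y : K),
    algebraMap K K' y = x ^ ringExpChar K ^ n := by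
  obtain ⟨n, y, hy⟩ := IsPurelyInseparable.pow_mem K (ringExpChar K) x
  exact ⟨n, y, hy⟩

variable (K K') in
theorem Vmap_bij (ℓ : ℕ) [Fact ℓ.Prime] [NeZero (ℓ : K)] :
    Function.Bijective (Vmap ℓ (algebraMap K K')) := by
  have hℓ : ℓ.Prime := Fact.out
  constructor
  · rw [← LinearMap.ker_eq_bot, LinearMap.ker_eq_bot']
    intro v hv
    obtain ⟨x, hx0, rfl⟩ := cl_surj ℓ v
    rw [Vmap_cl] at hv
    have hx0' : algebraMap K K' x ≠ 0 := (map_ne_zero _).2 hx0
    obtain ⟨w, hw0, hw⟩ := (cl_eq_zero_iff ℓ hx0').1 hv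
    obtain ⟨n, y, hy⟩ := exists_pow_mem (K := K) w
    have h1 : y ^ ℓ = x ^ ringExpChar K ^ n := by
      apply (algebraMap K K').injective
      rw [map_pow, map_pow, hy, ← pow_mul, mul_comm, pow_mul, hw]
    have h2 : ((ringExpChar K ^ n : ℕ) : ZMod ℓ) • cl ℓ x = 0 := by
      rw [Nat.cast_smul_eq_nsmul, ← cl_pow, ← h1, cl_pow_self]
    exact (smul_eq_zero.1 h2).resolve_left (q_pow_ne_zero ℓ K n)
  · intro v
    obtain ⟨x, hx0, rfl⟩ := cl_surj ℓ v
    obtain ⟨n, y, hy⟩ := exists_pow_mem (K := K) x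
    refine ⟨((ringExpChar K ^ n : ℕ) : ZMod ℓ)⁻¹ • cl ℓ y, ?_⟩
    rw [map_smul, Vmap_cl, hy, cl_pow, ← Nat.cast_smul_eq_nsmul (ZMod ℓ), smul_smul,
      inv_mul_cancel₀ (q_pow_ne_zero ℓ K n), one_smul]

/-- the identification `V_K = V_{K'}` for a purely inseparable extension. -/
noncomputable def perfV (ℓ : ℕ) [Fact ℓ.Prime] (K K' : Type*) [Field K] [Field K'] [Algebra K K']
    [IsPurelyInseparable K K'] [NeZero (ℓ : K)] : V ℓ K ≃ₗ[ZMod ℓ] V ℓ K' :=
  LinearEquiv.ofBijective (Vmap ℓ (algebraMap K K')) (Vmap_bij K K' ℓ)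

theorem perfV_apply {ℓ : ℕ} [Fact ℓ.Prime] [NeZero (ℓ : K)] (v : V ℓ K) :
    perfV ℓ K K' v = Vmap ℓ (algebraMap K K') v := rfl

theorem perfV_compatible {ℓ : ℕ} [Fact ℓ.Prime] [NeZero (ℓ : K)] :
    Compatible (perfV ℓ K K') := by
  have hcoe : (perfV ℓ K K').toLinearMap = Vmap ℓ (algebraMap K K') := rfl
  unfold Compatible
  rw [hcoe]
  apply le_antisymm
  · rw [Submodule.map_le_iff_le_comap]
    exact Vmap_R ℓ _
  · conv_lhs => unfold R
    rw [Submodule.span_le]
    rintro _ ⟨x, y, hxy, rfl⟩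
    obtain ⟨n, a, ha⟩ := exists_pow_mem (K := K) (x : K')
    obtain ⟨m, b, hb⟩ := exists_pow_mem (K := K) (y : K')
    have hq : ringExpChar K = ringExpChar K' := ringExpChar_eq_of_hom (algebraMap K K')
    have ha' : algebraMap K K' (a ^ ringExpChar K ^ m) = (x : K') ^ ringExpChar K ^ (n + m) := by
      rw [map_pow, ha, ← pow_mul, ← pow_add]
    have hb' : algebraMap K K' (b ^ ringExpChar K ^ n) = (y : K') ^ ringExpChar K ^ (n + m) := by
      rw [map_pow, hb, ← pow_mul, ← pow_add, add_comm m]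
    have hab : a ^ ringExpChar K ^ m + b ^ ringExpChar K ^ n = 1 := by
      apply (algebraMap K K').injective
      rw [map_add, ha', hb', map_one, hq, ← add_pow_q, hxy, one_pow]
    have ha0 : a ^ ringExpChar K ^ m ≠ 0 := by
      intro h
      rw [h, map_zero] at ha'
      exact pow_ne_zero _ x.ne_zero ha'.symm
    have hb0 : b ^ ringExpChar K ^ n ≠ 0 := by
      intro h
      rw [h, map_zero] at hb'
      exact pow_ne_zero _ y.ne_zero hb'.symm
    have hmem : V.mk ℓ (Units.mk0 _ ha0) ⊗ₜ[ZMod ℓ] V.mk ℓ (Units.mk0 _ hb0) ∈ R ℓ K :=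
      Submodule.subset_span ⟨_, _, hab, rfl⟩
    have h1 : ∀ (z : K) (u : K'ˣ), algebraMap K K' z = (u : K') ^ ringExpChar K ^ (n + m) →
        V.mk ℓ u = ((ringExpChar K ^ (n + m) : ℕ) : ZMod ℓ)⁻¹ •
          Vmap ℓ (algebraMap K K') (cl ℓ z) := by
      intro z u h
      rw [Vmap_cl, h, cl_pow, ← Nat.cast_smul_eq_nsmul (ZMod ℓ), smul_smul,
        inv_mul_cancel₀ (q_pow_ne_zero ℓ K _), one_smul, cl_unit]
    have h2 := h1 _ x ha'
    have h3 := h1 _ y hb'
    rw [cl_of_ne ℓ ha0] at h2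
    rw [cl_of_ne ℓ hb0] at h3
    rw [SetLike.mem_coe, h2, h3, TensorProduct.smul_tmul_smul]
    refine Submodule.smul_mem _ _ ⟨_, hmem, ?_⟩
    rw [TensorProduct.map_tmul]

theorem Compatible.trans {ℓ : ℕ} {K L M : Type*} [Field K] [Field L] [Field M]
    {Θ : V ℓ K ≃ₗ[ZMod ℓ] V ℓ L} {Φ : V ℓ L ≃ₗ[ZMod ℓ] V ℓ M} (h : Compatible Θ)
    (h' : Compatible Φ) : Compatible (Θ.trans Φ) := by
  unfold Compatible at *
  rw [← h', ← h, ← Submodule.map_comp, ← TensorProduct.map_comp]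
  rfl

end perf

section iface

variable {k K K' : Type*} [Field k] [Field K] [Field K'] [Algebra k K] [Algebra K K']

/-- the image of the constants in the perfect closure. -/
def cst' (k K K' : Type*) [Field k] [Field K] [Field K'] [Algebra k K] [Algebra K K'] :
    Subfield K' := (cst k K).map (algebraMap K K')

theorem mem_cst' {x : K'} : x ∈ cst' k K K' ↔
    ∃ c : k, algebraMap K K' (algebraMap k K c) = x := by
  constructor
  · rintro ⟨y, hy, rfl⟩
    obtain ⟨c, rfl⟩ := mem_cst.1 hy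
    exact ⟨c, rfl⟩
  · rintro ⟨c, rfl⟩
    exact ⟨_, algebraMap_mem_cst c, rfl⟩

theorem isAlgClosed_cst' [IsAlgClosed k] : IsAlgClosed (cst' k K K') := by
  letI : Algebra k K' := ((algebraMap K K').comp (algebraMap k K)).toAlgebra
  have h : cst' k K K' = cst k K' := by
    ext x
    rw [mem_cst', mem_cst]
    exact Iff.rfl
  rw [h]
  exact isAlgClosed_cst

theorem fg_cst' [Algebra.EssFiniteType k K] [IsPurelyInseparable K K'] :
    FG (cst' k K K') (⊤ : Subfield K') := by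
  classical
  obtain ⟨S, hS⟩ := fg_cst (k := k) (K := K)
  refine ⟨S.image (algebraMap K K'), ?_⟩
  symm
  rw [eq_top_iff]
  intro x _
  obtain ⟨n, y, hy⟩ := exists_pow_mem (K := K) x
  refine mem_pf.2 ⟨n, ?_⟩
  rw [← ringExpChar_eq_of_hom (algebraMap K K'), ← hy]
  have h1 : y ∈ cst k K ⊔ Subfield.closure (S : Set K) := by
    rw [← hS]; trivial
  have h2 : cst k K ⊔ Subfield.closure (S : Set K) ≤
      (cst' k K K' ⊔ Subfield.closure ((S.image (algebraMap K K') : Finset K') : Set K')).comap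
        (algebraMap K K') := by
    refine sup_le ?_ ?_
    · intro z hz
      exact (le_sup_left : cst' k K K' ≤ _) ⟨z, hz, rfl⟩
    · rw [Subfield.closure_le]
      intro z hz
      refine (le_sup_right : Subfield.closure _ ≤ _) (Subfield.subset_closure ?_)
      exact Finset.mem_coe.2 (Finset.mem_image_of_mem _ hz)
  exact h2 h1

theorem exists_two' (h : 2 ≤ Algebra.trdeg k K) :
    ∃ x y : K', x ∉ cst' k K K' ∧ ¬ IsAlgebraic (adj (cst' k K K') x) y := by
  obtain ⟨x, y, hx, hy⟩ := Vale.Agent.P019.exists_two_of_trdeg (k := k) (K := K) h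
  refine ⟨algebraMap K K' x, algebraMap K K' y, ?_, ?_⟩
  · rintro ⟨z, hz, hzx⟩
    exact hx ((algebraMap K K').injective hzx ▸ hz)
  · intro h'
    rw [isAlgebraic_adj] at h'
    apply hy
    apply Vale.Agent.P019.Gn.isAlgebraic_of_map (Ω := K')
    have h1 : Vale.Agent.P019.adj (cst' k K K') (algebraMap K K' x) ≤
        (Vale.Agent.P019.adj (cst k K) x).map (algebraMap K K') := by
      refine Vale.Agent.P019.adj_le ?_ ⟨x, Vale.Agent.P019.mem_adj _ _, rfl⟩
      rintro _ ⟨z, hz, rfl⟩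
      exact ⟨z, Vale.Agent.P019.le_adj _ _ hz, rfl⟩
    exact isAlgebraic_mono h1 h'

end iface

end Vale.Agent.P019P
end
end

section

section

/-!
# Isomorphisms of the classes of the perfect closures of the residue fields
-/

namespace Vale.Agent.P019P

open Vale.Agent.P019

set_option linter.style.haveILetI false
set_option linter.unusedSectionVars false
set_option linter.unusedVariables false

open Polynomial Filter

/-- `ΘP` is induced by `Θ` on the perfect closures of the residue fields. -/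
def ResMapP (ℓ : ℕ) {K L : Type*} [Field K] [Field L] (Θ : V ℓ K ≃ₗ[ZMod ℓ] V ℓ L)
    (W : ValuationSubring K) (O : ValuationSubring L)
    (ΘP : V ℓ (RFP W) ≃ₗ[ZMod ℓ] V ℓ (RFP O)) : Prop :=
  ∀ (z : K) (z' : L), W.valuation z = 1 → O.valuation z' = 1 → Θ (cl ℓ z) = cl ℓ z' →
    ΘP (cl ℓ (rsP W z)) = cl ℓ (rsP O z')

variable {K L : Type*} [Field K] [Field L] {ℓ : ℕ} [Fact ℓ.Prime]
  {Θ : V ℓ K ≃ₗ[ZMod ℓ] V ℓ L}

private theorem r1b_rs_natCast (W : ValuationSubring K) (n : ℕ) :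
    rs W (n : K) = (n : IsLocalRing.ResidueField W) := by
  have h : (n : K) ∈ W := natCast_mem W n
  rw [rs_of_mem h]
  have h1 : (⟨(n : K), h⟩ : W) = (n : W) := Subtype.ext (by simp)
  rw [h1, map_natCast]

private theorem r1b_neZero {W : ValuationSubring K} (h : W.valuation (ℓ : K) = 1) :
    NeZero (ℓ : IsLocalRing.ResidueField W) := by
  refine ⟨?_⟩
  rw [← r1b_rs_natCast W ℓ]
  exact (rs_ne_zero (mem_of_val h)).2 h

theorem rfp_neZero {W : ValuationSubring K} (h : W.valuation (ℓ : K) = 1) :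
    NeZero (ℓ : RFP W) := by
  refine ⟨?_⟩
  rw [← map_natCast (rf W)]
  exact (map_ne_zero_iff _ (rf_injective W)).2 (r1b_neZero h).1

private theorem r1b_pi (W : ValuationSubring K) :
    letI : Algebra (IsLocalRing.ResidueField W) (RFP W) := (rf W).toAlgebra
    IsPurelyInseparable (IsLocalRing.ResidueField W) (RFP W) := by
  letI : Algebra (IsLocalRing.ResidueField W) (RFP W) := (rf W).toAlgebra
  haveI : ExpChar (IsLocalRing.ResidueField W) (ringExpChar (IsLocalRing.ResidueField W)) :=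
    inferInstance
  rw [isPurelyInseparable_iff_pow_mem (IsLocalRing.ResidueField W)
    (ringExpChar (IsLocalRing.ResidueField W))]
  intro x
  obtain ⟨m, y, hy⟩ := rf_pow W x
  exact ⟨m, y, hy⟩

/-- the isomorphism between the classes of the residue field and of its perfect closure. -/
private theorem r1b_iso {W : ValuationSubring K} (h : W.valuation (ℓ : K) = 1) :
    ∃ e : V ℓ (IsLocalRing.ResidueField W) ≃ₗ[ZMod ℓ] V ℓ (RFP W), Compatible e ∧
      ∀ y, e (cl ℓ y) = cl ℓ (rf W y) := by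
  letI : Algebra (IsLocalRing.ResidueField W) (RFP W) := (rf W).toAlgebra
  haveI := r1b_pi W
  haveI := r1b_neZero h
  refine ⟨perfV ℓ (IsLocalRing.ResidueField W) (RFP W), perfV_compatible, fun y => ?_⟩
  rw [perfV_apply, Vmap_cl]
  rfl

/-- classes of the perfect closure come from units. -/
theorem rfp_cl {W : ValuationSubring K} (h : W.valuation (ℓ : K) = 1) (v : V ℓ (RFP W)) :
    ∃ z : K, W.valuation z = 1 ∧ cl ℓ (rsP W z) = v := by
  obtain ⟨e, -, he⟩ := r1b_iso h
  obtain ⟨y, hy0, hy⟩ := cl_surj ℓ (e.symm v)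
  obtain ⟨z, hz, rfl⟩ := rs_surj y
  refine ⟨z, (rs_ne_zero hz).1 hy0, ?_⟩
  rw [rsP, ← he, hy, LinearEquiv.apply_symm_apply]

/-- the classes of `K` which die in the residue field. -/
theorem rfp_cl_zero {W : ValuationSubring K} (h : W.valuation (ℓ : K) = 1) {z : K}
    (hz : W.valuation z = 1) : cl ℓ (rsP W z) = 0 ↔ cl ℓ z ∈ U1 ℓ W := by
  obtain ⟨e, -, he⟩ := r1b_iso h
  obtain ⟨r, hr1, -, hr3⟩ := exists_rc (Fact.out : ℓ.Prime).ne_zero W
  have h1 := hr1 z hz ⟨cl ℓ z, mem_UC.2 ⟨z, hz, rfl⟩⟩ rfl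
  have h2 := hr3 ⟨cl ℓ z, mem_UC.2 ⟨z, hz, rfl⟩⟩
  rw [h1] at h2
  rw [rsP, ← he, LinearEquiv.map_eq_zero_iff]
  exact h2

theorem noCtr_rfp {W : ValuationSubring K} (h : W.valuation (ℓ : K) = 1)
    (hN : NoCtr ℓ (RFP W)) : NoCtr ℓ (IsLocalRing.ResidueField W) := by
  obtain ⟨e, -, he⟩ := r1b_iso h
  haveI := r1b_neZero h
  intro g hg
  have h0 : g ∘ₗ (e.symm : V ℓ (RFP W) →ₗ[ZMod ℓ] V ℓ (IsLocalRing.ResidueField W)) = 0 := by
    apply hN
    intro x hx0 hx1 hgx
    rw [LinearMap.comp_apply, LinearEquiv.coe_coe] at hgx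
    obtain ⟨m, y, hy⟩ := rf_pow W x
    set q := ringExpChar (IsLocalRing.ResidueField W) with hq
    haveI : ExpChar (RFP W) q := expChar_of_injective_ringHom (rf_injective W) q
    have hqm : ((q ^ m : ℕ) : ZMod ℓ) ≠ 0 := q_pow_ne_zero ℓ (IsLocalRing.ResidueField W) m
    have hsub : rf W (1 - y) = (1 - x) ^ q ^ m := by
      rw [map_sub, map_one, hy, sub_pow_expChar_pow, one_pow]
    have hy0 : y ≠ 0 := by
      rintro rfl
      rw [map_zero] at hy
      exact pow_ne_zero _ hx0 hy.symm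
    have hy1 : y ≠ 1 := by
      rintro rfl
      rw [sub_self, map_zero] at hsub
      exact pow_ne_zero _ (sub_ne_zero.2 (Ne.symm hx1)) hsub.symm
    have hcy : cl ℓ (rf W y) = ((q ^ m : ℕ) : ZMod ℓ) • cl ℓ x := by
      rw [hy, cl_pow, Nat.cast_smul_eq_nsmul]
    have hcy' : cl ℓ (rf W (1 - y)) = ((q ^ m : ℕ) : ZMod ℓ) • cl ℓ (1 - x) := by
      rw [hsub, cl_pow, Nat.cast_smul_eq_nsmul]
    have hgy : g (cl ℓ y) ≠ 0 := by
      have h1 : cl ℓ y = ((q ^ m : ℕ) : ZMod ℓ) • e.symm (cl ℓ x) := by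
        rw [← map_smul, ← hcy, ← he, LinearEquiv.symm_apply_apply]
      rw [h1, map_smul, smul_eq_mul]
      exact mul_ne_zero hqm hgx
    obtain ⟨a, ha⟩ := hg y hy0 hy1 hgy
    refine ⟨a, ?_⟩
    have h2 := congrArg e ha
    rw [map_smul, he, he, hcy, hcy', smul_comm a] at h2
    exact smul_right_injective _ hqm h2
  ext v
  have := LinearMap.congr_fun h0 (e v)
  simpa using this

/-- the isomorphism of the residue fields, perfect closures. -/
theorem TrA.resP (hΘ : Compatible Θ) (hnegK : ∃ i : K, i ^ ℓ = -1)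
    (hnegL : ∃ i : L, i ^ ℓ = -1) {W : ValuationSubring K} {f : V ℓ K →ₗ[ZMod ℓ] ZMod ℓ}
    (hW : Adp W f) {O : ValuationSubring L} (hT : TrA Θ W f O)
    (hℓW : W.valuation (ℓ : K) = 1) (hℓO : O.valuation (ℓ : L) = 1)
    (hNC : NoCtr ℓ (RFP W)) :
    ∃ ΘP : V ℓ (RFP W) ≃ₗ[ZMod ℓ] V ℓ (RFP O), Compatible ΘP ∧ ResMapP ℓ Θ W O ΘP := by
  obtain ⟨Θ', h1, h2⟩ := hT.res hΘ hnegK hnegL hW (noCtr_rfp hℓW hNC)
  obtain ⟨e, he, he'⟩ := r1b_iso hℓW
  obtain ⟨e₂, he₂, he₂'⟩ := r1b_iso hℓO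
  refine ⟨e.symm.trans (Θ'.trans e₂),
    Compatible.trans (Compatible.symm he) (Compatible.trans h1 he₂), ?_⟩
  intro z z' hz hz' hzz
  rw [LinearEquiv.trans_apply, LinearEquiv.trans_apply, rsP, rsP, ← he', ← he₂',
    LinearEquiv.symm_apply_apply, h2 z z' hz hz' hzz]

end Vale.Agent.P019P
end
end

section

section

/-!
# The theorem on curves

`Cv.finite` is in `CSep.lean`, `Cv.fib_card` in `CFib.lean`, the proofs are in `GCurve.lean`.
-/

namespace Vale.Agent.P019P

open Vale.Agent.P019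

set_option linter.style.haveILetI false
set_option linter.unusedSectionVars false

open Polynomial Filter

variable {F : Type*} [Field F] [PerfectField F] {ℓ : ℕ} [Fact ℓ.Prime] [NeZero (ℓ : F)]
  {k : Subfield F}

/-- Riemann-Hurwitz (all algebraically closed constants). -/
theorem exists_curveRH (h : Cv k) : ∃ g : ℕ, CurveRH ℓ k g := exists_curveRH' h

end Vale.Agent.P019P
end
end

section

section

/-!
# Transcendence degrees of residue fields
-/

namespace Vale.Agent.P019P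

open Vale.Agent.P019

set_option linter.style.haveILetI false
set_option linter.unusedSectionVars false
set_option linter.unusedVariables false

open Polynomial Filter

universe u v

theorem e1_root {K : Type*} [Field K] {k : Subfield K} (hk : IsAlgClosed k) {ℓ : ℕ} (hℓ : 0 < ℓ)
    {c : K} (hc : c ∈ k) : ∃ d : K, d ^ ℓ = c := by
  haveI := hk
  obtain ⟨d, hd⟩ := IsAlgClosed.exists_pow_nat_eq (⟨c, hc⟩ : k) hℓ
  exact ⟨d, by
    have h := congrArg Subtype.val hd
    exact h⟩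

theorem e1_neg_one {K : Type*} [Field K] {k : Subfield K} (hk : IsAlgClosed k) {ℓ : ℕ}
    (hℓ : 0 < ℓ) : ∃ i : K, i ^ ℓ = -1 := e1_root hk hℓ (k.neg_mem k.one_mem)

theorem e1_notMem {K : Type*} [Field K] {k : Subfield K} {B : Finset K} (hB : Indp k B) {v : K}
    (hv : v ∈ B) : v ∉ k := fun h =>
  hB ∅ (Finset.empty_subset B) v hv (Finset.notMem_empty v)
    (isAlgebraic_of_mem (le_gsp k ∅ h))

theorem e1_indp_single {K : Type*} [Field K] {k : Subfield K} (hk : IsAlgClosed k) {y : K}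
    (hy : y ∉ k) : Indp k {y} := by
  intro S hS v hv hvS
  rw [Finset.mem_singleton] at hv
  subst hv
  have h1 : S = ∅ := by
    rcases Finset.subset_singleton_iff.1 hS with h | h
    · exact h
    · rw [h] at hvS
      exact absurd (Finset.mem_singleton_self _) hvS
  rw [h1, gsp_empty]
  exact fun h => hy (RAC_of_isAlgClosed k hk v h)

/-- there is an element which is not a constant. -/
theorem e1_exists {K : Type*} {M : Type*} [Field K] [Field M] [PerfectField K] {ℓ : ℕ}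
    [Fact ℓ.Prime] [NeZero (ℓ : K)] {k : Subfield K} (hk : IsAlgClosed k)
    (hfg : FG k (⊤ : Subfield K)) {l : Subfield M} (hl : IsAlgClosed l)
    (Θ : V ℓ K ≃ₗ[ZMod ℓ] V ℓ M) {t : K} (ht : t ∉ k) : ∃ y : M, y ∉ l := by
  by_contra hcon
  push Not at hcon
  have h1 := VS_infinite (ℓ := ℓ) (E := ⊤) hk hfg le_top fun h => ht (h (Subfield.mem_top t))
  have h2 : ∀ v : V ℓ K, v = 0 := by
    intro v
    obtain ⟨z, hz0, hz⟩ := cl_surj ℓ (Θ v)
    obtain ⟨d, hd⟩ := e1_root hl (Fact.out : ℓ.Prime).pos (hcon z)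
    have hd0 : d ≠ 0 := by
      rintro rfl
      rw [zero_pow (Fact.out : ℓ.Prime).ne_zero] at hd
      exact hz0 hd.symm
    rw [(cl_eq_zero_iff ℓ hz0).2 ⟨d, hd0, hd⟩] at hz
    exact Θ.injective (by rw [← hz, map_zero])
  refine h1 (Set.Finite.subset (Set.finite_singleton (0 : V ℓ K)) fun v _ => h2 v)

/-- the residue field of a nice valuation has no centre. -/
theorem e1_noCtr {K : Type*} [Field K] [PerfectField K] {ℓ : ℕ} [Fact ℓ.Prime] [NeZero (ℓ : K)]
    {k : Subfield K} (hk : IsAlgClosed k) {B : Finset K} (hB : Indp k B) (hBne : B.Nonempty)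
    {W : ValuationSubring K} {π θ : K} (hW : Nice W (gsp k B) π θ) (hWk : TrivOn W k) :
    NoCtr ℓ (IsLocalRing.ResidueField W) := by
  haveI := hk
  haveI := rs_perfect hWk
  haveI := rs_neZero (ℓ := ℓ) hWk
  obtain ⟨y, hy⟩ := hBne
  refine noCtr (bar_isAlgClosed hWk hk) (Nice.td hB hW hWk).2 (x := rs W y) fun h => ?_
  obtain ⟨e, he, hey⟩ := (mem_bar hWk).1 h
  have h1 : e = y := rs_injOn hW.triv (le_gsp k B he) (mem_gsp hy) hey
  exact e1_notMem hB hy (h1 ▸ he)

end Vale.Agent.P019P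
end
end

section

section

/-!
# Polynomials over the residue field
-/

namespace Vale.Agent.P019P

open Polynomial

section mongC

variable {L : Type*} [Field L] {l : Subfield L} {q : ValuationSubring L} {u ϖ : L}

theorem mong_mult {κ : Type*} [Field κ] {ℓ N : ℕ} (hℓ : ℓ.Prime) (hN : ¬ ℓ ∣ N)
    {a a' b b' : κ} (h1 : a ≠ a') (h2 : a ≠ b) (h3 : a ≠ b') {i j i' j' : ℕ} (hi : i < ℓ)
    {G H : κ[X]} (hG : G ≠ 0) (hH : H ≠ 0)
    (h : ((X - C a) ^ i * (X - C a') ^ j) ^ N * H ^ ℓ =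
      ((X - C b) ^ i' * (X - C b') ^ j') ^ N * G ^ ℓ) : i = 0 := by
  classical
  have hne : ∀ c : κ, ∀ n : ℕ, (X - C c) ^ n ≠ 0 := fun c n => pow_ne_zero _ (X_sub_C_ne_zero c)
  have key : ∀ (c d : κ) (m n : ℕ) (F : κ[X]), F ≠ 0 →
      (((X - C c) ^ m * (X - C d) ^ n) ^ N * F ^ ℓ).roots.count a =
        N * (m * ({c} : Multiset κ).count a + n * ({d} : Multiset κ).count a) +
          ℓ * F.roots.count a := by
    intro c d m n F hF
    rw [roots_mul (mul_ne_zero (pow_ne_zero _ (mul_ne_zero (hne _ _) (hne _ _)))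
      (pow_ne_zero _ hF)), roots_pow, roots_pow, roots_mul (mul_ne_zero (hne _ _) (hne _ _)),
      roots_pow, roots_pow, roots_X_sub_C, roots_X_sub_C]
    simp only [Multiset.count_add, Multiset.count_nsmul]
  have h4 := congrArg (fun P : κ[X] => P.roots.count a) h
  beta_reduce at h4
  rw [key _ _ _ _ _ hH, key _ _ _ _ _ hG, Multiset.count_singleton_self,
    Multiset.count_singleton, Multiset.count_singleton, Multiset.count_singleton,
    if_neg h1, if_neg h2, if_neg h3] at h4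
  have h5 : ℓ ∣ N * i := by
    have h6 : N * i + ℓ * H.roots.count a = ℓ * G.roots.count a := by
      simpa using h4
    rw [Nat.dvd_add_iff_left (Dvd.intro _ rfl), h6]
    exact Dvd.intro _ rfl
  rcases hℓ.dvd_mul.1 h5 with h6 | h6
  · exact absurd h6 hN
  · exact Nat.eq_zero_of_dvd_of_lt h6 hi

theorem mong_pow {x y : L} (hx : q.valuation x ≤ 1) (hy : q.valuation y ≤ 1)
    (h : q.valuation (x - y) < 1) (n : ℕ) : q.valuation (x ^ n - y ^ n) < 1 := by
  induction n with
  | zero => simp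
  | succ n ih =>
    have h1 : x ^ (n + 1) - y ^ (n + 1) = x * (x ^ n - y ^ n) + y ^ n * (x - y) := by ring
    rw [h1]
    refine lt_of_le_of_lt (Valuation.map_add _ _ _) (max_lt ?_ ?_)
    · rw [map_mul]
      exact mul_lt_one_of_nonneg_of_lt_one_right hx zero_le ih
    · rw [map_mul, map_pow]
      exact mul_lt_one_of_nonneg_of_lt_one_right (pow_le_one₀ zero_le hy) zero_le h

/-- the valuation ring of `l`. -/
abbrev qres (l : Subfield L) (q : ValuationSubring L) : ValuationSubring l :=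
  q.comap (algebraMap l L)

theorem mong_lt {g : l[X]} (uq : u ∈ q) (hg : ∀ i, q.valuation (g.coeff i : L) < 1) :
    q.valuation (aeval u g) < 1 := by
  have hu1 : q.valuation u ≤ 1 := (q.valuation_le_one_iff u).2 uq
  rw [aeval_eq_sum_range]
  refine Valuation.map_sum_lt _ one_ne_zero fun i _ => ?_
  rw [Algebra.smul_def, map_mul, map_pow]
  exact mul_lt_one_of_lt_of_le (hg i) (pow_le_one₀ zero_le hu1)

theorem qres_mem_max (x : qres l q) :
    x ∈ IsLocalRing.maximalIdeal (qres l q) ↔ q.valuation ((x : l) : L) < 1 := by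
  rw [IsLocalRing.mem_maximalIdeal, mem_nonunits_iff]
  by_cases h0 : (x : l) = 0
  · have h1 : x = 0 := Subtype.ext h0
    rw [h1]
    simp
  · have h0' : ((x : l) : L) ≠ 0 := fun h => h0 (Subtype.ext h)
    have hxq : q.valuation ((x : l) : L) ≤ 1 := (q.valuation_le_one_iff _).2 x.2
    constructor
    · intro h
      refine lt_of_le_of_ne hxq fun h1 => h ?_
      have h2 : (x : l)⁻¹ ∈ qres l q := by
        change algebraMap l L (x : l)⁻¹ ∈ q
        rw [map_inv₀]
        change ((x : l) : L)⁻¹ ∈ q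
        rw [← q.valuation_le_one_iff, map_inv₀, h1, inv_one]
      refine ⟨⟨x, ⟨_, h2⟩, ?_, ?_⟩, rfl⟩
      · apply Subtype.ext
        exact mul_inv_cancel₀ h0
      · apply Subtype.ext
        exact inv_mul_cancel₀ h0
    · rintro h ⟨y, hy⟩
      have h1 : (x : l) * ((y⁻¹ : (qres l q)ˣ) : qres l q) = (1 : l) := by
        have h2 : x * ((y⁻¹ : (qres l q)ˣ) : qres l q) = 1 := by
          rw [← hy]
          exact y.mul_inv
        exact congrArg Subtype.val h2
      have h3 : ((x : l) : L) * ((((y⁻¹ : (qres l q)ˣ) : qres l q) : l) : L) = 1 :=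
        congrArg Subtype.val h1
      have h4 : q.valuation (((((y⁻¹ : (qres l q)ˣ) : qres l q) : l) : L)) ≤ 1 :=
        (q.valuation_le_one_iff _).2 ((y⁻¹ : (qres l q)ˣ) : qres l q).2
      have h5 := congrArg q.valuation h3
      rw [map_mul, map_one] at h5
      exact absurd h5 (mul_lt_one_of_lt_of_le h h4).ne

theorem mong_rho [IsAlgClosed l] (uq : u ∈ q)
    (ures : ∀ c ∈ l, c ∈ q → q.valuation (u - c) = 1) {D : (qres l q)[X]}
    (h : q.valuation (aeval u (D.map (qres l q).subtype)) < 1) :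
    D.map (IsLocalRing.residue (qres l q)) = 0 := by
  have h1 : ∀ i, q.valuation ((D.map (qres l q).subtype).coeff i : L) ≤ 1 := by
    intro i
    rw [coeff_map]
    exact (q.valuation_le_one_iff _).2 (D.coeff i).2
  ext i
  rw [coeff_map, coeff_zero, IsLocalRing.residue_eq_zero_iff, qres_mem_max]
  have h2 := mong_gauss uq ures h1 h i
  rw [coeff_map] at h2
  exact h2

theorem mong_rho_ne (uq : u ∈ q) {D : (qres l q)[X]}
    (h : q.valuation (aeval u (D.map (qres l q).subtype)) = 1) :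
    D.map (IsLocalRing.residue (qres l q)) ≠ 0 := by
  intro h0
  refine absurd h (mong_lt uq fun i => ?_).ne
  rw [coeff_map]
  have h1 : (D.map (IsLocalRing.residue (qres l q))).coeff i = 0 := by rw [h0, coeff_zero]
  rw [coeff_map, IsLocalRing.residue_eq_zero_iff, qres_mem_max] at h1
  exact h1

theorem mong_lift {G : l[X]} (hG : ∀ i, q.valuation (G.coeff i : L) ≤ 1) :
    ∃ G' : (qres l q)[X], G'.map (qres l q).subtype = G := by
  have h1 : G ∈ lifts (qres l q).subtype := by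
    rw [lifts_iff_coeff_lifts]
    intro i
    exact ⟨⟨G.coeff i, (q.valuation_le_one_iff _).1 (hG i)⟩, rfl⟩
  exact (mem_lifts _).1 h1

/-- the multiplicity argument. -/
theorem mong_final [IsAlgClosed l] (uq : u ∈ q)
    (ures : ∀ c ∈ l, c ∈ q → q.valuation (u - c) = 1) (pne : ϖ ≠ 0) (plt : q.valuation ϖ < 1)
    (inf : ∀ c ∈ l, c ≠ 0 → q.valuation c < 1 → ∀ b : ℤ, q.valuation c < q.valuation ϖ ^ b)
    {ℓ N : ℕ} (hℓ : ℓ.Prime) (hN : ¬ ℓ ∣ N) {a a' b b' : L} (ha : a ∈ l ∧ a ∈ q)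
    (ha' : a' ∈ l ∧ a' ∈ q) (hb : b ∈ l ∧ b ∈ q) (hb' : b' ∈ l ∧ b' ∈ q)
    (h1 : q.valuation (a - a') = 1) (h2 : q.valuation (a - b) = 1)
    (h3 : q.valuation (a - b') = 1) {i j i' j' : ℕ} (hi : i < ℓ) {z : L}
    (hz : z ∈ l ⊔ Subfield.closure ({u, ϖ} : Set L)) (hz1 : q.valuation z = 1)
    (h : q.valuation (((u - a) ^ i * (u - a') ^ j) ^ N -
      ((u - b) ^ i' * (u - b') ^ j') ^ N * z ^ ℓ) < 1) : i = 0 := by
  obtain ⟨G, H, hG, hH, hGu, hHu, hzz⟩ := mong_unit uq ures pne plt inf hz hz1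
  obtain ⟨G', rfl⟩ := mong_lift hG
  obtain ⟨H', rfl⟩ := mong_lift hH
  let A : qres l q := ⟨⟨a, ha.1⟩, ha.2⟩
  let A' : qres l q := ⟨⟨a', ha'.1⟩, ha'.2⟩
  let B : qres l q := ⟨⟨b, hb.1⟩, hb.2⟩
  let B' : qres l q := ⟨⟨b', hb'.1⟩, hb'.2⟩
  let D : (qres l q)[X] := ((X - C A) ^ i * (X - C A') ^ j) ^ N * H' ^ ℓ -
    ((X - C B) ^ i' * (X - C B') ^ j') ^ N * G' ^ ℓ
  have hD : aeval u (D.map (qres l q).subtype) =
      ((u - a) ^ i * (u - a') ^ j) ^ N * aeval u (H'.map (qres l q).subtype) ^ ℓ -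
        ((u - b) ^ i' * (u - b') ^ j') ^ N * aeval u (G'.map (qres l q).subtype) ^ ℓ := by
    simp only [D, Polynomial.map_sub, Polynomial.map_mul, Polynomial.map_pow, map_X, map_C,
      map_sub, map_mul, map_pow, aeval_X, aeval_C]
    rfl
  have hval : ∀ c : L, c ∈ q → q.valuation (u - c) ≤ 1 := by
    intro c hc
    exact (Valuation.map_sub _ _ _).trans (max_le ((q.valuation_le_one_iff u).2 uq)
      ((q.valuation_le_one_iff c).2 hc))
  have hfb : q.valuation (((u - b) ^ i' * (u - b') ^ j') ^ N) ≤ 1 := by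
    rw [map_pow, map_mul, map_pow, map_pow]
    exact pow_le_one₀ zero_le (mul_le_one₀ (pow_le_one₀ zero_le (hval b hb.2)) zero_le
      (pow_le_one₀ zero_le (hval b' hb'.2)))
  have hDlt : q.valuation (aeval u (D.map (qres l q).subtype)) < 1 := by
    have e1 : aeval u (D.map (qres l q).subtype) =
        (((u - a) ^ i * (u - a') ^ j) ^ N - ((u - b) ^ i' * (u - b') ^ j') ^ N * z ^ ℓ) *
          aeval u (H'.map (qres l q).subtype) ^ ℓ +
        ((u - b) ^ i' * (u - b') ^ j') ^ N *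
          ((z * aeval u (H'.map (qres l q).subtype)) ^ ℓ -
            aeval u (G'.map (qres l q).subtype) ^ ℓ) := by
      rw [hD]
      ring
    rw [e1]
    refine lt_of_le_of_lt (Valuation.map_add _ _ _) (max_lt ?_ ?_)
    · rw [map_mul, map_pow, hHu, one_pow, mul_one]
      exact h
    · rw [map_mul]
      refine mul_lt_one_of_nonneg_of_lt_one_right hfb zero_le (mong_pow ?_ hGu.le hzz ℓ)
      rw [map_mul, hz1, hHu, one_mul]
  have hD0 := mong_rho uq ures hDlt
  have hne : ∀ x y : qres l q, q.valuation (((x : l) : L) - ((y : l) : L)) = 1 →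
      IsLocalRing.residue (qres l q) x ≠ IsLocalRing.residue (qres l q) y := by
    intro x y hxy heq
    rw [← sub_eq_zero, ← map_sub, IsLocalRing.residue_eq_zero_iff, qres_mem_max] at heq
    exact absurd hxy heq.ne
  simp only [D, Polynomial.map_sub, Polynomial.map_mul, Polynomial.map_pow, map_X, map_C] at hD0
  exact mong_mult hℓ hN (hne A A' h1) (hne A B h2) (hne A B' h3) hi
    (mong_rho_ne uq hGu) (mong_rho_ne uq hHu) (sub_eq_zero.1 hD0)

end mongC

end Vale.Agent.P019P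
end
end
namespace AFast6df17cx3989b
@[reducible] def a0.{u1} {x1 : Type u1} [x2 : Field x1] {x3 : Subfield x1} {x4 : ValuationSubring x1} : Semiring ↥(Vale.Agent.P019P.qres x3 x4) := inferInstance
@[reducible] def a1.{u1} {x1 : Type u1} [x2 : Field x1] {x3 : Subfield x1} {x4 : ValuationSubring x1} : AddCommMonoid ↥(Vale.Agent.P019P.qres x3 x4) := inferInstance
@[reducible] def a2.{u1} {x1 : Type u1} [x2 : Field x1] {x3 : Subfield x1} {x4 : ValuationSubring x1} : NonAssocSemiring ↥(Vale.Agent.P019P.qres x3 x4) := inferInstance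
@[reducible] def a3.{u1} {x1 : Type u1} [x2 : Field x1] {x3 : Subfield x1} {x4 : ValuationSubring x1} : CommSemiring ↥(Vale.Agent.P019P.qres x3 x4) := inferInstance
end AFast6df17cx3989b
attribute [local instance] AFast6df17cx3989b.a0 AFast6df17cx3989b.a1 AFast6df17cx3989b.a2
  AFast6df17cx3989b.a3

section

section

/-!
# Independent classes `x, 1 - x`
-/

namespace Vale.Agent.P019P

open Vale.Agent.P019

set_option linter.style.haveILetI false
set_option linter.unusedSectionVars false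
set_option linter.unusedVariables false

open Polynomial Filter

/-- a nonconstant of a function field has two independent classes of translates. -/
theorem r7a_indep {F : Type*} [Field F] [PerfectField F] {ℓ : ℕ} [Fact ℓ.Prime]
    [NeZero (ℓ : F)] {k : Subfield F} (hk : IsAlgClosed k) (hfg : FG k (⊤ : Subfield F)) {x : F}
    (hx : x ∉ k) : ∃ b₁ ∈ k, ∃ b₂ ∈ k, b₁ ≠ b₂ ∧
      ∀ i j : ZMod ℓ, i • cl ℓ (x - b₁) + j • cl ℓ (x - b₂) = 0 → i = 0 ∧ j = 0 := by
  have hinf : {c : F | c ∈ k}.Infinite := infinite_of_isAlgClosed hk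
  -- the first constant
  obtain ⟨b₁, hb₁, hne⟩ : ∃ b₁ ∈ k, cl ℓ (x - b₁) ≠ 0 := by
    by_contra hcon
    push Not at hcon
    exact hinf ((dist_top (ℓ := ℓ) hk hfg hx 0).subset fun c hc => ⟨hc, hcon c hc⟩)
  -- the second constant
  obtain ⟨b₂, hb₂, hn2⟩ : ∃ b₂ ∈ k, cl ℓ (x - b₂) ∉
      Set.range fun a : ZMod ℓ => a • cl ℓ (x - b₁) := by
    by_contra hcon
    push Not at hcon
    refine hinf ((Set.finite_iUnion fun a : ZMod ℓ =>
      dist_top (ℓ := ℓ) hk hfg hx (a • cl ℓ (x - b₁))).subset fun c hc => ?_)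
    obtain ⟨a, ha⟩ := hcon c hc
    exact Set.mem_iUnion.2 ⟨a, hc, ha.symm⟩
  have hb : b₁ ≠ b₂ := by
    rintro rfl
    exact hn2 ⟨1, one_smul _ _⟩
  refine ⟨b₁, hb₁, b₂, hb₂, hb, fun i j h => ?_⟩
  have hj : j = 0 := by
    by_contra hj
    refine hn2 ⟨-(j⁻¹ * i), ?_⟩
    have h1 : j⁻¹ • (i • cl ℓ (x - b₁) + j • cl ℓ (x - b₂)) = 0 := by rw [h, smul_zero]
    rw [smul_add, smul_smul, smul_smul, inv_mul_cancel₀ hj, one_smul] at h1
    change (-(j⁻¹ * i)) • cl ℓ (x - b₁) = cl ℓ (x - b₂)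
    rw [neg_smul]
    exact neg_eq_of_add_eq_zero_right h1
  refine ⟨?_, hj⟩
  rw [hj, zero_smul, add_zero] at h
  by_contra hi
  apply hne
  have h1 : i⁻¹ • (i • cl ℓ (x - b₁)) = 0 := by rw [h, smul_zero]
  rwa [smul_smul, inv_mul_cancel₀ hi, one_smul] at h1

/-- two independent classes `x, 1 - x` of a function field of one variable. -/
theorem exists_nr1 {F : Type*} [Field F] [PerfectField F] {ℓ : ℕ} [Fact ℓ.Prime]
    [NeZero (ℓ : F)] {k : Subfield F} (h : Cv k) :
    ∃ x : F, ∀ i j : ZMod ℓ, i • cl ℓ x + j • cl ℓ (1 - x) = 0 → i = 0 ∧ j = 0 := by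
  have hk := h.ac
  obtain ⟨y, hy, -⟩ := h.ex
  obtain ⟨b₁, hb₁, b₂, hb₂, hb, hind⟩ := r7a_indep (ℓ := ℓ) hk h.fg hy
  have hyc : ∀ c ∈ k, y - c ≠ 0 := by
    intro c hc h0
    apply hy
    rw [sub_eq_zero.1 h0]
    exact hc
  have hd : b₂ - b₁ ≠ 0 := sub_ne_zero.2 hb.symm
  refine ⟨(y - b₁) / (b₂ - b₁), ?_⟩
  have e1 : cl ℓ ((y - b₁) / (b₂ - b₁)) = cl ℓ (y - b₁) := by
    rw [cl_div ℓ (hyc _ hb₁) hd, line_cl_const hk (k.sub_mem hb₂ hb₁), sub_zero]
  have e2 : cl ℓ (1 - (y - b₁) / (b₂ - b₁)) = cl ℓ (y - b₂) := by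
    have h3 : 1 - (y - b₁) / (b₂ - b₁) = (-(y - b₂)) / (b₂ - b₁) := by
      field_simp
      ring
    rw [h3, cl_div ℓ (neg_ne_zero.2 (hyc _ hb₂)) hd, line_cl_const hk (k.sub_mem hb₂ hb₁),
      sub_zero, finB_cl_neg hk]
  rw [e1, e2]
  exact hind

theorem r7a_rsP_mul {K : Type*} [Field K] {W : ValuationSubring K} {x y : K} (hx : x ∈ W)
    (hy : y ∈ W) : rsP W (x * y) = rsP W x * rsP W y := by
  unfold rsP
  rw [rs_mul hx hy, map_mul]

theorem r7a_rsP_pow {K : Type*} [Field K] {W : ValuationSubring K} {x : K} (hx : x ∈ W)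
    (n : ℕ) : rsP W (x ^ n) = rsP W x ^ n := by
  unfold rsP
  rw [rs_pow hx, map_pow]

/-- two independent classes `x, 1 - x` in the units of a valuation ring whose residue field is a
curve. -/
theorem exists_nrU {K : Type*} [Field K] {ℓ : ℕ} [Fact ℓ.Prime] {k : Subfield K}
    {W : ValuationSubring K} (hℓ : W.valuation (ℓ : K) = 1) (h : Cv (rbarP k W)) :
    ∃ x : K, ∀ i j : ZMod ℓ, i • cl ℓ x + j • cl ℓ (1 - x) ∈ U1 ℓ W → i = 0 ∧ j = 0 := by
  haveI : NeZero (ℓ : RFP W) := rfp_neZero hℓ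
  obtain ⟨x', hx'⟩ := exists_nr1 (ℓ := ℓ) h
  obtain ⟨m, y, hy⟩ := rf_pow W x'
  obtain ⟨x, hxW, hxy⟩ := rs_surj y
  set q := ringExpChar (IsLocalRing.ResidueField W) with hq
  haveI hexp0 : ExpChar (IsLocalRing.ResidueField W) q := inferInstance
  haveI hexp : ExpChar (RFP W) q := expChar_of_injective_ringHom (rf_injective W) q
  have hq' : ringExpChar (RFP W) = q := ringExpChar.eq (RFP W) q
  have hqm : ((q ^ m : ℕ) : ZMod ℓ) ≠ 0 := by
    rw [← hq']
    exact q_pow_ne_zero ℓ (RFP W) m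
  -- the classes of `x'` and `1 - x'` are nonzero
  have hx0 : x' ≠ 0 := by
    rintro rfl
    have := (hx' 1 0 (by rw [cl_zero, smul_zero, zero_smul, add_zero])).1
    exact one_ne_zero this
  have hx1 : 1 - x' ≠ 0 := by
    intro h0
    have := (hx' 0 1 (by rw [h0, cl_zero, smul_zero, zero_smul, add_zero])).2
    exact one_ne_zero this
  have hxr : rsP W x = x' ^ q ^ m := by rw [rsP, hxy, hy]
  have hxr1 : rsP W (1 - x) = (1 - x') ^ q ^ m := by
    rw [rsP, rs_sub (one_mem W) hxW, rs_one, map_sub, map_one, hxy, hy, sub_pow_expChar_pow,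
      one_pow]
  have hv : ∀ z ∈ W, rsP W z ≠ 0 → W.valuation z = 1 := by
    intro z hz hne
    apply le_antisymm ((W.valuation_le_one_iff z).2 hz)
    by_contra hcon
    push Not at hcon
    apply hne
    rw [rsP, (rs_eq_zero hz).2 hcon, map_zero]
  have h1xW : 1 - x ∈ W := sub_mem (one_mem W) hxW
  have hvx : W.valuation x = 1 := hv x hxW (by rw [hxr]; exact pow_ne_zero _ hx0)
  have hv1x : W.valuation (1 - x) = 1 := hv _ h1xW (by rw [hxr1]; exact pow_ne_zero _ hx1)
  have hx0' : x ≠ 0 := by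
    rintro rfl
    rw [map_zero] at hvx
    exact zero_ne_one hvx
  have h1x0' : 1 - x ≠ 0 := by
    intro h0
    rw [h0, map_zero] at hv1x
    exact zero_ne_one hv1x
  refine ⟨x, fun i j hij => ?_⟩
  have hsm : ∀ (G : Type _) [Field G] (a : ZMod ℓ) (z : G), a • cl ℓ z = cl ℓ (z ^ a.val) := by
    intro G _ a z
    rw [cl_pow, ← Nat.cast_smul_eq_nsmul (ZMod ℓ), ZMod.natCast_zmod_val]
  have hprod : i • cl ℓ x + j • cl ℓ (1 - x) = cl ℓ (x ^ i.val * (1 - x) ^ j.val) := by
    rw [cl_mul ℓ (pow_ne_zero _ hx0') (pow_ne_zero _ h1x0'), hsm, hsm]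
  rw [hprod] at hij
  have hval : W.valuation (x ^ i.val * (1 - x) ^ j.val) = 1 := by
    rw [map_mul, map_pow, map_pow, hvx, hv1x, one_pow, one_pow, one_mul]
  have h2 := (rfp_cl_zero hℓ hval).2 hij
  rw [r7a_rsP_mul (pow_mem hxW _) (pow_mem h1xW _), r7a_rsP_pow hxW, r7a_rsP_pow h1xW, hxr,
    hxr1, cl_mul ℓ (pow_ne_zero _ (pow_ne_zero _ hx0)) (pow_ne_zero _ (pow_ne_zero _ hx1)),
    ← hsm, ← hsm, cl_pow, cl_pow, ← Nat.cast_smul_eq_nsmul (ZMod ℓ),
    ← Nat.cast_smul_eq_nsmul (ZMod ℓ), smul_comm i, smul_comm j, ← smul_add] at h2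
  have h3 : i • cl ℓ x' + j • cl ℓ (1 - x') = 0 := by
    have h4 : ((q ^ m : ℕ) : ZMod ℓ)⁻¹ • (((q ^ m : ℕ) : ZMod ℓ) •
        (i • cl ℓ x' + j • cl ℓ (1 - x'))) = 0 := by rw [h2, smul_zero]
    rwa [smul_smul, inv_mul_cancel₀ hqm, one_smul] at h4
  exact hx' i j h3

end Vale.Agent.P019P
end
end

section

section

/-!
# The degree bound
-/

namespace Vale.Agent.P019P

open Vale.Agent.P019

set_option linter.style.haveILetI false
set_option linter.unusedSectionVars false

open Polynomial Filter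

/-- algebraic dependence from a bounded relation. -/
theorem e3d_alg {κ : Type*} [Field κ] [PerfectField κ] {B : Subfield κ} (hB : RAC B) {X Y : κ}
    (hX : X ∉ B) {d : ℕ} (hb : BRel B d X Y) : IsAlgebraic (adj B X) Y := by
  obtain ⟨c, hc, h0, h⟩ := hb
  have hmem : ∀ j, (∑ i ∈ Finset.range (d + 1), c i j * X ^ i) ∈ adj B X := fun j =>
    sum_mem fun i _ => mul_mem (le_adj B X (hc i j)) (pow_mem (mem_adj B X) i)
  refine (apd_minpoly (E := adj B X)
    (a := fun j => ⟨∑ i ∈ Finset.range (d + 1), c i j * X ^ i, hmem j⟩) (n := d) ?_ ?_).1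
  · obtain ⟨i, hi, j, hj, hij⟩ := h0
    refine ⟨j, hj, fun h1 => ?_⟩
    exact apd_ne_zero hB hX (a := fun i => c i j) (fun i => hc i j) ⟨i, hi, hij⟩
      (congrArg Subtype.val h1)
  · rw [← h, Finset.sum_comm]
    refine Finset.sum_congr rfl fun j _ => ?_
    change (∑ i ∈ Finset.range (d + 1), c i j * X ^ i) * Y ^ j = _
    rw [Finset.sum_mul]

/-- the curve. -/
theorem e3d_cv {κ : Type*} [Field κ] [PerfectField κ] {E : Subfield κ} (hE : IsAlgClosed E)
    {s θ : κ} (hs : s ∉ E) (htop : adj (adj E s) θ = ⊤) {m : ℕ} (hθ : BRel E m s θ) : Cv E where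
  ac := hE
  fg := by
    classical
    refine ⟨{s, θ}, (top_le_iff.1 ?_).symm⟩
    rw [← htop]
    have hs' : s ∈ pf (E ⊔ Subfield.closure ((({s, θ} : Finset κ)) : Set κ)) :=
      le_pf _ ((le_sup_right : Subfield.closure ((({s, θ} : Finset κ)) : Set κ) ≤ _)
        (Subfield.subset_closure (by simp)))
    have hθ' : θ ∈ pf (E ⊔ Subfield.closure ((({s, θ} : Finset κ)) : Set κ)) :=
      le_pf _ ((le_sup_right : Subfield.closure ((({s, θ} : Finset κ)) : Set κ) ≤ _)
        (Subfield.subset_closure (by simp)))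
    exact adj_le (adj_le (le_sup_left.trans (le_pf _)) hs') hθ'
  ex := by
    refine ⟨s, hs, fun z => ?_⟩
    have h1 : IsAlgebraic (adj E s) θ := e3d_alg (RAC_of_isAlgClosed _ hE) hs hθ
    haveI : PerfectField (rac (adj E s)) := perfect_of_RAC (RAC_rac _)
    have h2 : adj (adj E s) θ ≤ rac (adj E s) := adj_le (le_rac _) (mem_rac.2 h1)
    rw [htop] at h2
    exact mem_rac.1 (h2 (Subfield.mem_top z))

/-- the degree bound from the Riemann-Hurwitz inequality. -/
theorem deg5 {κ : Type*} [Field κ] [PerfectField κ] (ℓ : ℕ) [Fact ℓ.Prime] [NeZero (ℓ : κ)]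
    {E : Subfield κ} (hE : IsAlgClosed E) {s θ : κ} (hs : s ∉ E) (htop : adj (adj E s) θ = ⊤)
    {m : ℕ} (hθ : BRel E m s θ) {Z : κ} (hZ : Z ∉ E) {S : Finset κ} (hS : S.card = 5)
    (hP : ∀ c ∈ S, c ∈ E ∧ ∃ y : κ, y ≠ 0 ∧ BRel E m s y ∧ ∃ (e : ℕ) (h : κ),
      Z - c = y ^ e * h ^ ℓ) :
    Module.Finite (adj E Z) κ ∧ Module.finrank (adj E Z) κ ≤ 14 * m ^ 2 := by
  have hcv : Cv E := e3d_cv hE hs htop hθ
  refine ⟨hcv.finite hZ, ?_⟩
  obtain ⟨g, hg⟩ := exists_curveRH (ℓ := ℓ) hcv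
  obtain ⟨a, ha, ha0, har⟩ := hθ
  have hgb : g ≤ m * m := hg.gb s θ hs htop m m a ha ha0 har
  have hrh := hg.rh Z hZ (2 * (m * m)) S (fun c hc => (hP c hc).1) hS fun c hc => by
    obtain ⟨hcE, y, hy0, ⟨b, hb, hb0, hbr⟩, e, h, hyh⟩ := hP c hc
    refine le_trans (Set.encard_le_encard ?_) (dbd_nonunit (ℓ := ℓ) hcv hy0 (M := m * m)
      fun hy => apd_deg (RAC_of_isAlgClosed _ hE) hs hy htop hb ha hb0 ha0 hbr har)
    rintro P ⟨hPP, -, hP2⟩
    refine ⟨hPP, fun hyU => hP2 ?_⟩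
    have hne : Z - c ≠ 0 := fun h1 => hZ (by rw [sub_eq_zero.1 h1]; exact hcE)
    rw [hyh] at hne
    rw [hyh, cl_mul ℓ (left_ne_zero_of_mul hne) (right_ne_zero_of_mul hne), cl_pow_self, add_zero,
      cl_pow]
    exact Submodule.smul_of_tower_mem _ _ hyU
  nlinarith

end Vale.Agent.P019P
end
end

section

section

/-!
# The five points condition in all directions
-/

namespace Vale.Agent.P019P

open Vale.Agent.P019

set_option linter.style.haveILetI false
set_option linter.unusedSectionVars false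

open Polynomial Filter

section e5apriv

theorem e5a_brel_mono {Ω : Type*} [Field Ω] {E : Subfield Ω} {D D' : ℕ}
    (hD : D ≤ D') {x y : Ω} (h : BRel E D x y) : BRel E D' x y := by
  classical
  obtain ⟨c, hc, ⟨i, hi, j, hj, hij⟩, hs⟩ := h
  have hsub : Finset.range (D + 1) ⊆ Finset.range (D' + 1) :=
    Finset.range_subset_range.2 (by omega)
  let c' : ℕ → ℕ → Ω := fun i j =>
    if i ∈ Finset.range (D + 1) ∧ j ∈ Finset.range (D + 1) then c i j else 0
  have hc'1 : ∀ {i j}, i ∈ Finset.range (D + 1) → j ∈ Finset.range (D + 1) → c' i j = c i j :=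
    fun h1 h2 => if_pos ⟨h1, h2⟩
  have hc'0 : ∀ {i j}, ¬ (i ∈ Finset.range (D + 1) ∧ j ∈ Finset.range (D + 1)) → c' i j = 0 :=
    fun h => if_neg h
  refine ⟨c', ?_, ⟨i, hsub hi, j, hsub hj, ?_⟩, ?_⟩
  · intro i j
    by_cases h : i ∈ Finset.range (D + 1) ∧ j ∈ Finset.range (D + 1)
    · rw [hc'1 h.1 h.2]; exact hc i j
    · rw [hc'0 h]; exact E.zero_mem
  · rw [hc'1 hi hj]; exact hij
  · refine Eq.trans (Eq.symm ?_) hs
    refine Finset.sum_subset_zero_on_sdiff hsub ?_ ?_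
    · intro i hi
      rw [Finset.mem_sdiff] at hi
      refine Finset.sum_eq_zero fun j _ => ?_
      rw [hc'0 (fun h => hi.2 h.1), zero_mul, zero_mul]
    · intro i hi
      refine Finset.sum_subset_zero_on_sdiff hsub ?_ ?_
      · intro j hj
        rw [Finset.mem_sdiff] at hj
        rw [hc'0 (fun h => hj.2 h.2), zero_mul, zero_mul]
      · intro j hj
        rw [hc'1 hi hj]

theorem e5a_brel_map {F Ω : Type*} [Field F] [Field Ω] (f : F →+* Ω) {E : Subfield F}
    {E' : Subfield Ω} (hE : ∀ c ∈ E, f c ∈ E') {D : ℕ} {x y : F} (h : BRel E D x y) :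
    BRel E' D (f x) (f y) := by
  obtain ⟨c, hc, ⟨i, hi, j, hj, hij⟩, hs⟩ := h
  refine ⟨fun i j => f (c i j), fun i j => hE _ (hc i j), ⟨i, hi, j, hj, ?_⟩, ?_⟩
  · exact (map_ne_zero f).2 hij
  · have h1 := congrArg f hs
    simpa only [map_sum, map_mul, map_pow, map_zero] using h1

variable {K : Type*} [Field K] {Ω : Type*} [Field Ω] [Algebra K Ω]

theorem e5a_char : ringExpChar Ω = ringExpChar K := by
  haveI : ExpChar Ω (ringExpChar K) := expChar_of_injective_algebraMap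
    (algebraMap K Ω).injective (ringExpChar K)
  exact ringExpChar.eq Ω (ringExpChar K)

/-- the image of `gsp k T` is in `rcl` of the images. -/
theorem e5a_gsp_rcl [DecidableEq Ω] {k : Subfield K} {T : Finset K} {x : K} (hx : x ∈ gsp k T) :
    algebraMap K Ω x ∈ rcl (k.map (algebraMap K Ω)) (T.image (algebraMap K Ω)) := by
  obtain ⟨n, hn⟩ := mem_pf.1 hx
  have h1 : k ⊔ Subfield.closure (T : Set K) ≤
      (rcl (k.map (algebraMap K Ω)) (T.image (algebraMap K Ω))).comap (algebraMap K Ω) := by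
    refine sup_le ?_ (Subfield.closure_le.2 ?_)
    · intro a ha
      exact le_rcl _ _ ⟨a, ha, rfl⟩
    · intro a ha
      exact mem_rcl (Finset.mem_image_of_mem _ ha)
  have h2 : algebraMap K Ω x ^ ringExpChar K ^ n ∈
      rcl (k.map (algebraMap K Ω)) (T.image (algebraMap K Ω)) := by
    rw [← map_pow]
    exact h1 hn
  refine rcl_RAC _ _ _ (IsAlgebraic.of_pow (n := ringExpChar K ^ n) ?_ (isAlgebraic_of_mem h2))
  exact pow_pos (expChar_pos K _) n

/-- the image of `gsp k B` is in `adj` of `rcl` of the images without `v` and the image of `v`. -/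
theorem e5a_gsp_adj [DecidableEq K] [DecidableEq Ω] {k : Subfield K} {B : Finset K} {x v : K}
    (hx : x ∈ gsp k B) :
    algebraMap K Ω x ∈ adj (rcl (k.map (algebraMap K Ω)) ((B.erase v).image (algebraMap K Ω)))
      (algebraMap K Ω v) := by
  obtain ⟨n, hn⟩ := mem_pf.1 hx
  have h1 : k ⊔ Subfield.closure (B : Set K) ≤
      (Vale.Agent.P019.adj (rcl (k.map (algebraMap K Ω)) ((B.erase v).image (algebraMap K Ω)))
      (algebraMap K Ω v)).comap (algebraMap K Ω) := by
    refine sup_le ?_ (Subfield.closure_le.2 ?_)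
    · intro a ha
      exact Vale.Agent.P019.le_adj _ _ (le_rcl _ _ ⟨a, ha, rfl⟩)
    · intro a ha
      by_cases hav : a = v
      · subst hav
        exact Vale.Agent.P019.mem_adj _ _
      · refine Vale.Agent.P019.le_adj _ _ (mem_rcl (Finset.mem_image_of_mem _ ?_))
        exact Finset.mem_erase.2 ⟨hav, ha⟩
  refine mem_adj_iff.2 ⟨n, ?_⟩
  rw [e5a_char (K := K), ← map_pow]
  exact h1 hn

/-- relations in all directions. -/
theorem e5a_rel [PerfectField K] [DecidableEq K] [DecidableEq Ω] {k : Subfield K} {B : Finset K}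
    {t : K} (halg : ∀ z : K, IsAlgebraic (adj (gsp k B) t) z) (w : K) :
    ∃ m : ℕ, ∀ᶠ b in ae k, ∀ W : ValuationSubring K, Over W (gsp k B) t b → w ∈ W →
      ∀ ι : IsLocalRing.ResidueField W →+* Ω,
      (∀ z ∈ gsp k B, ι (rs W z) = algebraMap K Ω z) → ∀ v ∈ B,
      BRel (rcl (k.map (algebraMap K Ω)) ((B.erase v).image (algebraMap K Ω))) m
        (algebraMap K Ω v) (ι (rs W w)) := by
  have key : ∀ v ∈ B, ∃ m : ℕ, ∀ᶠ b in ae k, ∀ W : ValuationSubring K,
      Over W (gsp k B) t b → w ∈ W → ∀ ι : IsLocalRing.ResidueField W →+* Ω,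
      (∀ z ∈ gsp k B, ι (rs W z) = algebraMap K Ω z) →
      BRel (rcl (k.map (algebraMap K Ω)) ((B.erase v).image (algebraMap K Ω))) m
        (algebraMap K Ω v) (ι (rs W w)) := by
    intro v hv
    have hB : gsp k B = adj (gsp k (B.erase v)) v := by
      rw [← gsp_insert, Finset.insert_erase hv]
    have hw : IsAlgebraic (adj (adj (gsp k (B.erase v)) v) t) w := by
      rw [← hB]; exact halg w
    obtain ⟨m, hm⟩ := apd_rel hw
    refine ⟨m, ?_⟩
    filter_upwards [ae_mono (le_gsp k (B.erase v)) hm, ae_mem k] with b hb hbk W hO hwW ι hι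
    have hsub : gsp k (B.erase v) ≤ gsp k B := gsp_mono k (Finset.erase_subset v B)
    have hWG : TrivOn W (gsp k (B.erase v)) := fun c hc => hO.triv c (hsub hc)
    have hvB : v ∈ gsp k B := mem_gsp hv
    have hr : BRel (bar hWG) m (rs W v) (rs W w) :=
      hb W hWG hO.lt (hO.mem (le_gsp k B hbk)) (hO.triv _ hvB) hwW
    rw [← hι v hvB]
    refine e5a_brel_map ι ?_ hr
    intro c hc
    obtain ⟨e, he, rfl⟩ := (mem_bar hWG).1 hc
    rw [hι e (hsub he)]
    exact e5a_gsp_rcl he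
  choose! m hm using key
  refine ⟨B.sup m, ?_⟩
  have h1 : ∀ᶠ b in ae k, ∀ v ∈ B, ∀ W : ValuationSubring K,
      Over W (gsp k B) t b → w ∈ W → ∀ ι : IsLocalRing.ResidueField W →+* Ω,
      (∀ z ∈ gsp k B, ι (rs W z) = algebraMap K Ω z) →
      BRel (rcl (k.map (algebraMap K Ω)) ((B.erase v).image (algebraMap K Ω))) (m v)
        (algebraMap K Ω v) (ι (rs W w)) := by
    rw [Filter.eventually_all_finset]
    exact hm
  filter_upwards [h1] with b hb W hO hwW ι hι v hv
  exact e5a_brel_mono (Finset.le_sup hv) (hb v hv W hO hwW ι hι)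

end e5apriv

variable {K L : Type*} [Field K] [Field L] [PerfectField K] [PerfectField L] {ℓ : ℕ}
  [Fact ℓ.Prime] [NeZero (ℓ : K)] [NeZero (ℓ : L)]

/-- generators of the residue fields in all directions. -/
theorem exists_gen {k : Subfield K} (hk : IsAlgClosed k) (hfgk : FG k (⊤ : Subfield K))
    {B : Finset K} (hB : Indp k B) {t : K}
    (ht : ¬ IsAlgebraic (gsp k B) t) (halg : ∀ z : K, IsAlgebraic (adj (gsp k B) t) z)
    {Ω : Type*} [Field Ω] [IsAlgClosed Ω] [Algebra K Ω] [DecidableEq K] [DecidableEq Ω] :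
    ∃ (m : ℕ) (θ : K), ∀ᶠ b in ae k, ∀ W : ValuationSubring K,
      Over W (gsp k B) t b → ∀ (ι : IsLocalRing.ResidueField W →+* Ω),
      (∀ z ∈ gsp k B, ι (rs W z) = algebraMap K Ω z) →
      ∀ v ∈ B,
        BRel (rcl (k.map (algebraMap K Ω)) ((B.erase v).image (algebraMap K Ω))) m
          (algebraMap K Ω v) (ι (rs W θ)) ∧
        ι.fieldRange ≤ adj (adj (rcl (k.map (algebraMap K Ω))
          ((B.erase v).image (algebraMap K Ω))) (algebraMap K Ω v)) (ι (rs W θ)) := by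
  obtain ⟨θ, hθ⟩ := exists_over_nice hk hfgk hB ht halg
  obtain ⟨m, hm⟩ := e5a_rel (Ω := Ω) halg θ
  refine ⟨m, θ, ?_⟩
  filter_upwards [hθ, hm] with b h1 h2 W hO ι hι v hv
  have hN := h1.2 W hO
  refine ⟨h2 W hO hN.mem ι hι v hv, ?_⟩
  rintro _ ⟨c, rfl⟩
  obtain ⟨z, hz, rfl⟩ := rs_surj c
  obtain ⟨P, Q, hQ, hPQ⟩ := hN.res z ((W.valuation_le_one_iff z).2 hz)
  have hmem : ∀ R : (gsp k B)[X], aeval θ R ∈ W := fun R =>
    aeval_mem hN.mem (fun i => hN.triv _ (R.coeff i).2)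
  have hin : ∀ R : (gsp k B)[X], ι (rs W (aeval θ R)) ∈ adj (adj (rcl (k.map (algebraMap K Ω))
      ((B.erase v).image (algebraMap K Ω))) (algebraMap K Ω v)) (ι (rs W θ)) := by
    intro R
    induction R using Polynomial.induction_on' with
    | add p q hp hq =>
      rw [map_add, rs_add (hmem p) (hmem q), map_add]
      exact Subfield.add_mem _ hp hq
    | monomial n a =>
      rw [← C_mul_X_pow_eq_monomial, map_mul, aeval_C, map_pow, aeval_X]
      change ι (rs W ((a : K) * θ ^ n)) ∈ _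
      rw [rs_mul (hN.triv _ a.2) (pow_mem hN.mem n), rs_pow hN.mem, map_mul, map_pow, hι _ a.2]
      exact Subfield.mul_mem _ (le_adj _ _ (e5a_gsp_adj a.2)) (Subfield.pow_mem _ (mem_adj _ _) n)
  have h3 : ι (rs W z) * ι (rs W (aeval θ Q)) = ι (rs W (aeval θ P)) := by
    rw [← map_mul, ← rs_mul hz (hmem Q), (rs_eq (mul_mem hz (hmem Q)) (hmem P)).2 hPQ]
  have hQ0 : ι (rs W (aeval θ Q)) ≠ 0 := (map_ne_zero ι).2 ((rs_ne_zero (hmem Q)).2 hQ)
  rw [eq_div_of_mul_eq hQ0 h3]
  exact Subfield.div_mem _ (hin P) (hin Q)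

end Vale.Agent.P019P
end
end

section

section

/-!
# Classes congruent to one at a valuation where `t` is a generic constant
-/

namespace Vale.Agent.P019P

open Vale.Agent.P019

set_option linter.style.haveILetI false

open Polynomial

section ifive

variable {K : Type*} [Field K] [PerfectField K] (M : Mdl K) {ℓ : ℕ} [Fact ℓ.Prime]
  [NeZero (ℓ : K)]

theorem ifive_fin {F : Subfield K} (hkF : M.k ≤ F) {t : K}
    (halg : ∀ z : K, IsAlgebraic (adj F t) z) :
    ∃ S : Finset K, (∀ s ∈ S, s ∈ F) ∧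
      ∀ z ∈ M.K0, IsAlgebraic (adj (M.k0 ⊔ Subfield.closure (S : Set K)) t) z := by
  classical
  obtain ⟨G, hG⟩ := M.fg
  have h1 : ∀ g : K, ∃ C : Finset K, (C : Set K) ⊆ (F : Set K) ∧
      ∀ N : Subfield K, (C : Set K) ⊆ (N : Set K) → IsAlgebraic (adj N t) g := fun g =>
    by
      obtain ⟨C, hC, h⟩ := isAlgebraic_sup_finite (k := F) (L := {t}) (isAlgebraic_adj.1 (halg g))
      exact ⟨C, hC, fun N hN => isAlgebraic_adj.2 (h N hN)⟩
  choose C hC hCN using h1
  refine ⟨G.biUnion C, ?_, ?_⟩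
  · intro s hs
    obtain ⟨g, -, hg⟩ := Finset.mem_biUnion.1 hs
    exact hC g hg
  · intro z hz
    rw [← mem_rac]
    rw [hG] at hz
    have h2 : pf (M.k0 ⊔ Subfield.closure (G : Set K)) ≤
        rac (adj (M.k0 ⊔ Subfield.closure ((G.biUnion C : Finset K) : Set K)) t) := by
      refine pf_le ?_
      refine sup_le (le_sup_left.trans ((le_adj _ t).trans (le_rac _))) ?_
      rw [Subfield.closure_le]
      intro g hg
      refine mem_rac.2 (hCN g _ ?_)
      intro c hc
      refine (le_sup_right : Subfield.closure ((G.biUnion C : Finset K) : Set K) ≤ _)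
        (Subfield.subset_closure ?_)
      exact Finset.mem_coe.2 (Finset.mem_biUnion.2 ⟨g, hg, hc⟩)
    exact h2 hz

/-- **I5.** -/
theorem ifive (hk : ¬ (M.k : Set K).Countable) {F : Subfield K} (hkF : M.k ≤ F) {t : K}
    (halg : ∀ z : K, IsAlgebraic (adj F t) z) (htk : t ∉ M.k) (u : V ℓ K) :
    ∃ C : Set K, C.Countable ∧ ∀ a ∈ M.k, a ∉ C → ∀ W : ValuationSubring K,
      (∀ x ∈ F, x ∈ W) → W.valuation (t - a) < 1 → u ∈ U1 ℓ W →
      u ∈ VS ℓ (rac (adj M.k t)) := by
  classical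
  have hℓ : ℓ ≠ 0 := (Fact.out : ℓ.Prime).ne_zero
  obtain ⟨S, hSF, hS⟩ := ifive_fin M hkF halg
  obtain ⟨C₀, hC₀k, hC₀⟩ := exists_finite_free M.k S
  obtain ⟨x, hx0, rfl⟩ := cl_surj ℓ u
  obtain ⟨N, hN, hNc, hbig⟩ : ∃ N : Subfield K, M.Sub N ∧ (N : Set K).Countable ∧
      ∀ z ∈ ((C₀ : Set K) ∪ {t, x}), z ∈ M.F N := by
    have h0 : M.Sub M.k0 := ⟨RAC_of_isAlgClosed _ M.ack0, le_rfl, M.le_k⟩
    obtain ⟨N, hN, hNc, -, -, h1⟩ := M.exists_big hk h0 (M.ctb.mono M.le_K0)
      ((C₀ : Set K) ∪ {t, x}) ((Finset.countable_toSet C₀).union (Set.toFinite {t, x}).countable)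
    exact ⟨N, hN, hNc, h1⟩
  refine ⟨N, hNc, ?_⟩
  intro a ha haN W hWF hta hxU1
  obtain ⟨k₁, hNk₁, hk₁k, hrac, hak₁, halgk⟩ := Gn.exists_compl M.RAC_k hN.le hN.rac haN
  set A : Subfield K := M.F k₁ with hAdef
  have hk0 : M.k0 ≤ k₁ := hN.ge.trans hNk₁
  have haA : ¬ IsAlgebraic A a := fun h => hak₁ (M.free k₁ hrac hk0 hk₁k a ha h)
  have hFA : M.F N ≤ A := Mdl.F_mono hNk₁
  have htA : t ∈ A := hFA (hbig t (Or.inr (Or.inl rfl)))
  have hxA : x ∈ A := hFA (hbig x (Or.inr (Or.inr rfl)))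
  have hk₁A : k₁ ≤ A := le_sup_right
  -- the place
  set P := plOf W with hP
  have hPF : ∀ y ∈ F, y ∈ P.O := hWF
  have hPk : ∀ y ∈ M.k, y ∈ P.O := fun y hy => hPF y (hkF hy)
  set E : Subfield K := k₁ ⊔ Subfield.closure (S : Set K) with hE
  have hEF : E ≤ F := sup_le (hk₁k.trans hkF) (Subfield.closure_le.2 hSF)
  have hPE : ∀ y ∈ E, y ∈ P.O := fun y hy => hPF y (hEF hy)
  have haE : ¬ IsAlgebraic E a := by
    intro h
    refine hak₁ (hrac a (hC₀ k₁ ?_ hk₁k a ha h))
    intro c hc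
    have h1 : c ∈ M.F N := hbig c (Or.inl hc)
    have h2 : c ∈ N := M.free N hN.rac hN.ge hN.le c (hC₀k hc) (isAlgebraic_of_mem h1)
    exact hNk₁ h2
  have htaO : t - a ∈ P.O := P.mem_of_lt hta
  have haO : a ∈ P.O := hPk a ha
  have htO : t ∈ P.O := by
    have e : t = (t - a) + a := by ring
    rw [e]; exact P.O.add_mem _ _ htaO haO
  have hevt : P.ev t = P.ev a := by
    have h1 : P.ev (t - a) = 0 := P.ev_of_lt hta
    rw [P.ev_sub htO haO, sub_eq_zero] at h1
    exact h1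
  have htE : ¬ IsAlgebraic (P.im E hPE) (P.ev t) := by
    rw [hevt]
    intro h
    exact haE (P.isAlgebraic_of_im hPF hEF (hkF ha) h)
  have hadj := Pl.mem_adj_of_transcendental P E hPE htO htE
  have hA : ∀ y ∈ A, y ∈ P.O := by
    intro y hy
    refine P.mem_of_isAlgebraic (adj E t) hadj (mem_rac.1 ?_)
    have h1 : A ≤ rac (adj E t) := by
      refine sup_le ?_ ?_
      · intro z hz
        refine mem_rac.2 (isAlgebraic_mono (adj_mono ?_ t) (hS z hz))
        exact sup_le_sup_right hk0 _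
      · exact le_sup_left.trans ((le_adj E t).trans (le_rac _))
    exact h1 hy
  have heva : IsAlgebraic (P.im A hA) (P.ev a) := by
    rw [← hevt]
    exact isAlgebraic_of_mem (P.ev_mem_im hA htA)
  obtain ⟨π, hπA, hπ, hπO, hπ0, hGd⟩ := exists_gd_adj P A hA haO haA heva
  haveI : PerfectField k₁ := perfect_of_RAC hrac
  haveI : PerfectField A := inferInstanceAs (PerfectField (M.F k₁))
  haveI := M.instPerfectk
  set κ := P.im A hA ⊔ P.im M.k hPk with hκ
  have hGd1 : Vale.Agent.P019.Gd P π κ (Vale.Agent.P019.adj A a) := hGd κ le_sup_left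
    ((le_sup_right : P.im M.k hPk ≤ κ) (P.ev_mem_im hPk ha))
  have hGd2 : Gd P π κ (adj A a ⊔ M.k) :=
    Gd.sup hπ hπO hπ0 hπA hGd1 (E := Vale.Agent.P019.adj k₁ a)
      (Vale.Agent.P019.adj_mono hk₁A a) (Vale.Agent.P019.adj_le hk₁k ha) hPk
      (fun y hy => (le_sup_right : P.im M.k hPk ≤ κ) (P.ev_mem_im hPk hy))
      (fun x hx => isAlgebraic_adj.1 (halgk x hx))
  have htop : ∀ z : K, z ∈ adj A a ⊔ M.k := by
    intro z
    have h1 : (⊤ : Subfield K) ≤ adj A a ⊔ M.k := by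
      rw [← M.sup]
      exact sup_le_sup_right (le_trans le_sup_left (le_adj A a)) _
    exact h1 trivial
  -- the class
  obtain ⟨m, hm, hxm⟩ := hxU1
  have hxU : P.U x := Gn.U_of_field hA hxA hx0
  obtain ⟨y, hy0, hy⟩ := (cl_eq_iff ℓ hx0 (one_add_ne_zero hm)).1 hxm
  have hmU : P.U (1 + m) := P.U_iff.2 (val_one_add hm)
  have hyl : P.U (y ^ ℓ) := by
    have : y ^ ℓ = x / (1 + m) := by
      rw [hy]
      have := hmU.ne_zero
      field_simp
    rw [this]
    exact hxU.div hmU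
  have hyU : P.U y := by
    rw [P.U_iff] at hyl ⊢
    rw [map_pow] at hyl
    exact (pow_eq_one_iff.1 hyl).resolve_right hℓ
  have hev : P.ev y ^ ℓ = P.ev x := by
    rw [← P.ev_pow hyU.1]
    conv_rhs => rw [hy]
    rw [P.ev_mul hmU.1 hyl.1, P.ev_add P.O.one_mem (P.mem_of_lt hm), P.ev_one,
      P.ev_of_lt hm, add_zero, one_mul]
  have hevy : P.ev y ∈ κ := Gd.ev_mem hπO hπ0 hGd2 (htop y) hyU.1
  -- Kummer descent
  let E₀ : Subfield K := rac (adj k₁ t) ⊓ A
  have hE₀A : E₀ ≤ A := inf_le_right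
  have hk₁E₀ : k₁ ≤ E₀ := le_inf ((le_adj k₁ t).trans (le_rac _)) hk₁A
  obtain ⟨ζ, hζk, hζ⟩ := finK_prim M.ack0 ℓ
  have hζK : IsPrimitiveRoot (⟨ζ, hk₁A (hk0 hζk)⟩ : A) ℓ := by
    refine IsPrimitiveRoot.of_map_of_injective (f := A.subtype) ?_ A.subtype.injective
    exact hζ
  have hζ' : IsPrimitiveRoot (P.ev ζ) ℓ := by
    have h1 := hζK.map_of_injective (f := P.resHom A hA) (RingHom.injective _)
    rwa [P.resHom_apply] at h1
  have hPE₀ : ∀ z ∈ E₀, z ∈ P.O := fun z hz => hA z (hE₀A hz)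
  have hac : ∀ z ∈ P.im A hA, IsAlgebraic (P.im E₀ hPE₀) z → z ∈ P.im E₀ hPE₀ := by
    intro z hz halgz
    obtain ⟨z₀, hz₀, rfl⟩ := P.mem_im.1 hz
    have h1 := P.isAlgebraic_of_im hA hE₀A hz₀ halgz
    have h2 : IsAlgebraic (rac (adj k₁ t)) z₀ := isAlgebraic_mono inf_le_left h1
    exact P.ev_mem_im hPE₀ ⟨RAC_rac _ z₀ h2, hz₀⟩
  have hadjt : adj k₁ t ≤ E₀ := le_inf (le_rac _) (adj_le hk₁A htA)
  have hB : ∀ b ∈ P.im M.k hPk, IsAlgebraic (P.im E₀ hPE₀) b := by
    intro b hb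
    obtain ⟨c, hc, rfl⟩ := P.mem_im.1 hb
    refine P.isAlgebraic_ev (adj k₁ a) (P.im E₀ hPE₀) ?_ (halgk c hc) (hPk c hc)
    intro y hy _
    have h1 : P.ev y ∈ P.im (adj k₁ a) (fun y hy => hPk y (adj_le hk₁k ha hy)) :=
      P.ev_mem_im _ hy
    rw [Pl.im_adj P hPk hk₁k ha, ← hevt] at h1
    have h2 : adj (P.im k₁ (fun y hy => hPk y (hk₁k hy))) (P.ev t) ≤ P.im E₀ hPE₀ := by
      refine adj_le ?_ (P.ev_mem_im hPE₀ (hadjt (mem_adj _ _)))
      intro w hw
      obtain ⟨w₀, hw₀, rfl⟩ := P.mem_im.1 hw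
      exact P.ev_mem_im hPE₀ (hk₁E₀ hw₀)
    exact h2 h1
  obtain ⟨e, he, w, hw, hew⟩ :=
    kummer_descent ℓ (P.im E₀ hPE₀) (P.im A hA) (P.im M.k hPk)
      (by
        intro z hz
        obtain ⟨z₀, hz₀, rfl⟩ := P.mem_im.1 hz
        exact P.ev_mem_im hA (hE₀A hz₀)) hac hB _
      (P.ev_mem_im hPE₀ (hk₁E₀ (hk0 hζk))) hζ' (P.ev_mem_im hA hxA) hxU.2 hevy hev
  obtain ⟨e', he', rfl⟩ := P.mem_im.1 he
  obtain ⟨w', hw', rfl⟩ := P.mem_im.1 hw
  have hx' : x = e' * w' ^ ℓ := by
    apply P.ev_inj hA hxA (A.mul_mem (hE₀A he') (A.pow_mem hw' _))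
    rw [P.ev_mul (hPE₀ _ he') (hA _ (A.pow_mem hw' _)), P.ev_pow (hA _ hw')]
    exact hew
  rw [cl_ne_zero_mem_VS hx0]
  refine ⟨e', rac_mono (adj_mono hk₁k t) he'.1, ?_, w', ?_, hx'⟩
  · rintro rfl
    rw [zero_mul] at hx'
    exact hx0 hx'
  · rintro rfl
    rw [zero_pow hℓ, mul_zero] at hx'
    exact hx0 hx'

end ifive

end Vale.Agent.P019P
end
end
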