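import Vale.Agent.P019.MathlibFull
import Vale.Agent.P019.MathlibFull2
import Vale.Agent.P019.MathlibUsed
import Vale.Agent.P019.Bd4.B2
import Vale.Agent.P019.Bd4.B1
import Vale.Agent.P019.Bd4.B5
import Vale.Agent.P019.Bd4.B3
import Vale.Agent.P019.Bd4.B6
import Vale.Agent.P019.Bd4.B4

set_option linter.all false

namespace AFastb85343x12a
@[reducible] noncomputable def a0.{u1} {x1 : Type u1} {x2 : Vale.Agent.P019P.ZDat x1} : AddMonoid x2.J := inferInstance
@[reducible] def a1.{u1} {x1 : Type u1} [x2 : Field x1] {x3 : ValuationSubring x1} : NonAssocSemiring ↥x3 := inferInstance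
@[reducible] def a2.{u1} {x1 : Type u1} [x2 : Field x1] {x3 : ValuationSubring x1} : Semiring ↥x3 := inferInstance
@[reducible] noncomputable def a3.{u1} {x1 : Type u1} {x2 : Vale.Agent.P019P.ZDat x1} : AddZero x2.J := inferInstance
@[reducible] noncomputable def a4.{u1} {x1 : Type u1} {x2 : Vale.Agent.P019P.ZDat x1} : AddZeroClass x2.J := inferInstance
theorem a5.{u1, u2} {x1 : Type u1} {x2 : Type u2} [x3 : CommRing x1] [x4 : Field x2] : MulHomClass (x1 →+* x2) x1 x2 := inferInstance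
theorem a6 : NoZeroDivisors ℕ := inferInstance
@[reducible] noncomputable def a7.{u1} {x1 : Type u1} {x2 : Vale.Agent.P019P.ZDat x1} : NSMul x2.J := inferInstance
@[reducible] def a8.{u1} {x1 : Type u1} [x2 : Field x1] {x3 : ValuationSubring x1} : CommSemiring ↥x3 := inferInstance
theorem a9.{u1} {x1 : Type u1} : IsAddCommutative (x1 →₀ ℤ) := inferInstance
theorem a10 : IsReduced ℕ := inferInstance
@[reducible] def a11.{u1} {x1 : Type u1} [x2 : AddCommGroup x1] {x3 : ℕ} : AddGroup (x1 ⧸ (nsmulAddMonoidHom x3).range) := inferInstance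
@[reducible] noncomputable def a12.{u1} {x1 : Type u1} {x2 : Vale.Agent.P019P.ZDat x1} : AddGroup ((x1 →₀ ℤ) ⧸ x2.prin) := inferInstance
theorem a13.{u1, u2} {x1 : Type u1} {x2 : Type u2} [x3 : CommRing x1] [x4 : Field x2] : NonUnitalRingHomClass (x1 →+* x2) x1 x2 := inferInstance
theorem a14.{u1} {x1 : Type u1} [x2 : AddCommGroup x1] {x3 : Nat} : @AddSubgroup.Normal x1 (@AddCommGroup.toAddGroup x1 x2) (@AddMonoidHom.range x1 (@AddCommGroup.toAddGroup x1 x2) x1 (@AddCommGroup.toAddGroup x1 x2) (@nsmulAddMonoidHom x1 (@AddCommGroup.toAddCommMonoid x1 x2) x3)) := inferInstance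
theorem a15.{u1} {x1 : Type u1} {x2 : Vale.Agent.P019P.ZDat x1} : x2.prin.Normal := inferInstance
@[reducible] def a16.{u1} {x1 : Type u1} [x2 : AddCommGroup x1] {x3 : ℕ} : AddZero (x1 ⧸ (nsmulAddMonoidHom x3).range) := inferInstance
@[reducible] def a17.{u1} {x1 : Type u1} [x2 : AddCommGroup x1] {x3 : ℕ} : AddZeroClass (x1 ⧸ (nsmulAddMonoidHom x3).range) := inferInstance
@[reducible] def a18.{u1} {x1 : Type u1} [x2 : AddCommGroup x1] {x3 : ℕ} : AddMonoid (x1 ⧸ (nsmulAddMonoidHom x3).range) := inferInstance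
theorem a19.{u1, u2} {x1 : Type u1} {x2 : Type u2} [x3 : CommRing x1] [x4 : Field x2] : MonoidHomClass (x1 →+* x2) x1 x2 := inferInstance
@[reducible] noncomputable def a20.{u1, u2} {x1 : Type u1} {x2 : Type u2} [x3 : Field x1] [x4 : Field x2] [x5 : Algebra x1 x2] : Sub (Vale.Agent.P019P.Plk x1 x2 →₀ ℤ) := inferInstance
theorem a21.{u1} {x1 : Type u1} [x2 : Field x1] {x3 : ValuationSubring x1} : NonUnitalRingHomClass (↥x3 →+* AlgebraicClosure (IsLocalRing.ResidueField ↥x3)) (↥x3) (AlgebraicClosure (IsLocalRing.ResidueField ↥x3)) := inferInstance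
@[reducible] noncomputable def a22.{u1} {x1 : Type u1} {x2 : Vale.Agent.P019P.ZDat x1} : AddZero x2.Pic := inferInstance
@[reducible] noncomputable def a23.{u1} {x1 : Type u1} {x2 : Vale.Agent.P019P.ZDat x1} : AddZeroClass x2.Pic := inferInstance
@[reducible] noncomputable def a24.{u1} {x1 : Type u1} {x2 : Vale.Agent.P019P.ZDat x1} : AddMonoid x2.Pic := inferInstance
@[reducible] def a25.{u1} {x1 : Type u1} [x2 : CommRing x1] {x3 : Type u1} {x4 : Type u1} [x5 : CommRing x3] [x6 : CommRing x4] [x7 : Algebra x1 x3] [x8 : Algebra x1 x4] : NonAssocSemiring (TensorProduct x1 x3 x4) := inferInstance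
@[reducible] def a26.{u1} {x1 : Type u1} [x2 : AddCommGroup x1] {x3 : ℕ} : SubNegMonoid (x1 ⧸ (nsmulAddMonoidHom x3).range) := inferInstance
@[reducible] noncomputable def a27.{u1} {x1 : ℕ} {x2 : Type u1} [x3 : Field x2] : AddCommMonoid (Vale.Agent.P019.V x1 x2) := inferInstance
theorem a28.{u1} {x1 : Type u1} [x2 : Field x1] {x3 : ValuationSubring x1} : MonoidWithZeroHomClass (↥x3 →+* AlgebraicClosure (IsLocalRing.ResidueField ↥x3)) (↥x3) (AlgebraicClosure (IsLocalRing.ResidueField ↥x3)) := inferInstance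
theorem a29.{u1} {x1 : Type u1} [x2 : AddCommGroup x1] : ZeroHomClass (AddMonoid.End x1) x1 x1 := inferInstance
@[reducible] def a30.{u1} {x1 : Type u1} [x2 : CommRing x1] {x3 : Type u1} {x4 : Type u1} [x5 : CommRing x3] [x6 : CommRing x4] [x7 : Algebra x1 x3] [x8 : Algebra x1 x4] : Mul (TensorProduct x1 x3 x4) := inferInstance
@[reducible] noncomputable def a31.{u1} {x1 : Type u1} {x2 : Vale.Agent.P019P.ZDat x1} : SubNegMonoid x2.Pic := inferInstance
theorem a32.{u1, u2} {x1 : Type u1} {x2 : Type u2} [x3 : CommRing x1] [x4 : Field x2] : MonoidWithZeroHomClass (x1 →+* x2) x1 x2 := inferInstance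
@[reducible] noncomputable def a33.{u1} {x1 : Type u1} : Sub (x1 →₀ ℤ) := inferInstance
@[reducible] noncomputable def a34.{u1} {x1 : Type u1} [x2 : Field x1] {x3 : ValuationSubring x1} : One x3.ValueGroup := inferInstance
theorem a35.{u1} {x1 : Type u1} [x2 : CommRing x1] {x3 : Type u1} {x4 : Type u1} [x5 : CommRing x3] [x6 : CommRing x4] [x7 : Algebra x1 x3] [x8 : Algebra x1 x4] {x9 : Type u1} [x10 : CommRing x9] [x11 : Algebra x1 x9] : NonUnitalRingHomClass (TensorProduct x1 x3 x4 →+* TensorProduct x1 x9 x4) (TensorProduct x1 x3 x4) (TensorProduct x1 x9 x4) := inferInstance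
@[reducible] def a36.{u1} {x1 : Type u1} [x2 : Field x1] {x3 : ValuationSubring x1} : Mul ↥x3 := inferInstance
theorem a37.{u1, u2} {x1 : Type u1} {x2 : Type u2} [x3 : CommRing x1] [x4 : Field x2] : OneHomClass (x1 →+* x2) x1 x2 := inferInstance
@[reducible] def a38.{u1} {x1 : Type u1} [x2 : Field x1] {x3 : ValuationSubring x1} : Distrib ↥x3 := inferInstance
@[reducible] def a39.{u1} {x1 : Type u1} [x2 : AddCommGroup x1] : MulOne (AddMonoid.End x1) := inferInstance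
@[reducible] def a40.{u1} {x1 : Type u1} [x2 : AddCommGroup x1] : MulOneClass (AddMonoid.End x1) := inferInstance
theorem a41.{u1} {x1 : Type u1} [x2 : Field x1] {x3 : ValuationSubring x1} : MulHomClass (Valuation x1 x3.ValueGroup) x1 x3.ValueGroup := inferInstance
@[reducible] noncomputable def a42.{u1} {x1 : Type u1} [x2 : Field x1] {x3 : ValuationSubring x1} : LT x3.ValueGroup := inferInstance
@[reducible] def a43.{u1} {x1 : Type u1} : Monoid (Equiv.Perm x1) := inferInstance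
theorem a44.{u1, u2} {x1 : Type u1} {x2 : Type u2} [x3 : CommRing x1] [x4 : Field x2] : ZeroHomClass (x1 →+* x2) x1 x2 := inferInstance
@[reducible] noncomputable def a45.{u1} {x1 : Type u1} [x2 : Field x1] {x3 : ValuationSubring x1} : Preorder x3.ValueGroup := inferInstance
@[reducible] noncomputable def a46.{u1} {x1 : Type u1} [x2 : Field x1] {x3 : ValuationSubring x1} : PartialOrder x3.ValueGroup := inferInstance
theorem a47.{u1} {x1 : Type u1} [x2 : Field x1] {x3 : ValuationSubring x1} : OneHomClass (↥x3 →+* AlgebraicClosure (IsLocalRing.ResidueField ↥x3)) (↥x3) (AlgebraicClosure (IsLocalRing.ResidueField ↥x3)) := inferInstance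
theorem a48.{u1} {x1 : Type u1} [x2 : CommRing x1] {x3 : Type u1} {x4 : Type u1} [x5 : CommRing x3] [x6 : CommRing x4] [x7 : Algebra x1 x3] [x8 : Algebra x1 x4] {x9 : Type u1} [x10 : CommRing x9] [x11 : Algebra x1 x9] : OneHomClass (TensorProduct x1 x3 x4 →+* TensorProduct x1 x9 x4) (TensorProduct x1 x3 x4) (TensorProduct x1 x9 x4) := inferInstance
@[reducible] noncomputable def a49.{u1} {x1 : Type u1} [x2 : Field x1] {x3 : ValuationSubring x1} : Zero x3.ValueGroup := inferInstance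
theorem a50 : IsOrderedRing ℤ := inferInstance
theorem a51.{u1} {x1 : Type u1} [x2 : Field x1] {x3 : ValuationSubring x1} : MonoidHomClass (↥x3 →+* AlgebraicClosure (IsLocalRing.ResidueField ↥x3)) (↥x3) (AlgebraicClosure (IsLocalRing.ResidueField ↥x3)) := inferInstance
@[reducible] noncomputable def a52.{u1} {x1 : Type u1} [x2 : Field x1] {x3 : ValuationSubring x1} : MulZeroClass x3.ValueGroup := inferInstance
theorem a53.{u1} {x1 : Type u1} [x2 : CommRing x1] {x3 : Type u1} {x4 : Type u1} [x5 : CommRing x3] [x6 : CommRing x4] [x7 : Algebra x1 x3] [x8 : Algebra x1 x4] {x9 : Type u1} [x10 : CommRing x9] [x11 : Algebra x1 x9] : MonoidHomClass (TensorProduct x1 x3 x4 →+* TensorProduct x1 x9 x4) (TensorProduct x1 x3 x4) (TensorProduct x1 x9 x4) := inferInstance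
theorem a54 : PosMulMono ℤ := inferInstance
theorem a55.{u1} {x1 : Type u1} [x2 : Field x1] {x3 : ValuationSubring x1} : Nontrivial x3.ValueGroup := inferInstance
theorem a56.{u1} {x1 : Type u1} [x2 : Field x1] : SubsemiringClass (ValuationSubring x1) x1 := inferInstance
theorem a57.{u1} {x1 : Type u1} [x2 : Field x1] {x3 : ValuationSubring x1} : ZeroLEOneClass x3.ValueGroup := inferInstance
@[reducible] def a58.{u1} {x1 : Type u1} : NPow (Equiv.Perm x1) := inferInstance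
@[reducible] def a59.{u1} {x1 : Type u1} : MulOne (Equiv.Perm x1) := inferInstance
@[reducible] def a60.{u1} {x1 : Type u1} : MulOneClass (Equiv.Perm x1) := inferInstance
@[reducible] def a61.{u1} {x1 : Type u1} [x2 : AddCommGroup x1] {x3 : AddSubgroup x1} : AddZero ↥x3 := inferInstance
@[reducible] def a62.{u1} {x1 : Type u1} [x2 : AddCommGroup x1] {x3 : AddSubgroup x1} : AddZeroClass ↥x3 := inferInstance
@[reducible] def a63.{u1} {x1 : Type u1} [x2 : AddCommGroup x1] {x3 : AddSubgroup x1} : AddMonoid ↥x3 := inferInstance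
theorem a64.{u1} {x1 : Type u1} [x2 : CommRing x1] {x3 : Type u1} {x4 : Type u1} [x5 : CommRing x3] [x6 : CommRing x4] [x7 : Algebra x1 x3] [x8 : Algebra x1 x4] {x9 : Type u1} [x10 : CommRing x9] [x11 : Algebra x1 x9] : MonoidWithZeroHomClass (TensorProduct x1 x3 x4 →+* TensorProduct x1 x9 x4) (TensorProduct x1 x3 x4) (TensorProduct x1 x9 x4) := inferInstance
theorem a65.{u1} {x1 : Type u1} {x2 : Type u1} {x3 : Type u1} [x4 : CommRing x1] [x5 : CommRing x2] [x6 : CommRing x3] [x7 : Algebra x1 x2] [x8 : Algebra x1 x3] : ZeroHomClass (x2 →ₐ[x1] x3) x2 x3 := inferInstance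
end AFastb85343x12a
attribute [local instance] AFastb85343x12a.a0 AFastb85343x12a.a1 AFastb85343x12a.a2
  AFastb85343x12a.a3 AFastb85343x12a.a4 AFastb85343x12a.a5 AFastb85343x12a.a6 AFastb85343x12a.a7
  AFastb85343x12a.a8 AFastb85343x12a.a9 AFastb85343x12a.a10 AFastb85343x12a.a11
  AFastb85343x12a.a12 AFastb85343x12a.a13 AFastb85343x12a.a14 AFastb85343x12a.a15
  AFastb85343x12a.a16 AFastb85343x12a.a17 AFastb85343x12a.a18 AFastb85343x12a.a19
  AFastb85343x12a.a20 AFastb85343x12a.a21 AFastb85343x12a.a22 AFastb85343x12a.a23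
  AFastb85343x12a.a24 AFastb85343x12a.a25 AFastb85343x12a.a26 AFastb85343x12a.a27
  AFastb85343x12a.a28 AFastb85343x12a.a29 AFastb85343x12a.a30 AFastb85343x12a.a31
  AFastb85343x12a.a32 AFastb85343x12a.a33 AFastb85343x12a.a34 AFastb85343x12a.a35
  AFastb85343x12a.a36 AFastb85343x12a.a37 AFastb85343x12a.a38 AFastb85343x12a.a39
  AFastb85343x12a.a40 AFastb85343x12a.a41 AFastb85343x12a.a42 AFastb85343x12a.a43
  AFastb85343x12a.a44 AFastb85343x12a.a45 AFastb85343x12a.a46 AFastb85343x12a.a47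
  AFastb85343x12a.a48 AFastb85343x12a.a49 AFastb85343x12a.a50 AFastb85343x12a.a51
  AFastb85343x12a.a52 AFastb85343x12a.a53 AFastb85343x12a.a54 AFastb85343x12a.a55
  AFastb85343x12a.a56 AFastb85343x12a.a57 AFastb85343x12a.a58 AFastb85343x12a.a59
  AFastb85343x12a.a60 AFastb85343x12a.a61 AFastb85343x12a.a62 AFastb85343x12a.a63
  AFastb85343x12a.a64 AFastb85343x12a.a65
namespace AFastb85343x12b
theorem a0.{u1, u2} {x1 : Type u1} [x2 : Field x1] {x3 : Type u2} {x4 : Set ℕ} [x5 : CommRing x3] [x6 : Algebra x1 x3] : AddMonoidHomClass (x3 ≃ₗ[x1] ↑x4 →₀ x1) x3 (↑x4 →₀ x1) := inferInstance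
theorem a1.{u1} {x1 : Type u1} [x2 : Field x1] {x3 : ValuationSubring x1} : AddMonoidHomClass (↥x3 →+* AlgebraicClosure (IsLocalRing.ResidueField ↥x3)) (↥x3) (AlgebraicClosure (IsLocalRing.ResidueField ↥x3)) := inferInstance
@[reducible] noncomputable def a2.{u1} {x1 : Type u1} [x2 : Field x1] {x3 : ValuationSubring x1} : Algebra (IsLocalRing.ResidueField ↥x3) (AlgebraicClosure (IsLocalRing.ResidueField ↥x3)) := inferInstance
theorem a3.{u1, u2} {x1 : Type u1} [x2 : Field x1] {x3 : Type u2} {x4 : Set ℕ} [x5 : CommRing x3] [x6 : Algebra x1 x3] : ZeroHomClass (x3 ≃ₗ[x1] ↑x4 →₀ x1) x3 (↑x4 →₀ x1) := inferInstance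
theorem a4.{u1, u2} {x1 : Type u1} {x2 : Type u2} [x3 : CommRing x1] [x4 : Field x2] : AddMonoidHomClass (x1 →+* x2) x1 x2 := inferInstance
theorem a5.{u1, u2} {x1 : Type u1} [x2 : Field x1] {x3 : Type u2} {x4 : Set ℕ} [x5 : CommRing x3] [x6 : Algebra x1 x3] : DistribMulActionSemiHomClass (x3 ≃ₗ[x1] ↑x4 →₀ x1) (⇑(RingHom.id x1)) x3 (↑x4 →₀ x1) := inferInstance
theorem a6.{u1, u2} {x1 : Type u1} [x2 : Field x1] {x3 : Type u2} {x4 : Set ℕ} [x5 : CommRing x3] [x6 : Algebra x1 x3] : SemilinearMapClass (x3 ≃ₗ[x1] ↑x4 →₀ x1) (RingHom.id x1) x3 (↑x4 →₀ x1) := inferInstance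
theorem a7.{u1, u2} {x1 : Type u1} [x2 : Field x1] {x3 : Type u2} {x4 : Set ℕ} [x5 : CommRing x3] [x6 : Algebra x1 x3] : MulActionSemiHomClass (x3 ≃ₗ[x1] ↑x4 →₀ x1) (⇑(RingHom.id x1)) x3 (↑x4 →₀ x1) := inferInstance
theorem a8.{u1, u2} {x1 : Type u1} {x2 : Type u2} [x3 : Field x1] [x4 : Field x2] [x5 : Algebra x1 x2] : AddHomClass ((Vale.Agent.P019P.Plk x1 x2 →₀ ℤ) →+ ℤ) (Vale.Agent.P019P.Plk x1 x2 →₀ ℤ) ℤ := inferInstance
theorem a9.{u1} {x1 : Type u1} [x2 : AddCommGroup x1] : AddHomClass (AddMonoid.End x1) x1 x1 := inferInstance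
theorem a10.{u1, u2} {x1 : Type u1} [x2 : CommRing x1] {x3 : Type u2} {x4 : Set ℕ} [x5 : CommRing x3] [x6 : Algebra x1 x3] : DistribMulActionSemiHomClass (x3 ≃ₗ[x1] ↑x4 →₀ x1) (⇑(RingHom.id x1)) x3 (↑x4 →₀ x1) := inferInstance
theorem a11.{u1} {x1 : Type u1} [x2 : Field x1] {x3 : ValuationSubring x1} : MulHomClass (↥x3 →+* AlgebraicClosure (IsLocalRing.ResidueField ↥x3)) (↥x3) (AlgebraicClosure (IsLocalRing.ResidueField ↥x3)) := inferInstance
theorem a12 : AddMonoidHomClass (PowerSeries ℂ →+* ℂ) (PowerSeries ℂ) ℂ := inferInstance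
theorem a13.{u1, u2} {x1 : Type u1} [x2 : CommRing x1] {x3 : Type u2} {x4 : Set ℕ} [x5 : CommRing x3] [x6 : Algebra x1 x3] : SemilinearMapClass (x3 ≃ₗ[x1] ↑x4 →₀ x1) (RingHom.id x1) x3 (↑x4 →₀ x1) := inferInstance
theorem a14.{u1} {x1 : Type u1} [x2 : CommRing x1] {x3 : Type u1} {x4 : Type u1} [x5 : CommRing x3] [x6 : CommRing x4] [x7 : Algebra x1 x3] [x8 : Algebra x1 x4] {x9 : Type u1} [x10 : CommRing x9] [x11 : Algebra x1 x9] : MulHomClass (TensorProduct x1 x3 x4 →+* TensorProduct x1 x9 x4) (TensorProduct x1 x3 x4) (TensorProduct x1 x9 x4) := inferInstance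
end AFastb85343x12b
attribute [local instance] AFastb85343x12b.a0 AFastb85343x12b.a1 AFastb85343x12b.a2
  AFastb85343x12b.a3 AFastb85343x12b.a4 AFastb85343x12b.a5 AFastb85343x12b.a6 AFastb85343x12b.a7
  AFastb85343x12b.a8 AFastb85343x12b.a9 AFastb85343x12b.a10 AFastb85343x12b.a11
  AFastb85343x12b.a12 AFastb85343x12b.a13 AFastb85343x12b.a14
attribute [local instance] O19.fr O19.tf O19.pj O19.fl

section

end

section

end

section

section

/-!
# The `ℓ`-torsion is finite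
-/

namespace Vale.Agent.P019P

/-- The kernel of `(φ - 1)^j` on the `ℓ`-torsion. -/
private def tK {J : Type*} [AddCommGroup J] (φ : AddMonoid.End J) (ℓ j : ℕ) : AddSubgroup J where
  carrier := {x | ℓ • x = 0 ∧ ((φ - 1) ^ j) x = 0}
  zero_mem' := ⟨smul_zero _, map_zero _⟩
  add_mem' := by
    rintro a b ⟨h1, h2⟩ ⟨h3, h4⟩
    exact ⟨by rw [smul_add, h1, h3, add_zero], by rw [map_add, h2, h4, add_zero]⟩
  neg_mem' := by
    rintro a ⟨h1, h2⟩
    exact ⟨by rw [smul_neg, h1, neg_zero], by rw [map_neg, h2, neg_zero]⟩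

private theorem mem_tK {J : Type*} [AddCommGroup J] {φ : AddMonoid.End J} {ℓ j : ℕ} {x : J} :
    x ∈ tK φ ℓ j ↔ ℓ • x = 0 ∧ ((φ - 1) ^ j) x = 0 := Iff.rfl

private theorem end_mul_apply {J : Type*} [AddCommGroup J] (f g : AddMonoid.End J) (x : J) :
    (f * g) x = f (g x) := rfl

private theorem end_add_apply {J : Type*} [AddCommGroup J] (f g : AddMonoid.End J) (x : J) :
    (f + g) x = f x + g x := rfl

private theorem tK_succ {J : Type*} [AddCommGroup J] (φ : AddMonoid.End J) (ℓ j : ℕ) :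
    tK φ ℓ j ≤ tK φ ℓ (j + 1) := by
  intro x hx
  rw [mem_tK] at hx ⊢
  refine ⟨hx.1, ?_⟩
  rw [pow_succ', end_mul_apply, hx.2, map_zero]

private theorem tK_mono {J : Type*} [AddCommGroup J] (φ : AddMonoid.End J) (ℓ : ℕ) {i j : ℕ}
    (h : i ≤ j) : tK φ ℓ i ≤ tK φ ℓ j :=
  monotone_nat_of_le_succ (tK_succ φ ℓ) h

private theorem pow_apply_tors {J : Type*} [AddCommGroup J] (φ : AddMonoid.End J) {ℓ : ℕ}
    (hℓ : ℓ.Prime) (m : ℕ) {x : J} (hx : ℓ • x = 0) :
    (φ ^ ℓ ^ m) x = ((φ - 1) ^ ℓ ^ m) x + x := by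
  obtain ⟨r, hr⟩ := Commute.exists_add_pow_prime_pow_eq hℓ
    (Commute.sub_left (Commute.one_right φ) (Commute.one_right (1 : AddMonoid.End J))) m
  rw [sub_add_cancel, one_pow, mul_assoc, mul_assoc] at hr
  rw [hr, end_add_apply, end_add_apply, end_mul_apply, AddMonoid.End.natCast_apply,
    ← map_nsmul, hx, map_zero, add_zero, AddMonoid.End.one_apply]

/-- If the chain stabilises at `j`, every element of `K i` lies in `K j`. -/
private theorem tK_stable {J : Type*} [AddCommGroup J] (φ : AddMonoid.End J) (ℓ j : ℕ)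
    (hj : tK φ ℓ (j + 1) ≤ tK φ ℓ j) (i : ℕ) : tK φ ℓ (j + i) ≤ tK φ ℓ j := by
  induction i with
  | zero => exact le_rfl
  | succ i ih =>
    intro x hx
    refine ih ?_
    rw [mem_tK] at hx ⊢
    refine ⟨hx.1, ?_⟩
    have h1 : ((φ - 1) ^ i) x ∈ tK φ ℓ (j + 1) := by
      rw [mem_tK]
      refine ⟨by rw [← map_nsmul, hx.1, map_zero], ?_⟩
      rw [← end_mul_apply, ← pow_add, show j + 1 + i = j + (i + 1) by ring]
      exact hx.2
    have h2 := (mem_tK.1 (hj h1)).2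
    rw [← end_mul_apply, ← pow_add] at h2
    exact h2

private theorem tK_finite {J : Type*} [AddCommGroup J] {φ : AddMonoid.End J} {ℓ N c : ℕ}
    (hℓ : ℓ.Prime) (h : Tower φ ℓ N c) (m : ℕ) :
    Finite (tK φ ℓ (ℓ ^ m)) ∧ Nat.card (tK φ ℓ (ℓ ^ m)) ≤ ℓ ^ (c + N * m) := by
  have hcard := h.card m
  have hpos : 0 < ℓ ^ (c + N * m) := pow_pos hℓ.pos _
  have hfin : Finite {x : J // (φ ^ ℓ ^ m) x = x ∧ ∃ k : ℕ, ℓ ^ k • x = 0} := by
    apply Nat.finite_of_card_ne_zero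
    rw [hcard]
    exact hpos.ne'
  let f : tK φ ℓ (ℓ ^ m) → {x : J // (φ ^ ℓ ^ m) x = x ∧ ∃ k : ℕ, ℓ ^ k • x = 0} :=
    fun x => ⟨x.1, by
      have hx := mem_tK.1 x.2
      refine ⟨?_, 1, by rw [pow_one]; exact hx.1⟩
      rw [pow_apply_tors φ hℓ m hx.1, hx.2, zero_add]⟩
  have hf : Function.Injective f := by
    intro x y hxy
    apply Subtype.ext
    exact congrArg (fun z => z.1) hxy
  refine ⟨Finite.of_injective f hf, ?_⟩
  rw [← hcard]
  exact Nat.card_le_card_of_injective f hf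

private theorem tK_fin {J : Type*} [AddCommGroup J] {φ : AddMonoid.End J} {ℓ N c : ℕ}
    (hℓ : ℓ.Prime) (h : Tower φ ℓ N c) (j : ℕ) : Finite (tK φ ℓ j) := by
  have := (tK_finite hℓ h j).1
  have hle : tK φ ℓ j ≤ tK φ ℓ (ℓ ^ j) := tK_mono φ ℓ (Nat.lt_pow_self hℓ.one_lt).le
  exact Finite.of_injective _ (AddSubgroup.inclusion_injective hle)

private theorem mem_tK_of_tors {J : Type*} [AddCommGroup J] {φ : AddMonoid.End J} {ℓ N c : ℕ}
    (hℓ : ℓ.Prime) (h : Tower φ ℓ N c) {x : J} (hx : ℓ • x = 0) : ∃ m, x ∈ tK φ ℓ (ℓ ^ m) := by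
  obtain ⟨m, hm⟩ := h.ex x ⟨1, by rw [pow_one]; exact hx⟩
  refine ⟨m, mem_tK.2 ⟨hx, ?_⟩⟩
  rw [pow_apply_tors φ hℓ m hx] at hm
  exact left_eq_add.1 (by rw [add_comm]; exact hm.symm)

private theorem two_mul_card_le {J : Type*} [AddCommGroup J] {K L : AddSubgroup J} (h : K < L)
    [Finite L] : 2 * Nat.card K ≤ Nat.card L := by
  have : Finite K := Finite.of_injective _ (AddSubgroup.inclusion_injective h.le)
  have hdvd : Nat.card K ∣ Nat.card L := AddSubgroup.card_dvd_of_le h.le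
  obtain ⟨d, hd⟩ := hdvd
  have hL : 0 < Nat.card L := Nat.card_pos
  have hne : Nat.card K ≠ Nat.card L := by
    intro he
    exact h.ne (AddSubgroup.eq_of_le_of_card_ge h.le he.ge)
  have hd2 : 2 ≤ d := by
    rcases d with _ | _ | d
    · simp at hd; omega
    · simp at hd; omega
    · omega
  rw [hd, mul_comm 2]
  exact Nat.mul_le_mul_left _ hd2

private theorem arith {ℓ N c : ℕ} (hℓ : ℓ.Prime) : ∃ m : ℕ, ℓ ^ (c + N * m) < 2 ^ ℓ ^ m := by
  set k := ℓ * (c + 2 * N) with hk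
  refine ⟨2 * k, ?_⟩
  have h1 : ℓ ^ (c + N * (2 * k)) ≤ 2 ^ (ℓ * (c + N * (2 * k))) := by
    rw [pow_mul]
    exact Nat.pow_le_pow_left Nat.lt_two_pow_self.le _
  refine h1.trans_lt (Nat.pow_lt_pow_right one_lt_two ?_)
  have h2 : k < ℓ ^ k := Nat.lt_pow_self hℓ.one_lt
  have h3 : ℓ ^ (2 * k) = ℓ ^ k * ℓ ^ k := by rw [two_mul, pow_add]
  rw [h3]
  have h4 : (k + 1) * (k + 1) ≤ ℓ ^ k * ℓ ^ k := Nat.mul_le_mul h2 h2
  refine lt_of_lt_of_le ?_ h4
  have hl : 0 < ℓ := hℓ.pos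
  rcases Nat.eq_zero_or_pos (c + 2 * N) with h0 | h0
  · have hc : c = 0 := by omega
    have hN : N = 0 := by omega
    subst hc; subst hN; simp
  · have hk1 : 1 ≤ k := by rw [hk]; exact Nat.mul_pos hl h0
    have h5 : ℓ * (c + N * (2 * k)) ≤ k * k := by
      calc ℓ * (c + N * (2 * k)) ≤ ℓ * (c * k + N * (2 * k)) := by
            apply Nat.mul_le_mul_left
            have : c * 1 ≤ c * k := Nat.mul_le_mul_left _ hk1
            omega
        _ = (ℓ * (c + 2 * N)) * k := by ring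
        _ = k * k := by rw [← hk]
    nlinarith

theorem Tower.finite {J : Type*} [AddCommGroup J] {φ : AddMonoid.End J} {ℓ N c : ℕ}
    (hℓ : ℓ.Prime) (h : Tower φ ℓ N c) : {x : J | ℓ • x = 0}.Finite := by
  by_cases hst : ∃ j, tK φ ℓ (j + 1) ≤ tK φ ℓ j
  · obtain ⟨j, hj⟩ := hst
    have := tK_fin hℓ h j
    refine Set.Finite.subset (Set.toFinite (tK φ ℓ j : Set J)) ?_
    intro x hx
    obtain ⟨m, hm⟩ := mem_tK_of_tors hℓ h hx
    exact tK_stable φ ℓ j hj (ℓ ^ m) (tK_mono φ ℓ (Nat.le_add_left _ _) hm)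
  · exfalso
    push Not at hst
    have hlt : ∀ j, tK φ ℓ j < tK φ ℓ (j + 1) := fun j =>
      lt_of_le_not_ge (tK_succ φ ℓ j) (hst j)
    have hpow : ∀ j, 2 ^ j ≤ Nat.card (tK φ ℓ j) := by
      intro j
      induction j with
      | zero =>
        have := tK_fin hℓ h 0
        rw [pow_zero]
        exact Nat.card_pos
      | succ j ih =>
        have := tK_fin hℓ h (j + 1)
        rw [pow_succ, mul_comm]
        exact (Nat.mul_le_mul_left 2 ih).trans (two_mul_card_le (hlt j))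
    obtain ⟨m, hm⟩ := arith (ℓ := ℓ) (N := N) (c := c) hℓ
    exact absurd ((hpow (ℓ ^ m)).trans (tK_finite hℓ h m).2) (not_le.2 hm)

end Vale.Agent.P019P
end
end

section

section

/-!
# The order of the `ℓ`-torsion of a divisible group
-/

namespace Vale.Agent.P019P

/-- Order of a subgroup through the kernel and the image of an endomorphism. -/
theorem card_ker_map {J : Type*} [AddCommGroup J] (f : J →+ J) (P : AddSubgroup J) :
    Nat.card P = Nat.card (P ⊓ f.ker : AddSubgroup J) * Nat.card (P.map f) := by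
  set g : P →+ J := f.comp P.subtype with hg
  have h1 : Nat.card P = Nat.card (P ⧸ g.ker) * Nat.card g.ker :=
    AddSubgroup.card_eq_card_quotient_mul_card_addSubgroup _
  have h2 : Nat.card (P ⧸ g.ker) = Nat.card (P.map f) := by
    rw [Nat.card_congr (QuotientAddGroup.quotientKerEquivRange g).toEquiv]
    have h3 : g.range = P.map f := by
      ext x
      constructor
      · rintro ⟨y, rfl⟩
        exact ⟨y, y.2, rfl⟩
      · rintro ⟨y, hy, rfl⟩
        exact ⟨⟨y, hy⟩, rfl⟩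
    rw [h3]
  have h4 : Nat.card g.ker = Nat.card (P ⊓ f.ker : AddSubgroup J) := by
    refine Nat.card_congr ⟨fun x => ⟨x.1.1, x.1.2, x.2⟩, fun x => ⟨⟨x.1, x.2.1⟩, x.2.2⟩,
      fun x => rfl, fun x => rfl⟩
  rw [h1, h2, h4, mul_comm]

theorem Tower.card_tors {J : Type*} [AddCommGroup J] {φ : AddMonoid.End J} {ℓ N c : ℕ}
    (hℓ : ℓ.Prime) (h : Tower φ ℓ N c) (hdiv : ∀ x : J, ∃ y, x = ℓ • y) :
    Nat.card {x : J // ℓ • x = 0} = ℓ ^ N := by
  classical
  -- the primary part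
  let Jl : AddSubgroup J :=
    { carrier := {x | ∃ k : ℕ, ℓ ^ k • x = 0}
      zero_mem' := ⟨0, smul_zero _⟩
      add_mem' := by
        rintro x y ⟨k, hk⟩ ⟨l, hl⟩
        refine ⟨k + l, ?_⟩
        rw [smul_add, pow_add, mul_smul, mul_smul, hl, smul_zero, add_zero,
          ← mul_smul, mul_comm, mul_smul, hk, smul_zero]
      neg_mem' := by
        rintro x ⟨k, hk⟩
        exact ⟨k, by rw [smul_neg, hk, neg_zero]⟩ }
  have hJl : ∀ x, x ∈ Jl ↔ ∃ k : ℕ, ℓ ^ k • x = 0 := fun _ => Iff.rfl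
  let A : ℕ → AddSubgroup J := fun m =>
    { carrier := {x | (φ ^ ℓ ^ m) x = x ∧ x ∈ Jl}
      zero_mem' := ⟨map_zero _, Jl.zero_mem⟩
      add_mem' := by
        rintro x y ⟨h1, h2⟩ ⟨h3, h4⟩
        exact ⟨by rw [map_add, h1, h3], Jl.add_mem h2 h4⟩
      neg_mem' := by
        rintro x ⟨h1, h2⟩
        exact ⟨by rw [map_neg, h1], Jl.neg_mem h2⟩ }
  have hA : ∀ m x, x ∈ A m ↔ (φ ^ ℓ ^ m) x = x ∧ x ∈ Jl := fun _ _ => Iff.rfl
  have hcard : ∀ m, Nat.card (A m) = ℓ ^ (c + N * m) := fun m => h.card m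
  let V : AddSubgroup J :=
    { carrier := {x | ℓ • x = 0}
      zero_mem' := smul_zero _
      add_mem' := by
        rintro x y (h1 : ℓ • x = 0) (h2 : ℓ • y = 0)
        show ℓ • (x + y) = 0
        rw [smul_add, h1, h2, add_zero]
      neg_mem' := by
        rintro x (h1 : ℓ • x = 0)
        show ℓ • (-x) = 0
        rw [smul_neg, h1, neg_zero] }
  have hV : ∀ x, x ∈ V ↔ ℓ • x = 0 := fun _ => Iff.rfl
  have hVfin : (V : Set J).Finite := h.finite hℓ
  have hV2fin : {x : J | ℓ • (ℓ • x) = 0}.Finite := by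
    have e : {x : J | ℓ • (ℓ • x) = 0} ⊆ ⋃ v ∈ (V : Set J), {x : J | ℓ • x = v} := by
      intro x hx
      exact Set.mem_biUnion (x := ℓ • x) hx rfl
    refine (hVfin.biUnion fun v _ => ?_).subset e
    by_cases hv : ∃ x0 : J, ℓ • x0 = v
    · obtain ⟨x0, hx0⟩ := hv
      refine (hVfin.image (fun u => x0 + u)).subset ?_
      intro x hx
      refine ⟨x - x0, ?_, add_sub_cancel _ _⟩
      show ℓ • (x - x0) = 0
      rw [smul_sub, hx0]
      exact sub_eq_zero.2 hx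
    · convert Set.finite_empty
      ext x
      simp only [Set.mem_empty_iff_false, iff_false]
      exact fun hx => hv ⟨x, hx⟩
  -- powers fixing a point
  have hpow : ∀ (f : AddMonoid.End J) (x : J), f x = x → ∀ n : ℕ, (f ^ n) x = x := by
    intro f x hx n
    induction n with
    | zero => rfl
    | succ n ih => rw [pow_succ]; show (f ^ n) (f x) = x; rw [hx, ih]
  have hmono : ∀ (x : J) (a b : ℕ), a ≤ b → (φ ^ ℓ ^ a) x = x → (φ ^ ℓ ^ b) x = x := by
    intro x a b hab hx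
    have : (φ ^ ℓ ^ b : AddMonoid.End J) = (φ ^ ℓ ^ a) ^ (ℓ ^ (b - a)) := by
      rw [← pow_mul, ← pow_add, Nat.add_sub_cancel' hab]
    rw [this]
    exact hpow _ _ hx _
  obtain ⟨m, hm⟩ : ∃ m : ℕ, ∀ x : J, ℓ • (ℓ • x) = 0 → (φ ^ ℓ ^ m) x = x := by
    have h1 : ∀ x ∈ hV2fin.toFinset, ∃ m : ℕ, (φ ^ ℓ ^ m) x = x := by
      intro x hx
      rw [Set.Finite.mem_toFinset] at hx
      exact h.ex x ⟨2, by rw [pow_two, mul_smul]; exact hx⟩
    choose! M hM using h1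
    refine ⟨hV2fin.toFinset.sup M, fun x hx => ?_⟩
    have hx' : x ∈ hV2fin.toFinset := (Set.Finite.mem_toFinset _).2 hx
    exact hmono x _ _ (Finset.le_sup hx') (hM x hx')
  set ψ : AddMonoid.End J := φ ^ ℓ ^ m with hψ
  set δ : AddMonoid.End J := ψ - 1 with hδ
  set NN : AddMonoid.End J := ∑ i ∈ Finset.range ℓ, ψ ^ i with hNN
  let D : J →+ J := AddMonoidHom.mk' (fun x => ψ x - x) fun x y => by
    rw [map_add]; abel
  have hD : ∀ x, D x = ψ x - x := fun x => rfl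
  have hψl : ψ ^ ℓ = φ ^ ℓ ^ (m + 1) := by rw [hψ, ← pow_mul, ← pow_succ]
  have hgeom : ∀ x, NN (D x) = (φ ^ ℓ ^ (m + 1)) x - x := by
    intro x
    have e : NN * δ = ψ ^ ℓ - 1 := geom_sum_mul ψ ℓ
    have e2 : (NN * δ) x = (ψ ^ ℓ - 1) x := by rw [e]
    rw [hψl] at e2
    exact e2
  have hNNfix : ∀ w, ψ w = w → NN w = ℓ • w := by
    intro w hw
    have e : NN w = ∑ i ∈ Finset.range ℓ, (ψ ^ i) w :=
      map_sum (AddMonoidHom.eval w : (J →+ J) →+ J) (fun i => (ψ ^ i : AddMonoid.End J)) _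
    rw [e, Finset.sum_congr rfl fun i _ => hpow ψ w hw i, Finset.sum_const, Finset.card_range]
  -- step (2)
  have h2 : ∀ y ∈ Jl, NN y = 0 → ℓ • y = 0 := by
    intro y hy hNy
    by_contra hne
    have hex : ∃ k : ℕ, ℓ ^ k • y = 0 := hy
    set k := Nat.find hex with hk
    have hk0 : ℓ ^ k • y = 0 := Nat.find_spec hex
    have hkm : ∀ j < k, ℓ ^ j • y ≠ 0 := fun j hj => Nat.find_min hex hj
    have hk2 : 2 ≤ k := by
      by_contra hlt
      push Not at hlt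
      have : k = 0 ∨ k = 1 := by omega
      rcases this with h0 | h1
      · rw [h0, pow_zero, one_smul] at hk0
        exact hne (by rw [hk0, smul_zero])
      · rw [h1, pow_one] at hk0
        exact hne hk0
    have e1 : ℓ • (ℓ • (ℓ ^ (k - 2) • y)) = 0 := by
      rw [← mul_smul, ← mul_smul, mul_assoc, ← pow_succ', ← pow_succ',
        show k - 2 + 1 + 1 = k by omega]
      exact hk0
    have e2 : ℓ • (ℓ ^ (k - 2) • y) ≠ 0 := by
      rw [← mul_smul, ← pow_succ']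
      exact hkm _ (by omega)
    apply e2
    rw [← hNNfix _ (hm _ e1), map_nsmul, hNy, smul_zero]
  -- the group `B`
  let B : AddSubgroup J :=
    { carrier := {x | x ∈ Jl ∧ ℓ • x ∈ A m}
      zero_mem' := ⟨Jl.zero_mem, by rw [smul_zero]; exact (A m).zero_mem⟩
      add_mem' := by
        rintro x y ⟨h1, h3⟩ ⟨h4, h5⟩
        exact ⟨Jl.add_mem h1 h4, by rw [smul_add]; exact (A m).add_mem h3 h5⟩
      neg_mem' := by
        rintro x ⟨h1, h3⟩
        exact ⟨Jl.neg_mem h1, by rw [smul_neg]; exact (A m).neg_mem h3⟩ }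
  have hB : ∀ x, x ∈ B ↔ x ∈ Jl ∧ ℓ • x ∈ A m := fun _ => Iff.rfl
  have hδJl : ∀ x ∈ Jl, D x ∈ Jl := by
    rintro x ⟨k, hk⟩
    exact ⟨k, by rw [← map_nsmul, hk, map_zero]⟩
  have hVJl : ∀ x, ℓ • x = 0 → x ∈ Jl := fun x hx => ⟨1, by rw [pow_one]; exact hx⟩
  have hAfin : Finite (A m) := by
    refine Nat.finite_of_card_ne_zero ?_
    rw [hcard]
    exact pow_ne_zero _ hℓ.ne_zero
  have hVfin' : Finite V := hVfin
  have hApos : 0 < Nat.card (A m) := Nat.card_pos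
  -- multiplication by `ℓ` on `B`
  have c1 : Nat.card B = Nat.card V * Nat.card (A m) := by
    have e := card_ker_map (nsmulAddMonoidHom ℓ : J →+ J) B
    have e1 : (B ⊓ (nsmulAddMonoidHom ℓ : J →+ J).ker : AddSubgroup J) = V := by
      ext x
      rw [AddSubgroup.mem_inf, AddMonoidHom.mem_ker, nsmulAddMonoidHom_apply, hV]
      refine ⟨fun hx => hx.2, fun hx => ⟨⟨hVJl x hx, ?_⟩, hx⟩⟩
      rw [hx]
      exact (A m).zero_mem
    have e2 : B.map (nsmulAddMonoidHom ℓ : J →+ J) = A m := by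
      ext x
      rw [AddSubgroup.mem_map]
      constructor
      · rintro ⟨y, hy, rfl⟩
        exact hy.2
      · intro hx
        obtain ⟨y, hy⟩ := hdiv x
        obtain ⟨k, hk⟩ := hx.2
        refine ⟨y, ⟨⟨k + 1, ?_⟩, ?_⟩, hy.symm⟩
        · rw [pow_succ, mul_smul, ← hy, hk]
        · rw [← hy]; exact hx
    rwa [e1, e2] at e
  -- `δ` on `B`
  have hkerA : ∀ P : AddSubgroup J, (∀ x ∈ P, x ∈ Jl) → A m ≤ P →
      (P ⊓ D.ker : AddSubgroup J) = A m := by
    intro P hP hAP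
    ext x
    rw [AddSubgroup.mem_inf, AddMonoidHom.mem_ker, hA]
    constructor
    · rintro ⟨h1, h3⟩
      exact ⟨sub_eq_zero.1 h3, hP x h1⟩
    · intro hx
      exact ⟨hAP hx, sub_eq_zero.2 hx.1⟩
  have hAB : A m ≤ B := fun x hx => ⟨hx.2, (A m).nsmul_mem hx ℓ⟩
  have c2 : Nat.card B = Nat.card (A m) * Nat.card (B.map D) := by
    have e := card_ker_map D B
    rwa [hkerA B (fun x hx => hx.1) hAB] at e
  have hBV : B.map D ≤ V := by
    rintro _ ⟨x, hx, rfl⟩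
    rw [hV]
    rw [← map_nsmul]
    exact sub_eq_zero.2 hx.2.1
  have c3 : Nat.card (B.map D) = Nat.card V := by
    have : Nat.card (A m) * Nat.card (B.map D) = Nat.card (A m) * Nat.card V := by
      rw [← c2, c1, mul_comm]
    exact Nat.eq_of_mul_eq_mul_left hApos this
  have c4 : B.map D = V := AddSubgroup.eq_of_le_of_card_ge hBV c3.ge
  -- `δ` on `A (m + 1)`
  have hAA : A m ≤ A (m + 1) := fun x hx => ⟨hmono x m (m + 1) (Nat.le_succ m) hx.1, hx.2⟩
  have c5 : (A (m + 1)).map D = V := by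
    ext y
    rw [AddSubgroup.mem_map]
    constructor
    · rintro ⟨x, hx, rfl⟩
      rw [hV]
      refine h2 _ (hδJl x hx.2) ?_
      have := hgeom x
      rw [hx.1, sub_self] at this
      exact this
    · intro hy
      have hy' : y ∈ B.map D := by rw [c4]; exact hy
      obtain ⟨x, hx, rfl⟩ := hy'
      refine ⟨x, ⟨?_, hx.1⟩, rfl⟩
      have e1 : ψ (D x) = D x := hm _ (by
        have : ℓ • D x = 0 := hy
        rw [this, smul_zero])
      have e2 := hNNfix _ e1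
      rw [hgeom] at e2
      have e3 : ℓ • D x = 0 := hy
      rw [e3] at e2
      exact sub_eq_zero.1 e2
  have c6 : Nat.card (A (m + 1)) = Nat.card (A m) * Nat.card V := by
    have e := card_ker_map D (A (m + 1))
    rwa [hkerA (A (m + 1)) (fun x hx => hx.2) hAA, c5] at e
  rw [hcard, hcard, mul_add, mul_one, ← add_assoc, pow_add] at c6
  exact (Nat.eq_of_mul_eq_mul_left (pow_pos hℓ.pos _) c6).symm

end Vale.Agent.P019P
end
end

section

section

/-!
# The quotient of a tower group by `ℓ` is finite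
-/

namespace Vale.Agent.P019P

theorem fq_pow_fix {J : Type*} [AddCommGroup J] {f : AddMonoid.End J} {x : J}
    (h : f x = x) (n : ℕ) : (f ^ n) x = x := by
  induction n with
  | zero => rfl
  | succ n ih =>
    rw [pow_succ]
    show (f ^ n) (f x) = x
    rw [h, ih]

theorem fq_mono {J : Type*} [AddCommGroup J] {φ : AddMonoid.End J} {ℓ : ℕ} {x : J}
    {m m' : ℕ} (hm : m ≤ m') (h : (φ ^ ℓ ^ m) x = x) : (φ ^ ℓ ^ m') x = x := by
  obtain ⟨d, rfl⟩ := Nat.exists_eq_add_of_le hm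
  rw [pow_add ℓ, pow_mul]
  exact fq_pow_fix h _

/-- the `ℓ`-primary fixed group at level `m`. -/
def fqA {J : Type*} [AddCommGroup J] (φ : AddMonoid.End J) (ℓ m : ℕ) : AddSubgroup J where
  carrier := {x | (φ ^ ℓ ^ m) x = x ∧ ∃ k : ℕ, ℓ ^ k • x = 0}
  zero_mem' := ⟨map_zero _, 0, smul_zero _⟩
  add_mem' := by
    rintro a b ⟨ha, k, hk⟩ ⟨hb, k', hk'⟩
    refine ⟨by rw [map_add, ha, hb], k + k', ?_⟩
    rw [smul_add, pow_add, mul_smul, smul_comm, hk, smul_zero, mul_smul, hk', smul_zero, add_zero]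
  neg_mem' := by
    rintro a ⟨ha, k, hk⟩
    exact ⟨by rw [map_neg, ha], k, by rw [smul_neg, hk, neg_zero]⟩

/-- the map of the level-`m` group to the quotient. -/
def fqF {J : Type*} [AddCommGroup J] (φ : AddMonoid.End J) (ℓ m : ℕ) :
    fqA φ ℓ m →+ (J ⧸ (nsmulAddMonoidHom ℓ : J →+ J).range) :=
  (QuotientAddGroup.mk' _).comp (fqA φ ℓ m).subtype

theorem fq_card {J : Type*} [AddCommGroup J] {φ : AddMonoid.End J} {ℓ N c : ℕ}
    (hℓ : ℓ.Prime) (h : Tower φ ℓ N c) (m : ℕ) :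
    Nat.card (fqF φ ℓ m).range ≤ Nat.card {x : J // ℓ • x = 0} ∧ Finite (fqF φ ℓ m).range := by
  have hV : Finite {x : J // ℓ • x = 0} := (Tower.finite hℓ h).to_subtype
  have hA : Nat.card (fqA φ ℓ m) = ℓ ^ (c + N * m) := h.card m
  have hAf : Finite (fqA φ ℓ m) := by
    apply Nat.finite_of_card_ne_zero
    rw [hA]
    exact pow_ne_zero _ hℓ.pos.ne'
  have hfr : Finite (fqF φ ℓ m).range :=
    Finite.of_surjective (fqF φ ℓ m).rangeRestrict (fqF φ ℓ m).rangeRestrict_surjective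
  refine ⟨?_, hfr⟩
  set g : fqA φ ℓ m →+ fqA φ ℓ m := nsmulAddMonoidHom ℓ with hg
  have h1 := g.range.card_mul_index
  have h2 := g.ker.card_mul_index
  rw [AddSubgroup.index_ker] at h2
  have h3 : g.range.index = Nat.card g.ker := by
    have hpos : 0 < Nat.card g.range := Nat.card_pos
    have : Nat.card g.range * g.range.index = Nat.card g.range * Nat.card g.ker := by
      rw [h1, ← h2, mul_comm]
    exact Nat.eq_of_mul_eq_mul_left hpos this
  have h4 : g.range ≤ (fqF φ ℓ m).ker := by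
    rintro _ ⟨a, rfl⟩
    rw [AddMonoidHom.mem_ker]
    show (QuotientAddGroup.mk' _) (((g a : fqA φ ℓ m)) : J) = 0
    rw [QuotientAddGroup.mk'_apply, QuotientAddGroup.eq_zero_iff]
    exact ⟨(a : J), by simp [hg]⟩
  have h5 : (fqF φ ℓ m).ker.index ∣ g.range.index := AddSubgroup.index_dvd_of_le h4
  have h6 : g.range.index ≠ 0 := by
    rw [h3]; exact Nat.card_pos.ne'
  have h7 := Nat.le_of_dvd (Nat.pos_of_ne_zero h6) h5
  rw [AddSubgroup.index_ker, h3] at h7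
  refine h7.trans ?_
  refine Nat.card_le_card_of_injective
    (fun a : g.ker => (⟨((a : fqA φ ℓ m) : J), ?_⟩ : {x : J // ℓ • x = 0})) ?_
  · have := a.2
    rw [AddMonoidHom.mem_ker] at this
    have h8 := congrArg (fun z : fqA φ ℓ m => (z : J)) this
    simpa [hg] using h8
  · intro a b hab
    have := congrArg Subtype.val hab
    exact Subtype.ext (Subtype.ext this)

theorem fq_exists {J : Type*} [AddCommGroup J] {φ : AddMonoid.End J} {ℓ N c : ℕ}
    (hℓ : ℓ.Prime) (h : Tower φ ℓ N c) (htor : ∀ x : J, ∃ n : ℕ, 0 < n ∧ n • x = 0)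
    (q : J ⧸ (nsmulAddMonoidHom ℓ : J →+ J).range) :
    ∃ m : ℕ, q ∈ (fqF φ ℓ m).range := by
  obtain ⟨x, rfl⟩ := QuotientAddGroup.mk_surjective q
  obtain ⟨n, hn, hnx⟩ := htor x
  obtain ⟨a, b, hb, rfl⟩ := Nat.exists_eq_pow_mul_and_not_dvd hn.ne' ℓ hℓ.ne_one
  have hcop : Nat.Coprime b ℓ := ((Nat.Prime.coprime_iff_not_dvd hℓ).2 hb).symm
  have hbez := Nat.gcd_eq_gcd_ab b ℓ
  rw [hcop.gcd_eq_one] at hbez
  set u := Nat.gcdA b ℓ
  set v := Nat.gcdB b ℓ
  set y : J := (b : ℤ) • (u • x) with hy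
  have hxy : x = y + ℓ • (v • x) := by
    have : ((1 : ℕ) : ℤ) • x = ((b : ℤ) * u + (ℓ : ℤ) * v) • x := by rw [← hbez]
    rw [add_smul, mul_smul, mul_smul, Nat.cast_one, one_smul] at this
    rw [hy, ← natCast_zsmul (v • x) ℓ]
    exact this
  have hk : ℓ ^ a • y = 0 := by
    have : ℓ ^ a • y = u • ((ℓ ^ a * b) • x) := by
      rw [hy, ← natCast_zsmul _ (ℓ ^ a), ← natCast_zsmul x, ← mul_smul, ← mul_smul, ← mul_smul]
      congr 1
      push_cast
      ring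
    rw [this, hnx, smul_zero]
  obtain ⟨m, hm⟩ := h.ex y ⟨a, hk⟩
  refine ⟨m, ⟨⟨y, hm, a, hk⟩, ?_⟩⟩
  show (QuotientAddGroup.mk' _) y = _
  rw [QuotientAddGroup.mk'_apply, QuotientAddGroup.eq]
  refine ⟨v • x, ?_⟩
  rw [nsmulAddMonoidHom_apply]
  nth_rewrite 2 [hxy]
  abel

theorem Tower.finite_quotA {J : Type*} [AddCommGroup J] {φ : AddMonoid.End J} {ℓ N c : ℕ}
    (hℓ : ℓ.Prime) (h : Tower φ ℓ N c) (htor : ∀ x : J, ∃ n : ℕ, 0 < n ∧ n • x = 0) :
    Finite (J ⧸ (nsmulAddMonoidHom ℓ : J →+ J).range) := by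
  by_contra hinf
  have hinf' : Infinite (J ⧸ (nsmulAddMonoidHom ℓ : J →+ J).range) :=
    not_finite_iff_infinite.1 hinf
  obtain ⟨S, hS⟩ := Infinite.exists_subset_card_eq
    (J ⧸ (nsmulAddMonoidHom ℓ : J →+ J).range) (Nat.card {x : J // ℓ • x = 0} + 1)
  choose M hM using fun q => fq_exists hℓ h htor q
  set m := S.sup M with hm
  have hsub : ∀ q ∈ S, q ∈ (fqF φ ℓ m).range := by
    intro q hq
    obtain ⟨⟨y, hy1, hy2⟩, hyq⟩ := hM q
    exact ⟨⟨y, fq_mono (Finset.le_sup hq) hy1, hy2⟩, hyq⟩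
  obtain ⟨hc, hfin⟩ := fq_card hℓ h m
  have hle : S.card ≤ Nat.card (fqF φ ℓ m).range := by
    have := Nat.card_le_card_of_injective
      (fun q : S => (⟨q.1, hsub q.1 q.2⟩ : (fqF φ ℓ m).range))
      (fun a b hab => Subtype.ext (congrArg (fun z : (fqF φ ℓ m).range => z.1) hab))
    simpa using this
  omega

end Vale.Agent.P019P
end
end
namespace AFastb85343x601a
@[reducible] def a0.{u1} {x1 : Type u1} [x2 : AddCommGroup x1] {x3 : AddMonoid.End x1} {x4 : ℕ} {x5 : ℕ} : AddZero ↥(Vale.Agent.P019P.fqA x3 x4 x5) := inferInstance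
@[reducible] def a1.{u1} {x1 : Type u1} [x2 : AddCommGroup x1] {x3 : AddMonoid.End x1} {x4 : ℕ} {x5 : ℕ} : AddZeroClass ↥(Vale.Agent.P019P.fqA x3 x4 x5) := inferInstance
@[reducible] def a2.{u1} {x1 : Type u1} [x2 : AddCommGroup x1] {x3 : AddMonoid.End x1} {x4 : ℕ} {x5 : ℕ} : AddMonoid ↥(Vale.Agent.P019P.fqA x3 x4 x5) := inferInstance
end AFastb85343x601a
attribute [local instance] AFastb85343x601a.a0 AFastb85343x601a.a1 AFastb85343x601a.a2

section

section

/-!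
# The quotient by `ℓ`, and characters
-/

namespace Vale.Agent.P019P

theorem Tower.finite_quot {J : Type*} [AddCommGroup J] {φ : AddMonoid.End J} {ℓ N c : ℕ}
    (hℓ : ℓ.Prime) (h : Tower φ ℓ N c) (htor : ∀ x : J, ∃ n : ℕ, 0 < n ∧ n • x = 0) :
    Finite (J ⧸ (nsmulAddMonoidHom ℓ : J →+ J).range) :=
  Tower.finite_quotA hℓ h htor

theorem pow_fix {J : Type*} [AddCommGroup J] (s : AddMonoid.End J) {a : ℕ} {x : J}
    (h : (s ^ a) x = x) (b : ℕ) : (s ^ (a * b)) x = x := by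
  induction b with
  | zero => rw [mul_zero, pow_zero]; rfl
  | succ b ih =>
    rw [Nat.mul_succ, pow_add]
    change (s ^ (a * b)) ((s ^ a) x) = x
    rw [h, ih]

theorem exists_char {J : Type*} [AddCommGroup J] (s : AddMonoid.End J) (ℓ : ℕ)
    (hper : ∀ x : J, ∃ n : ℕ, 0 < n ∧ (s ^ n) x = x)
    (hfin : Finite (J ⧸ (nsmulAddMonoidHom ℓ : J →+ J).range)) (x : J)
    (hx : ¬ ∃ y, x = ℓ • y) :
    ∃ (n : ℕ) (ψ : AddChar J ℂ) (x' : J), 0 < n ∧ (∀ y, ψ ((s ^ n) y) = ψ y) ∧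
      (∀ y, ψ (ℓ • y) = 1) ∧ (s ^ n) x' = x' ∧ ψ x' ≠ 1 := by
  classical
  set Q := J ⧸ (nsmulAddMonoidHom ℓ : J →+ J).range with hQ
  have := Fintype.ofFinite Q
  let mk : J →+ Q := QuotientAddGroup.mk' _
  have hmk : ∀ y : J, mk y = 0 ↔ ∃ z, y = ℓ • z := by
    intro y
    change ((y : J) : J ⧸ (nsmulAddMonoidHom ℓ : J →+ J).range) = 0 ↔ _
    rw [QuotientAddGroup.eq_zero_iff]
    constructor
    · rintro ⟨z, hz⟩
      exact ⟨z, hz.symm⟩
    · rintro ⟨z, hz⟩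
      exact ⟨z, hz.symm⟩
  have hsurj : ∀ q : Q, ∃ y : J, mk y = q := QuotientAddGroup.mk'_surjective _
  choose r hr using hsurj
  choose p hp0 hp using fun q => hper (r q)
  set n := ∏ q : Q, p q with hn
  have hfix : ∀ q, (s ^ n) (r q) = r q := by
    intro q
    obtain ⟨m, hm⟩ : p q ∣ n := Finset.dvd_prod_of_mem _ (Finset.mem_univ q)
    rw [hm]
    exact pow_fix s (hp q) m
  have hinv : ∀ y, mk ((s ^ n) y) = mk y := by
    intro y
    have h1 : mk (y - r (mk y)) = 0 := by rw [map_sub, hr, sub_self]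
    obtain ⟨z, hz⟩ := (hmk _).1 h1
    have h2 : y = r (mk y) + ℓ • z := by rw [← hz]; abel
    have h3 : (s ^ n) y = r (mk y) + ℓ • (s ^ n) z := by
      conv_lhs => rw [h2]
      rw [map_add, hfix, map_nsmul]
    rw [h3, map_add, hr, (hmk (ℓ • (s ^ n) z)).2 ⟨_, rfl⟩, add_zero]
  have hx0 : mk x ≠ 0 := fun h => hx ((hmk x).1 h)
  obtain ⟨ψ0, hψ0⟩ := AddChar.exists_apply_ne_zero.2 hx0
  refine ⟨n, ψ0.compAddMonoidHom mk, r (mk x), Finset.prod_pos fun q _ => hp0 q, ?_, ?_, hfix _, ?_⟩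
  · intro y
    rw [AddChar.compAddMonoidHom_apply, AddChar.compAddMonoidHom_apply, hinv]
  · intro y
    rw [AddChar.compAddMonoidHom_apply, (hmk (ℓ • y)).2 ⟨_, rfl⟩, AddChar.map_zero_eq_one]
  · rw [AddChar.compAddMonoidHom_apply, hr]
    exact hψ0

end Vale.Agent.P019P
end
end

section

section

/-!
# The determinant of `1 - M ^ n`
-/

namespace Vale.Agent.P019P

open Polynomial

theorem one_sub_pow_eq_prod_roots (n : ℕ) (hn : 0 < n) :
    (1 - X ^ n : ℂ[X]) = ∏ z ∈ nthRootsFinset n (1 : ℂ), (1 - C z * X) := by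
  have hζ := Complex.isPrimitiveRoot_exp n hn.ne'
  have hζ' : IsPrimitiveRoot (C (Complex.exp (2 * Real.pi * Complex.I / n))) n :=
    hζ.map_of_injective (f := (C : ℂ →+* ℂ[X])) C_injective
  have h := hζ'.pow_sub_pow_eq_prod_sub_mul (1 : ℂ[X]) X hn
  rw [one_pow] at h
  rw [h]
  symm
  refine Finset.prod_bij (fun z _ => C z) ?_ ?_ ?_ ?_
  · intro z hz
    rw [mem_nthRootsFinset hn] at hz ⊢
    rw [← C_pow, hz, C_1]
  · intro a _ b _ hab
    exact C_injective hab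
  · intro q hq
    rw [mem_nthRootsFinset hn] at hq
    have hdeg : q.natDegree = 0 := by
      have h1 := congrArg natDegree hq
      rw [natDegree_pow, natDegree_one] at h1
      rcases Nat.mul_eq_zero.1 h1 with h2 | h2
      · omega
      · exact h2
    obtain ⟨z, rfl⟩ := natDegree_eq_zero.1 hdeg
    refine ⟨z, ?_, rfl⟩
    rw [mem_nthRootsFinset hn]
    apply C_injective
    rw [C_pow, hq, C_1]
  · intro z _
    rfl

theorem eval_charpolyRev' {N : ℕ} (M : Matrix (Fin N) (Fin N) ℂ) (z : ℂ) :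
    eval z M.charpolyRev = (1 - z • M).det := by
  rw [Matrix.charpolyRev, ← coe_evalRingHom, RingHom.map_det]
  congr 1
  ext i j
  simp [Matrix.one_apply, apply_ite (eval z)]
  exact mul_comm _ _

theorem charpolyRev_map {N : ℕ} (M : Matrix (Fin N) (Fin N) ℤ) :
    M.charpolyRev.map (Int.castRingHom ℂ) = (M.map (Int.castRingHom ℂ)).charpolyRev := by
  rw [Matrix.charpolyRev, Matrix.charpolyRev, ← coe_mapRingHom, RingHom.map_det]
  congr 1
  ext i j
  simp [Matrix.one_apply, apply_ite (Polynomial.map (Int.castRingHom ℂ))]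

theorem det_one_sub_pow {N : ℕ} (M : Matrix (Fin N) (Fin N) ℤ) (A : Multiset ℂ)
    (hA : M.charpolyRev.map (Int.castRingHom ℂ) = (A.map fun a => 1 - C a * X).prod) (n : ℕ)
    (hn : 0 < n) : (((1 - M ^ n).det : ℤ) : ℂ) = (A.map fun a => 1 - a ^ n).prod := by
  set MC := M.map (Int.castRingHom ℂ) with hMC
  have e1 : (((1 - M ^ n).det : ℤ) : ℂ) = (1 - MC ^ n).det := by
    have := RingHom.map_det (Int.castRingHom ℂ) (1 - M ^ n)
    rw [eq_intCast] at this
    rw [this, map_sub, map_one, map_pow]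
    rfl
  have e2 : (1 - MC ^ n) = aeval MC (∏ z ∈ nthRootsFinset n (1 : ℂ), (1 - C z * X)) := by
    rw [← one_sub_pow_eq_prod_roots n hn]
    simp
  let D : ℂ[X] →* ℂ := (Matrix.detMonoidHom : Matrix (Fin N) (Fin N) ℂ →* ℂ).comp
    (aeval MC : ℂ[X] →ₐ[ℂ] Matrix (Fin N) (Fin N) ℂ).toRingHom.toMonoidHom
  have e3 : (1 - MC ^ n).det = ∏ z ∈ nthRootsFinset n (1 : ℂ), D (1 - C z * X) := by
    rw [e2, ← map_prod]
    rfl
  have e4 : ∀ z : ℂ, D (1 - C z * X) = (A.map fun a => 1 - a * z).prod := by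
    intro z
    have h1 : D (1 - C z * X) = (1 - z • MC).det := by
      show (aeval MC (1 - C z * X)).det = _
      congr 1
      simp [Algebra.smul_def]
    rw [h1, ← eval_charpolyRev', ← charpolyRev_map, hA, ← coe_evalRingHom, map_multiset_prod,
      Multiset.map_map]
    congr 1
    refine Multiset.map_congr rfl fun a _ => ?_
    simp
  have hζ := Complex.isPrimitiveRoot_exp n hn.ne'
  rw [e1, e3]
  simp_rw [e4]
  clear hA e1 e2 e3 e4 D
  induction A using Multiset.induction with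
  | empty => simp
  | cons a A ih =>
    simp only [Multiset.map_cons, Multiset.prod_cons, Finset.prod_mul_distrib]
    rw [ih]
    congr 1
    have h := hζ.pow_sub_pow_eq_prod_sub_mul 1 a hn
    rw [one_pow] at h
    rw [h]
    exact Finset.prod_congr rfl fun z _ => by ring

end Vale.Agent.P019P
end
end

section

section

/-!
# Growth of `det (1 - M ^ n)`
-/

namespace Vale.Agent.P019P

open Polynomial

/-- Two integer matrices with the same image modulo `m` differ by a multiple of `m`. -/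
theorem exists_eq_add_smul {N : ℕ} (m : ℕ) (A B : Matrix (Fin N) (Fin N) ℤ)
    (h : (Int.castRingHom (ZMod m)).mapMatrix A = (Int.castRingHom (ZMod m)).mapMatrix B) :
    ∃ Y : Matrix (Fin N) (Fin N) ℤ, A = B + (m : ℤ) • Y := by
  have key : ∀ i j, ∃ y : ℤ, A i j = B i j + (m : ℤ) * y := by
    intro i j
    have h1 : ((A i j : ℤ) : ZMod m) = ((B i j : ℤ) : ZMod m) := by
      have h2 := congrFun (congrFun h i) j
      simpa [RingHom.mapMatrix_apply, Matrix.map_apply] using h2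
    have h3 : ((B i j : ℤ) : ZMod m) = ((A i j : ℤ) : ZMod m) := h1.symm
    rw [ZMod.intCast_eq_intCast_iff_dvd_sub] at h3
    obtain ⟨y, hy⟩ := h3
    exact ⟨y, by linarith⟩
  choose y hy using key
  refine ⟨Matrix.of y, ?_⟩
  ext i j
  simp [hy i j]

/-- If `A` maps to the scalar `c` modulo `ℓ`, with `c` not divisible by `ℓ`, then `ℓ` does not
divide the determinant. -/
theorem not_dvd_det_of_map {ℓ : ℕ} (hℓ : ℓ.Prime) {N : ℕ} (A : Matrix (Fin N) (Fin N) ℤ) (c : ℕ)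
    (hc : ¬ ℓ ∣ c)
    (h : (Int.castRingHom (ZMod ℓ)).mapMatrix A = (c : ZMod ℓ) • (1 : Matrix (Fin N) (Fin N) (ZMod ℓ))) :
    ¬ (ℓ : ℤ) ∣ A.det := by
  have := Fact.mk hℓ
  intro hd
  have h1 : ((A.det : ℤ) : ZMod ℓ) = 0 := (ZMod.intCast_zmod_eq_zero_iff_dvd _ _).2 hd
  have h2 : (Int.castRingHom (ZMod ℓ)) A.det = ((Int.castRingHom (ZMod ℓ)).mapMatrix A).det :=
    RingHom.map_det _ _
  rw [h, Matrix.det_smul, Matrix.det_one, mul_one] at h2
  have h3 : (c : ZMod ℓ) ^ Fintype.card (Fin N) = 0 := by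
    rw [← h2]; simpa using h1
  have h4 : (c : ZMod ℓ) = 0 := eq_zero_of_pow_eq_zero h3
  exact hc ((ZMod.natCast_eq_zero_iff _ _).1 h4)

theorem det_growth {ℓ : ℕ} (hℓ : ℓ.Prime) {N : ℕ} (M : Matrix (Fin N) (Fin N) ℤ)
    (hM : ¬ (ℓ : ℤ) ∣ M.det) :
    ∃ n0 : ℕ, 0 < n0 ∧
      (∀ n, n0 ∣ n → ∃ u : ℤ, ¬ (ℓ : ℤ) ∣ u ∧
        (1 - M ^ (n * ℓ)).det = (1 - M ^ n).det * (ℓ ^ N * u)) ∧
      (∀ n r : ℕ, n0 ∣ n → ¬ ℓ ∣ r → ∃ u : ℤ, ¬ (ℓ : ℤ) ∣ u ∧
        (1 - M ^ (n * r)).det = (1 - M ^ n).det * u) := by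
  classical
  have : NeZero (ℓ ^ 2) := ⟨pow_ne_zero _ hℓ.ne_zero⟩
  set F := (Int.castRingHom (ZMod (ℓ ^ 2))).mapMatrix (m := Fin N) with hF
  -- the reduction of `M` is a unit
  have hunit : IsUnit (F M) := by
    rw [Matrix.isUnit_iff_isUnit_det]
    have h1 : (F M).det = ((M.det : ℤ) : ZMod (ℓ ^ 2)) := by
      rw [hF, ← RingHom.map_det]; rfl
    rw [h1, ZMod.coe_int_isUnit_iff_isCoprime]
    have h2 : IsCoprime ((ℓ : ℤ)) M.det :=
      (Nat.prime_iff_prime_int.1 hℓ).coprime_iff_not_dvd.2 hM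
    have h3 : IsCoprime ((ℓ : ℤ) ^ 2) M.det := IsCoprime.pow_left h2
    simpa using h3
  obtain ⟨U, hU⟩ := hunit
  have hfin : IsOfFinOrder U := isOfFinOrder_of_finite U
  refine ⟨orderOf U, hfin.orderOf_pos, ?_⟩
  have hpow : ∀ n, orderOf U ∣ n → F (M ^ n) = 1 := by
    intro n hn
    rw [map_pow, ← hU, ← Units.val_pow_eq_pow_val, orderOf_dvd_iff_pow_eq_one.1 hn, Units.val_one]
  -- geometric sums
  have hgeom : ∀ n r : ℕ, orderOf U ∣ n →
      ∃ Y : Matrix (Fin N) (Fin N) ℤ,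
        1 - M ^ (n * r) = (1 - M ^ n) * (((r : ℤ) • (1 : Matrix (Fin N) (Fin N) ℤ))
          + ((ℓ ^ 2 : ℕ) : ℤ) • Y) := by
    intro n r hn
    have h1 : F (∑ i ∈ Finset.range r, (M ^ n) ^ i) = F ((r : ℤ) • (1 : Matrix (Fin N) (Fin N) ℤ)) := by
      rw [map_sum]
      have h2 : ∀ i ∈ Finset.range r, F ((M ^ n) ^ i) = 1 := by
        intro i _
        rw [map_pow, hpow n hn, one_pow]
      rw [Finset.sum_congr rfl h2]
      simp
    obtain ⟨Y, hY⟩ := exists_eq_add_smul (ℓ ^ 2) _ _ h1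
    refine ⟨Y, ?_⟩
    rw [← hY, mul_neg_geom_sum, ← pow_mul]
  refine ⟨?_, ?_⟩
  · intro n hn
    obtain ⟨Y, hY⟩ := hgeom n ℓ hn
    refine ⟨(1 + (ℓ : ℤ) • Y).det, ?_, ?_⟩
    · refine not_dvd_det_of_map hℓ _ 1 (by
        intro h; exact hℓ.one_lt.ne' (Nat.dvd_one.1 h)) ?_
      ext i j
      rw [RingHom.mapMatrix_apply, Matrix.map_apply, Matrix.add_apply, Matrix.smul_apply,
        Matrix.smul_apply, Matrix.one_apply, Matrix.one_apply]
      split_ifs <;> simp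
    · rw [hY, Matrix.det_mul]
      congr 1
      have h1 : ((ℓ : ℤ) • (1 : Matrix (Fin N) (Fin N) ℤ)) + ((ℓ ^ 2 : ℕ) : ℤ) • Y
          = (ℓ : ℤ) • (1 + (ℓ : ℤ) • Y) := by
        rw [smul_add, smul_smul]
        congr 2
        push_cast
        ring
      rw [h1, Matrix.det_smul]
      simp
  · intro n r hn hr
    obtain ⟨Y, hY⟩ := hgeom n r hn
    refine ⟨_, ?_, by rw [hY, Matrix.det_mul]⟩
    refine not_dvd_det_of_map hℓ _ r hr ?_
    ext i j
    rw [RingHom.mapMatrix_apply, Matrix.map_apply, Matrix.add_apply, Matrix.smul_apply,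
      Matrix.smul_apply, Matrix.smul_apply, Matrix.one_apply, Matrix.one_apply]
    split_ifs <;> simp

end Vale.Agent.P019P
end
end

section

section

/-!
# Lang's lemma: the number of stable lines
-/

namespace Vale.Agent.P019P

namespace AuxFLangB

/-- removing one element from a finite subtype. -/
theorem card_ne {α : Type*} (P : α → Prop) (x : α) (hx : P x) :
    Nat.card {a // a ≠ x ∧ P a} = Nat.card {a // P a} - 1 := by
  have h1 : Set.ncard ({a | P a} \ {x}) = Set.ncard {a | P a} - 1 :=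
    Set.ncard_diff_singleton_of_mem hx
  have h2 : Nat.card {a // P a} = Set.ncard {a | P a} := Nat.card_coe_set_eq _
  have h3 : Nat.card {a // a ≠ x ∧ P a} = Set.ncard ({a | P a} \ {x}) := by
    rw [← Nat.card_coe_set_eq]
    refine Nat.card_congr (Equiv.subtypeEquivRight fun a => ?_)
    simp only [Set.mem_diff, Set.mem_setOf_eq, Set.mem_singleton_iff]
    tauto
  rw [h3, h1, h2]

end AuxFLangB

section lang

variable {k V : Type*} [Field k] [IsAlgClosed k] [AddCommGroup V] [Module k V]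

/-- the number of stable lines (`e` maps a nonzero vector to its line). -/
theorem lang_count {p n : ℕ} [Fact p.Prime] [CharP k p] (hn : 0 < n) [FiniteDimensional k V]
    (φ : V →+ V) (hinj : Function.Injective φ)
    (hφ : ∀ (a : k) (v : V), φ (a • v) = a ^ (p ^ n) • φ v) {S : Type*} (e : V → S)
    (he : ∀ v w : V, v ≠ 0 → w ≠ 0 → (e v = e w ↔ ∃ a : k, a ≠ 0 ∧ w = a • v)) :
    Nat.card {s : S // ∃ v : V, v ≠ 0 ∧ (∃ c : k, φ v = c • v) ∧ e v = s} * (p ^ n - 1) =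
      (p ^ n) ^ Module.finrank k V - 1 := by
  have hQ : 1 < p ^ n := Nat.one_lt_pow hn.ne' (Fact.out : p.Prime).one_lt
  have hV := lang_card hn φ hinj hφ
  have hk := AuxFLang.card_fixed (k := k) (p := p) hn
  have hV' := AuxFLangB.card_ne (fun v : V => φ v = v) 0 (map_zero φ)
  have hk' := AuxFLangB.card_ne (fun a : k => a ^ (p ^ n) = a) 0 (zero_pow (by omega))
  rw [hV] at hV'
  rw [hk] at hk'
  -- a fixed representative in every stable line
  have hrep : ∀ s : {s : S // ∃ v : V, v ≠ 0 ∧ (∃ c : k, φ v = c • v) ∧ e v = s},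
      ∃ v : V, v ≠ 0 ∧ φ v = v ∧ e v = s.1 := by
    rintro ⟨s, v, hv0, ⟨c, hc⟩, hs⟩
    have hc0 : c ≠ 0 := by
      rintro rfl
      rw [zero_smul] at hc
      exact hv0 (hinj (hc.trans (map_zero φ).symm))
    obtain ⟨a, ha⟩ := IsAlgClosed.exists_pow_nat_eq c⁻¹ (n := p ^ n - 1) (by omega)
    have ha0 : a ≠ 0 := by
      rintro rfl
      rw [zero_pow (by omega)] at ha
      exact inv_ne_zero hc0 ha.symm
    have hav0 : a • v ≠ 0 := smul_ne_zero ha0 hv0
    refine ⟨a • v, hav0, ?_, ?_⟩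
    · have h1 : a ^ (p ^ n) * c = a := by
        have h2 : a ^ (p ^ n) = a ^ (p ^ n - 1) * a := by
          rw [← pow_succ]
          congr 1
          omega
        rw [h2, ha]
        field_simp
      rw [hφ, hc, smul_smul, h1]
    · exact (((he v (a • v) hv0 hav0).2 ⟨a, ha0, rfl⟩).symm).trans hs
  choose r hr0 hr1 hr2 using hrep
  let F : {s : S // ∃ v : V, v ≠ 0 ∧ (∃ c : k, φ v = c • v) ∧ e v = s} ×
      {a : k // a ≠ 0 ∧ a ^ (p ^ n) = a} → {v : V // v ≠ 0 ∧ φ v = v} :=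
    fun y => ⟨y.2.1 • r y.1, smul_ne_zero y.2.2.1 (hr0 y.1), by rw [hφ, hr1, y.2.2.2]⟩
  have hF : Function.Bijective F := by
    constructor
    · rintro ⟨s, a⟩ ⟨t, b⟩ h
      have h1 : a.1 • r s = b.1 • r t := congrArg Subtype.val h
      have h2 : e (r s) = e (a.1 • r s) :=
        (he _ _ (hr0 s) (smul_ne_zero a.2.1 (hr0 s))).2 ⟨a.1, a.2.1, rfl⟩
      have h3 : e (r t) = e (b.1 • r t) :=
        (he _ _ (hr0 t) (smul_ne_zero b.2.1 (hr0 t))).2 ⟨b.1, b.2.1, rfl⟩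
      have h4 : s = t := by
        apply Subtype.ext
        rw [← hr2 s, ← hr2 t, h2, h3, h1]
      subst h4
      have h5 : a = b := Subtype.ext (smul_left_injective k (hr0 s) h1)
      rw [h5]
    · rintro ⟨w, hw0, hw⟩
      have hs : ∃ v : V, v ≠ 0 ∧ (∃ c : k, φ v = c • v) ∧ e v = e w :=
        ⟨w, hw0, ⟨1, by rw [one_smul, hw]⟩, rfl⟩
      obtain ⟨a, ha0, ha⟩ := (he (r ⟨e w, hs⟩) w (hr0 _) hw0).1 (hr2 ⟨e w, hs⟩)
      have h2 : a ^ (p ^ n) = a := by
        have h3 : φ w = w := hw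
        rw [ha, hφ, hr1] at h3
        exact smul_left_injective k (hr0 _) h3
      exact ⟨(⟨e w, hs⟩, ⟨a, ha0, h2⟩), Subtype.ext ha.symm⟩
  have hcard := Nat.card_eq_of_bijective F hF
  rw [Nat.card_prod, hk', hV'] at hcard
  exact hcard

end lang

end Vale.Agent.P019P
end
end

section

section

/-!
# Representatives and generators of bounded degree
-/

namespace Vale.Agent.P019P

open Polynomial IntermediateField

variable {k F : Type*} [Field k] [Field F] [Algebra k F] [CFF k F]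

/-- representatives of classes with divisor divisible by `ℓ`. -/
theorem h4_rep {ℓ : ℕ} (hℓ : ℓ ≠ 0) (P₀ : Plk k F) {z : F} (hz : z ≠ 0)
    (hd : ∀ P : Plk k F, (ℓ : ℤ) ∣ ord P z) : ∃ h : F, h ≠ 0 ∧ z * h ^ ℓ ∈ RO P₀ ∧
      ord P₀ (z * h ^ ℓ) = -((2 * gen k F * ℓ : ℕ) : ℤ) := by
  classical
  have hℓ' : (ℓ : ℤ) ≠ 0 := by exact_mod_cast hℓ
  set D₁ : Plk k F →₀ ℤ := (dv k z).mapRange (fun a => a / (ℓ : ℤ)) (by simp) with hD₁
  have h1 : ∀ P, (ℓ : ℤ) * D₁ P = ord P z := by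
    intro P
    rw [hD₁, Finsupp.mapRange_apply, dv_apply]
    exact Int.mul_ediv_cancel' (hd P)
  have h2 : dg D₁ = 0 := by
    have e1 : ℓ • D₁ = dv k z := by
      ext P
      rw [Finsupp.smul_apply, nsmul_eq_mul, h1, dv_apply]
    have e2 : ℓ • dg D₁ = 0 := by rw [← map_nsmul, e1, dg_dv]
    rw [nsmul_eq_mul] at e2
    exact (mul_eq_zero.1 e2).resolve_left hℓ'
  set D : Plk k F →₀ ℤ := D₁ + Finsupp.single P₀ (2 * (gen k F : ℤ)) with hD
  have h3 : 2 * (gen k F : ℤ) ≤ dg D := by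
    rw [hD, map_add, h2, dg_sgl, zero_add]
  obtain ⟨h, hh0, hh, hhP⟩ := h4_exact P₀ h3
  refine ⟨h, hh0, ?_, ?_⟩
  · rw [mem_RO]
    intro Q hQ
    right
    rw [ord_mul Q hz (pow_ne_zero _ hh0), ord_pow, ← h1 Q]
    have h4 := hh Q
    have h5 : D Q = D₁ Q := by
      rw [hD, Finsupp.add_apply, Finsupp.single_eq_of_ne (by exact hQ), add_zero]
    rw [h5] at h4
    have h6 : (ℓ : ℤ) * -D₁ Q ≤ ℓ * ord Q h := mul_le_mul_of_nonneg_left h4 (by positivity)
    linarith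
  · rw [ord_mul P₀ hz (pow_ne_zero _ hh0), ord_pow, ← h1 P₀, hhP]
    have h5 : D P₀ = D₁ P₀ + 2 * (gen k F : ℤ) := by
      rw [hD, Finsupp.add_apply, Finsupp.single_eq_same]
    rw [h5]
    push_cast
    ring

/-- effective divisors are greatest common divisors of two functions of bounded degree. -/
theorem h4_gens (P₀ : Plk k F) {E : Plk k F →₀ ℤ} (hE : 0 ≤ E) (hE0 : E P₀ = 0) {n : ℕ}
    (hn : dg E + 2 * gen k F ≤ n) : ∃ a : Fin 2 → F, (∀ j, a j ≠ 0 ∧ a j ∈ LP P₀ n) ∧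
      ∀ P, P ≠ P₀ → (∀ j, E P ≤ ord P (a j)) ∧ ∃ j, ord P (a j) = E P := by
  classical
  have : IsAlgClosed k := CFF.ac F
  have hg : (0 : ℤ) ≤ gen k F := Int.natCast_nonneg _
  set D₀ : Plk k F →₀ ℤ := Finsupp.single P₀ (n : ℤ) - E with hD₀
  have hD₀P : ∀ P, P ≠ P₀ → D₀ P = - E P := by
    intro P hP
    rw [hD₀, Finsupp.sub_apply, Finsupp.single_eq_of_ne (by exact hP), zero_sub]
  have hdg : dg D₀ = n - dg E := by rw [hD₀, map_sub, dg_sgl]
  have hfr : (Module.finrank k (LL k D₀) : ℤ) = dg D₀ + 1 - gen k F := h4_l_eq (by omega)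
  -- the first function
  obtain ⟨a₀, ha₀, ha₀0⟩ : ∃ z ∈ LL k D₀, z ≠ 0 := by
    apply Submodule.exists_mem_ne_zero_of_ne_bot
    intro hb
    rw [hb, finrank_bot] at hfr
    push_cast at hfr
    omega
  have hLE : LL k D₀ ≤ LP P₀ n := by
    refine LL_mono ?_
    rw [hD₀]
    exact sub_le_self _ hE
  have hord : ∀ z ∈ LL k D₀, z ≠ 0 → ∀ P, P ≠ P₀ → E P ≤ ord P z := by
    intro z hz hz0 P hP
    have h1 := ((mem_LL.1 hz).resolve_left hz0) P
    rw [hD₀P P hP, neg_neg] at h1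
    exact h1
  set T : Set (Plk k F) := {P | P ≠ P₀ ∧ E P < ord P a₀} with hT
  have hTfin : T.Finite := by
    refine (dv_finite ha₀0).subset fun P hP => ?_
    have h1 : 0 ≤ E P := hE P
    have h2 : E P < ord P a₀ := hP.2
    show ord P a₀ ≠ 0
    omega
  have hTf : Finite T := hTfin
  -- the second function
  obtain ⟨a₁, ha₁, ha₁0, ha₁T⟩ : ∃ z ∈ LL k D₀, z ≠ 0 ∧ ∀ P ∈ T, ord P z = E P := by
    by_cases hTe : T = ∅
    · refine ⟨a₀, ha₀, ha₀0, fun P hP => ?_⟩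
      rw [hTe] at hP
      exact absurd hP (Set.notMem_empty P)
    · let W : T → Submodule k (LL k D₀) := fun P =>
        (LL k (D₀ - Finsupp.single P.1 1)).comap (LL k D₀).subtype
      have hW : ∀ P, W P ≠ ⊤ := by
        intro P hP
        have h1 : LL k D₀ ≤ LL k (D₀ - Finsupp.single P.1 1) := by
          intro z hz
          have h2 : (⟨z, hz⟩ : LL k D₀) ∈ W P := by rw [hP]; trivial
          exact h2
        have h2 := Submodule.finrank_mono h1
        have h3 : dg (D₀ - Finsupp.single P.1 1) = dg D₀ - 1 := by rw [map_sub, dg_sgl]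
        have h4 : (Module.finrank k (LL k (D₀ - Finsupp.single P.1 1)) : ℤ) =
            dg (D₀ - Finsupp.single P.1 1) + 1 - gen k F := h4_l_eq (by omega)
        omega
      have h1 : (⋃ P, (W P : Set (LL k D₀))) ≠ Set.univ := by
        intro h1
        obtain ⟨P, hP⟩ := Subspace.exists_eq_top_of_iUnion_eq_univ h1
        exact hW P hP
      rw [Set.ne_univ_iff_exists_notMem] at h1
      obtain ⟨⟨z, hz⟩, hzW⟩ := h1
      rw [Set.mem_iUnion, not_exists] at hzW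
      have hz2 : ∀ P ∈ T, z ∉ LL k (D₀ - Finsupp.single P 1) := fun P hP h => hzW ⟨P, hP⟩ h
      have hz0 : z ≠ 0 := by
        obtain ⟨P, hP⟩ := Set.nonempty_iff_ne_empty.2 hTe
        rintro rfl
        exact hz2 P hP (Submodule.zero_mem _)
      refine ⟨z, hz, hz0, fun P hP => ?_⟩
      refine le_antisymm ?_ (hord z hz hz0 P hP.1)
      by_contra hlt
      push Not at hlt
      refine hz2 P hP (mem_LL.2 (Or.inr fun Q => ?_))
      rw [Finsupp.sub_apply]
      by_cases hQ : Q = P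
      · subst hQ
        rw [Finsupp.single_eq_same, hD₀P Q hP.1]
        omega
      · rw [Finsupp.single_eq_of_ne (by exact hQ), sub_zero]
        exact ((mem_LL.1 hz).resolve_left hz0) Q
  refine ⟨![a₀, a₁], ?_, ?_⟩
  · intro j
    fin_cases j
    · exact ⟨ha₀0, hLE ha₀⟩
    · exact ⟨ha₁0, hLE ha₁⟩
  · intro P hP
    have h0 := hord a₀ ha₀ ha₀0 P hP
    have h1 := hord a₁ ha₁ ha₁0 P hP
    refine ⟨fun j => ?_, ?_⟩
    · fin_cases j
      · exact h0
      · exact h1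
    · by_cases hPT : P ∈ T
      · exact ⟨1, ha₁T P hPT⟩
      · refine ⟨0, le_antisymm ?_ h0⟩
        by_contra hlt
        push Not at hlt
        exact hPT ⟨hP, hlt⟩

end Vale.Agent.P019P
end
end

section

end

section

end

section

section

/-!
# Limits of residue fields
-/

namespace Vale.Agent.P019P

open Vale.Agent.P019

set_option linter.style.haveILetI false
set_option linter.unusedSectionVars false

open Polynomial Filter

section e2

variable {K : Type*} [Field K]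

/-- the residue field embeds into an algebraically closed field. -/
theorem exists_emb {W : ValuationSubring K} {F : Subfield K} (hW : TrivOn W F)
    (halg : ∀ c : IsLocalRing.ResidueField W, IsAlgebraic (bar hW) c)
    {Ω : Type*} [Field Ω] [IsAlgClosed Ω] [Algebra K Ω] :
    ∃ ι : IsLocalRing.ResidueField W →+* Ω, ∀ z ∈ F, ι (rs W z) = algebraMap K Ω z := by
  letI : Algebra (bar hW) Ω :=
    (((algebraMap K Ω).comp F.subtype).comp (barEquiv hW).symm.toRingHom).toAlgebra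
  haveI : Algebra.IsAlgebraic (bar hW) (IsLocalRing.ResidueField W) := ⟨halg⟩
  let ι : IsLocalRing.ResidueField W →ₐ[bar hW] Ω := IsAlgClosed.lift
  refine ⟨ι, fun z hz => ?_⟩
  have h1 := ι.commutes (barEquiv hW ⟨z, hz⟩)
  have h2 : algebraMap (bar hW) (IsLocalRing.ResidueField W) (barEquiv hW ⟨z, hz⟩) = rs W z := rfl
  rw [h2] at h1
  rw [RingHom.coe_coe, h1]
  change (algebraMap K Ω) ((barEquiv hW).symm (barEquiv hW ⟨z, hz⟩) : F) = _
  rw [RingEquiv.symm_apply_apply]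

/-- limits of homomorphisms of residue fields. -/
theorem exists_lim {I : Type*} (U : Ultrafilter I) {L Ω : Type*} [Field L] [Field Ω]
    (O : I → ValuationSubring L) (ρ : ∀ i, IsLocalRing.ResidueField (O i) →+* Ω)
    (h : ∀ z : L, z ≠ 0 → ∀ᶠ i in U, (O i).valuation z = 1) :
    ∃ A : L →+* Gm U Ω, ∀ z, A z = gm U (fun i => ρ i (rs (O i) z)) := by
  have hmem : ∀ z : L, ∀ᶠ i in U, z ∈ O i := by
    intro z
    by_cases hz : z = 0
    · exact Eventually.of_forall fun i => hz ▸ (O i).zero_mem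
    · exact (h z hz).mono fun i hi => mem_of_val hi
  refine ⟨{ toFun := fun z => gm U (fun i => ρ i (rs (O i) z))
            map_one' := ?_, map_mul' := ?_, map_zero' := ?_, map_add' := ?_ }, fun z => rfl⟩
  · simp only [rs_one, map_one]
    exact map_one (gm U)
  · intro x y
    rw [← gm_mul, gm_eq]
    filter_upwards [hmem x, hmem y] with i h1 h2
    rw [rs_mul h1 h2, map_mul]
  · simp only [rs_zero, map_zero]
    exact map_zero (gm U)
  · intro x y
    rw [← gm_add, gm_eq]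
    filter_upwards [hmem x, hmem y] with i h1 h2
    rw [rs_add h1 h2, map_add]

/-- limits of bounded relations. -/
theorem brel_lim {I : Type*} {U : Ultrafilter I} {Ω : Type*} [Field Ω] {E : Subfield Ω} {D : ℕ}
    {x y : I → Ω} (h : ∀ᶠ i in U, BRel E D (x i) (y i)) :
    BRel (uSub U (fun _ => E)) D (gm U x) (gm U y) := by
  classical
  have h1 : ∀ i, ∃ c : ℕ → ℕ → Ω, (∀ a b, c a b ∈ E) ∧
      (BRel E D (x i) (y i) →
      (∃ a ∈ Finset.range (D + 1), ∃ b ∈ Finset.range (D + 1), c a b ≠ 0) ∧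
      ∑ a ∈ Finset.range (D + 1), ∑ b ∈ Finset.range (D + 1),
        c a b * x i ^ a * y i ^ b = 0) := by
    intro i
    by_cases hi : BRel E D (x i) (y i)
    · obtain ⟨c, hc, hc0, hcs⟩ := hi
      exact ⟨c, hc, fun _ => ⟨hc0, hcs⟩⟩
    · exact ⟨fun _ _ => 0, fun _ _ => E.zero_mem, fun h' => absurd h' hi⟩
  choose c hc hcr using h1
  refine ⟨fun a b => gm U (fun i => c i a b), fun a b => ⟨_, rfl, fun i => hc i a b⟩, ?_, ?_⟩
  · by_contra hcon
    push Not at hcon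
    have h4 : ∀ᶠ i in U, ∀ a ∈ Finset.range (D + 1), ∀ b ∈ Finset.range (D + 1),
        c i a b = 0 := by
      rw [Filter.eventually_all_finset]
      intro a ha
      rw [Filter.eventually_all_finset]
      intro b hb
      exact gm_eq_zero.1 (hcon a ha b hb)
    obtain ⟨i, hi, hi2⟩ := (h4.and h).exists
    obtain ⟨⟨a, ha, b, hb, hab⟩, -⟩ := hcr i hi2
    exact hab (hi a ha b hb)
  · have h2 : ∑ a ∈ Finset.range (D + 1), ∑ b ∈ Finset.range (D + 1),
        gm U (fun i => c i a b) * gm U x ^ a * gm U y ^ b =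
        gm U (fun i => ∑ a ∈ Finset.range (D + 1), ∑ b ∈ Finset.range (D + 1),
          c i a b * x i ^ a * y i ^ b) := by
      rw [gm_sum]
      refine Finset.sum_congr rfl fun a _ => ?_
      rw [gm_sum]
      refine Finset.sum_congr rfl fun b _ => ?_
      rw [gm_mul, gm_mul, gm_pow, gm_pow]
    rw [h2, gm_eq_zero]
    exact h.mono fun i hi => (hcr i hi).2

theorem brel_alg' {Ω : Type*} [Field Ω] {E : Subfield Ω} (hE : IsAlgClosed E) {D : ℕ} {x y : Ω}
    (h : BRel E D x y) (hx : x ∉ E) : IsAlgebraic (adj E x) y := by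
  obtain ⟨c, hc, hc0, hcs⟩ := h
  exact brel_alg (RAC_of_isAlgClosed E hE) hx hc hc0 hcs

/-- transport of relations. -/
theorem BRel.map {F Ω : Type*} [Field F] [Field Ω] (f : F →+* Ω) {E : Subfield F}
    {E' : Subfield Ω} (hE : ∀ c ∈ E, f c ∈ E') {D : ℕ} {x y : F} (h : BRel E D x y) :
    BRel E' D (f x) (f y) := by
  obtain ⟨c, hc, ⟨a, ha, b, hb, hab⟩, hcs⟩ := h
  refine ⟨fun a b => f (c a b), fun a b => hE _ (hc a b), ⟨a, ha, b, hb, ?_⟩, ?_⟩
  · exact fun h0 => hab ((map_eq_zero f).1 h0)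
  · have h1 := congrArg f hcs
    simpa only [map_sum, map_mul, map_pow, map_zero] using h1

theorem BRel.mono {Ω : Type*} [Field Ω] {E E' : Subfield Ω} (hE : E ≤ E') {D D' : ℕ}
    (hD : D ≤ D') {x y : Ω} (h : BRel E D x y) : BRel E' D' x y := by
  classical
  obtain ⟨c, hc, ⟨a, ha, b, hb, hab⟩, hcs⟩ := h
  have hsub : Finset.range (D + 1) ⊆ Finset.range (D' + 1) := by
    intro i hi
    rw [Finset.mem_range] at hi ⊢
    omega
  let c' : ℕ → ℕ → Ω := fun a b =>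
    if a ∈ Finset.range (D + 1) ∧ b ∈ Finset.range (D + 1) then c a b else 0
  have hin : ∀ a ∈ Finset.range (D + 1), ∀ b ∈ Finset.range (D + 1), c' a b = c a b :=
    fun a ha b hb => if_pos ⟨ha, hb⟩
  have hout1 : ∀ a, a ∉ Finset.range (D + 1) → ∀ b, c' a b = 0 :=
    fun a ha b => if_neg fun h => ha h.1
  have hout2 : ∀ a, ∀ b, b ∉ Finset.range (D + 1) → c' a b = 0 :=
    fun a b hb => if_neg fun h => hb h.2
  refine ⟨c', fun a b => ?_, ⟨a, hsub ha, b, hsub hb, ?_⟩, ?_⟩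
  · by_cases h : a ∈ Finset.range (D + 1) ∧ b ∈ Finset.range (D + 1)
    · rw [hin a h.1 b h.2]
      exact hE (hc a b)
    · have h' : c' a b = 0 := if_neg h
      rw [h']
      exact E'.zero_mem
  · rw [hin a ha b hb]
    exact hab
  · refine Eq.trans ?_ hcs
    rw [← Finset.sum_subset hsub]
    · refine Finset.sum_congr rfl fun a ha => ?_
      rw [← Finset.sum_subset hsub]
      · refine Finset.sum_congr rfl fun b hb => ?_
        rw [hin a ha b hb]
      · intro b _ hb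
        rw [hout2 a b hb, zero_mul, zero_mul]
    · intro a _ ha
      refine Finset.sum_eq_zero fun b _ => ?_
      rw [hout1 a ha b, zero_mul, zero_mul]

end e2

end Vale.Agent.P019P
end
end

section

end

section

section

/-!
# The Euler product of the zeta function, as a counting identity
-/

namespace Vale.Agent.P019P

open Finsupp

variable {P : Type*}

theorem eulB_dg_eq (D : P →₀ ℤ) {S : Finset P} (h : D.support ⊆ S) : dg D = ∑ p ∈ S, D p := by
  unfold dg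
  rw [Finsupp.liftAddHom_apply, Finsupp.sum]
  simp only [AddMonoidHom.id_apply]
  exact Finset.sum_subset h (fun p _ hp => by simpa using hp)

theorem eulB_dg_nonneg {D : P →₀ ℤ} (h : 0 ≤ D) : 0 ≤ dg D := by
  rw [eulB_dg_eq D (Finset.Subset.refl _)]
  exact Finset.sum_nonneg fun p _ => h p

theorem eulB_inv {τ : Equiv.Perm P} {E : P →₀ ℤ} (h : E.mapDomain τ = E) (q : P) :
    E (τ q) = E q := by
  conv_lhs => rw [← h]
  exact Finsupp.mapDomain_apply τ.injective E q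

theorem eulB_inv_pow {τ : Equiv.Perm P} {E : P →₀ ℤ} (h : E.mapDomain τ = E) (q : P) (i : ℕ) :
    E ((τ ^ i) q) = E q := by
  induction i with
  | zero => simp
  | succ i ih => rw [pow_succ', Equiv.Perm.mul_apply, eulB_inv h, ih]

/-- the orbit divisor. -/
noncomputable def eulB_orb (τ : Equiv.Perm P) (p : P) (r : ℕ) : P →₀ ℤ :=
  ∑ i ∈ Finset.range r, single ((τ ^ i) p) 1

theorem eulB_orb_inv (τ : Equiv.Perm P) (p : P) (r : ℕ) (hr : (τ ^ r) p = p) :
    (eulB_orb τ p r).mapDomain τ = eulB_orb τ p r := by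
  unfold eulB_orb
  rw [Finsupp.mapDomain_finsetSum]
  simp only [Finsupp.mapDomain_single]
  have h1 : ∀ i, τ ((τ ^ i) p) = (τ ^ (i + 1)) p := fun i => by
    rw [pow_succ', Equiv.Perm.mul_apply]
  simp only [h1]
  have h2 := Finset.sum_range_succ (fun i => (single ((τ ^ i) p) (1 : ℤ))) r
  have h3 := Finset.sum_range_succ' (fun i => (single ((τ ^ i) p) (1 : ℤ))) r
  rw [h2, hr] at h3
  simp only [pow_zero, Equiv.Perm.one_apply] at h3
  exact (add_right_cancel h3).symm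

theorem eulB_orb_self {τ : Equiv.Perm P} {p : P} {r : ℕ} (hr0 : 0 < r)
    (hmin : ∀ i, 0 < i → i < r → (τ ^ i) p ≠ p) : eulB_orb τ p r p = 1 := by
  classical
  unfold eulB_orb
  rw [Finsupp.finsetSum_apply, Finset.sum_eq_single 0]
  · simp
  · intro i hi h0
    rw [Finsupp.single_apply, if_neg (hmin i (Nat.pos_of_ne_zero h0) (Finset.mem_range.1 hi))]
  · intro h
    exact absurd (Finset.mem_range.2 hr0) h

theorem eulB_orb_nonneg (τ : Equiv.Perm P) (p : P) (r : ℕ) : 0 ≤ eulB_orb τ p r := by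
  classical
  intro q
  unfold eulB_orb
  rw [Finsupp.finsetSum_apply]
  refine Finset.sum_nonneg fun i _ => ?_
  rw [Finsupp.single_apply]
  split_ifs <;> simp

theorem eulB_orb_le {τ : Equiv.Perm P} {p : P} {r : ℕ} (hr0 : 0 < r) (hr : (τ ^ r) p = p)
    (hmin : ∀ i, 0 < i → i < r → (τ ^ i) p ≠ p) {D : P →₀ ℤ} (hD : 0 ≤ D)
    (hDi : D.mapDomain τ = D) (hp : D p ≠ 0) : eulB_orb τ p r ≤ D := by
  classical
  intro q
  by_cases hq : ∃ i : ℕ, (τ ^ i) p = q
  · obtain ⟨i, rfl⟩ := hq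
    rw [eulB_inv_pow (eulB_orb_inv τ p r hr), eulB_inv_pow hDi, eulB_orb_self hr0 hmin]
    have h1 : 0 ≤ D p := hD p
    omega
  · have h0 : eulB_orb τ p r q = 0 := by
      unfold eulB_orb
      rw [Finsupp.finsetSum_apply]
      refine Finset.sum_eq_zero fun i _ => ?_
      rw [Finsupp.single_apply, if_neg (fun h => hq ⟨i, h⟩)]
    rw [h0]
    exact hD q

theorem eulB_dg_orb (τ : Equiv.Perm P) (p : P) (r : ℕ) : dg (eulB_orb τ p r) = r := by
  unfold eulB_orb dg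
  rw [map_sum]
  simp

theorem eulB_chi_pow {R : Type*} [CommRing R] {τ : Equiv.Perm P} {χ : (P →₀ ℤ) → R}
    (hχτ : ∀ p, χ (single (τ p) 1) = χ (single p 1)) (p : P) (i : ℕ) :
    χ (single ((τ ^ i) p) 1) = χ (single p 1) := by
  induction i with
  | zero => simp
  | succ i ih => rw [pow_succ', Equiv.Perm.mul_apply, hχτ, ih]

theorem eulB_chi_orb {R : Type*} [CommRing R] {τ : Equiv.Perm P} {χ : (P →₀ ℤ) → R}
    (hχ0 : χ 0 = 1) (hχ : ∀ D E, χ (D + E) = χ D * χ E)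
    (hχτ : ∀ p, χ (single (τ p) 1) = χ (single p 1)) (p : P) (r : ℕ) :
    χ (eulB_orb τ p r) = χ (single p 1) ^ r := by
  induction r with
  | zero => simp [eulB_orb, hχ0]
  | succ r ih =>
    have e : eulB_orb τ p (r + 1) = eulB_orb τ p r + single ((τ ^ r) p) 1 := by
      unfold eulB_orb
      rw [Finset.sum_range_succ]
    rw [e, hχ, ih, eulB_chi_pow hχτ, pow_succ]

/-- removing an orbit. -/
theorem eulB_sub {τ : Equiv.Perm P} {p : P} {r : ℕ} (hr0 : 0 < r) (hr : (τ ^ r) p = p)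
    (hmin : ∀ i, 0 < i → i < r → (τ ^ i) p ≠ p) {M : ℕ} {D : P →₀ ℤ} (hD : D ∈ Eff τ M)
    (hp : D p ≠ 0) : r ≤ M ∧ D - eulB_orb τ p r ∈ Eff τ (M - r) := by
  obtain ⟨h1, h2, h3⟩ := hD
  have h4 : 0 ≤ D - eulB_orb τ p r := sub_nonneg.2 (eulB_orb_le hr0 hr hmin h1 h2 hp)
  have h5 : dg (D - eulB_orb τ p r) = (M : ℤ) - r := by rw [map_sub, h3, eulB_dg_orb]
  have h6 := eulB_dg_nonneg h4
  rw [h5] at h6
  have h7 : r ≤ M := by omega
  refine ⟨h7, h4, ?_, ?_⟩
  · have e : D - eulB_orb τ p r = D + -(eulB_orb τ p r) := sub_eq_add_neg _ _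
    have e2 : (-(eulB_orb τ p r)).mapDomain τ = -(eulB_orb τ p r) := by
      have := eulB_orb_inv τ p r hr
      have h8 : (eulB_orb τ p r + -(eulB_orb τ p r)).mapDomain τ = 0 := by
        rw [add_neg_cancel, Finsupp.mapDomain_zero]
      rw [Finsupp.mapDomain_add, this] at h8
      exact (neg_eq_of_add_eq_zero_right h8).symm
    rw [e, Finsupp.mapDomain_add, h2, e2]
  · rw [h5, Nat.cast_sub h7]

/-- adding an orbit. -/
theorem eulB_add {τ : Equiv.Perm P} {p : P} {r : ℕ} (hr : (τ ^ r) p = p) {M : ℕ} (hrM : r ≤ M)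
    {D : P →₀ ℤ} (hD : D ∈ Eff τ (M - r)) : D + eulB_orb τ p r ∈ Eff τ M := by
  obtain ⟨h1, h2, h3⟩ := hD
  refine ⟨add_nonneg h1 (eulB_orb_nonneg τ p r), ?_, ?_⟩
  · rw [Finsupp.mapDomain_add, h2, eulB_orb_inv τ p r hr]
  · rw [map_add, h3, eulB_dg_orb, Nat.cast_sub hrM, sub_add_cancel]

/-- the weighted number of points. -/
theorem eulB_step {R : Type*} [CommRing R] {τ : Equiv.Perm P}
    (hfin : ∀ n : ℕ, 0 < n → {p | (τ ^ n) p = p}.Finite) {χ : (P →₀ ℤ) → R} (hχ0 : χ 0 = 1)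
    (hχ : ∀ D E, χ (D + E) = χ D * χ E) (hχτ : ∀ p, χ (single (τ p) 1) = χ (single p 1))
    {p : P} {r : ℕ} (hr0 : 0 < r) (hr : (τ ^ r) p = p)
    (hmin : ∀ i, 0 < i → i < r → (τ ^ i) p ≠ p) {M : ℕ} (hrM : r ≤ M) :
    ∑ D ∈ (eff_finite τ hfin M).toFinset, ((D p : ℤ) : R) * χ D =
      χ (single p 1) ^ r * ((∑ D ∈ (eff_finite τ hfin (M - r)).toFinset, ((D p : ℤ) : R) * χ D) +
        ac τ χ (M - r)) := by
  have hac : ac τ χ (M - r) = ∑ D ∈ (eff_finite τ hfin (M - r)).toFinset, χ D := by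
    unfold ac
    exact finsum_mem_eq_finite_toFinset_sum _ _
  rw [hac, ← Finset.sum_add_distrib, Finset.mul_sum]
  symm
  refine Finset.sum_of_injOn (fun D => D + eulB_orb τ p r) ?_ ?_ ?_ ?_
  · intro D _ E _ h
    exact add_right_cancel h
  · intro D hD
    rw [Finset.mem_coe, Set.Finite.mem_toFinset] at hD ⊢
    exact eulB_add hr hrM hD
  · intro D hD hn
    rw [Set.Finite.mem_toFinset] at hD
    by_cases hp : D p = 0
    · rw [hp]; simp
    · exfalso
      refine hn ⟨D - eulB_orb τ p r, ?_, sub_add_cancel _ _⟩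
      rw [Finset.mem_coe, Set.Finite.mem_toFinset]
      exact (eulB_sub hr0 hr hmin hD hp).2
  · intro D _
    rw [hχ, eulB_chi_orb hχ0 hχ hχτ, Finsupp.add_apply, eulB_orb_self hr0 hmin]
    push_cast
    ring

theorem eulB_step0 {R : Type*} [CommRing R] {τ : Equiv.Perm P}
    (hfin : ∀ n : ℕ, 0 < n → {p | (τ ^ n) p = p}.Finite) {χ : (P →₀ ℤ) → R}
    {p : P} {r : ℕ} (hr0 : 0 < r) (hr : (τ ^ r) p = p)
    (hmin : ∀ i, 0 < i → i < r → (τ ^ i) p ≠ p) {M : ℕ} (hrM : M < r) :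
    ∑ D ∈ (eff_finite τ hfin M).toFinset, ((D p : ℤ) : R) * χ D = 0 := by
  refine Finset.sum_eq_zero fun D hD => ?_
  rw [Set.Finite.mem_toFinset] at hD
  by_cases hp : D p = 0
  · rw [hp]; simp
  · exact absurd (eulB_sub hr0 hr hmin hD hp).1 (not_le.2 hrM)

theorem eulB_dvd {τ : Equiv.Perm P} {p : P} {r : ℕ} (hr : (τ ^ r) p = p)
    (m : ℕ) : (τ ^ (r + m)) p = p ↔ (τ ^ m) p = p := by
  rw [add_comm, pow_add, Equiv.Perm.mul_apply, hr]

open Classical in
/-- the contribution of one point. -/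
theorem eulB_point {R : Type*} [CommRing R] {τ : Equiv.Perm P}
    (hfin : ∀ n : ℕ, 0 < n → {p | (τ ^ n) p = p}.Finite) {χ : (P →₀ ℤ) → R} (hχ0 : χ 0 = 1)
    (hχ : ∀ D E, χ (D + E) = χ D * χ E) (hχτ : ∀ p, χ (single (τ p) 1) = χ (single p 1))
    {p : P} {r : ℕ} (hr0 : 0 < r) (hr : (τ ^ r) p = p)
    (hmin : ∀ i, 0 < i → i < r → (τ ^ i) p ≠ p) (M : ℕ) :
    ∑ D ∈ (eff_finite τ hfin M).toFinset, ((D p : ℤ) : R) * χ D =
      ∑ m ∈ Finset.Icc 1 M, (if (τ ^ m) p = p then χ (single p 1) ^ m else 0) *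
        ac τ χ (M - m) := by
  induction M using Nat.strong_induction_on with
  | _ M ih =>
    rcases Nat.lt_or_ge M r with h | h
    · rw [eulB_step0 hfin hr0 hr hmin h]
      symm
      refine Finset.sum_eq_zero fun m hm => ?_
      have h1 := Finset.mem_Icc.1 hm
      rw [if_neg (hmin m (by omega) (by omega)), zero_mul]
    · rw [eulB_step hfin hχ0 hχ hχτ hr0 hr hmin h, ih (M - r) (by omega)]
      have e1 : Finset.Icc 1 M = Finset.Ico 1 r ∪ Finset.Icc r M := by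
        ext x
        simp only [Finset.mem_union, Finset.mem_Icc, Finset.mem_Ico]
        omega
      have e2 : Finset.Icc r M = insert r ((Finset.Icc 1 (M - r)).map (addLeftEmbedding r)) := by
        ext x
        simp only [Finset.mem_insert, Finset.mem_Icc, Finset.mem_map, addLeftEmbedding_apply]
        constructor
        · rintro ⟨h1, h2⟩
          rcases Nat.eq_or_lt_of_le h1 with h3 | h3
          · exact Or.inl h3.symm
          · exact Or.inr ⟨x - r, ⟨by omega, by omega⟩, by omega⟩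
        · rintro (rfl | ⟨y, ⟨h1, h2⟩, rfl⟩)
          · omega
          · omega
      have hd : Disjoint (Finset.Ico 1 r) (Finset.Icc r M) := by
        rw [Finset.disjoint_left]
        intro x hx hx'
        have := Finset.mem_Ico.1 hx
        have := Finset.mem_Icc.1 hx'
        omega
      have hni : r ∉ (Finset.Icc 1 (M - r)).map (addLeftEmbedding r) := by
        simp only [Finset.mem_map, Finset.mem_Icc, addLeftEmbedding_apply, not_exists]
        omega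
      rw [e1, Finset.sum_union hd, e2, Finset.sum_insert hni, Finset.sum_map]
      have z1 : ∑ x ∈ Finset.Ico 1 r, (if (τ ^ x) p = p then χ (single p 1) ^ x else 0) *
          ac τ χ (M - x) = 0 := by
        refine Finset.sum_eq_zero fun m hm => ?_
        have h1 := Finset.mem_Ico.1 hm
        rw [if_neg (hmin m (by omega) (by omega)), zero_mul]
      rw [z1, zero_add, if_pos hr, mul_add, add_comm, Finset.mul_sum]
      congr 1
      refine Finset.sum_congr rfl fun m _ => ?_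
      have e3 : M - (addLeftEmbedding r) m = M - r - m := by
        rw [addLeftEmbedding_apply]; omega
      rw [e3, addLeftEmbedding_apply, eulB_dvd hr, pow_add]
      split_ifs <;> ring

theorem eulB_period {τ : Equiv.Perm P} {M : ℕ} {D : P →₀ ℤ} (hD : D ∈ Eff τ M) {p : P}
    (hp : p ∈ D.support) : ∃ m : ℕ, 0 < m ∧ (τ ^ m) p = p := by
  have h1 : ∀ i : ℕ, (τ ^ i) p ∈ D.support := by
    intro i
    rw [Finsupp.mem_support_iff, eulB_inv_pow hD.2.1]
    exact Finsupp.mem_support_iff.1 hp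
  obtain ⟨i, j, hij, h⟩ := Finite.exists_ne_map_eq_of_infinite
    (fun i : ℕ => (⟨(τ ^ i) p, h1 i⟩ : D.support))
  have h2 : (τ ^ i) p = (τ ^ j) p := congrArg Subtype.val h
  have key : ∀ {i j : ℕ}, i < j → (τ ^ i) p = (τ ^ j) p → ∃ m : ℕ, 0 < m ∧ (τ ^ m) p = p := by
    intro i j hij h
    refine ⟨j - i, by omega, ?_⟩
    have e : j = i + (j - i) := by omega
    rw [e, pow_add, Equiv.Perm.mul_apply] at h
    exact ((τ ^ i).injective h).symm
  rcases Nat.lt_or_gt_of_ne hij with h3 | h3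
  · exact key h3 h2
  · exact key h3 h2.symm

theorem euler {R : Type*} [CommRing R] (τ : Equiv.Perm P)
    (hfin : ∀ n : ℕ, 0 < n → {p | (τ ^ n) p = p}.Finite) (χ : (P →₀ ℤ) → R) (hχ0 : χ 0 = 1)
    (hχ : ∀ D E, χ (D + E) = χ D * χ E) (hχτ : ∀ p, χ (single (τ p) 1) = χ (single p 1)) (M : ℕ) :
    (M : R) * ac τ χ M = ∑ m ∈ Finset.Icc 1 M, sc τ χ m * ac τ χ (M - m) := by
  classical
  set T : ℕ → Finset P := fun m => if h : 0 < m then (hfin m h).toFinset else ∅ with hT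
  set S : Finset P := (eff_finite τ hfin M).toFinset.biUnion (fun D => D.support) ∪
    (Finset.Icc 1 M).biUnion T with hS
  have hac : ac τ χ M = ∑ D ∈ (eff_finite τ hfin M).toFinset, χ D := by
    unfold ac
    exact finsum_mem_eq_finite_toFinset_sum _ _
  have hper : ∀ p ∈ S, ∃ m : ℕ, 0 < m ∧ (τ ^ m) p = p := by
    intro p hp
    rw [hS, Finset.mem_union, Finset.mem_biUnion, Finset.mem_biUnion] at hp
    rcases hp with ⟨D, hD, hp⟩ | ⟨m, hm, hp⟩
    · rw [Set.Finite.mem_toFinset] at hD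
      exact eulB_period hD hp
    · have hm0 : 0 < m := (Finset.mem_Icc.1 hm).1
      simp only [hT, dif_pos hm0, Set.Finite.mem_toFinset, Set.mem_ofPred_eq] at hp
      exact ⟨m, hm0, hp⟩
  have hpt : ∀ p ∈ S, ∑ D ∈ (eff_finite τ hfin M).toFinset, ((D p : ℤ) : R) * χ D =
      ∑ m ∈ Finset.Icc 1 M, (if (τ ^ m) p = p then χ (single p 1) ^ m else 0) *
        ac τ χ (M - m) := by
    intro p hp
    have hex := hper p hp
    exact eulB_point hfin hχ0 hχ hχτ (Nat.find_spec hex).1 (Nat.find_spec hex).2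
      (fun i hi0 hi h => Nat.find_min hex hi ⟨hi0, h⟩) M
  have hsc : ∀ m ∈ Finset.Icc 1 M, sc τ χ m =
      ∑ p ∈ S, if (τ ^ m) p = p then χ (single p 1) ^ m else 0 := by
    intro m hm
    have hm0 : 0 < m := (Finset.mem_Icc.1 hm).1
    have e1 : sc τ χ m = ∑ p ∈ (hfin m hm0).toFinset, χ (single p 1) ^ m := by
      unfold sc
      exact finsum_mem_eq_finite_toFinset_sum _ _
    rw [e1, ← Finset.sum_filter]
    refine Finset.sum_congr ?_ fun _ _ => rfl
    ext p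
    rw [Set.Finite.mem_toFinset, Finset.mem_filter, Set.mem_ofPred_eq]
    constructor
    · intro h
      refine ⟨?_, h⟩
      rw [hS, Finset.mem_union]
      refine Or.inr (Finset.mem_biUnion.2 ⟨m, hm, ?_⟩)
      simp only [hT, dif_pos hm0, Set.Finite.mem_toFinset, Set.mem_ofPred_eq]
      exact h
    · exact fun h => h.2
  calc (M : R) * ac τ χ M = ∑ D ∈ (eff_finite τ hfin M).toFinset, ∑ p ∈ S,
        ((D p : ℤ) : R) * χ D := by
        rw [hac, Finset.mul_sum]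
        refine Finset.sum_congr rfl fun D hD => ?_
        have hDS : D.support ⊆ S := by
          intro p hp
          rw [hS, Finset.mem_union]
          exact Or.inl (Finset.mem_biUnion.2 ⟨D, hD, hp⟩)
        have h1 := eulB_dg_eq D hDS
        rw [Set.Finite.mem_toFinset] at hD
        rw [hD.2.2] at h1
        rw [← Finset.sum_mul]
        congr 1
        have h2 := congrArg (fun z : ℤ => (z : R)) h1
        simpa using h2
    _ = ∑ p ∈ S, ∑ D ∈ (eff_finite τ hfin M).toFinset, ((D p : ℤ) : R) * χ D :=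
        Finset.sum_comm
    _ = ∑ p ∈ S, ∑ m ∈ Finset.Icc 1 M, (if (τ ^ m) p = p then χ (single p 1) ^ m else 0) *
        ac τ χ (M - m) := Finset.sum_congr rfl hpt
    _ = ∑ m ∈ Finset.Icc 1 M, ∑ p ∈ S, (if (τ ^ m) p = p then χ (single p 1) ^ m else 0) *
        ac τ χ (M - m) := Finset.sum_comm
    _ = ∑ m ∈ Finset.Icc 1 M, sc τ χ m * ac τ χ (M - m) := by
        refine Finset.sum_congr rfl fun m hm => ?_
        rw [hsc m hm, Finset.sum_mul]

theorem LD_ac {R : Type*} [CommRing R] (τ : Equiv.Perm P)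
    (hfin : ∀ n : ℕ, 0 < n → {p | (τ ^ n) p = p}.Finite) (χ : (P →₀ ℤ) → R) (hχ0 : χ 0 = 1)
    (hχ : ∀ D E, χ (D + E) = χ D * χ E) (hχτ : ∀ p, χ (single (τ p) 1) = χ (single p 1)) :
    LD (PowerSeries.mk (ac τ χ)) (pos (sc τ χ)) :=
  LD_of_rec _ _ (euler τ hfin χ hχ0 hχ hχτ)

end Vale.Agent.P019P
end
end

section

section

/-!
# The class numbers as products over reciprocal roots
-/

namespace Vale.Agent.P019P

open Polynomial

variable {P : Type*}

theorem zhn_ac_cast (τ : Equiv.Perm P)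
    (hfin : ∀ n : ℕ, 0 < n → {p | (τ ^ n) p = p}.Finite) (m : ℕ) :
    ((ac τ (fun _ => (1 : ℤ)) m : ℤ) : ℂ) = ac τ (fun _ => (1 : ℂ)) m := by
  have h := (Int.castAddHom ℂ).map_finsum_mem (fun _ : P →₀ ℤ => (1 : ℤ)) (eff_finite τ hfin m)
  simp only [Int.coe_castAddHom, Int.cast_one] at h
  exact h

theorem zhn_sc_pow (σ : Equiv.Perm P) (n m : ℕ) :
    sc (σ ^ n) (fun _ => (1 : ℂ)) m = sc σ (fun _ => (1 : ℂ)) (n * m) := by
  unfold sc
  rw [pow_mul]
  simp only [one_pow]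

/-- the numerator of the zeta function over the extension of degree `n`. -/
theorem ZDat.zhn_L (Z : ZDat P) (n : ℕ) (hn : 0 < n) : ∃ L : ℤ[X], L.natDegree ≤ 2 * Z.g ∧
    L.coeff 0 = 1 ∧ L.coeff (2 * Z.g) = ((Z.q : ℤ) ^ n) ^ Z.g ∧ L.eval 1 = Z.hh n ∧
    LD (((L.map (Int.castRingHom ℂ) : ℂ[X])) : PowerSeries ℂ)
      (pos fun m => -(1 : ℂ) ^ m + -((Z.q : ℂ) ^ n) ^ m + sc (Z.σ ^ n) (fun _ => (1 : ℂ)) m) := by
  have hQ : (2 : ℤ) ≤ (Z.q : ℤ) ^ n := by
    have h2 : (2 : ℤ) ≤ Z.q := by exact_mod_cast Z.two_le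
    calc (2 : ℤ) ≤ (Z.q : ℤ) ^ 1 := by simpa using h2
      _ ≤ (Z.q : ℤ) ^ n := pow_le_pow_right₀ (by linarith) hn
  obtain ⟨L, hd, h0, h1, he, hL⟩ := poly_L (fun m => ac (Z.σ ^ n) (fun _ => (1 : ℤ)) m) Z.g
    ((Z.q : ℤ) ^ n) (Z.hh n) hQ (ac_zero _ _) (fun M hM => Z.an_large n hn M hM)
    (fun hg => Z.an_crit n hn hg)
  refine ⟨L, hd, h0, h1, he, ?_⟩
  have hmk : PowerSeries.map (Int.castRingHom ℂ)
      (PowerSeries.mk (fun m => ac (Z.σ ^ n) (fun _ => (1 : ℤ)) m)) =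
      PowerSeries.mk (ac (Z.σ ^ n) (fun _ => (1 : ℂ))) := by
    ext m
    rw [PowerSeries.coeff_map, PowerSeries.coeff_mk, PowerSeries.coeff_mk]
    exact zhn_ac_cast _ (Z.fin_pow n hn) m
  have e : (((L.map (Int.castRingHom ℂ) : ℂ[X])) : PowerSeries ℂ) =
      (1 - PowerSeries.C (1 : ℂ) * PowerSeries.X) *
        (1 - PowerSeries.C ((Z.q : ℂ) ^ n) * PowerSeries.X) *
        PowerSeries.mk (ac (Z.σ ^ n) (fun _ => (1 : ℂ))) := by
    rw [coe_map_int, hL, map_mul, map_mul, hmk]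
    congr 1
    congr 1
    · simp
    · simp
  rw [e, ← pos_add, ← pos_add]
  exact ((LD_lin (1 : ℂ)).mul (LD_lin ((Z.q : ℂ) ^ n))).mul
    (LD_ac (Z.σ ^ n) (Z.fin_pow n hn) (fun _ => (1 : ℂ)) rfl (fun _ _ => by simp) (fun _ => rfl))

theorem zhn_const (L : ℤ[X]) (h0 : L.coeff 0 = 1) :
    PowerSeries.constantCoeff (((L.map (Int.castRingHom ℂ) : ℂ[X])) : PowerSeries ℂ) = 1 := by
  rw [← PowerSeries.coeff_zero_eq_constantCoeff_apply, Polynomial.coeff_coe, coeff_map, h0]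
  simp

theorem ZDat.zeta (Z : ZDat P) : ∃ (A : Multiset ℂ) (f : ℤ[X]), f.natDegree ≤ 2 * Z.g ∧
    f.coeff 0 = 1 ∧ f.coeff (2 * Z.g) = (Z.q : ℤ) ^ Z.g ∧
    f.map (Int.castRingHom ℂ) = (A.map fun a => 1 - C a * X).prod ∧
    (∀ n, 0 < n → (Z.hh n : ℂ) = (A.map fun a => 1 - a ^ n).prod) ∧
    ∀ m, 0 < m → sc Z.σ (fun _ => (1 : ℂ)) m = 1 + (Z.q : ℂ) ^ m - (A.map fun a => a ^ m).sum := by
  obtain ⟨f, hd, h0, h1, -, hLD⟩ := Z.zhn_L 1 one_pos
  obtain ⟨A, -, hA⟩ := exists_roots (f.map (Int.castRingHom ℂ)) (2 * Z.g)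
    ((natDegree_map_le).trans hd) (by rw [coeff_map, h0]; simp)
  have hsc : ∀ m, 0 < m →
      sc Z.σ (fun _ => (1 : ℂ)) m = 1 + (Z.q : ℂ) ^ m - (A.map fun a => a ^ m).sum := by
    intro m hm
    have hP := LD_prod (R := ℂ) A
    rw [← coe_prod_lin, ← hA] at hP
    have h := LD.right_unique (zhn_const f h0) hP hLD
    have h2 := pos_inj h m hm
    simp only [pow_one, one_pow] at h2
    linear_combination (-1 : ℂ) * h2
  refine ⟨A, f, hd, h0, ?_, hA, ?_, hsc⟩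
  · rw [h1, pow_one]
  · intro n hn
    obtain ⟨L, -, k0, -, ke, kLD⟩ := Z.zhn_L n hn
    have hpos : (pos fun m => -(1 : ℂ) ^ m + -((Z.q : ℂ) ^ n) ^ m +
        sc (Z.σ ^ n) (fun _ => (1 : ℂ)) m) =
        pos fun m => -((A.map fun a => a ^ n).map fun a => a ^ m).sum := by
      apply pos_congr
      intro m hm
      rw [zhn_sc_pow, hsc (n * m) (Nat.mul_pos hn hm), Multiset.map_map]
      have e1 : (A.map fun a => a ^ (n * m)) = A.map ((fun a => a ^ m) ∘ fun a => a ^ n) := by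
        apply Multiset.map_congr rfl
        intro a _
        simp only [Function.comp_apply, pow_mul]
      rw [e1, pow_mul, one_pow]
      ring
    rw [hpos] at kLD
    have hP := LD_prod (R := ℂ) (A.map fun a => a ^ n)
    rw [← coe_prod_lin] at hP
    have hc : PowerSeries.constantCoeff
        (((((A.map fun a => a ^ n).map fun a => 1 - C a * X).prod : ℂ[X])) : PowerSeries ℂ) = 1 := by
      rw [coe_prod_lin, map_multiset_prod, Multiset.map_map]
      apply Multiset.prod_eq_one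
      intro x hx
      obtain ⟨a, -, rfl⟩ := Multiset.mem_map.mp hx
      simp
    have heq := LD.left_unique (zhn_const L k0) hc kLD hP
    have heq2 := Polynomial.coe_injective ℂ heq
    have h3 := congrArg (Polynomial.eval (1 : ℂ)) heq2
    rw [eval_prod_lin, Multiset.map_map] at h3
    have h4 : (L.map (Int.castRingHom ℂ)).eval (1 : ℂ) = (Z.hh n : ℂ) := by
      have h5 : (L.map (Int.castRingHom ℂ)).eval ((Int.castRingHom ℂ) 1) =
          (Int.castRingHom ℂ) (L.eval 1) := by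
        rw [eval_map, eval₂_at_apply]
      rw [ke, map_one] at h5
      rw [h5]
      simp
    rw [h4] at h3
    rw [h3]
    rfl

end Vale.Agent.P019P
end
end

section

section

/-!
# Twisted zeta functions
-/

namespace Vale.Agent.P019P

variable {P : Type*}

open Finsupp

theorem ZTw.constantCoeff_prod_lin (A : Multiset ℂ) :
    PowerSeries.constantCoeff
      ((A.map fun a => (1 : PowerSeries ℂ) - PowerSeries.C a * PowerSeries.X).prod) = 1 := by
  rw [map_multiset_prod, Multiset.map_map]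
  apply Multiset.prod_eq_one
  intro x hx
  obtain ⟨a, -, rfl⟩ := Multiset.mem_map.1 hx
  simp

/-- Equality of multisets of reciprocal roots from equality of power sums. -/
theorem ZTw.prod_eq {A B : Multiset ℂ}
    (h : ∀ m, 0 < m → (A.map fun a => a ^ m).sum = (B.map fun a => a ^ m).sum) :
    (A.map fun a => 1 - a).prod = (B.map fun a => 1 - a).prod := by
  have h1 := LD_prod A
  have h2 := LD_prod B
  have h3 : pos (fun m => -(A.map fun a => a ^ m).sum) = pos (fun m => -(B.map fun a => a ^ m).sum)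
      := pos_congr fun m hm => by rw [h m hm]
  rw [h3] at h1
  have h4 := LD.left_unique (ZTw.constantCoeff_prod_lin A) (ZTw.constantCoeff_prod_lin B) h1 h2
  rw [← coe_prod_lin, ← coe_prod_lin] at h4
  have h5 := Polynomial.coe_injective ℂ h4
  rw [← eval_prod_lin, ← eval_prod_lin, h5]

theorem ZDat.no_char (Z : ZDat P) {ℓ : ℕ} (hℓ : 0 < ℓ) (n : ℕ) (hn : 0 < n) (ψ : AddChar Z.J ℂ)
    (hs : ∀ y, ψ ((Z.sJ ^ n) y) = ψ y) (hl : ∀ y, ψ (ℓ • y) = 1) (x : Z.J)
    (hx : (Z.sJ ^ n) x = x) : ψ x = 1 := by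
  by_contra hne
  -- the projection
  have hc0 : Z.deg (Z.cl (single Z.P0 1)) = 1 := by rw [ZDat.deg_cl, dg_single]
  have hP0 : (Z.σ ^ n) Z.P0 = Z.P0 := Equiv.Perm.pow_apply_eq_self_of_apply_eq_self Z.fix0 n
  have hsc0 : (Z.s ^ n) (Z.cl (single Z.P0 1)) = Z.cl (single Z.P0 1) := by
    rw [ZDat.s_pow_cl, mapDomain_single, hP0]
  have hker : ∀ y : Z.Pic, y - Z.deg y • Z.cl (single Z.P0 1) ∈ Z.deg.ker := by
    intro y
    rw [AddMonoidHom.mem_ker, map_sub, map_zsmul, hc0, smul_eq_mul, mul_one, sub_self]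
  let pr : Z.Pic → Z.J := fun y => ⟨y - Z.deg y • Z.cl (single Z.P0 1), hker y⟩
  have pr_add : ∀ y z, pr (y + z) = pr y + pr z := by
    intro y z
    apply Subtype.ext
    change y + z - Z.deg (y + z) • Z.cl (single Z.P0 1) =
      (y - Z.deg y • Z.cl (single Z.P0 1)) + (z - Z.deg z • Z.cl (single Z.P0 1))
    rw [map_add, add_zsmul]
    abel
  have pr_coe : ∀ j : Z.J, pr (j : Z.Pic) = j := by
    intro j
    apply Subtype.ext
    change (j : Z.Pic) - Z.deg (j : Z.Pic) • Z.cl (single Z.P0 1) = j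
    have : Z.deg (j : Z.Pic) = 0 := j.2
    rw [this, zero_zsmul, sub_zero]
  have pr_s : ∀ y, pr ((Z.s ^ n) y) = (Z.sJ ^ n) (pr y) := by
    intro y
    apply Subtype.ext
    rw [ZDat.coe_sJ_pow]
    change (Z.s ^ n) y - Z.deg ((Z.s ^ n) y) • Z.cl (single Z.P0 1) =
      (Z.s ^ n) (y - Z.deg y • Z.cl (single Z.P0 1))
    rw [map_sub, map_zsmul, hsc0, ZDat.deg_s_pow]
  let χ : Z.Pic → ℂ := fun y => ψ (pr y)
  have χ_mul : ∀ y z, χ (y + z) = χ y * χ z := by
    intro y z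
    change ψ (pr (y + z)) = _
    rw [pr_add, AddChar.map_add_eq_mul]
  have χ_zero : χ 0 = 1 := by
    have h0 : pr 0 = 0 := by
      have := pr_add 0 0
      rw [add_zero] at this
      exact left_eq_add.1 this
    change ψ (pr 0) = 1
    rw [h0, AddChar.map_zero_eq_one]
  have χ_s : ∀ y, χ ((Z.s ^ n) y) = χ y := by
    intro y
    change ψ (pr ((Z.s ^ n) y)) = ψ (pr y)
    rw [pr_s, hs]
  have χ_pow : ∀ y, χ y ^ ℓ = 1 := by
    intro y
    change ψ (pr y) ^ ℓ = 1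
    rw [← AddChar.map_nsmul_eq_pow, hl]
  have χ_x : χ (x : Z.Pic) ≠ 1 := by
    change ψ (pr (x : Z.Pic)) ≠ 1
    rw [pr_coe]; exact hne
  have hxPM : (x : Z.Pic) ∈ Z.PM n 0 := by
    refine ⟨x.2, ?_⟩
    rw [← ZDat.coe_sJ_pow, hx]
  have hfin : ∀ m : ℕ, 0 < m → {p | ((Z.σ ^ n) ^ m) p = p}.Finite := Z.fin_pow n hn
  -- the coefficients
  have hlarge := fun M (hM : 2 * Z.g ≤ M + 1) => Z.tw_large n hn χ χ_mul (x : Z.Pic) hxPM χ_x M hM
  have hLD : LD (PowerSeries.mk (ac (Z.σ ^ n) fun D => χ (Z.cl D)))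
      (pos (sc (Z.σ ^ n) fun D => χ (Z.cl D))) := by
    apply LD_ac (Z.σ ^ n) hfin
    · rw [map_zero, χ_zero]
    · intro D E
      rw [map_add, χ_mul]
    · intro p
      have : Z.cl (single ((Z.σ ^ n) p) 1) = (Z.s ^ n) (Z.cl (single p 1)) := by
        rw [ZDat.s_pow_cl, mapDomain_single]
      rw [this, χ_s]
  set a : ℕ → ℂ := ac (Z.σ ^ n) (fun D => χ (Z.cl D)) with ha
  have ha0 : a 0 = 1 := by rw [ha, ac_zero, map_zero, χ_zero]
  let F : Polynomial ℂ := PowerSeries.trunc (2 * Z.g + 1) (PowerSeries.mk a)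
  have hFc : ((F : Polynomial ℂ) : PowerSeries ℂ) = PowerSeries.mk a := by
    ext m
    rw [Polynomial.coeff_coe, PowerSeries.coeff_trunc, PowerSeries.coeff_mk]
    split_ifs with h
    · rfl
    · exact (hlarge m (by omega)).symm
  have hF0 : F.coeff 0 = 1 := by
    rw [PowerSeries.coeff_trunc, if_pos (by omega), PowerSeries.coeff_mk, ha0]
  have hFd : F.natDegree ≤ 2 * Z.g :=
    Nat.lt_succ_iff.1 (PowerSeries.natDegree_trunc_lt (PowerSeries.mk a) (2 * Z.g))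
  obtain ⟨B, -, hB⟩ := exists_roots F (2 * Z.g) hFd hF0
  have hB' : PowerSeries.mk a =
      (B.map fun a => (1 : PowerSeries ℂ) - PowerSeries.C a * PowerSeries.X).prod := by
    rw [← hFc, hB, coe_prod_lin]
  have hsum : ∀ m, 0 < m → sc (Z.σ ^ n) (fun D => χ (Z.cl D)) m = -(B.map fun b => b ^ m).sum := by
    intro m hm
    rw [hB'] at hLD
    exact pos_inj (LD.right_unique (ZTw.constantCoeff_prod_lin B) hLD (LD_prod B)) m hm
  -- the untwisted zeta function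
  obtain ⟨A, f, -, -, -, -, hA1, hA2⟩ := Z.zeta
  have hsc : ∀ m, 0 < m → sc (Z.σ ^ n) (fun D => χ (Z.cl D)) (ℓ * m) =
      sc Z.σ (fun _ => (1 : ℂ)) (n * ℓ * m) := by
    intro m _
    unfold sc
    rw [← pow_mul, ← mul_assoc]
    refine finsum_congr fun p => finsum_congr fun _ => ?_
    rw [pow_mul, χ_pow, one_pow, one_pow]
  have key : ∀ m, 0 < m → (((1 : ℂ) ::ₘ ((Z.q : ℂ) ^ (n * ℓ)) ::ₘ (B.map fun b => b ^ ℓ)).map
      fun a => a ^ m).sum = ((A.map fun a => a ^ (n * ℓ)).map fun a => a ^ m).sum := by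
    intro m hm
    have h1 := hsum (ℓ * m) (Nat.mul_pos hℓ hm)
    rw [hsc m hm, hA2 _ (Nat.mul_pos (Nat.mul_pos hn hℓ) hm)] at h1
    rw [Multiset.map_cons, Multiset.map_cons, Multiset.sum_cons, Multiset.sum_cons,
      Multiset.map_map, Multiset.map_map]
    simp only [Function.comp_def, ← pow_mul, one_pow]
    linear_combination h1
  have h2 := ZTw.prod_eq key
  rw [Multiset.map_cons, Multiset.prod_cons, sub_self, zero_mul, Multiset.map_map] at h2
  have h3 := hA1 (n * ℓ) (Nat.mul_pos hn hℓ)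
  have h4 : (Z.hh (n * ℓ) : ℂ) = 0 := by
    rw [h3, h2]
    rfl
  have h5 := Z.hh_pos (n * ℓ) (Nat.mul_pos hn hℓ)
  rw [Nat.cast_eq_zero] at h4
  omega

end Vale.Agent.P019P
end
end

section

section

/-!
# The abstract zeta theorem
-/

namespace Vale.Agent.P019P

open Polynomial

variable {P : Type*}

theorem pv_aux {ℓ : ℕ} (hℓ : ℓ.Prime) {N a b : ℕ} {u : ℤ} (ha : 0 < a)
    (hu : ¬ (ℓ : ℤ) ∣ u) (h : (b : ℤ) = a * (ℓ ^ N * u)) :
    padicValNat ℓ b = padicValNat ℓ a + N := by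
  have := Fact.mk hℓ
  have hu0 : u ≠ 0 := by
    rintro rfl
    exact hu (dvd_zero _)
  have h1 : b = a * (ℓ ^ N * u.natAbs) := by
    have h2 := congrArg Int.natAbs h
    rw [Int.natAbs_natCast, Int.natAbs_mul, Int.natAbs_mul, Int.natAbs_natCast, Int.natAbs_pow,
      Int.natAbs_natCast] at h2
    exact h2
  have h3 : u.natAbs ≠ 0 := Int.natAbs_ne_zero.2 hu0
  have h4 : ℓ ^ N ≠ 0 := pow_ne_zero _ hℓ.pos.ne'
  have h5 : padicValNat ℓ u.natAbs = 0 := by
    apply padicValNat.eq_zero_of_not_dvd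
    intro h6
    exact hu (Int.natCast_dvd.2 h6)
  rw [h1, padicValNat.mul ha.ne' (mul_ne_zero h4 h3), padicValNat.mul h4 h3,
    padicValNat.prime_pow, h5, Nat.add_zero]

theorem ZDat.grow (Z : ZDat P) {ℓ : ℕ} (hℓ : ℓ.Prime) (hq : ¬ ℓ ∣ Z.q) :
    Grow ℓ (2 * Z.g) Z.hh := by
  obtain ⟨A, f, hf, h0, h2g, hA, hh, -⟩ := Z.zeta
  obtain ⟨M, hM, hdet⟩ := zm_exists_matrix (2 * Z.g) f hf h0
  have hMd : ¬ (ℓ : ℤ) ∣ M.det := by
    rw [hdet, h2g, pow_mul, neg_one_sq, one_pow, one_mul]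
    intro h
    have h1 := (Nat.prime_iff_prime_int.1 hℓ).dvd_of_dvd_pow h
    exact hq (Int.natCast_dvd_natCast.1 h1)
  have hd : ∀ n, 0 < n → (Z.hh n : ℤ) = (1 - M ^ n).det := by
    intro n hn
    have h1 := det_one_sub_pow M A (by rw [hM]; exact hA) n hn
    have h2 : (((Z.hh n : ℤ)) : ℂ) = (((1 - M ^ n).det : ℤ) : ℂ) := by
      rw [h1, ← hh n hn]
      push_cast
      rfl
    exact_mod_cast h2
  obtain ⟨n0, hn0, h1, h2⟩ := det_growth hℓ M hMd
  refine ⟨fun n hn => Z.hh_pos n hn, n0, hn0, ?_, ?_⟩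
  · intro n hn hd0
    obtain ⟨u, hu, h3⟩ := h1 n hd0
    rw [← hd _ (Nat.mul_pos hn hℓ.pos), ← hd n hn] at h3
    exact pv_aux hℓ (Z.hh_pos n hn) hu h3
  · intro n r hn hd0 hr
    obtain ⟨u, hu, h3⟩ := h2 n r hd0 hr
    have hr0 : 0 < r := by
      rcases Nat.eq_zero_or_pos r with h | h
      · rw [h] at hr
        exact absurd (dvd_zero _) hr
      · exact h
    rw [← hd _ (Nat.mul_pos hn hr0), ← hd n hn] at h3
    have h4 := pv_aux (N := 0) hℓ (Z.hh_pos n hn) hu (by rw [pow_zero, one_mul]; exact h3)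
    rw [h4, Nat.add_zero]

theorem ZDat.exists_tower (Z : ZDat P) {ℓ : ℕ} (hℓ : ℓ.Prime) (hq : ¬ ℓ ∣ Z.q) :
    ∃ n0 c : ℕ, Tower (Z.sJ ^ n0) ℓ (2 * Z.g) c :=
  Vale.Agent.P019P.exists_tower Z.sJ hℓ Z.sJ_per Z.sJ_fin (Z.grow hℓ hq)

theorem ZDat.torsion (Z : ZDat P) (x : Z.J) : ∃ n : ℕ, 0 < n ∧ n • x = 0 := by
  obtain ⟨n, hn, hx⟩ := Z.sJ_per x
  have hfin := Z.sJ_fin n hn
  -- the multiples of `x` are all fixed, hence not pairwise distinct
  have hfix : ∀ k : ℕ, k • x ∈ {y : Z.J | (Z.sJ ^ n) y = y} := by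
    intro k
    change (Z.sJ ^ n) (k • x) = k • x
    rw [map_nsmul, hx]
  have hni : ¬ Function.Injective (fun k : ℕ => k • x) := by
    intro hinj
    have h1 : (Set.range (fun k : ℕ => k • x)).Infinite := Set.infinite_range_of_injective hinj
    exact h1 (hfin.subset (by rintro _ ⟨k, rfl⟩; exact hfix k))
  rw [Function.Injective] at hni
  push Not at hni
  obtain ⟨a, b, hab, hne⟩ := hni
  rcases lt_or_gt_of_ne hne with h | h
  · refine ⟨b - a, Nat.sub_pos_of_lt h, ?_⟩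
    have h2 : (b - a) • x + a • x = 0 + a • x := by
      rw [← add_nsmul, Nat.sub_add_cancel h.le, zero_add]
      exact hab.symm
    exact add_right_cancel h2
  · refine ⟨a - b, Nat.sub_pos_of_lt h, ?_⟩
    have h2 : (a - b) • x + b • x = 0 + b • x := by
      rw [← add_nsmul, Nat.sub_add_cancel h.le, zero_add]
      exact hab
    exact add_right_cancel h2

theorem ZDat.divJ (Z : ZDat P) {ℓ : ℕ} (hℓ : ℓ.Prime) (hq : ¬ ℓ ∣ Z.q) (x : Z.J) :
    ∃ y, x = ℓ • y := by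
  by_contra hx
  obtain ⟨n0, c, ht⟩ := Z.exists_tower hℓ hq
  obtain ⟨n, ψ, x', hn, h1, h2, h3, h4⟩ :=
    exists_char Z.sJ ℓ Z.sJ_per (ht.finite_quot hℓ Z.torsion) x hx
  exact h4 (Z.no_char hℓ.pos n hn ψ h1 h2 x' h3)

/-- every class of degree zero is divisible by `ℓ`. -/
theorem ZDat.divisible (Z : ZDat P) {ℓ : ℕ} (hℓ : ℓ.Prime) (hq : ¬ ℓ ∣ Z.q) (D : P →₀ ℤ)
    (hD : dg D = 0) : ∃ E : P →₀ ℤ, dg E = 0 ∧ D - ℓ • E ∈ Z.prin := by
  have hx : Z.cl D ∈ Z.deg.ker := by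
    rw [AddMonoidHom.mem_ker, Z.deg_cl, hD]
  obtain ⟨y, hy⟩ := Z.divJ hℓ hq ⟨Z.cl D, hx⟩
  obtain ⟨E, hE⟩ := Z.cl_surj y.1
  refine ⟨E, ?_, ?_⟩
  · rw [← Z.deg_cl, hE]
    exact y.2
  · rw [← Z.cl_eq, map_nsmul, hE]
    have h1 := congrArg (fun z : Z.J => (z : Z.Pic)) hy
    exact h1

/-- the number of `ℓ`-torsion classes. -/
theorem ZDat.card_tors (Z : ZDat P) {ℓ : ℕ} (hℓ : ℓ.Prime) (hq : ¬ ℓ ∣ Z.q) :
    Nat.card {x : (P →₀ ℤ) ⧸ Z.prin // ℓ • x = 0} = ℓ ^ (2 * Z.g) := by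
  obtain ⟨n0, c, ht⟩ := Z.exists_tower hℓ hq
  rw [← ht.card_tors hℓ (Z.divJ hℓ hq)]
  have key : ∀ x : Z.Pic, ℓ • x = 0 → x ∈ Z.deg.ker := by
    intro x hx
    rw [AddMonoidHom.mem_ker]
    have h1 := congrArg Z.deg hx
    rw [map_nsmul, map_zero, nsmul_eq_mul] at h1
    exact (mul_eq_zero.1 h1).resolve_left (by exact_mod_cast hℓ.pos.ne')
  exact Nat.card_congr
    { toFun := fun x => ⟨⟨x.1, key x.1 x.2⟩, Subtype.ext x.2⟩
      invFun := fun x => ⟨x.1.1, congrArg (fun z : Z.J => (z : Z.Pic)) x.2⟩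
      left_inv := fun _ => rfl
      right_inv := fun _ => rfl }

end Vale.Agent.P019P
end
end

section

section

/-!
# Functionals of valuation rings with constants
-/

namespace Vale.Agent.P019P

open Vale.Agent.P019

variable {L : Type*} [Field L] {l : Subfield L} {ℓ : ℕ} [Fact ℓ.Prime]

theorem monf_wd {q : ValuationSubring L} {ϖ : L} (hϖ0 : ϖ ≠ 0)
    (hind : ∀ c ∈ l, c ≠ 0 → ∀ b : ℤ, q.valuation (c * ϖ ^ b) = 1 → b = 0)
    {x : L} (hx : x ≠ 0) {n n' : ℕ} {c c' : L} (hc : c ∈ l) (hc0 : c ≠ 0) (hc' : c' ∈ l)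
    (hc0' : c' ≠ 0) {b b' : ℤ} (h : q.valuation (x ^ n * c * ϖ ^ b) = 1)
    (h' : q.valuation (x ^ n' * c' * ϖ ^ b') = 1) : b * n' = b' * n := by
  have h1 : q.valuation ((x ^ n * c * ϖ ^ b) ^ n' / (x ^ n' * c' * ϖ ^ b') ^ n) = 1 := by
    rw [map_div₀, map_pow, map_pow, h, h', one_pow, one_pow, div_one]
  have e : (x ^ n * c * ϖ ^ b) ^ n' / (x ^ n' * c' * ϖ ^ b') ^ n =
      (c ^ n' / c' ^ n) * ϖ ^ (b * n' - b' * n) := by
    rw [mul_pow, mul_pow, mul_pow, mul_pow, ← pow_mul, ← pow_mul, mul_comm n' n,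
      zpow_sub₀ hϖ0, zpow_mul, zpow_mul, zpow_natCast, zpow_natCast]
    field_simp
  rw [e] at h1
  have h2 := hind _ (l.div_mem (l.pow_mem hc n') (l.pow_mem hc' n))
    (div_ne_zero (pow_ne_zero _ hc0) (pow_ne_zero _ hc0')) _ h1
  omega

/-- the functional `x ↦ - b / n` for `x ^ n * c * ϖ ^ b` a unit.
Proof. Well defined by `hind` (two representations `x ^ n * c * ϖ ^ b`, `x ^ n' * c' * ϖ ^ b'`
give `n * b' = n' * b`), a homomorphism `Lˣ → ZMod ℓ`, hence it factors through `V ℓ L`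
(compare the construction of `IsUnif.fn` in `P019P/Unif.lean`, `P019P/Fld.lean`). -/
theorem mon_fn {q : ValuationSubring L} {ϖ : L} (hϖ0 : ϖ ≠ 0)
    (hrep : ∀ x : L, x ≠ 0 → ∃ n : ℕ, ¬ ℓ ∣ n ∧ ∃ c ∈ l, c ≠ 0 ∧ ∃ b : ℤ,
      q.valuation (x ^ n * c * ϖ ^ b) = 1)
    (hind : ∀ c ∈ l, c ≠ 0 → ∀ b : ℤ, q.valuation (c * ϖ ^ b) = 1 → b = 0) :
    ∃ h : V ℓ L →ₗ[ZMod ℓ] ZMod ℓ, (∀ z, q.valuation z = 1 → h (cl ℓ z) = 0) ∧
      h (cl ℓ ϖ) = 1 := by
  have hℓ : ℓ.Prime := Fact.out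
  choose! n hn c hc hc0 b hb using hrep
  have hnz : ∀ m : ℕ, ¬ ℓ ∣ m → (m : ZMod ℓ) ≠ 0 := fun m hm h0 =>
    hm ((CharP.cast_eq_zero_iff (ZMod ℓ) ℓ m).1 h0)
  have key : ∀ x : L, x ≠ 0 → ∀ m : ℕ, ¬ ℓ ∣ m → ∀ d ∈ l, d ≠ 0 → ∀ a : ℤ,
      q.valuation (x ^ m * d * ϖ ^ a) = 1 →
      -(b x : ZMod ℓ) / (n x : ZMod ℓ) = -(a : ZMod ℓ) / (m : ZMod ℓ) := by
    intro x hx m hm d hd hd0 a ha
    have h1 := monf_wd hϖ0 hind hx (hc x hx) (hc0 x hx) hd hd0 (hb x hx) ha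
    have h2 : (b x : ZMod ℓ) * m = a * n x := by exact_mod_cast congrArg (Int.cast : ℤ → ZMod ℓ) h1
    rw [div_eq_div_iff (hnz _ (hn x hx)) (hnz _ hm)]
    linear_combination -h2
  have hndvd1 : ¬ ℓ ∣ 1 := fun h => hℓ.one_lt.ne' (Nat.dvd_one.1 h)
  let φ : Lˣ →* Multiplicative (ZMod ℓ) :=
    { toFun := fun x => Multiplicative.ofAdd (-(b (x : L) : ZMod ℓ) / (n (x : L) : ZMod ℓ))
      map_one' := by
        have h1 := key 1 one_ne_zero 1 hndvd1 1 l.one_mem one_ne_zero 0 (by simp)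
        rw [Units.val_one, h1]
        simp
      map_mul' := by
        intro x y
        have hx : (x : L) ≠ 0 := x.ne_zero
        have hy : (y : L) ≠ 0 := y.ne_zero
        have h1 := key ((x : L) * y) (mul_ne_zero hx hy) (n x * n y)
          (fun h => (hℓ.dvd_mul.1 h).elim (hn x hx) (hn y hy))
          (c x ^ n y * c y ^ n x) (l.mul_mem (l.pow_mem (hc x hx) _) (l.pow_mem (hc y hy) _))
          (mul_ne_zero (pow_ne_zero _ (hc0 x hx)) (pow_ne_zero _ (hc0 y hy)))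
          (b x * n y + b y * n x) (by
            have e : ((x : L) * y) ^ (n x * n y) * (c x ^ n y * c y ^ n x) *
                ϖ ^ (b x * n y + b y * n x) =
                ((x : L) ^ n x * c x * ϖ ^ b x) ^ n y * ((y : L) ^ n y * c y * ϖ ^ b y) ^ n x := by
              rw [mul_pow, mul_pow, mul_pow, mul_pow, mul_pow, ← pow_mul, ← pow_mul,
                mul_comm (n y) (n x), zpow_add₀ hϖ0, zpow_mul, zpow_mul, zpow_natCast,
                zpow_natCast]
              ring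
            rw [e, map_mul, map_pow, map_pow, hb x hx, hb y hy, one_pow, one_pow, one_mul])
        rw [Units.val_mul, h1, ← ofAdd_add]
        congr 1
        have hx' := hnz _ (hn x hx)
        have hy' := hnz _ (hn y hy)
        push_cast
        field_simp
        ring }
  have hval : ∀ z : L, z ≠ 0 → V.lift φ (cl ℓ z) = -(b z : ZMod ℓ) / (n z : ZMod ℓ) := by
    intro z hz
    rw [cl_of_ne ℓ hz, V.lift_mk]
    rfl
  refine ⟨V.lift φ, ?_, ?_⟩
  · intro z hz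
    have hz0 : z ≠ 0 := by
      rintro rfl
      rw [map_zero] at hz
      exact zero_ne_one hz
    rw [hval z hz0, key z hz0 1 hndvd1 1 l.one_mem one_ne_zero 0 (by simpa using hz)]
    simp
  · rw [hval ϖ hϖ0, key ϖ hϖ0 1 hndvd1 1 l.one_mem one_ne_zero (-1) (by
      rw [pow_one, mul_one, zpow_neg_one, mul_inv_cancel₀ hϖ0, map_one])]
    simp

end Vale.Agent.P019P
end
end

section

section

/-!
# Kummer theory in the residue field
-/

namespace Vale.Agent.P019P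

open Vale.Agent.P019

section mongD

variable {L : Type*} [Field L] (q : ValuationSubring L)

/-- the residue map to an algebraic closure of the residue field. -/
noncomputable def rsO : q →+* AlgebraicClosure (IsLocalRing.ResidueField q) :=
  (algebraMap (IsLocalRing.ResidueField q) _).comp (IsLocalRing.residue q)

variable {q}

theorem rsO_eq_zero {x : q} : rsO q x = 0 ↔ q.valuation (x : L) < 1 := by
  rw [rsO, RingHom.comp_apply, map_eq_zero, IsLocalRing.residue_eq_zero_iff,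
    q.valuation_lt_one_iff]

theorem rsO_eq {x y : q} : rsO q x = rsO q y ↔ q.valuation ((x : L) - y) < 1 := by
  rw [← sub_eq_zero, ← map_sub, rsO_eq_zero]
  rfl

variable (q)

/-- the residues of the elements of a subfield. -/
noncomputable def rsS (M : Subfield L) :
    Subfield (AlgebraicClosure (IsLocalRing.ResidueField q)) where
  carrier := {z | ∃ x : q, (x : L) ∈ M ∧ rsO q x = z}
  mul_mem' := by
    rintro _ _ ⟨x, hx, rfl⟩ ⟨y, hy, rfl⟩
    exact ⟨x * y, M.mul_mem hx hy, map_mul _ _ _⟩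
  one_mem' := ⟨1, M.one_mem, map_one _⟩
  add_mem' := by
    rintro _ _ ⟨x, hx, rfl⟩ ⟨y, hy, rfl⟩
    exact ⟨x + y, M.add_mem hx hy, map_add _ _ _⟩
  zero_mem' := ⟨0, M.zero_mem, map_zero _⟩
  neg_mem' := by
    rintro _ ⟨x, hx, rfl⟩
    exact ⟨-x, M.neg_mem hx, map_neg _ _⟩
  inv_mem' := by
    rintro _ ⟨x, hx, rfl⟩
    by_cases h0 : rsO q x = 0
    · rw [h0, inv_zero]
      exact ⟨0, M.zero_mem, map_zero _⟩
    · have h1 : q.valuation (x : L) = 1 :=
        le_antisymm ((q.valuation_le_one_iff _).2 x.2) (not_lt.1 fun h => h0 (rsO_eq_zero.2 h))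
      have h2 : (x : L)⁻¹ ∈ q := by
        rw [← q.valuation_le_one_iff, map_inv₀, h1, inv_one]
      have hx0 : (x : L) ≠ 0 := by
        intro h
        rw [h, map_zero] at h1
        exact zero_ne_one h1
      refine ⟨⟨(x : L)⁻¹, h2⟩, M.inv_mem hx, ?_⟩
      apply eq_inv_of_mul_eq_one_left
      rw [← map_mul]
      have h3 : (⟨(x : L)⁻¹, h2⟩ : q) * x = 1 := Subtype.ext (inv_mul_cancel₀ hx0)
      rw [h3, map_one]

variable {q}

theorem mem_rsS {M : Subfield L} {z : AlgebraicClosure (IsLocalRing.ResidueField q)} :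
    z ∈ rsS q M ↔ ∃ x : q, (x : L) ∈ M ∧ rsO q x = z := Iff.rfl

/-- non-trivial roots of unity are not congruent to `1`. -/
theorem mong_root {η : L} {N : ℕ} (h1 : η ^ N = 1) (hη : η ≠ 1)
    (hN : q.valuation (N : L) = 1) : q.valuation (1 - η) = 1 := by
  have hN0 : N ≠ 0 := by
    rintro rfl
    rw [Nat.cast_zero, map_zero] at hN
    exact zero_ne_one hN
  have hv : q.valuation η = 1 := by
    have h2 := congrArg q.valuation h1
    rw [map_pow, map_one] at h2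
    exact (pow_eq_one_iff_of_nonneg zero_le hN0).1 h2
  have hle : q.valuation (1 - η) ≤ 1 := by
    refine (Valuation.map_sub _ _ _).trans (max_le ?_ hv.le)
    rw [map_one]
  refine le_antisymm hle (not_lt.1 fun hlt => ?_)
  have h3 : ∑ i ∈ Finset.range N, η ^ i = 0 := by
    have h4 := geom_sum_mul η N
    rw [h1, sub_self] at h4
    exact (mul_eq_zero.1 h4).resolve_right (sub_ne_zero.2 hη)
  have h5 : (N : L) = ∑ i ∈ Finset.range N, (1 - η ^ i) := by
    rw [Finset.sum_sub_distrib, h3, sub_zero, Finset.sum_const, Finset.card_range, nsmul_eq_mul,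
      mul_one]
  have h6 : q.valuation (N : L) < 1 := by
    rw [h5]
    refine Valuation.map_sum_lt _ one_ne_zero fun i _ => ?_
    have h7 : (1 : L) - η ^ i = (1 - η) * ∑ j ∈ Finset.range i, η ^ j := by
      rw [mul_comm, ← neg_sub η 1, mul_neg, geom_sum_mul, neg_sub]
    rw [h7, map_mul]
    refine mul_lt_one_of_lt_of_le hlt ?_
    refine Valuation.map_sum_le _ fun j _ => ?_
    rw [map_pow, hv, one_pow]
  exact absurd hN h6.ne

/-- Kummer theory: roots of inequivalent elements have linearly independent residues. -/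
theorem mong_kummer {ℓ : ℕ} [Fact ℓ.Prime] (M : Subfield L) {ζ : L} (hζM : ζ ∈ M)
    (hζ : IsPrimitiveRoot ζ ℓ) (hℓ : q.valuation (ℓ : L) = 1) {n : ℕ} {y f : Fin n → L}
    (hy : ∀ s, q.valuation (y s) = 1) (hf : ∀ s, f s ∈ M) (hfv : ∀ s, q.valuation (f s) = 1)
    (hyf : ∀ s, q.valuation (y s ^ ℓ - f s) < 1)
    (hne : ∀ s t, s ≠ t → ∀ N : ℕ, ¬ ℓ ∣ N → ∀ z ∈ M, q.valuation z = 1 →
      ¬ q.valuation (f s ^ N - f t ^ N * z ^ ℓ) < 1) (a : Fin n → L)
    (ha : ∀ i, a i ∈ M ∧ a i ∈ q) (hsum : q.valuation (∑ i, a i * y i) < 1) (i : Fin n) :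
    q.valuation (a i) < 1 := by
  classical
  have hℓ0 : ℓ ≠ 0 := (Fact.out : ℓ.Prime).ne_zero
  have hyq : ∀ s, y s ∈ q := fun s => (q.valuation_le_one_iff _).1 (hy s).le
  have hfq : ∀ s, f s ∈ q := fun s => (q.valuation_le_one_iff _).1 (hfv s).le
  have hζv : q.valuation ζ = 1 := by
    have h2 := congrArg q.valuation hζ.pow_eq_one
    rw [map_pow, map_one] at h2
    exact (pow_eq_one_iff_of_nonneg zero_le hℓ0).1 h2
  have hζq : ζ ∈ q := (q.valuation_le_one_iff _).1 hζv.le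
  have hℓq : rsO q (ℓ : q) ≠ 0 := by
    rw [Ne, rsO_eq_zero]
    push_cast
    exact hℓ.not_lt
  have : NeZero (ℓ : AlgebraicClosure (IsLocalRing.ResidueField q)) := ⟨by
    rw [map_natCast] at hℓq
    exact hℓq⟩
  let F := pf (rsS q M)
  let w : Fin n → AlgebraicClosure (IsLocalRing.ResidueField q) := fun s => rsO q ⟨y s, hyq s⟩
  have hwf : ∀ s, w s ^ ℓ = rsO q ⟨f s, hfq s⟩ := by
    intro s
    change rsO q ⟨y s, hyq s⟩ ^ ℓ = _
    rw [← map_pow, rsO_eq]
    exact hyf s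
  have hw0 : ∀ s, w s ≠ 0 := by
    intro s h
    exact absurd (rsO_eq_zero.1 h) (hy s).not_lt
  have hprim : IsPrimitiveRoot (⟨rsO q ⟨ζ, hζq⟩, le_pf _ ⟨⟨ζ, hζq⟩, hζM, rfl⟩⟩ : F) ℓ := by
    have h1 : IsPrimitiveRoot (rsO q ⟨ζ, hζq⟩) ℓ := by
      refine IsPrimitiveRoot.iff_orderOf.2 ?_
      refine orderOf_eq_prime ?_ ?_
      · rw [← map_pow]
        have h2 : (⟨ζ, hζq⟩ : q) ^ ℓ = 1 := Subtype.ext hζ.pow_eq_one
        rw [h2, map_one]
      · intro h2
        have h3 : rsO q ⟨ζ, hζq⟩ = rsO q 1 := by rw [h2, map_one]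
        rw [rsO_eq] at h3
        have h4 := mong_root hζ.pow_eq_one (hζ.ne_one (Fact.out : ℓ.Prime).one_lt) hℓ
        rw [Valuation.map_sub_swap] at h4
        exact absurd h4 h3.ne
    exact IsPrimitiveRoot.of_map_of_injective (f := F.subtype) h1 F.subtype.injective
  have hli : LinearIndependent F w := by
    refine linearIndependent_roots ℓ _ hprim hw0 (fun s => ?_) ?_
    · refine ⟨⟨rsO q ⟨f s, hfq s⟩, le_pf _ ⟨⟨f s, hfq s⟩, hf s, rfl⟩⟩, ?_⟩
      rw [hwf]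
      rfl
    · rintro s t hst ⟨g, hg⟩
      obtain ⟨k, hk⟩ := mem_pf.1 g.2
      obtain ⟨x, hxM, hx⟩ := mem_rsS.1 hk
      set N := ringExpChar (AlgebraicClosure (IsLocalRing.ResidueField q)) ^ k with hN
      have h1 : w s = w t * (g : AlgebraicClosure (IsLocalRing.ResidueField q)) := hg
      have h2 : rsO q ⟨f s, hfq s⟩ ^ N = rsO q ⟨f t, hfq t⟩ ^ N * rsO q x ^ ℓ := by
        rw [hx, ← hwf, ← hwf, h1]
        ring
      have h3 : rsO q x ≠ 0 := by
        intro h4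
        rw [h4, zero_pow hℓ0, mul_zero, ← hwf] at h2
        exact pow_ne_zero _ (pow_ne_zero _ (hw0 s)) h2
      have h4 : q.valuation (x : L) = 1 :=
        le_antisymm ((q.valuation_le_one_iff _).2 x.2) (not_lt.1 fun h => h3 (rsO_eq_zero.2 h))
      have hNℓ : ¬ ℓ ∣ N := by
        intro h5
        have h6 := q_pow_ne_zero ℓ (AlgebraicClosure (IsLocalRing.ResidueField q)) k
        rw [← hN] at h6
        exact h6 ((ZMod.natCast_eq_zero_iff N ℓ).2 h5)
      refine hne s t hst N hNℓ x hxM h4 ?_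
      rw [← map_pow, ← map_pow, ← map_pow, ← map_mul, rsO_eq] at h2
      exact h2
  rw [Fintype.linearIndependent_iff] at hli
  have h1 : ∑ s, (⟨rsO q ⟨a s, (ha s).2⟩, le_pf _ ⟨⟨a s, (ha s).2⟩, (ha s).1, rfl⟩⟩ : F) • w s
      = 0 := by
    have h2 : rsO q (∑ s, ⟨a s, (ha s).2⟩ * ⟨y s, hyq s⟩) = 0 := by
      rw [rsO_eq_zero]
      have h3 : ((∑ s, ⟨a s, (ha s).2⟩ * ⟨y s, hyq s⟩ : q) : L) = ∑ s, a s * y s := by
        push_cast
        rfl
      rw [h3]
      exact hsum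
    rw [map_sum] at h2
    rw [← h2]
    refine Finset.sum_congr rfl fun s _ => ?_
    rw [map_mul]
    rfl
  have h2 := hli _ h1 i
  have h3 : rsO q ⟨a i, (ha i).2⟩ = 0 := congrArg Subtype.val h2
  exact rsO_eq_zero.1 h3

end mongD

end Vale.Agent.P019P
end
end

section

section

/-!
# The equations for inequivalent classes are a system
-/

universe u

namespace Vale.Agent.P019P

open Polynomial IntermediateField TensorProduct

variable {A₀ : Type u} [CommRing A₀] {R₀ : Type u} [CommRing R₀] [Algebra A₀ R₀] {S : Set ℕ}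

theorem h4TSys_congr {ι : Type}
    {Q Q' : ∀ (A : Type u) [CommRing A] [Algebra A₀ A], (ι → A) → Prop} (h : IsSys Q)
    (hQ : ∀ (A : Type u) [CommRing A] [Algebra A₀ A] (t : ι → A), Q' A t ↔ Q A t) :
    IsSys Q' := by
  obtain ⟨E, hE⟩ := h
  exact ⟨E, fun A _ _ t => (hQ A t).trans (hE A t)⟩

theorem h4TSys_uT {A A' : Type u} [CommRing A] [Algebra A₀ A] [CommRing A'] [Algebra A₀ A']
    (φ : A →ₐ[A₀] A') (b : Module.Basis S A₀ R₀) {N n D E E' : ℕ} (t : IT S N n D E E' → A)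
    (i : Fin N) (m : Fin 4) (j : Fin 2) :
    bc R₀ φ (uT (b.baseChange A) t i m j) = uT (b.baseChange A') (fun x => φ (t x)) i m j :=
  bc_el φ b fun d => t (Sum.inl (i, m, j, d))

theorem h4TSys_Lam {A A' : Type u} [CommRing A] [Algebra A₀ A] [CommRing A'] [Algebra A₀ A']
    (φ : A →ₐ[A₀] A') (b : Module.Basis S A₀ R₀) (ℓ n D E : ℕ) (f f' : A ⊗[A₀] R₀)
    (a a' : Fin 2 → A ⊗[A₀] R₀) (c : LU S n D) (e : LV S E) :
    φ (Lam (b.baseChange A) ℓ n D E f f' a a' c e) =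
      Lam (b.baseChange A') ℓ n D E (bc R₀ φ f) (bc R₀ φ f') (fun j => bc R₀ φ (a j))
        (fun j => bc R₀ φ (a' j)) c e := by
  rcases c with d | d
  · simp only [Lam]
    rw [← bc_repr, RingHom.map_mul, RingHom.map_mul, RingHom.map_pow, bc_basis]
  · simp only [Lam]
    split_ifs with h
    · rw [map_neg, ← bc_repr, RingHom.map_mul, RingHom.map_mul, bc_basis]
    · rw [map_zero]

/-- the left side of the equation `inv`. -/
noncomputable def h4TSys_G (b : Module.Basis S A₀ R₀) (ℓ N n D E E' : ℕ) (i i' : Fin N)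
    (c c' : LU S n E) (A : Type u) [CommRing A] [Algebra A₀ A] (t : IT S N n D E E' → A) : A :=
  ∑ e : LV S E', t (Sum.inr (i, i', c, e)) * Lam (b.baseChange A) ℓ n E E'
    (uT (b.baseChange A) t i 0 0) (uT (b.baseChange A) t i' 0 0)
      (fun j => uT (b.baseChange A) t i 1 j) (fun j => uT (b.baseChange A) t i' 1 j) c' e

theorem h4TSys_G_nat (b : Module.Basis S A₀ R₀) (ℓ N n D E E' : ℕ) (i i' : Fin N)
    (c c' : LU S n E) (A A' : Type u) [CommRing A] [Algebra A₀ A] [CommRing A'] [Algebra A₀ A']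
    (φ : A →ₐ[A₀] A') (t : IT S N n D E E' → A) :
    φ (h4TSys_G b ℓ N n D E E' i i' c c' A t) =
      h4TSys_G b ℓ N n D E E' i i' c c' A' fun x => φ (t x) := by
  unfold h4TSys_G
  rw [map_sum]
  refine Finset.sum_congr rfl fun e _ => ?_
  rw [map_mul, h4TSys_Lam]
  simp only [h4TSys_uT]

theorem h4TSys_deg (N n D E E' : ℕ) (i : Fin N) (d : SD S D) :
    IsSys fun (A : Type u) [CommRing A] [Algebra A₀ A] (t : IT S N n D E E' → A) =>
      t (Sum.inl (i, 0, 0, d)) = if (d.1 : ℕ) = n then 1 else 0 :=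
  isSys_eq (fun A _ _ t => t (Sum.inl (i, 0, 0, d)))
    (fun A _ _ _ => if (d.1 : ℕ) = n then 1 else 0)
    (fun A A' _ _ _ _ φ t => rfl)
    (fun A A' _ _ _ _ φ t => by
      split_ifs
      · rw [map_one]
      · rw [map_zero])

theorem h4TSys_eq (b : Module.Basis S A₀ R₀) (ℓ N n D E E' : ℕ) (i : Fin N) (j : Fin 2) :
    IsSys fun (A : Type u) [CommRing A] [Algebra A₀ A] (t : IT S N n D E E' → A) =>
      (1 : A ⊗[A₀] R₀) * uT (b.baseChange A) t i 1 j ^ ℓ =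
        uT (b.baseChange A) t i 0 0 * uT (b.baseChange A) t i 2 j :=
  isSys_ring b
    (fun A _ _ t => (1 : A ⊗[A₀] R₀) * uT (b.baseChange A) t i 1 j ^ ℓ)
    (fun A _ _ t => uT (b.baseChange A) t i 0 0 * uT (b.baseChange A) t i 2 j)
    (fun A A' _ _ _ _ φ t => by rw [map_mul, map_pow, map_one, h4TSys_uT])
    (fun A A' _ _ _ _ φ t => by rw [map_mul, h4TSys_uT, h4TSys_uT])

theorem h4TSys_one (b : Module.Basis S A₀ R₀) (N n D E E' : ℕ) (i : Fin N) :
    IsSys fun (A : Type u) [CommRing A] [Algebra A₀ A] (t : IT S N n D E E' → A) =>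
      ∑ _ : Unit, ∑ j : Fin 2,
        uT (b.baseChange A) t i 3 j * uT (b.baseChange A) t i 2 j = 1 :=
  isSys_ring b
    (fun A _ _ t => ∑ _ : Unit, ∑ j : Fin 2,
      uT (b.baseChange A) t i 3 j * uT (b.baseChange A) t i 2 j)
    (fun A _ _ t => 1)
    (fun A A' _ _ _ _ φ t => by simp only [map_sum, map_mul, h4TSys_uT])
    (fun A A' _ _ _ _ φ t => by rw [map_one])

theorem h4TSys_inv (b : Module.Basis S A₀ R₀) (ℓ N n D E E' : ℕ) (i i' : Fin N)
    (c c' : LU S n E) :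
    IsSys fun (A : Type u) [CommRing A] [Algebra A₀ A] (t : IT S N n D E E' → A) =>
      h4TSys_G b ℓ N n D E E' i i' c c' A t = if c = c' then 1 else 0 :=
  isSys_eq (h4TSys_G b ℓ N n D E E' i i' c c') (fun A _ _ _ => if c = c' then 1 else 0)
    (fun A A' _ _ _ _ φ t => h4TSys_G_nat b ℓ N n D E E' i i' c c' A A' φ t)
    (fun A A' _ _ _ _ φ t => by
      split_ifs
      · rw [map_one]
      · rw [map_zero])

theorem isSys_QT (b : Module.Basis S A₀ R₀) (ℓ N n D E E' : ℕ) :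
    IsSys fun (A : Type u) [CommRing A] [Algebra A₀ A] (t : IT S N n D E E' → A) =>
      QT (b.baseChange A) ℓ N n D E E' t := by
  have h1 : IsSys fun (A : Type u) [CommRing A] [Algebra A₀ A] (t : IT S N n D E E' → A) =>
      ∀ x : {x : Fin N × SD S D // n ≤ (x.2.1 : ℕ)},
        t (Sum.inl (x.1.1, 0, 0, x.1.2)) = if (x.1.2.1 : ℕ) = n then 1 else 0 :=
    IsSys.all fun x => h4TSys_deg N n D E E' x.1.1 x.1.2
  have h2 : IsSys fun (A : Type u) [CommRing A] [Algebra A₀ A] (t : IT S N n D E E' → A) =>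
      ∀ x : Fin N × Fin 2, (1 : A ⊗[A₀] R₀) * uT (b.baseChange A) t x.1 1 x.2 ^ ℓ =
        uT (b.baseChange A) t x.1 0 0 * uT (b.baseChange A) t x.1 2 x.2 :=
    IsSys.all fun x => h4TSys_eq b ℓ N n D E E' x.1 x.2
  have h3 : IsSys fun (A : Type u) [CommRing A] [Algebra A₀ A] (t : IT S N n D E E' → A) =>
      ∀ i : Fin N, ∑ _ : Unit, ∑ j : Fin 2,
        uT (b.baseChange A) t i 3 j * uT (b.baseChange A) t i 2 j = 1 :=
    IsSys.all fun i => h4TSys_one b N n D E E' i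
  have h4 : IsSys fun (A : Type u) [CommRing A] [Algebra A₀ A] (t : IT S N n D E E' → A) =>
      ∀ x : {x : Fin N × Fin N × LU S n E × LU S n E // x.1 ≠ x.2.1},
        h4TSys_G b ℓ N n D E E' x.1.1 x.1.2.1 x.1.2.2.1 x.1.2.2.2 A t =
          if x.1.2.2.1 = x.1.2.2.2 then 1 else 0 :=
    IsSys.all fun x => h4TSys_inv b ℓ N n D E E' x.1.1 x.1.2.1 x.1.2.2.1 x.1.2.2.2
  refine h4TSys_congr (h1.and (h2.and (h3.and h4))) fun A _ _ t => ?_
  constructor
  · rintro ⟨ha, hb, hc⟩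
    refine ⟨fun x => ha x.1.1 x.1.2 x.2, fun x => (hb x.1).eq () x.2, fun i => (hb i).one,
      fun x => hc x.1.1 x.1.2.1 x.2 x.1.2.2.1 x.1.2.2.2⟩
  · rintro ⟨ha, hb, hc, hd⟩
    exact ⟨fun i d hd => ha ⟨(i, d), hd⟩, fun i => ⟨fun _ j => hb (i, j), hc i⟩,
      fun i i' hi c c' => hd ⟨(i, i', c, c'), hi⟩⟩

end Vale.Agent.P019P
end
end

section

section

/-!
# Bounded Bezout identities
-/

namespace Vale.Agent.P019P

open Polynomial IntermediateField

variable {k F : Type*} [Field k] [Field F] [Algebra k F] [CFF k F]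

/-- the quotient of two solutions has a bounded pole. -/
theorem h4RRC_mem (P₀ : Plk k F) {r r' s s' : F} {d d' g : ℕ} (h0 : r ≠ 0) (h0' : r' ≠ 0)
    (hd' : ord P₀ r' = -(d' : ℤ)) (h : ∀ P, P ≠ P₀ → ord P r = 0 ∨ ord P r' = 0)
    (hs : s ∈ LP P₀ (d' + g)) (hs' : s' ∈ LP P₀ (d + g)) (he : s * r + s' * r' = 0) :
    s * r'⁻¹ ∈ LP P₀ g := by
  by_cases hs0 : s = 0
  · rw [hs0, zero_mul]; exact Submodule.zero_mem _
  have hi : r'⁻¹ ≠ 0 := inv_ne_zero h0'
  have hs1 := mem_LP.1 hs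
  have hs1' := mem_LP.1 hs'
  have he' : s * r = (-s') * r' := by rw [neg_mul]; exact eq_neg_of_add_eq_zero_left he
  have hs0' : s' ≠ 0 := by
    intro h3
    rw [h3, neg_zero, zero_mul] at he'
    exact mul_ne_zero hs0 h0 he'
  refine mem_LP.2 ⟨mem_RO.2 fun P hP => Or.inr ?_, Or.inr ?_⟩
  · rw [ord_mul P hs0 hi, ord_inv]
    have h4 : 0 ≤ ord P s := (mem_RO.1 hs1.1 P hP).resolve_left hs0
    have h5 : 0 ≤ ord P s' := (mem_RO.1 hs1'.1 P hP).resolve_left hs0'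
    rcases h P hP with h6 | h6
    · have h7 := congrArg (ord P) he'
      rw [ord_mul P hs0 h0, ord_mul P (neg_ne_zero.2 hs0') h0', ord_neg, h6] at h7
      omega
    · rw [h6]; omega
  · rw [ord_mul P₀ hs0 hi, ord_inv, hd']
    have h8 := hs1.2.resolve_left hs0
    push_cast at h8
    omega

theorem h4_bezout2 (P₀ : Plk k F) {r r' : F} {D D' : ℕ} (hr : r ∈ LP P₀ D)
    (hr' : r' ∈ LP P₀ D') (h0 : r ≠ 0) (h0' : r' ≠ 0)
    (h : ∀ P, P ≠ P₀ → ord P r = 0 ∨ ord P r' = 0) :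
    ∃ s s' : F, s ∈ LP P₀ (D' + 2 * gen k F) ∧ s' ∈ LP P₀ (D + 2 * gen k F) ∧
      s * r + s' * r' = 1 := by
  have hR := (mem_LP.1 hr).1
  have hR' := (mem_LP.1 hr').1
  have h1 := h4_ord_le P₀ hR h0
  have h1' := h4_ord_le P₀ hR' h0'
  have h2 := (mem_LP.1 hr).2.resolve_left h0
  have h2' := (mem_LP.1 hr').2.resolve_left h0'
  obtain ⟨d, hd⟩ : ∃ d : ℕ, ord P₀ r = -(d : ℤ) := ⟨(-ord P₀ r).toNat, by omega⟩
  obtain ⟨d', hd'⟩ : ∃ d : ℕ, ord P₀ r' = -(d : ℤ) := ⟨(-ord P₀ r').toNat, by omega⟩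
  have hdD : d ≤ D := by omega
  have hdD' : d' ≤ D' := by omega
  have hrd : r ∈ LP P₀ d := mem_LP.2 ⟨hR, Or.inr hd.ge⟩
  have hrd' : r' ∈ LP P₀ d' := mem_LP.2 ⟨hR', Or.inr hd'.ge⟩
  obtain ⟨g, hg⟩ : ∃ g, g = gen k F := ⟨_, rfl⟩
  rw [← hg]
  have hμ : ∀ x : LP P₀ (d' + 2 * g) × LP P₀ (d + 2 * g),
      (((LinearMap.mulRight k r) ∘ₗ (LP P₀ (d' + 2 * g)).subtype).coprod
        ((LinearMap.mulRight k r') ∘ₗ (LP P₀ (d + 2 * g)).subtype)) x ∈
        LP P₀ (d + d' + 2 * g) := by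
    rintro ⟨⟨s, hs⟩, ⟨s', hs'⟩⟩
    have h3 := LP_mul hs hrd
    have h4 := LP_mul hs' hrd'
    rw [show d' + 2 * g + d = d + d' + 2 * g by ring] at h3
    rw [show d + 2 * g + d' = d + d' + 2 * g by ring] at h4
    exact Submodule.add_mem _ h3 h4
  let μ : LP P₀ (d' + 2 * g) × LP P₀ (d + 2 * g) →ₗ[k] LP P₀ (d + d' + 2 * g) :=
    LinearMap.codRestrict _ _ hμ
  have hμv : ∀ x, ((μ x : LP P₀ (d + d' + 2 * g)) : F) = (x.1 : F) * r + (x.2 : F) * r' :=
    fun x => rfl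
  have hker : ∀ x : LinearMap.ker μ, ((x.1.1 : F) * r + (x.1.2 : F) * r') = 0 := fun x => by
    rw [← hμv, LinearMap.mem_ker.1 x.2]; rfl
  have hκ : ∀ x : LinearMap.ker μ,
      ((LinearMap.mulRight k r'⁻¹) ∘ₗ (LP P₀ (d' + 2 * g)).subtype ∘ₗ
        (LinearMap.fst k _ _) ∘ₗ (LinearMap.ker μ).subtype) x ∈ LP P₀ (2 * g) := by
    intro x
    exact h4RRC_mem P₀ h0 h0' hd' h x.1.1.2 x.1.2.2 (hker x)
  let κ : LinearMap.ker μ →ₗ[k] LP P₀ (2 * g) := LinearMap.codRestrict _ _ hκ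
  have hκv : ∀ x, ((κ x : LP P₀ (2 * g)) : F) = (x.1.1 : F) * r'⁻¹ := fun x => rfl
  have hinj : Function.Injective κ := by
    intro x y hxy
    have h3 : (x.1.1 : F) = y.1.1 := by
      have h4 : (x.1.1 : F) * r'⁻¹ = (y.1.1 : F) * r'⁻¹ := by rw [← hκv, ← hκv, hxy]
      exact mul_right_cancel₀ (inv_ne_zero h0') h4
    have h5 := hker x
    have h6 := hker y
    rw [h3] at h5
    have h7 : (x.1.2 : F) = y.1.2 :=
      mul_right_cancel₀ h0' (add_left_cancel (h5.trans h6.symm))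
    exact Subtype.ext (Prod.ext (Subtype.ext h3) (Subtype.ext h7))
  have hk1 := LinearMap.finrank_le_finrank_of_injective hinj
  have hk2 := LinearMap.finrank_range_add_finrank_ker μ
  rw [Module.finrank_prod] at hk2
  have hl1 := l_LP P₀ (n := 2 * g) (by omega)
  have hl2 := l_LP P₀ (n := d' + 2 * g) (by omega)
  have hl3 := l_LP P₀ (n := d + 2 * g) (by omega)
  have hl4 := l_LP P₀ (n := d + d' + 2 * g) (by omega)
  rw [← hg] at hl1 hl2 hl3 hl4
  push_cast at hl1 hl2 hl3 hl4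
  have hle := Submodule.finrank_le (LinearMap.range μ)
  have htop : LinearMap.range μ = ⊤ := Submodule.eq_top_of_finrank_eq (by omega)
  obtain ⟨x, hx⟩ := LinearMap.range_eq_top.1 htop ⟨1, LP_one P₀ _⟩
  refine ⟨x.1, x.2, LP_mono P₀ (by omega) x.1.2, LP_mono P₀ (by omega) x.2.2, ?_⟩
  rw [← hμv, hx]

theorem h4_bezout {ι : Type} [Fintype ι] (P₀ : Plk k F) {r : ι → F} {D : ℕ}
    (hr : ∀ i, r i ∈ LP P₀ D) (h : ∀ P, P ≠ P₀ → ∃ i, r i ≠ 0 ∧ ord P (r i) = 0) :
    ∃ s : ι → F, (∀ i, s i ∈ LP P₀ (D + 2 * gen k F)) ∧ ∑ i, s i * r i = 1 := by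
  classical
  have : IsAlgClosed k := CFF.ac F
  have hinf : Infinite k := IsAlgClosed.instInfinite
  obtain ⟨P₁, hP₁⟩ := exists_ne_place P₀
  obtain ⟨i₀, hi₀, -⟩ := h P₁ hP₁
  have hT : {P : Plk k F | ord P (r i₀) ≠ 0}.Finite := dv_finite hi₀
  let T : Type _ := {P : Plk k F // ord P (r i₀) ≠ 0 ∧ P ≠ P₀}
  have hTf : Finite T := Set.Finite.to_subtype
    (s := {P : Plk k F | ord P (r i₀) ≠ 0 ∧ P ≠ P₀}) (hT.subset fun P hP => hP.1)
  let L : (ι → k) →ₗ[k] F := Fintype.linearCombination k r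
  have hL : ∀ c, L c = ∑ i, c i • r i := fun c => Fintype.linearCombination_apply k r c
  have hLs : ∀ i, L (Pi.single i 1) = r i := fun i => by
    rw [Fintype.linearCombination_apply_single, one_smul]
  let V : Option T → Submodule k (ι → k) := fun x =>
    match x with
    | none => LinearMap.ker L
    | some P => (Mge P.1 1).comap L
  have hV : ∀ x, V x ≠ ⊤ := by
    rintro (_ | P) hx
    · have h1 : Pi.single i₀ (1 : k) ∈ V none := by rw [hx]; trivial
      rw [LinearMap.mem_ker, hLs] at h1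
      exact hi₀ h1
    · obtain ⟨i, hi, hPi⟩ := h P.1 P.2.2
      have h1 : Pi.single i (1 : k) ∈ V (some P) := by rw [hx]; trivial
      rw [Submodule.mem_comap, hLs, mem_Mge] at h1
      rcases h1 with h1 | h1
      · exact hi h1
      · omega
  obtain ⟨c, hc⟩ : ∃ c, ∀ x, c ∉ V x := by
    by_contra hcon
    push Not at hcon
    obtain ⟨x, hx⟩ := Subspace.exists_eq_top_of_iUnion_eq_univ (k := k) (p := V)
      (Set.eq_univ_of_forall fun c => Set.mem_iUnion.2 (hcon c))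
    exact hV x hx
  have hc0 : L c ≠ 0 := fun h1 => hc none (LinearMap.mem_ker.2 h1)
  have hcD : L c ∈ LP P₀ D := by
    rw [hL]
    exact Submodule.sum_mem _ fun i _ => Submodule.smul_mem _ _ (hr i)
  obtain ⟨s, s', hs, hs', he⟩ := h4_bezout2 P₀ (hr i₀) hcD hi₀ hc0 (by
    intro P hP
    by_cases h1 : ord P (r i₀) = 0
    · exact Or.inl h1
    right
    have h2 := hc (some ⟨P, h1, hP⟩)
    have h3 : 0 ≤ ord P (L c) := (mem_RO.1 (mem_LP.1 hcD).1 P hP).resolve_left hc0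
    have h4 : ¬ 1 ≤ ord P (L c) := fun h5 => h2 (Or.inr h5)
    omega)
  refine ⟨fun i => c i • s' + if i = i₀ then s else 0, fun i => ?_, ?_⟩
  · refine Submodule.add_mem _ (Submodule.smul_mem _ _ hs') ?_
    split_ifs
    · exact hs
    · exact Submodule.zero_mem _
  · rw [← he, hL, Finset.mul_sum, add_comm]
    simp_rw [add_mul]
    rw [Finset.sum_add_distrib]
    congr 1
    · exact Finset.sum_congr rfl fun i _ => by rw [smul_mul_assoc, mul_smul_comm]
    · simp_rw [ite_mul, zero_mul]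
      rw [Finset.sum_ite_eq' Finset.univ i₀ fun i => s * r i, if_pos (Finset.mem_univ _)]

end Vale.Agent.P019P
end
end

section

section

/-!
# Bounded data
-/

namespace Vale.Agent.P019P

open Polynomial IntermediateField

variable {k F : Type*} [Field k] [Field F] [Algebra k F] [CFF k F]

theorem h4RRD_ord_quot (P : Plk k F) {x a f : F} (hx : x ≠ 0) (ha : a ≠ 0) (hf : f ≠ 0) (ℓ : ℕ) :
    ord P (x * a ^ ℓ / f) = ord P x + ℓ * ord P a - ord P f := by
  rw [div_eq_mul_inv, ord_mul P (mul_ne_zero hx (pow_ne_zero ℓ ha)) (inv_ne_zero hf),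
    ord_mul P hx (pow_ne_zero ℓ ha), ord_pow, ord_inv]
  ring

theorem h4RRD_quot_mem {ℓ : ℕ} {P₀ : Plk k F} {x a f : F} {D n : ℕ} {E : Plk k F →₀ ℤ}
    (hx : x ∈ LP P₀ D) (ha0 : a ≠ 0) (ha : a ∈ LP P₀ n) (hf : f ≠ 0) (hfR : f ∈ RO P₀)
    (hE : ∀ P, P ≠ P₀ → E P ≤ ord P a)
    (h1 : ∀ P, P ≠ P₀ → x ≠ 0 → ord P f ≤ ord P x + ℓ * E P) :
    x * a ^ ℓ / f ∈ LP P₀ (D + ℓ * n) := by
  by_cases hx0 : x = 0
  · rw [hx0, zero_mul, zero_div]
    exact Submodule.zero_mem _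
  have hxR := ((mem_LP.1 hx).2).resolve_left hx0
  have haR := ((mem_LP.1 ha).2).resolve_left ha0
  have hf0 := h4_ord_le P₀ hfR hf
  refine mem_LP.2 ⟨?_, ?_⟩
  · refine mem_RO.2 fun P hP => Or.inr ?_
    rw [h4RRD_ord_quot P hx0 ha0 hf]
    have h2 := h1 P hP hx0
    have h3 := hE P hP
    have h4 : (ℓ : ℤ) * E P ≤ ℓ * ord P a := mul_le_mul_of_nonneg_left h3 (Int.natCast_nonneg ℓ)
    linarith
  · right
    rw [h4RRD_ord_quot P₀ hx0 ha0 hf]
    have h4 : (ℓ : ℤ) * (-(n : ℤ)) ≤ ℓ * ord P₀ a :=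
      mul_le_mul_of_nonneg_left haR (Int.natCast_nonneg ℓ)
    push_cast
    linarith

/-- existence of bounded data. -/
theorem h4_data {ℓ : ℕ} (hℓ : ℓ ≠ 0) (P₀ : Plk k F) {ι : Type} [Fintype ι] {p : ι → F} {D : ℕ}
    (hp : ∀ i, p i ∈ LP P₀ D) {f : F} (hf : f ≠ 0) (hfR : f ∈ RO P₀) {E : Plk k F →₀ ℤ}
    (hE : 0 ≤ E) (hE0 : E P₀ = 0) {e : ℕ} (he : dg E ≤ e)
    (h1 : ∀ P, P ≠ P₀ → ∀ i, p i ≠ 0 → ord P f ≤ ord P (p i) + ℓ * E P)
    (h2 : ∀ P, P ≠ P₀ → ∃ i, p i ≠ 0 ∧ ord P f = ord P (p i) + ℓ * E P) :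
    ∃ (a : Fin 2 → F) (r s : ι → Fin 2 → F), JT ℓ p f a r s ∧
      (∀ j, a j ∈ LP P₀ (e + 2 * gen k F)) ∧
      (∀ i j, r i j ∈ LP P₀ (D + ℓ * (e + 2 * gen k F))) ∧
      ∀ i j, s i j ∈ LP P₀ (D + ℓ * (e + 2 * gen k F) + 2 * gen k F) := by
  obtain ⟨a, ha1, ha2⟩ := h4_gens P₀ hE hE0 (n := e + 2 * gen k F) (by push_cast; linarith)
  have hr : ∀ i j, p i * a j ^ ℓ / f ∈ LP P₀ (D + ℓ * (e + 2 * gen k F)) := fun i j =>
    h4RRD_quot_mem (hp i) (ha1 j).1 (ha1 j).2 hf hfR (fun P hP => (ha2 P hP).1 j)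
      fun P hP => h1 P hP i
  obtain ⟨s, hs1, hs2⟩ := h4_bezout P₀ (r := fun q : ι × Fin 2 => p q.1 * a q.2 ^ ℓ / f)
    (D := D + ℓ * (e + 2 * gen k F)) (fun q => hr q.1 q.2) (by
      intro P hP
      obtain ⟨i, hi0, hi⟩ := h2 P hP
      obtain ⟨j, hj⟩ := (ha2 P hP).2
      refine ⟨(i, j), ?_, ?_⟩
      · exact div_ne_zero (mul_ne_zero hi0 (pow_ne_zero ℓ (ha1 j).1)) hf
      · rw [h4RRD_ord_quot P hi0 (ha1 j).1 hf, hj, hi, sub_self])
  refine ⟨a, fun i j => p i * a j ^ ℓ / f, fun i j => s (i, j), ⟨?_, ?_⟩, fun j => (ha1 j).2, hr,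
    fun i j => hs1 (i, j)⟩
  · intro i j
    rw [mul_div_cancel₀ _ hf]
  · rw [← hs2, Fintype.sum_prod_type]

/-- the minimum of the orders outside of `P₀`. -/
theorem h4RRD_inf (P₀ : Plk k F) {ι : Type} [Fintype ι] {p : ι → F} {D : ℕ}
    (hp : ∀ i, p i ∈ LP P₀ D) (hp0 : ∃ i, p i ≠ 0) :
    ∃ J : Plk k F →₀ ℤ, J P₀ = 0 ∧ (∀ P, 0 ≤ J P) ∧ dg J ≤ D ∧
      (∀ P, P ≠ P₀ → ∀ i, p i ≠ 0 → J P ≤ ord P (p i)) ∧
      ∀ P, P ≠ P₀ → ∃ i, p i ≠ 0 ∧ J P = ord P (p i) := by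
  classical
  obtain ⟨i₀, hi₀⟩ := hp0
  have hT : (Finset.univ.filter fun i => p i ≠ 0).Nonempty :=
    ⟨i₀, Finset.mem_filter.2 ⟨Finset.mem_univ _, hi₀⟩⟩
  have hord : ∀ P, P ≠ P₀ → ∀ i, p i ≠ 0 → 0 ≤ ord P (p i) := fun P hP i hi =>
    ((mem_RO.1 (mem_LP.1 (hp i)).1) P hP).resolve_left hi
  let m : Plk k F → ℤ := fun P =>
    if P = P₀ then 0 else (Finset.univ.filter fun i => p i ≠ 0).inf' hT fun i => ord P (p i)
  have hm0 : m P₀ = 0 := if_pos rfl
  have hmle : ∀ P, P ≠ P₀ → ∀ i, p i ≠ 0 → m P ≤ ord P (p i) := by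
    intro P hP i hi
    have h3 : m P = (Finset.univ.filter fun i => p i ≠ 0).inf' hT fun i => ord P (p i) :=
      if_neg hP
    rw [h3]
    exact Finset.inf'_le (fun i => ord P (p i)) (Finset.mem_filter.2 ⟨Finset.mem_univ i, hi⟩)
  have hmex : ∀ P, P ≠ P₀ → ∃ i, p i ≠ 0 ∧ m P = ord P (p i) := by
    intro P hP
    have h3 : m P = (Finset.univ.filter fun i => p i ≠ 0).inf' hT fun i => ord P (p i) :=
      if_neg hP
    obtain ⟨i, hi, hi'⟩ := Finset.exists_mem_eq_inf' hT fun i => ord P (p i)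
    exact ⟨i, (Finset.mem_filter.1 hi).2, h3.trans hi'⟩
  have hmnn : ∀ P, 0 ≤ m P := by
    intro P
    by_cases hP : P = P₀
    · rw [hP, hm0]
    · obtain ⟨i, hi, hi'⟩ := hmex P hP
      rw [hi']
      exact hord P hP i hi
  have hfin : (Function.support m).Finite := by
    refine (dv_finite (k := k) hi₀).subset fun P hP => ?_
    have hP0 : P ≠ P₀ := by
      rintro rfl
      exact hP hm0
    have h3 := hmle P hP0 i₀ hi₀
    have h4 : 0 < m P := lt_of_le_of_ne (hmnn P) (Ne.symm hP)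
    have h5 : ord P (p i₀) ≠ 0 := by omega
    exact h5
  have hJ : ∀ P, Finsupp.ofSupportFinite m hfin P = m P := fun P => rfl
  refine ⟨Finsupp.ofSupportFinite m hfin, by rw [hJ, hm0], fun P => by rw [hJ]; exact hmnn P, ?_,
    fun P hP i hi => by rw [hJ]; exact hmle P hP i hi, fun P hP => by rw [hJ]; exact hmex P hP⟩
  have hle : Finsupp.ofSupportFinite m hfin ≤ dv k (p i₀) + Finsupp.single P₀ (D : ℤ) := by
    intro P
    rw [hJ, Finsupp.add_apply, dv_apply]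
    by_cases hP : P = P₀
    · rw [hP, hm0, Finsupp.single_eq_same]
      have h3 := ((mem_LP.1 (hp i₀)).2).resolve_left hi₀
      linarith
    · rw [Finsupp.single_eq_of_ne hP, add_zero]
      exact hmle P hP i₀ hi₀
  have h3 := dg_mono hle
  rwa [map_add, dg_dv, dg_sgl, zero_add] at h3

/-- the data of an ideal if the class group is `ℓ`-divisible. -/
theorem h4_div {ℓ : ℕ} (hℓ : ℓ ≠ 0) (hdiv : ∀ D : Plk k F →₀ ℤ, dg D = 0 →
      ∃ E : Plk k F →₀ ℤ, dg E = 0 ∧ D - ℓ • E ∈ prn k F) (P₀ : Plk k F) {ι : Type}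
    [Fintype ι] {p : ι → F} {D : ℕ} (hp : ∀ i, p i ∈ LP P₀ D) (hp0 : ∃ i, p i ≠ 0) :
    ∃ (f : F) (E : Plk k F →₀ ℤ), f ≠ 0 ∧ f ∈ LP P₀ (D + 2 * gen k F * ℓ) ∧ 0 ≤ E ∧
      E P₀ = 0 ∧ dg E = 2 * gen k F ∧
      (∀ P, P ≠ P₀ → ∀ i, p i ≠ 0 → ord P f ≤ ord P (p i) + ℓ * E P) ∧
      ∀ P, P ≠ P₀ → ∃ i, p i ≠ 0 ∧ ord P f = ord P (p i) + ℓ * E P := by
  obtain ⟨J, hJ0, hJn, hJd, hJ1, hJ2⟩ := h4RRD_inf P₀ hp hp0
  obtain ⟨E₁, hE₁, hz⟩ := hdiv (J - Finsupp.single P₀ (dg J)) (by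
    rw [map_sub, dg_sgl, sub_self])
  obtain ⟨z, hz0, hz⟩ := hz
  have hzP : ∀ P : Plk k F, ord P z = J P - Finsupp.single P₀ (dg J) P - ℓ * E₁ P := by
    intro P
    rw [← dv_apply (k := k), ← hz, Finsupp.sub_apply, Finsupp.sub_apply, Finsupp.smul_apply,
      nsmul_eq_mul]
  obtain ⟨h, hh0, hh1, hh2⟩ := h4_exact (D := Finsupp.single P₀ (2 * (gen k F : ℤ)) - E₁) P₀ (by
    rw [map_sub, dg_sgl, hE₁, sub_zero])
  have hfP : ∀ P : Plk k F, ord P (z * h ^ ℓ) = ord P z + ℓ * ord P h := by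
    intro P
    rw [ord_mul P hz0 (pow_ne_zero ℓ hh0), ord_pow]
  have hEP : ∀ P : Plk k F, (dv k h + (Finsupp.single P₀ (2 * (gen k F : ℤ)) - E₁)) P =
      ord P h + (Finsupp.single P₀ (2 * (gen k F : ℤ)) P - E₁ P) := by
    intro P
    rw [Finsupp.add_apply, Finsupp.sub_apply, dv_apply]
  have hne : ∀ P : Plk k F, P ≠ P₀ → ord P (z * h ^ ℓ) =
      J P + ℓ * (dv k h + (Finsupp.single P₀ (2 * (gen k F : ℤ)) - E₁)) P := by
    intro P hP
    rw [hfP, hzP, hEP, Finsupp.single_eq_of_ne hP, Finsupp.single_eq_of_ne hP]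
    ring
  have hEnn : ∀ P : Plk k F, 0 ≤ (dv k h + (Finsupp.single P₀ (2 * (gen k F : ℤ)) - E₁)) P := by
    intro P
    have h3 := hh1 P
    rw [Finsupp.sub_apply] at h3
    rw [hEP]
    linarith
  refine ⟨z * h ^ ℓ, dv k h + (Finsupp.single P₀ (2 * (gen k F : ℤ)) - E₁),
    mul_ne_zero hz0 (pow_ne_zero ℓ hh0), ?_, hEnn, ?_, ?_, ?_, ?_⟩
  · refine mem_LP.2 ⟨mem_RO.2 fun P hP => Or.inr ?_, Or.inr ?_⟩
    · rw [hne P hP]
      exact add_nonneg (hJn P) (mul_nonneg (Int.natCast_nonneg ℓ) (hEnn P))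
    · rw [hfP, hzP, hh2, Finsupp.sub_apply, Finsupp.single_eq_same, Finsupp.single_eq_same, hJ0]
      push_cast
      linarith
  · rw [hEP, hh2, Finsupp.sub_apply]
    ring
  · rw [map_add, map_sub, dg_dv, dg_sgl, hE₁]
    ring
  · intro P hP i hi
    rw [hne P hP]
    have h3 := hJ1 P hP i hi
    linarith
  · intro P hP
    obtain ⟨i, hi, hi'⟩ := hJ2 P hP
    exact ⟨i, hi, by rw [hne P hP, hi']⟩

end Vale.Agent.P019P
end
end

section

section

/-!
# Consequences of the data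
-/

namespace Vale.Agent.P019P

open Polynomial IntermediateField

variable {k F : Type*} [Field k] [Field F] [Algebra k F] [CFF k F]

theorem h4RRE_nonneg {P₀ P : Plk k F} (hP : P ≠ P₀) {z : F} (hz : z ∈ RO P₀) : 0 ≤ ord P z := by
  rcases hz P hP with h | h
  · rw [h, ord_zero]
  · exact h

theorem h4RRE_le {ℓ : ℕ} {P₀ : Plk k F} {ι : Type} [Fintype ι] {p : ι → F} {f : F}
    (hf : f ≠ 0) {a : Fin 2 → F} {r s : ι → Fin 2 → F}
    (hr : ∀ i j, r i j ∈ RO P₀) (h : JT ℓ p f a r s) {P : Plk k F}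
    (hP : P ≠ P₀) (i : ι) (j : Fin 2) (hi : p i ≠ 0) (hj : a j ≠ 0) :
    ord P f ≤ ord P (p i) + ℓ * ord P (a j) := by
  have h1 := h.eq i j
  have h2 : p i * a j ^ ℓ ≠ 0 := mul_ne_zero hi (pow_ne_zero _ hj)
  have h3 : r i j ≠ 0 := by
    intro h0
    rw [h0, mul_zero] at h1
    exact h2 h1
  have h4 := congrArg (ord P) h1
  rw [ord_mul P hi (pow_ne_zero _ hj), ord_pow, ord_mul P hf h3] at h4
  have h5 := h4RRE_nonneg hP (hr i j)
  omega

theorem h4_conv {ℓ : ℕ} {P₀ : Plk k F} {ι : Type} [Fintype ι] {p : ι → F} {f : F}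
    (hf : f ≠ 0) {a : Fin 2 → F} {r s : ι → Fin 2 → F} (hℓ : ℓ ≠ 0)
    (hr : ∀ i j, r i j ∈ RO P₀) (hs : ∀ i j, s i j ∈ RO P₀) (h : JT ℓ p f a r s) {P : Plk k F}
    (hP : P ≠ P₀) :
    (∀ i j, p i ≠ 0 → a j ≠ 0 → ord P f ≤ ord P (p i) + ℓ * ord P (a j)) ∧
    ∃ i j, p i ≠ 0 ∧ a j ≠ 0 ∧ ord P f = ord P (p i) + ℓ * ord P (a j) ∧
      ∀ i', p i' ≠ 0 → ord P (p i) ≤ ord P (p i') := by
  have hle := h4RRE_le hf hr h hP
  refine ⟨hle, ?_⟩
  have hex : ∃ i j, s i j * r i j ∉ Mge P 1 := by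
    by_contra hcon
    push Not at hcon
    have h1 : (1 : F) ∈ Mge P 1 := by
      rw [← h.one]
      exact Submodule.sum_mem _ fun i _ => Submodule.sum_mem _ fun j _ => hcon i j
    rcases h1 with h1 | h1
    · exact one_ne_zero h1
    · rw [ord_one] at h1
      omega
  obtain ⟨i, j, hij⟩ := hex
  rw [mem_Mge, not_or, not_le] at hij
  obtain ⟨h0, h1⟩ := hij
  have hs0 : s i j ≠ 0 := left_ne_zero_of_mul h0
  have hr0 : r i j ≠ 0 := right_ne_zero_of_mul h0
  rw [ord_mul P hs0 hr0] at h1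
  have h2 := h4RRE_nonneg hP (hs i j)
  have h3 := h4RRE_nonneg hP (hr i j)
  have h4 : ord P (r i j) = 0 := by omega
  have h5 := h.eq i j
  have h6 : p i * a j ^ ℓ ≠ 0 := by
    rw [h5]
    exact mul_ne_zero hf hr0
  have hp0 : p i ≠ 0 := left_ne_zero_of_mul h6
  have ha0 : a j ≠ 0 := fun h7 => right_ne_zero_of_mul h6 (by rw [h7, zero_pow hℓ])
  have h7 := congrArg (ord P) h5
  rw [ord_mul P hp0 (pow_ne_zero _ ha0), ord_pow, ord_mul P hf hr0, h4, add_zero] at h7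
  refine ⟨i, j, hp0, ha0, h7.symm, fun i' hi' => ?_⟩
  have h8 := hle i' j hi' ha0
  omega

theorem h4RRE_conv {ℓ : ℕ} {P₀ : Plk k F} {f : F} (hf : f ≠ 0) {a : Fin 2 → F}
    {r s : Unit → Fin 2 → F} (hℓ : ℓ ≠ 0) (hr : ∀ i j, r i j ∈ RO P₀)
    (hs : ∀ i j, s i j ∈ RO P₀) (h : JT ℓ (fun _ : Unit => (1 : F)) f a r s) {P : Plk k F}
    (hP : P ≠ P₀) : ∃ j, a j ≠ 0 ∧ ord P f = ℓ * ord P (a j) := by
  obtain ⟨-, -, j, -, h1, h2, -⟩ := h4_conv hf hℓ hr hs h hP
  rw [ord_one, zero_add] at h2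
  exact ⟨j, h1, h2⟩

/-- all orders are divisible by `ℓ`. -/
theorem h4_dvd {ℓ : ℕ} {P₀ : Plk k F} {f : F} (hf : f ≠ 0) {a : Fin 2 → F}
    {r s : Unit → Fin 2 → F} (hℓ : ℓ ≠ 0) (hr : ∀ i j, r i j ∈ RO P₀)
    (hs : ∀ i j, s i j ∈ RO P₀) (h : JT ℓ (fun _ : Unit => (1 : F)) f a r s) (P : Plk k F) :
    (ℓ : ℤ) ∣ ord P f := by
  classical
  have key : ∀ Q : Plk k F, Q ≠ P₀ → (ℓ : ℤ) ∣ ord Q f := by
    intro Q hQ
    obtain ⟨j, -, hj⟩ := h4RRE_conv hf hℓ hr hs h hQ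
    rw [hj]
    exact dvd_mul_right _ _
  by_cases hP : P = P₀
  · subst hP
    have h1 : dg (dv k f) = ∑ Q ∈ insert P (dv k f).support, dv k f Q :=
      dg_eq_sum fun Q hQ => Finsupp.notMem_support_iff.1 fun h2 =>
        hQ (Finset.mem_insert_of_mem h2)
    rw [dg_dv, ← Finset.add_sum_erase _ _ (Finset.mem_insert_self P _), dv_apply] at h1
    have h2 : (ℓ : ℤ) ∣ ∑ Q ∈ (insert P (dv k f).support).erase P, dv k f Q := by
      refine Finset.dvd_sum fun Q hQ => ?_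
      rw [dv_apply]
      exact key Q (Finset.ne_of_mem_erase hQ)
    rw [← dvd_add_left h2, ← h1]
    exact dvd_zero _
  · exact key P hP

/-- the linear criterion for inequivalence: no solutions. -/
theorem h4_inj {ℓ : ℕ} (hℓ : 2 ≤ ℓ) {P₀ : Plk k F} {f f' : F} (hf : f ≠ 0) (hf' : f' ≠ 0)
    (h0 : ord P₀ f = ord P₀ f') {a a' : Fin 2 → F} {r s r' s' : Unit → Fin 2 → F}
    (hr : ∀ i j, r i j ∈ RO P₀) (hs : ∀ i j, s i j ∈ RO P₀) (hr' : ∀ i j, r' i j ∈ RO P₀)
    (hs' : ∀ i j, s' i j ∈ RO P₀) (hd : JT ℓ (fun _ : Unit => (1 : F)) f a r s)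
    (hd' : JT ℓ (fun _ : Unit => (1 : F)) f' a' r' s')
    (hne : ¬ ∃ h : F, f = h ^ ℓ * f') {v : F} (hv0 : ord P₀ f' ≤ ord P₀ v)
    {w : Fin 2 → Fin 2 → F} (hw : ∀ i j, w i j ∈ RO P₀)
    (heq : ∀ i j, v * a' j * a i ^ (ℓ - 1) = f * f' * w i j) : v = 0 := by
  by_contra hv
  apply hne
  have hℓ0 : ℓ ≠ 0 := by omega
  obtain ⟨m, rfl⟩ : ∃ m, ℓ = m + 1 := ⟨ℓ - 1, by omega⟩
  rw [Nat.add_sub_cancel] at heq
  have hm : 0 < (m : ℤ) + 1 := by positivity
  have hu0 : (v / f') ^ (m + 1) * f' / f ≠ 0 :=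
    div_ne_zero (mul_ne_zero (pow_ne_zero _ (div_ne_zero hv hf')) hf') hf
  have hord : ∀ P : Plk k F, ord P ((v / f') ^ (m + 1) * f' / f) =
      (m + 1) * (ord P v - ord P f') + ord P f' - ord P f := by
    intro P
    rw [div_eq_mul_inv, ord_mul P (mul_ne_zero (pow_ne_zero _ (div_ne_zero hv hf')) hf')
      (inv_ne_zero hf), ord_mul P (pow_ne_zero _ (div_ne_zero hv hf')) hf', ord_pow,
      div_eq_mul_inv, ord_mul P hv (inv_ne_zero hf'), ord_inv, ord_inv]
    push_cast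
    ring
  have hu : (v / f') ^ (m + 1) * f' / f ∈ LL k (0 : Plk k F →₀ ℤ) := by
    right
    intro P
    rw [Finsupp.zero_apply, neg_zero, hord P]
    by_cases hP : P = P₀
    · subst hP
      rw [h0]
      have : 0 ≤ ((m : ℤ) + 1) * (ord P v - ord P f') := mul_nonneg hm.le (by omega)
      omega
    · obtain ⟨i, hi0, hi⟩ := h4RRE_conv hf hℓ0 hr hs hd hP
      obtain ⟨j, hj0, hj⟩ := h4RRE_conv hf' hℓ0 hr' hs' hd' hP
      have h1 := heq i j
      have h2 : v * a' j * a i ^ m ≠ 0 := mul_ne_zero (mul_ne_zero hv hj0) (pow_ne_zero _ hi0)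
      have h3 : w i j ≠ 0 := by
        intro h4
        rw [h4, mul_zero] at h1
        exact h2 h1
      have h4 := congrArg (ord P) h1
      rw [ord_mul P (mul_ne_zero hv hj0) (pow_ne_zero _ hi0), ord_mul P hv hj0, ord_pow,
        ord_mul P (mul_ne_zero hf hf') h3, ord_mul P hf hf'] at h4
      have h5 := h4RRE_nonneg hP (hw i j)
      push_cast at hi hj
      have h6 : 0 ≤ ((m : ℤ) + 1) * (ord P v + ord P (a' j) + m * ord P (a i) - ord P f -
        ord P f') := mul_nonneg hm.le (by omega)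
      have h7 : ((m : ℤ) + 1) * (ord P v + ord P (a' j) + m * ord P (a i) - ord P f -
        ord P f') = (m + 1) * (ord P v - ord P f') + ord P f' - ord P f := by
        rw [hi, hj]
        ring
      rw [← h7]
      exact h6
  obtain ⟨c, hc⟩ := LL_zero_le hu
  have hac : IsAlgClosed k := CFF.ac F
  obtain ⟨d, hd1⟩ := IsAlgClosed.exists_pow_nat_eq c (Nat.succ_pos m)
  have hc0 : algebraMap k F c ≠ 0 := by rw [← hc]; exact hu0
  rw [← hd1, map_pow] at hc hc0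
  have hd0 : algebraMap k F d ≠ 0 := fun h1 => hc0 (by rw [h1, zero_pow (Nat.succ_ne_zero m)])
  refine ⟨v / f' / algebraMap k F d, ?_⟩
  rw [div_eq_iff hf] at hc
  rw [div_pow, div_mul_eq_mul_div, hc, Nat.succ_eq_add_one,
    mul_div_cancel_left₀ _ (pow_ne_zero _ hd0)]

/-- the linear criterion for inequivalence: solutions for equivalent functions. -/
theorem h4_equiv {ℓ : ℕ} (hℓ : 2 ≤ ℓ) {P₀ : Plk k F} {f f' : F} (hf : f ≠ 0) (hf' : f' ≠ 0)
    (hfR : f ∈ RO P₀) (hfR' : f' ∈ RO P₀) {n : ℕ} (h0 : ord P₀ f = -(n : ℤ))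
    (h0' : ord P₀ f' = -(n : ℤ)) {a a' : Fin 2 → F} {r s r' s' : Unit → Fin 2 → F}
    (hr : ∀ i j, r i j ∈ RO P₀) (hr' : ∀ i j, r' i j ∈ RO P₀)
    (hd : JT ℓ (fun _ : Unit => (1 : F)) f a r s)
    (hd' : JT ℓ (fun _ : Unit => (1 : F)) f' a' r' s') {D : ℕ} (ha : ∀ j, a j ∈ LP P₀ D)
    (ha' : ∀ j, a' j ∈ LP P₀ D) {h : F} (hh : f = h ^ ℓ * f') :
    ∃ v : F, v ∈ LP P₀ n ∧ v ≠ 0 ∧ ∃ w : Fin 2 → Fin 2 → F,
      (∀ i j, w i j ∈ LP P₀ (n + ℓ * D)) ∧
      ∀ i j, v * a' j * a i ^ (ℓ - 1) = f * f' * w i j := by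
  obtain ⟨m, rfl⟩ : ∃ m, ℓ = m + 1 := ⟨ℓ - 1, by omega⟩
  rw [Nat.add_sub_cancel]
  have hm0 : m ≠ 0 := by omega
  have hm : 0 < (m : ℤ) + 1 := by positivity
  have hh0 : h ≠ 0 := by
    rintro rfl
    rw [zero_pow (Nat.succ_ne_zero m), zero_mul] at hh
    exact hf hh
  have hord : ∀ P : Plk k F, ord P f = (m + 1) * ord P h + ord P f' := by
    intro P
    have h1 := congrArg (ord P) hh
    rw [ord_mul P (pow_ne_zero _ hh0) hf', ord_pow] at h1
    push_cast at h1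
    exact h1
  have hhP : ord P₀ h = 0 := by
    have h1 := hord P₀
    rw [h0, h0'] at h1
    have h2 : ((m : ℤ) + 1) * ord P₀ h = 0 := by omega
    rcases mul_eq_zero.1 h2 with h3 | h3
    · omega
    · exact h3
  have hpos : ∀ x : ℤ, 0 ≤ ((m : ℤ) + 1) * x → 0 ≤ x := fun x hx =>
    nonneg_of_mul_nonneg_right hx hm
  refine ⟨h * f', ?_, mul_ne_zero hh0 hf', fun i j => h * a' j * a i ^ m / f, ?_, ?_⟩
  · rw [mem_LP]
    refine ⟨fun P hP => Or.inr ?_, Or.inr ?_⟩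
    · have h1 := h4RRE_nonneg hP hfR
      have h2 := h4RRE_nonneg hP hfR'
      rw [ord_mul P hh0 hf']
      apply hpos
      have h3 : ((m : ℤ) + 1) * (ord P h + ord P f') = ord P f + m * ord P f' := by
        rw [hord P]
        ring
      rw [h3]
      positivity
    · rw [ord_mul P₀ hh0 hf', hhP, h0', zero_add]
  · intro i j
    change h * a' j * a i ^ m / f ∈ LP P₀ (n + (m + 1) * D)
    by_cases hi : a i = 0
    · rw [hi, zero_pow hm0, mul_zero, zero_div]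
      exact zero_mem _
    by_cases hj : a' j = 0
    · rw [hj, mul_zero, zero_mul, zero_div]
      exact zero_mem _
    have how : ∀ P : Plk k F, ord P (h * a' j * a i ^ m / f) =
        ord P h + ord P (a' j) + m * ord P (a i) - ord P f := by
      intro P
      rw [div_eq_mul_inv, ord_mul P (mul_ne_zero (mul_ne_zero hh0 hj) (pow_ne_zero _ hi))
        (inv_ne_zero hf), ord_mul P (mul_ne_zero hh0 hj) (pow_ne_zero _ hi),
        ord_mul P hh0 hj, ord_pow, ord_inv]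
      ring
    rw [mem_LP]
    refine ⟨fun P hP => Or.inr ?_, Or.inr ?_⟩
    · have h1 := h4RRE_le hf hr hd hP () i one_ne_zero hi
      have h2 := h4RRE_le hf' hr' hd' hP () j one_ne_zero hj
      rw [ord_one, zero_add] at h1 h2
      push_cast at h1 h2
      rw [how P]
      apply hpos
      have h3 : ((m : ℤ) + 1) * (ord P h + ord P (a' j) + m * ord P (a i) - ord P f) =
          ((m + 1) * ord P (a' j) - ord P f') + m * ((m + 1) * ord P (a i) - ord P f) := by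
        have h4 := hord P
        linear_combination (-1 : ℤ) * h4
      rw [h3]
      have h5 : 0 ≤ (m : ℤ) * ((m + 1) * ord P (a i) - ord P f) :=
        mul_nonneg (by positivity) (by omega)
      omega
    · have h1 := ((mem_LP.1 (ha i)).2).resolve_left hi
      have h2 := ((mem_LP.1 (ha' j)).2).resolve_left hj
      rw [how P₀, hhP, h0]
      have h3 : (m : ℤ) * (-(D : ℤ)) ≤ m * ord P₀ (a i) :=
        mul_le_mul_of_nonneg_left h1 (by positivity)
      push_cast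
      have h4 : ((m : ℤ) + 1) * D = m * D + D := by ring
      rw [h4]
      rw [mul_neg] at h3
      omega
  · intro i j
    field_simp

end Vale.Agent.P019P
end
end

section

section

/-!
# Inequivalent classes give solutions
-/

namespace Vale.Agent.P019P

open Polynomial IntermediateField TensorProduct

theorem h4TA_el {A R : Type*} [CommRing A] [CommRing R] [Algebra A R] {S : Set ℕ}
    {b : Module.Basis S A R} {D : ℕ} {z : R} (hz : z ∈ fil b D) :
    el b (fun d : SD S D => b.repr z d.ix) = z := by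
  obtain ⟨t, rfl⟩ := exists_el hz
  congr 1
  funext d
  exact repr_el b t d

/-- elements of bounded degree all of whose bounded coordinates vanish. -/
theorem h4TA_zero {A R : Type*} [CommRing A] [CommRing R] [Algebra A R] {S : Set ℕ}
    {b : Module.Basis S A R} {D : ℕ} {z : R} (hz : z ∈ fil b D)
    (h : ∀ d : SD S D, b.repr z d.ix = 0) : z = 0 := by
  rw [← h4TA_el hz, el]
  refine Finset.sum_eq_zero fun d _ => ?_
  rw [h d, zero_smul]

theorem h4TA_pow {A R : Type*} [CommRing A] [CommRing R] [Algebra A R] {S : Set ℕ}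
    {b : Module.Basis S A R} (h : IsDB b) (hS : 0 ∈ S) {m : ℕ} {z : R} (hz : z ∈ fil b m)
    (n : ℕ) : z ^ n ∈ fil b (n * m) := by
  induction n with
  | zero =>
    rw [pow_zero]
    exact fil_one h hS _
  | succ n ih =>
    rw [pow_succ, Nat.succ_mul]
    exact fil_mul h ih hz

/-- the divisor of a function with divisor divisible by `ℓ`. -/
theorem h4TA_div {k F : Type*} [Field k] [Field F] [Algebra k F] [CFF k F] {ℓ : ℕ} (hℓ : ℓ ≠ 0)
    (P₀ : Plk k F) {f : F} (hfR : f ∈ RO P₀) (hf : f ≠ 0) {m : ℕ}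
    (h0 : ord P₀ f = -((m * ℓ : ℕ) : ℤ)) (hd : ∀ P : Plk k F, (ℓ : ℤ) ∣ ord P f) :
    ∃ E : Plk k F →₀ ℤ, 0 ≤ E ∧ E P₀ = 0 ∧ dg E ≤ m ∧ ∀ P, P ≠ P₀ → ord P f = ℓ * E P := by
  classical
  have hℓ' : (0 : ℤ) < ℓ := by exact_mod_cast Nat.pos_of_ne_zero hℓ
  set E : Plk k F →₀ ℤ := ((dv k f).mapRange (fun a => a / (ℓ : ℤ)) (by simp)).erase P₀ with hE
  have h1 : ∀ P, P ≠ P₀ → ord P f = ℓ * E P := by
    intro P hP
    rw [hE, Finsupp.erase_ne hP, Finsupp.mapRange_apply, dv_apply]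
    exact (Int.mul_ediv_cancel' (hd P)).symm
  have h2 : E P₀ = 0 := by rw [hE, Finsupp.erase_same]
  have h3 : 0 ≤ E := by
    intro P
    by_cases hP : P = P₀
    · rw [hP, h2, Finsupp.zero_apply]
    · rw [Finsupp.zero_apply]
      have h4 := (mem_RO.1 hfR P hP).resolve_left hf
      rw [h1 P hP] at h4
      exact nonneg_of_mul_nonneg_right h4 hℓ'
  refine ⟨E, h3, h2, ?_, h1⟩
  have e1 : ℓ • E = dv k f + Finsupp.single P₀ ((m * ℓ : ℕ) : ℤ) := by
    ext P
    rw [Finsupp.smul_apply, nsmul_eq_mul, Finsupp.add_apply, dv_apply]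
    by_cases hP : P = P₀
    · rw [hP, h2, h0, Finsupp.single_eq_same]
      simp
    · rw [Finsupp.single_eq_of_ne hP, add_zero, h1 P hP]
  have e2 : (ℓ : ℤ) * dg E = (m * ℓ : ℕ) := by
    have e3 : dg (ℓ • E) = dg (dv k f + Finsupp.single P₀ ((m * ℓ : ℕ) : ℤ)) := by rw [e1]
    rw [map_nsmul, map_add, dg_dv, dg_sgl, nsmul_eq_mul, zero_add] at e3
    exact e3
  push_cast at e2
  have e4 : (ℓ : ℤ) * dg E = ℓ * m := by rw [e2]; ring
  exact (mul_left_cancel₀ hℓ'.ne' e4).le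

variable {K R F : Type*} [Field K] [IsAlgClosed K] [CommRing R] [Algebra K R] [Field F]
  [Algebra R F] [IsFractionRing R F] [Algebra K F] [IsScalarTower K R F] {S : Set ℕ} {g : ℕ}
  {b : Module.Basis S K R} [CFF K F] {P₀ : Plk K F}

/-- data in the model. -/
theorem h4TA_lift (h : HM b g P₀) {m n : ℕ} (hmn : m ≤ n) {w : F} (hw : w ∈ LP P₀ m) :
    ∃ z : R, z ∈ fil b n ∧ algebraMap R F z = w := by
  obtain ⟨z, hz, hzw⟩ := (h.mem_LP_iff w).1 hw
  exact ⟨z, fil_mono b hmn hz, hzw⟩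

theorem h4TA_data (h : HM b g P₀) {ℓ : ℕ} (hℓ : 2 ≤ ℓ) {n D : ℕ} (hn : n = 2 * g * ℓ)
    (hD : D = 2 * n + 2 * g) {z : F} (hz : z ≠ 0) (hd : ∀ P : Plk K F, (ℓ : ℤ) ∣ ord P z) :
    ∃ (f : R) (a r s : Fin 2 → R), f ≠ 0 ∧ dgr b f = n ∧
      (∀ d : S, (d : ℕ) = n → b.repr f d = 1) ∧
      JT ℓ (fun _ : Unit => (1 : R)) f a (fun _ => r) (fun _ => s) ∧ (∀ j, a j ∈ fil b D) ∧
      (∀ j, r j ∈ fil b D) ∧ (∀ j, s j ∈ fil b D) ∧
      ∃ y : F, y ≠ 0 ∧ algebraMap R F f = y ^ ℓ * z := by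
  have hℓ0 : ℓ ≠ 0 := by omega
  have hg := h.gen_eq
  have hinj : Function.Injective (algebraMap R F) := IsFractionRing.injective R F
  obtain ⟨x, hx0, hxR, hxo⟩ := h4_rep hℓ0 P₀ hz hd
  rw [hg, ← hn] at hxo
  obtain ⟨f0, hf0⟩ := h.full _ hxR
  have hf00 : f0 ≠ 0 := by
    rintro rfl
    rw [map_zero] at hf0
    exact mul_ne_zero hz (pow_ne_zero _ hx0) hf0.symm
  have hdg0 : dgr b f0 = n := by
    have h1 := h.ord f0 hf00
    rw [hf0, hxo] at h1
    omega
  obtain ⟨d, hd1, hd2⟩ := exists_lead (b := b) hf00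
  obtain ⟨e, he⟩ := IsAlgClosed.exists_pow_nat_eq (b.repr f0 d)⁻¹ (Nat.pos_of_ne_zero hℓ0)
  have he0 : e ≠ 0 := by
    rintro rfl
    rw [zero_pow hℓ0] at he
    exact inv_ne_zero hd2 he.symm
  set f : R := (b.repr f0 d)⁻¹ • f0 with hf
  have hfF : algebraMap R F f = (algebraMap K F e * x) ^ ℓ * z := by
    rw [hf, h4FrA_smul, hf0, ← he, Algebra.smul_def, mul_pow, map_pow]
    ring
  have hfn : f ∈ fil b n := Submodule.smul_mem _ _ (mem_fil_iff.2 hdg0.le)
  have hc : ∀ d' : S, (d' : ℕ) = n → b.repr f d' = 1 := by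
    intro d' hd'
    have h1 : d' = d := Subtype.ext (by rw [hd', hd1, hdg0])
    rw [h1, hf, map_smul, Finsupp.smul_apply, smul_eq_mul, inv_mul_cancel₀ hd2]
  have hfne : f ≠ 0 := by
    intro h1
    have h2 := hc d (by rw [hd1, hdg0])
    rw [h1, map_zero] at h2
    exact zero_ne_one h2
  have hdg : dgr b f = n := by
    refine le_antisymm (mem_fil_iff.1 hfn) ?_
    have h1 : b.repr f d ≠ 0 := by
      rw [hc d (by rw [hd1, hdg0])]
      exact one_ne_zero
    have h2 := Finset.le_sup (f := fun f : S => (f : ℕ)) (Finsupp.mem_support_iff.2 h1)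
    have h3 : (d : ℕ) ≤ dgr b f := h2
    omega
  have hy0 : algebraMap K F e * x ≠ 0 :=
    mul_ne_zero (fun h1 => he0 ((map_eq_zero _).1 h1)) hx0
  have hFne : algebraMap R F f ≠ 0 := fun h1 => hfne (hinj (by rw [h1, map_zero]))
  have hford : ord P₀ (algebraMap R F f) = -((2 * g * ℓ : ℕ) : ℤ) := by
    rw [h.ord f hfne, hdg, hn]
  have hdvd : ∀ P : Plk K F, (ℓ : ℤ) ∣ ord P (algebraMap R F f) := by
    intro P
    rw [hfF, ord_mul P (pow_ne_zero _ hy0) hz, ord_pow]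
    exact dvd_add (dvd_mul_right _ _) (hd P)
  obtain ⟨E, hE, hE0, hEd, hEo⟩ := h4TA_div hℓ0 P₀ (h.mem_RO f) hFne hford hdvd
  obtain ⟨a, r, s, hJ, ha, hr, hs⟩ := h4_data hℓ0 P₀ (ι := Unit) (p := fun _ => (1 : F)) (D := 0)
    (fun _ => LP_one P₀ 0) hFne (h.mem_RO f) hE hE0 hEd
    (fun P hP _ _ => by rw [ord_one, zero_add, hEo P hP])
    (fun P hP => ⟨(), one_ne_zero, by rw [ord_one, zero_add, hEo P hP]⟩)
  rw [hg] at ha hr hs
  have hDD : D = ℓ * (2 * g + 2 * g) + 2 * g := by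
    rw [hD, hn]; ring
  have hle : 2 * g + 2 * g ≤ ℓ * (2 * g + 2 * g) := Nat.le_mul_of_pos_left _ (by omega)
  choose a' ha' haF using fun j => h4TA_lift h (n := D) (by omega) (ha j)
  choose r' hr' hrF using fun j => h4TA_lift h (n := D) (by omega) (hr () j)
  choose s' hs' hsF using fun j => h4TA_lift h (n := D) (by omega) (hs () j)
  refine ⟨f, a', r', s', hfne, hdg, hc, ⟨?_, ?_⟩, ha', hr', hs', _, hy0, hfF⟩
  · intro i j
    apply hinj
    rw [map_mul, map_mul, map_pow, map_one, haF, hrF]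
    exact hJ.eq i j
  · apply hinj
    rw [map_sum, map_one, ← hJ.one]
    refine Finset.sum_congr rfl fun i _ => ?_
    rw [map_sum]
    refine Finset.sum_congr rfl fun j _ => ?_
    rw [map_mul, hsF, hrF]

omit [IsAlgClosed K] [IsFractionRing R F] [IsScalarTower K R F] [CFF K F] [Algebra R F]
  [Algebra K F] [Field F] in
theorem h4TA_rel {ℓ n E E' : ℕ} {f f' : R} {a a' : Fin 2 → R} {x : LU S n E → K}
    (hx : ∑ c, x c • (Lam b ℓ n E E' f f' a a' c : LV S E' → K) = 0) (i j : Fin 2)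
    (d : SD S E') :
    b.repr (el b (fun e => x (Sum.inl e)) * a' j * a i ^ (ℓ - 1) -
      f * f' * el b (fun e => x (Sum.inr (i, j, e)))) d.ix = 0 := by
  have h1 := congrFun hx (i, j, d)
  rw [Finset.sum_apply, Fintype.sum_sum_type, Pi.zero_apply] at h1
  simp only [Pi.smul_apply, smul_eq_mul, Lam] at h1
  rw [map_sub, Finsupp.sub_apply, sub_eq_zero]
  have e1 : b.repr (el b (fun e => x (Sum.inl e)) * a' j * a i ^ (ℓ - 1)) d.ix =
      ∑ e : SD S n, x (Sum.inl e) * b.repr (b e.ix * a' j * a i ^ (ℓ - 1)) d.ix := by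
    rw [el, Finset.sum_mul, Finset.sum_mul, map_sum, Finsupp.finsetSum_apply]
    refine Finset.sum_congr rfl fun e _ => ?_
    rw [smul_mul_assoc, smul_mul_assoc, map_smul, Finsupp.smul_apply, smul_eq_mul]
  have e2 : b.repr (f * f' * el b (fun e => x (Sum.inr (i, j, e)))) d.ix =
      ∑ e : SD S E, x (Sum.inr (i, j, e)) * b.repr (f * f' * b e.ix) d.ix := by
    rw [el, Finset.mul_sum, map_sum, Finsupp.finsetSum_apply]
    refine Finset.sum_congr rfl fun e _ => ?_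
    rw [mul_smul_comm, map_smul, Finsupp.smul_apply, smul_eq_mul]
  have e3 : ∑ c : Fin 2 × Fin 2 × SD S E, x (Sum.inr c) *
      (if c.1 = i ∧ c.2.1 = j then -b.repr (f * f' * b c.2.2.ix) d.ix else 0) =
      -∑ e : SD S E, x (Sum.inr (i, j, e)) * b.repr (f * f' * b e.ix) d.ix := by
    rw [Fintype.sum_prod_type, Finset.sum_eq_single i, Fintype.sum_prod_type,
      Finset.sum_eq_single j, ← Finset.sum_neg_distrib]
    · refine Finset.sum_congr rfl fun e _ => ?_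
      rw [if_pos ⟨rfl, rfl⟩, mul_neg]
    · intro j' _ hj'
      refine Finset.sum_eq_zero fun e _ => ?_
      rw [if_neg (fun h => hj' h.2), mul_zero]
    · intro h
      exact absurd (Finset.mem_univ _) h
    · intro i' _ hi'
      refine Finset.sum_eq_zero fun e _ => ?_
      rw [if_neg (fun h => hi' h.1), mul_zero]
    · intro h
      exact absurd (Finset.mem_univ _) h
  rw [e1, e2]
  rw [e3] at h1
  exact add_neg_eq_zero.1 h1

/-- the linear criterion. -/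
theorem h4TA_indep (h : HM b g P₀) {ℓ : ℕ} (hℓ : 2 ≤ ℓ) {n D E E' : ℕ}
    (hE : E = n + ℓ * D) (hE' : E' = 2 * n + E) {f f' : R} (hf : f ≠ 0) (hf' : f' ≠ 0)
    (hd : dgr b f = n) (hd' : dgr b f' = n) {a a' r r' s s' : Fin 2 → R}
    (ha : ∀ j, a j ∈ fil b D) (ha' : ∀ j, a' j ∈ fil b D)
    (hJ : JT ℓ (fun _ : Unit => (1 : R)) f a (fun _ => r) (fun _ => s))
    (hJ' : JT ℓ (fun _ : Unit => (1 : R)) f' a' (fun _ => r') (fun _ => s'))
    (hne : ¬ ∃ x : F, algebraMap R F f = x ^ ℓ * algebraMap R F f') :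
    LinearIndependent K (Lam b ℓ n E E' f f' a a' : LU S n E → LV S E' → K) := by
  classical
  have hdom := h4_domain h.db h.sg
  have hinj : Function.Injective (algebraMap R F) := IsFractionRing.injective R F
  rw [Fintype.linearIndependent_iff]
  intro x hx
  have hfn : f ∈ fil b n := mem_fil_iff.2 hd.le
  have hfn' : f' ∈ fil b n := mem_fil_iff.2 hd'.le
  have hvn : el b (fun e => x (Sum.inl e)) ∈ fil b n := el_mem _ _
  have heq : ∀ i j, el b (fun e => x (Sum.inl e)) * a' j * a i ^ (ℓ - 1) =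
      f * f' * el b (fun e => x (Sum.inr (i, j, e))) := by
    intro i j
    rw [← sub_eq_zero]
    refine h4TA_zero (b := b) (D := E') (Submodule.sub_mem _ ?_ ?_) (h4TA_rel hx i j)
    · have h1 := fil_mul h.db (fil_mul h.db hvn (ha' j)) (h4TA_pow h.db h.sg.zero (ha i) (ℓ - 1))
      refine fil_mono b ?_ h1
      have h2 : ℓ * D = D + (ℓ - 1) * D := by
        obtain ⟨m, rfl⟩ : ∃ m, ℓ = m + 1 := ⟨ℓ - 1, by omega⟩
        rw [Nat.add_sub_cancel]
        ring
      omega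
    · have h1 := fil_mul h.db (fil_mul h.db hfn hfn') (el_mem b fun e => x (Sum.inr (i, j, e)))
      refine fil_mono b ?_ h1
      omega
  have hJF : ∀ {f : R} {a r s : Fin 2 → R},
      JT ℓ (fun _ : Unit => (1 : R)) f a (fun _ => r) (fun _ => s) →
      JT ℓ (fun _ : Unit => (1 : F)) (algebraMap R F f) (fun j => algebraMap R F (a j))
        (fun _ j => algebraMap R F (r j)) (fun _ j => algebraMap R F (s j)) := by
    intro f a r s hJ
    refine ⟨fun i j => ?_, ?_⟩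
    · have h1 := congrArg (algebraMap R F) (hJ.eq i j)
      rw [map_mul, map_mul, map_pow, map_one] at h1
      exact h1
    · have h1 := congrArg (algebraMap R F) hJ.one
      rw [map_sum, map_one] at h1
      rw [← h1]
      refine Finset.sum_congr rfl fun i _ => ?_
      rw [map_sum]
      refine Finset.sum_congr rfl fun j _ => ?_
      rw [map_mul]
  have hne0 : ∀ {z : R}, z ≠ 0 → algebraMap R F z ≠ 0 := fun hz h1 =>
    hz (hinj (by rw [h1, map_zero]))
  have hv0 : ord P₀ (algebraMap R F f') ≤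
      ord P₀ (algebraMap R F (el b (fun e => x (Sum.inl e)))) := by
    rw [h.ord f' hf', hd']
    rcases (mem_LP.1 (h.mem_LP hvn)).2 with h1 | h1
    · rw [h1, ord_zero]
      omega
    · exact h1
  have hv := h4_inj hℓ (hne0 hf) (hne0 hf') (by rw [h.ord f hf, h.ord f' hf', hd, hd'])
    (fun _ _ => h.mem_RO _) (fun _ _ => h.mem_RO _) (fun _ _ => h.mem_RO _)
    (fun _ _ => h.mem_RO _) (hJF hJ) (hJF hJ') hne hv0
    (w := fun i j => algebraMap R F (el b (fun e => x (Sum.inr (i, j, e)))))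
    (fun _ _ => h.mem_RO _) (fun i j => by
      have h1 := congrArg (algebraMap R F) (heq i j)
      rw [map_mul, map_mul, map_mul, map_mul, map_pow] at h1
      exact h1)
  have hv' : el b (fun e => x (Sum.inl e)) = 0 := hinj (by rw [hv, map_zero])
  have hw : ∀ i j, el b (fun e => x (Sum.inr (i, j, e))) = 0 := by
    intro i j
    have h1 := heq i j
    rw [hv', zero_mul, zero_mul] at h1
    exact (mul_eq_zero.1 h1.symm).resolve_left (mul_ne_zero hf hf')
  rintro (d | ⟨i, j, d⟩)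
  · have h1 := repr_el b (fun e => x (Sum.inl e)) d
    rw [hv', map_zero] at h1
    exact h1.symm
  · have h1 := repr_el b (fun e => x (Sum.inr (i, j, e))) d
    rw [hw, map_zero] at h1
    exact h1.symm

theorem QT_of_NC (h : HM b g P₀) {ℓ : ℕ} (hℓ : 2 ≤ ℓ) {N n D E E' : ℕ} (hn : n = 2 * g * ℓ)
    (hD : D = 2 * n + 2 * g) (hE : E = n + ℓ * D) (hE' : E' = 2 * n + E) (hN : NC ℓ K F N) :
    ∃ t : IT S N n D E E' → K, QT b ℓ N n D E E' t := by
  classical
  obtain ⟨z, hz, hzz⟩ := hN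
  choose f a r s hf hdg hc hJ ha hr hs y hy hfy using
    fun i => h4TA_data h hℓ hn hD (hz i).1 (hz i).2
  have hne : ∀ i i', i ≠ i' → ¬ ∃ x : F, algebraMap R F (f i) = x ^ ℓ * algebraMap R F (f i') := by
    rintro i i' hi ⟨x, hx⟩
    refine hzz i i' hi ⟨x * y i' / y i, ?_⟩
    rw [hfy, hfy] at hx
    rw [div_pow, mul_pow, div_mul_eq_mul_div, eq_div_iff (pow_ne_zero _ (hy i))]
    linear_combination hx
  have hW : ∀ i i', ∃ W : LU S n E → LV S E' → K, i ≠ i' → ∀ c c' : LU S n E,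
      ∑ e : LV S E', W c e * Lam b ℓ n E E' (f i) (f i') (a i) (a i') c' e =
        if c = c' then 1 else 0 := by
    intro i i'
    by_cases hi : i = i'
    · exact ⟨0, fun h1 => absurd hi h1⟩
    · obtain ⟨W, hW⟩ := h4_leftinv (h4TA_indep h hℓ hE hE' (hf i) (hf i') (hdg i) (hdg i')
        (ha i) (ha i') (hJ i) (hJ i') (hne i i' hi))
      exact ⟨W, fun _ => hW⟩
  choose W hW using hW
  set G : Fin N → Fin 4 → Fin 2 → R := fun i m j => ![f i, a i j, r i j, s i j] m with hG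
  have hGm : ∀ i m j, G i m j ∈ fil b D := by
    intro i m j
    have h0 : f i ∈ fil b D := fil_mono b (by omega) (mem_fil_iff.2 (hdg i).le)
    fin_cases m
    · exact h0
    · exact ha i j
    · exact hr i j
    · exact hs i j
  set t : IT S N n D E E' → K := Sum.elim (fun q => b.repr (G q.1 q.2.1 q.2.2.1) q.2.2.2.ix)
    (fun q => W q.1 q.2.1 q.2.2.1 q.2.2.2) with ht
  have hu : ∀ i m j, uT b t i m j = G i m j := fun i m j => (h4TA_el (hGm i m j) :)
  have hu0 : ∀ i, uT b t i 0 0 = f i := fun i => hu i 0 0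
  have hu1 : ∀ i, (fun j => uT b t i 1 j) = a i := fun i => funext fun j => hu i 1 j
  have hu2 : ∀ i, (fun j => uT b t i 2 j) = r i := fun i => funext fun j => hu i 2 j
  have hu3 : ∀ i, (fun j => uT b t i 3 j) = s i := fun i => funext fun j => hu i 3 j
  refine ⟨t, ⟨?_, ?_, ?_⟩⟩
  · intro i d hd
    change b.repr (f i) d.ix = _
    by_cases hdn : (d.1 : ℕ) = n
    · rw [if_pos hdn]
      exact hc i d.ix hdn
    · rw [if_neg hdn]
      exact mem_fil.1 (mem_fil_iff.2 (hdg i).le) d.ix (lt_of_le_of_ne hd (Ne.symm hdn))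
  · intro i
    rw [hu0, hu1, hu2, hu3]
    exact hJ i
  · intro i i' hi c c'
    rw [hu0, hu0, hu1, hu1]
    exact hW i i' hi c c'

end Vale.Agent.P019P
end
end

section

section

/-!
# Solutions give inequivalent classes
-/

namespace Vale.Agent.P019P

open Polynomial IntermediateField TensorProduct

/-- transport of the data. -/
theorem h4TB_JT {R F : Type*} [CommRing R] [Field F] [Algebra R F] {ℓ : ℕ} {f : R}
    {a : Fin 2 → R} {r s : Unit → Fin 2 → R} (hd : JT ℓ (fun _ : Unit => (1 : R)) f a r s) :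
    JT ℓ (fun _ : Unit => (1 : F)) (algebraMap R F f) (fun j => algebraMap R F (a j))
      (fun i j => algebraMap R F (r i j)) fun i j => algebraMap R F (s i j) where
  eq i j := by
    have h1 := congrArg (algebraMap R F) (hd.eq i j)
    simpa only [map_mul, map_pow, map_one] using h1
  one := by
    have h1 := congrArg (algebraMap R F) hd.one
    simpa only [map_sum, map_mul, map_one] using h1

/-- the equations of the linear criterion. -/
theorem h4TB_lam {A R : Type*} [CommRing A] [CommRing R] [Algebra A R] {S : Set ℕ}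
    (b : Module.Basis S A R) (ℓ n E E' : ℕ) (f f' : R) (a a' : Fin 2 → R) (tv : SD S n → A)
    (tw : Fin 2 → Fin 2 → SD S E → A)
    (h : ∀ i j, el b tv * a' j * a i ^ (ℓ - 1) = f * f' * el b (tw i j)) (e : LV S E') :
    ∑ c : LU S n E, (Sum.elim tv fun q => tw q.1 q.2.1 q.2.2 : LU S n E → A) c *
      Lam b ℓ n E E' f f' a a' c e = 0 := by
  have h1 : ∑ d : SD S n, tv d * b.repr (b d.ix * a' e.2.1 * a e.1 ^ (ℓ - 1)) e.2.2.ix =
      b.repr (el b tv * a' e.2.1 * a e.1 ^ (ℓ - 1)) e.2.2.ix := by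
    simp only [el, Finset.sum_mul, map_sum, Finsupp.finsetSum_apply, smul_mul_assoc, map_smul,
      Finsupp.smul_apply, smul_eq_mul]
  have h2 : ∑ q : Fin 2 × Fin 2 × SD S E, tw q.1 q.2.1 q.2.2 *
      (if q.1 = e.1 ∧ q.2.1 = e.2.1 then -b.repr (f * f' * b q.2.2.ix) e.2.2.ix else 0) =
      -b.repr (f * f' * el b (tw e.1 e.2.1)) e.2.2.ix := by
    have h3 : ∀ q : Fin 2 × Fin 2 × SD S E, tw q.1 q.2.1 q.2.2 *
        (if q.1 = e.1 ∧ q.2.1 = e.2.1 then -b.repr (f * f' * b q.2.2.ix) e.2.2.ix else 0) =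
        if q.1 = e.1 then (if q.2.1 = e.2.1 then
          tw q.1 q.2.1 q.2.2 * -b.repr (f * f' * b q.2.2.ix) e.2.2.ix else 0) else 0 := by
      intro q
      by_cases h4 : q.1 = e.1
      · by_cases h5 : q.2.1 = e.2.1
        · rw [if_pos ⟨h4, h5⟩, if_pos h4, if_pos h5]
        · rw [if_neg fun h6 => h5 h6.2, if_pos h4, if_neg h5, mul_zero]
      · rw [if_neg fun h6 => h4 h6.1, if_neg h4, mul_zero]
    rw [Finset.sum_congr rfl fun q _ => h3 q, Fintype.sum_prod_type]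
    simp only [Fintype.sum_prod_type]
    rw [Finset.sum_eq_single e.1]
    · rw [Finset.sum_eq_single e.2.1]
      · simp only [if_true, el, Finset.mul_sum, map_sum, Finsupp.finsetSum_apply,
          mul_smul_comm, map_smul, Finsupp.smul_apply, smul_eq_mul, ← Finset.sum_neg_distrib,
          mul_neg]
      · intro j _ hj
        simp only [if_true, if_neg hj, Finset.sum_const_zero]
      · intro hj
        exact absurd (Finset.mem_univ _) hj
    · intro i _ hi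
      simp only [if_neg hi, Finset.sum_const_zero]
    · intro hi
      exact absurd (Finset.mem_univ _) hi
  rw [Fintype.sum_sum_type]
  simp only [Sum.elim_inl, Sum.elim_inr, Lam]
  rw [h1, h2, h e.1 e.2.1, add_neg_cancel]

variable {K R F : Type*} [Field K] [IsAlgClosed K] [CommRing R] [Algebra K R] [Field F]
  [Algebra R F] [IsFractionRing R F] [Algebra K F] [IsScalarTower K R F] {S : Set ℕ} {g : ℕ}
  {b : Module.Basis S K R} [CFF K F] {P₀ : Plk K F}

omit [IsAlgClosed K] in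
/-- the degree. -/
theorem h4TB_dgr {n D : ℕ} (hnS : n ∈ S) (hnD : n ≤ D) {t : SD S D → K}
    (ht : ∀ d : SD S D, n ≤ (d.1 : ℕ) → t d = if (d.1 : ℕ) = n then 1 else 0) :
    el b t ≠ 0 ∧ dgr b (el b t) = n := by
  have h1 : b.repr (el b t) ⟨n, hnS⟩ = 1 := by
    have h2 := repr_el b t ⟨⟨n, Nat.lt_succ_of_le hnD⟩, hnS⟩
    rw [ht _ le_rfl, if_pos rfl] at h2
    exact h2
  have h3 : el b t ≠ 0 := by
    intro h0
    rw [h0, map_zero, Finsupp.zero_apply] at h1
    exact zero_ne_one h1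
  refine ⟨h3, le_antisymm ?_ ?_⟩
  · refine mem_fil_iff.1 fun f hf => ?_
    by_cases hfD : (f : ℕ) ≤ D
    · have h2 := repr_el b t ⟨⟨(f : ℕ), Nat.lt_succ_of_le hfD⟩, f.2⟩
      rw [ht _ hf.le, if_neg (Nat.ne_of_gt hf)] at h2
      exact h2
    · exact el_mem b t f (not_le.1 hfD)
  · have h4 : (⟨n, hnS⟩ : S) ∈ (b.repr (el b t)).support := by
      rw [Finsupp.mem_support_iff, h1]
      exact one_ne_zero
    exact Finset.le_sup (f := fun f : S => (f : ℕ)) h4

theorem NC_of_QT (h : HM b g P₀) {ℓ : ℕ} (hℓ : 2 ≤ ℓ) {N n D E E' : ℕ} (hn : n = 2 * g * ℓ)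
    (hD : D = 2 * n + 2 * g) (hE : E = n + ℓ * D) (hE' : E' = 2 * n + E)
    {t : IT S N n D E E' → K} (ht : QT b ℓ N n D E E' t) : NC ℓ K F N := by
  have hdom : IsDomain R := h4_domain h.db h.sg
  have hinj : Function.Injective (algebraMap R F) := IsFractionRing.injective R F
  have hnS : n ∈ S := h.sg.large n (by
    rw [hn]
    exact Nat.le_mul_of_pos_right _ (by omega))
  have hnD : n ≤ D := by omega
  have hdeg : ∀ i, uT b t i 0 0 ≠ 0 ∧ dgr b (uT b t i 0 0) = n := fun i =>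
    h4TB_dgr hnS hnD (ht.deg i)
  have hz : ∀ i, algebraMap R F (uT b t i 0 0) ≠ 0 := fun i h0 =>
    (hdeg i).1 (hinj (by rw [h0, map_zero]))
  have hord : ∀ i, ord P₀ (algebraMap R F (uT b t i 0 0)) = -(n : ℤ) := fun i => by
    rw [h.ord _ (hdeg i).1, (hdeg i).2]
  have hLP : ∀ i m j, algebraMap R F (uT b t i m j) ∈ LP P₀ D := fun i m j =>
    h.mem_LP (el_mem b _)
  refine ⟨fun i => algebraMap R F (uT b t i 0 0), fun i => ⟨hz i, fun P => ?_⟩, ?_⟩
  · exact h4_dvd (P₀ := P₀) (hz i) (by omega) (fun i' j => h.mem_RO _) (fun i' j => h.mem_RO _)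
      (h4TB_JT (ht.jt i)) P
  · rintro i i' hii ⟨u, hu⟩
    obtain ⟨v, hv, hv0, w, hw, hvw⟩ := h4_equiv (P₀ := P₀) hℓ (hz i) (hz i') (h.mem_RO _)
      (h.mem_RO _) (hord i) (hord i') (fun i' j => h.mem_RO _) (fun i' j => h.mem_RO _)
      (h4TB_JT (ht.jt i)) (h4TB_JT (ht.jt i')) (D := D) (fun j => hLP i 1 j)
      (fun j => hLP i' 1 j) hu
    obtain ⟨zv, hzv, rfl⟩ := (h.mem_LP_iff _).1 hv
    obtain ⟨tv, rfl⟩ := exists_el hzv
    have hw' : ∀ i j, ∃ tw : SD S E → K, algebraMap R F (el b tw) = w i j := by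
      intro i j
      obtain ⟨zw, hzw, hzw'⟩ := (h.mem_LP_iff _).1 (hw i j)
      rw [← hE] at hzw
      obtain ⟨tw, rfl⟩ := exists_el hzw
      exact ⟨tw, hzw'⟩
    choose tw htw using hw'
    have key : ∀ i₁ j₁, el b tv * uT b t i' 1 j₁ * uT b t i 1 i₁ ^ (ℓ - 1) =
        uT b t i 0 0 * uT b t i' 0 0 * el b (tw i₁ j₁) := by
      intro i₁ j₁
      apply hinj
      rw [map_mul, map_mul, map_pow, map_mul, map_mul, htw]
      exact hvw i₁ j₁
    have h1 := h4_eq_zero (v := Lam b ℓ n E E' (uT b t i 0 0) (uT b t i' 0 0)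
      (fun j => uT b t i 1 j) fun j => uT b t i' 1 j) (ht.inv i i' hii)
      (h4TB_lam b ℓ n E E' (uT b t i 0 0) (uT b t i' 0 0) (fun j => uT b t i 1 j)
        (fun j => uT b t i' 1 j) tv tw key)
    have h2 : tv = fun _ => 0 := funext fun d => h1 (Sum.inl d)
    apply hv0
    rw [h2, el, Finset.sum_eq_zero fun d _ => zero_smul K (b d.ix), map_zero]

end Vale.Agent.P019P
end
end

section

section

/-!
# Divisibility
-/

namespace Vale.Agent.P019P

open Polynomial IntermediateField TensorProduct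

variable {K R F : Type*} [Field K] [IsAlgClosed K] [CommRing R] [Algebra K R] [Field F]
  [Algebra R F] [IsFractionRing R F] [Algebra K F] [IsScalarTower K R F] {S : Set ℕ} {g : ℕ}
  {b : Module.Basis S K R} [CFF K F] {P₀ : Plk K F}

/-- coordinates of functions of bounded degree. -/
theorem h4DA_exists (h : HM b g P₀) {n D : ℕ} (hn : n ≤ D) {w : F} (hw : w ∈ LP P₀ n) :
    ∃ t : SD S D → K, algebraMap R F (el b t) = w := by
  obtain ⟨z, hz, hzw⟩ := (h.mem_LP_iff w).1 (LP_mono P₀ hn hw)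
  obtain ⟨t, ht⟩ := exists_el hz
  exact ⟨t, by rw [← ht, hzw]⟩

/-- divisible class groups give solutions. -/
theorem QD_of (h : HM b g P₀) {ℓ : ℕ} (hℓ : ℓ ≠ 0)
    (hdiv : ∀ D : Plk K F →₀ ℤ, dg D = 0 → ∃ E : Plk K F →₀ ℤ, dg E = 0 ∧ D - ℓ • E ∈ prn K F)
    {M D : ℕ} {p : Fin 2 → R} (hp : ∀ i, p i ∈ fil b M) (hp0 : ∃ i, p i ≠ 0)
    (hD : D = M + ℓ * (4 * g) + 2 * g) : ∃ t : ID S D → K, QD b ℓ p t := by
  classical
  have hg := h.gen_eq
  have hinj : Function.Injective (algebraMap R F) := IsFractionRing.injective R F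
  have hp' : ∀ i, algebraMap R F (p i) ∈ LP P₀ M := fun i => h.mem_LP (hp i)
  have hp0' : ∃ i, algebraMap R F (p i) ≠ 0 := by
    obtain ⟨i, hi⟩ := hp0
    exact ⟨i, fun h0 => hi (hinj (by rw [h0, map_zero]))⟩
  obtain ⟨f, E, hf, hfL, hE, hE0, hEd, h1, h2⟩ := h4_div hℓ hdiv P₀ hp' hp0'
  obtain ⟨a, r, s, hJ, ha, hr, hs⟩ := h4_data hℓ P₀ hp' hf (mem_LP.1 hfL).1 hE hE0
    (e := 2 * g) (by rw [hEd, hg]; push_cast; exact le_rfl) h1 h2
  have hl1 : 1 * (4 * g) ≤ ℓ * (4 * g) := Nat.mul_le_mul_right _ (Nat.one_le_iff_ne_zero.2 hℓ)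
  have hn1 : M + 2 * gen K F * ℓ ≤ D := by
    rw [hg, hD]
    have : 2 * g * ℓ ≤ ℓ * (4 * g) := by
      rw [mul_comm]
      exact Nat.mul_le_mul_left _ (by omega)
    omega
  have hn2 : 2 * g + 2 * gen K F ≤ D := by rw [hg, hD]; omega
  have hn3 : M + ℓ * (2 * g + 2 * gen K F) ≤ D := by
    rw [hg, hD, show 2 * g + 2 * g = 4 * g by ring]; omega
  have hn4 : M + ℓ * (2 * g + 2 * gen K F) + 2 * gen K F ≤ D := by
    rw [hg, hD, show 2 * g + 2 * g = 4 * g by ring]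
  obtain ⟨tf, htf⟩ := h4DA_exists h hn1 hfL
  choose ta hta using fun j => h4DA_exists h hn2 (ha j)
  choose tr htr using fun i j => h4DA_exists h hn3 (hr i j)
  choose ts hts using fun i j => h4DA_exists h hn4 (hs i j)
  have hd0 : ∃ d, tf d ≠ 0 := by
    by_contra hcon
    push Not at hcon
    apply hf
    rw [← htf]
    have : el b tf = 0 := by
      unfold el
      exact Finset.sum_eq_zero fun d _ => by rw [hcon d, zero_smul]
    rw [this, map_zero]
  obtain ⟨d₀, hd₀⟩ := hd0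
  refine ⟨Sum.elim (fun x => if x.1 = 0 then tf x.2.2.2 else if x.1 = 1 then ta x.2.2.1 x.2.2.2
    else if x.1 = 2 then tr x.2.1 x.2.2.1 x.2.2.2 else ts x.2.1 x.2.2.1 x.2.2.2)
    (fun d => if d = d₀ then (tf d₀)⁻¹ else 0), ⟨⟨fun i j => hinj ?_, hinj ?_⟩, ?_⟩⟩
  · rw [map_mul, map_mul, map_pow]
    change algebraMap R F (p i) * algebraMap R F (el b (ta j)) ^ ℓ =
      algebraMap R F (el b tf) * algebraMap R F (el b (tr i j))
    rw [hta, htf, htr]
    exact hJ.eq i j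
  · rw [map_one, map_sum, ← hJ.one]
    refine Finset.sum_congr rfl fun i _ => ?_
    rw [map_sum]
    refine Finset.sum_congr rfl fun j _ => ?_
    rw [map_mul]
    change algebraMap R F (el b (ts i j)) * algebraMap R F (el b (tr i j)) = _
    rw [hts, htr]
  · rw [Finset.sum_eq_single d₀]
    · change (if d₀ = d₀ then (tf d₀)⁻¹ else 0) * tf d₀ = 1
      rw [if_pos rfl, inv_mul_cancel₀ hd₀]
    · intro d _ hd
      change (if d = d₀ then (tf d₀)⁻¹ else 0) * tf d = 0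
      rw [if_neg hd, zero_mul]
    · intro hd
      exact absurd (Finset.mem_univ _) hd

/-- solutions give functions. -/
theorem of_QD (h : HM b g P₀) {ℓ : ℕ} (hℓ : ℓ ≠ 0) {D : ℕ} {p : Fin 2 → R} {t : ID S D → K}
    (ht : QD b ℓ p t) : ∃ f : F, f ≠ 0 ∧ ∀ P : Plk K F, P ≠ P₀ → ∃ i, p i ≠ 0 ∧
      (∀ i', p i' ≠ 0 → ord P (algebraMap R F (p i)) ≤ ord P (algebraMap R F (p i'))) ∧
      (ℓ : ℤ) ∣ ord P f - ord P (algebraMap R F (p i)) := by
  have hinj : Function.Injective (algebraMap R F) := IsFractionRing.injective R F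
  have hmap : ∀ z : R, z ≠ 0 ↔ algebraMap R F z ≠ 0 := fun z =>
    not_congr (map_eq_zero_iff _ hinj).symm
  have hf : algebraMap R F (uD b t 0 0 0) ≠ 0 := by
    rw [← hmap]
    intro h0
    have h1 := ht.one
    rw [Finset.sum_eq_zero] at h1
    · exact zero_ne_one h1
    · intro d _
      have h2 := repr_el b (fun d => t (Sum.inl (0, 0, 0, d))) d
      change b.repr (uD b t 0 0 0) d.ix = _ at h2
      rw [h0, map_zero] at h2
      rw [← h2]
      exact mul_zero _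
  refine ⟨_, hf, fun P hP => ?_⟩
  have hJ : JT ℓ (fun i => algebraMap R F (p i)) (algebraMap R F (uD b t 0 0 0))
      (fun j => algebraMap R F (uD b t 1 0 j)) (fun i j => algebraMap R F (uD b t 2 i j))
      (fun i j => algebraMap R F (uD b t 3 i j)) := by
    refine ⟨fun i j => ?_, ?_⟩
    · rw [← map_pow, ← map_mul, ← map_mul]
      exact congrArg _ (ht.jt.eq i j)
    · have h1 := congrArg (algebraMap R F) ht.jt.one
      rw [map_one, map_sum] at h1
      rw [← h1]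
      refine Finset.sum_congr rfl fun i _ => ?_
      rw [map_sum]
      exact Finset.sum_congr rfl fun j _ => (map_mul _ _ _).symm
  obtain ⟨-, i, j, hi, hj, h1, h2⟩ := h4_conv hf hℓ (fun i j => h.mem_RO _)
    (fun i j => h.mem_RO _) hJ hP
  refine ⟨i, (hmap _).2 hi, fun i' hi' => h2 i' ((hmap _).1 hi'), ?_⟩
  rw [h1, add_sub_cancel_left]
  exact Dvd.intro _ rfl

end Vale.Agent.P019P
end
end

section

end

section

end

section

section

/-!
# Two curves such that all places of the second come from the first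
-/

namespace Vale.Agent.P019P

open Vale.Agent.P019

set_option linter.style.haveILetI false
set_option linter.unusedSectionVars false
set_option linter.unusedVariables false

open Polynomial Filter

section r8

variable {F : Type*} [Field F] {k : Subfield F}

/-- a function which is not constant has a zero. -/
theorem r8_zero (hac : IsAlgClosed k) {x : F} (hx : x ∉ k) :
    ∃ O ∈ Plc k, O.valuation x < 1 := by
  have ht : Transcendental k x := fun h => hx (RAC_of_isAlgClosed k hac x h)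
  obtain ⟨B, h1, h2, h3⟩ := CPole_exists_val ht
  refine ⟨B, ⟨fun c hc => h1 ⟨c, hc⟩, fun h => h3 (h ▸ ValuationSubring.mem_top _)⟩, ?_⟩
  have hx0 : x ≠ 0 := fun h => hx (h ▸ k.zero_mem)
  have hv : B.valuation x ≠ 0 := (Valuation.ne_zero_iff _).2 hx0
  by_contra hcon
  apply h3
  rw [← B.valuation_le_one_iff, map_inv₀]
  exact (inv_le_one₀ (zero_lt_iff.2 hv)).2 (not_lt.1 hcon)

/-- a curve has infinitely many places. -/
theorem r8_inf (h : Cv k) : (Plc k).Infinite := by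
  obtain ⟨x, hx, -⟩ := h.ex
  have key : ∀ c : F, ∃ O : ValuationSubring F,
      c ∈ k → O ∈ Plc k ∧ O.valuation (x - c) < 1 := by
    intro c
    by_cases hc : c ∈ k
    · obtain ⟨O, hO, hOc⟩ := r8_zero h.ac (x := x - c)
        (fun h' => hx (by simpa using k.add_mem h' hc))
      exact ⟨O, fun _ => ⟨hO, hOc⟩⟩
    · exact ⟨⊤, fun h' => absurd h' hc⟩
  choose φ hφ using key
  have hinj : Set.InjOn φ (k : Set F) := by
    intro c hc c' hc' hcc
    by_contra hne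
    obtain ⟨h1, h2⟩ := hφ c hc
    obtain ⟨-, h3⟩ := hφ c' hc'
    rw [← hcc] at h3
    have h4 : (φ c).valuation (c' - c) = 1 :=
      h1.1.eq_one (k.sub_mem hc' hc) (sub_ne_zero.2 (Ne.symm hne))
    have h5 : (φ c).valuation ((x - c) - (x - c')) < 1 :=
      lt_of_le_of_lt (Valuation.map_sub _ _ _) (max_lt h2 h3)
    rw [sub_sub_sub_cancel_left, h4] at h5
    exact lt_irrefl _ h5
  have h1 : (φ '' (k : Set F)).Infinite := (infinite_of_isAlgClosed h.ac).image hinj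
  refine h1.mono ?_
  rintro _ ⟨c, hc, rfl⟩
  exact (hφ c hc).1

end r8

variable {F₁ F₂ : Type*} [Field F₁] [Field F₂] [PerfectField F₁] [PerfectField F₂] {ℓ : ℕ}
  [Fact ℓ.Prime] [NeZero (ℓ : F₁)] [NeZero (ℓ : F₂)] {k₁ : Subfield F₁} {k₂ : Subfield F₂}
  {Θ' : V ℓ F₁ ≃ₗ[ZMod ℓ] V ℓ F₂}

/-- places of curves are determined by their unit classes. -/
theorem plc_inj {g : ℕ} (hcv : Cv k₂) (h₂ : CurveCard ℓ k₂ g) {Q Q' : ValuationSubring F₂}
    (hQ : Q ∈ Plc k₂) (hQ' : Q' ∈ Plc k₂) (h : ∀ v, v ∈ UC ℓ Q ↔ v ∈ UC ℓ Q') : Q = Q' := by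
  classical
  by_contra hne
  obtain ⟨R, hR, hnot⟩ := (r8_inf hcv).exists_notMem_finite (Set.toFinite {Q, Q'})
  have hRQ : R ≠ Q := fun h' => hnot (by simp [h'])
  have hRQ' : R ≠ Q' := fun h' => hnot (by simp [h'])
  have hℓ : 2 ≤ ℓ := (Fact.out : ℓ.Prime).two_le
  have e1 := h₂ {R, Q} (by
    intro O hO
    rcases Finset.mem_insert.1 hO with rfl | hO
    · exact hR
    · rw [Finset.mem_singleton.1 hO]
      exact hQ)
  have e2 := h₂ {R} (by
    intro O hO
    rw [Finset.mem_singleton.1 hO]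
    exact hR)
  have heq : ∀ v : V ℓ F₂, (∀ O ∈ Plc k₂, O ∉ ({R, Q} : Finset (ValuationSubring F₂)) →
      v ∈ UC ℓ O) ↔ (∀ O ∈ Plc k₂, O ∉ ({R} : Finset (ValuationSubring F₂)) → v ∈ UC ℓ O) := by
    intro v
    constructor
    · intro hv O hO hOR
      by_cases hOQ : O = Q
      · rw [hOQ, h]
        apply hv Q' hQ'
        rw [Finset.mem_insert, Finset.mem_singleton, not_or]
        exact ⟨fun h' => hRQ' h'.symm, fun h' => hne h'.symm⟩
      · apply hv O hO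
        rw [Finset.mem_insert, Finset.mem_singleton, not_or]
        exact ⟨fun h' => hOR (Finset.mem_singleton.2 h'), hOQ⟩
    · intro hv O hO hOR
      apply hv O hO
      rw [Finset.mem_insert, Finset.mem_singleton, not_or] at hOR
      rw [Finset.mem_singleton]
      exact hOR.1
  rw [Nat.card_congr (Equiv.subtypeEquivRight heq), e2, Finset.card_singleton,
    Finset.card_pair hRQ] at e1
  have h3 := Nat.pow_right_injective hℓ e1
  simp at h3

/-- the inequality between the numbers of classes with bounded ramification. -/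
theorem r8_le {g₁ g₂ : ℕ} (h₁ : CurveCard ℓ k₁ g₁) (h₂ : CurveCard ℓ k₂ g₂)
    {p : ValuationSubring F₂ → ValuationSubring F₁}
    (hp : ∀ Q ∈ Plc k₂, p Q ∈ Plc k₁ ∧ ∀ v, Θ' v ∈ UC ℓ Q ↔ v ∈ UC ℓ (p Q))
    (hinj : Set.InjOn p (Plc k₂)) (T : Finset (ValuationSubring F₂)) (hT : ∀ O ∈ T, O ∈ Plc k₂)
    (X : Finset (ValuationSubring F₁)) (hX : ∀ O ∈ X, O ∈ Plc k₁ ∧ ∀ Q ∈ Plc k₂, p Q ≠ O) :
    2 * g₁ + (T.card + X.card - 1) ≤ 2 * g₂ + (T.card - 1) := by
  classical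
  have hcard : (T.image p ∪ X).card = T.card + X.card := by
    rw [Finset.card_union_of_disjoint, Finset.card_image_of_injOn (hinj.mono hT)]
    rw [Finset.disjoint_left]
    intro O hO hOX
    obtain ⟨Q, hQ, rfl⟩ := Finset.mem_image.1 hO
    exact (hX _ hOX).2 Q (hT Q hQ) rfl
  have e1 := h₁ (T.image p ∪ X) (by
    intro O hO
    rcases Finset.mem_union.1 hO with hO | hO
    · obtain ⟨Q, hQ, rfl⟩ := Finset.mem_image.1 hO
      exact (hp Q (hT Q hQ)).1
    · exact (hX O hO).1)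
  have e2 := h₂ T hT
  have hℓ : 2 ≤ ℓ := (Fact.out : ℓ.Prime).two_le
  have hfin : Finite {v : V ℓ F₂ // ∀ O ∈ Plc k₂, O ∉ T → v ∈ UC ℓ O} := by
    apply Nat.finite_of_card_ne_zero
    rw [e2]
    exact pow_ne_zero _ (by omega)
  have hle : Nat.card {v : V ℓ F₁ // ∀ O ∈ Plc k₁, O ∉ T.image p ∪ X → v ∈ UC ℓ O} ≤
      Nat.card {v : V ℓ F₂ // ∀ O ∈ Plc k₂, O ∉ T → v ∈ UC ℓ O} := by
    refine Nat.card_le_card_of_injective (fun v => ⟨Θ' v.1, fun Q hQ hQT => ?_⟩) ?_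
    · rw [(hp Q hQ).2]
      apply v.2 _ (hp Q hQ).1
      rw [Finset.mem_union, not_or]
      constructor
      · intro hc
        obtain ⟨Q', hQ', hQQ⟩ := Finset.mem_image.1 hc
        exact hQT (hinj (hT Q' hQ') hQ hQQ ▸ hQ')
      · intro hc
        exact (hX _ hc).2 Q hQ rfl
    · intro v w hvw
      have h3 : Θ' v.1 = Θ' w.1 := congrArg Subtype.val hvw
      exact Subtype.ext (Θ'.injective h3)
  rw [e1, e2, hcard] at hle
  exact (Nat.pow_le_pow_iff_right hℓ).1 hle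

/-- the reverse inequality if all places are known. -/
theorem r8_ge {g₁ g₂ : ℕ} (h₁ : CurveCard ℓ k₁ g₁) (h₂ : CurveCard ℓ k₂ g₂)
    {p : ValuationSubring F₂ → ValuationSubring F₁}
    (hp : ∀ Q ∈ Plc k₂, p Q ∈ Plc k₁ ∧ ∀ v, Θ' v ∈ UC ℓ Q ↔ v ∈ UC ℓ (p Q))
    (hinj : Set.InjOn p (Plc k₂)) (T : Finset (ValuationSubring F₂)) (hT : ∀ O ∈ T, O ∈ Plc k₂)
    (X : Finset (ValuationSubring F₁)) (hX : ∀ O, O ∈ X ↔ O ∈ Plc k₁ ∧ ∀ Q ∈ Plc k₂, p Q ≠ O) :
    2 * g₂ + (T.card - 1) ≤ 2 * g₁ + (T.card + X.card - 1) := by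
  classical
  have hcard : (T.image p ∪ X).card = T.card + X.card := by
    rw [Finset.card_union_of_disjoint, Finset.card_image_of_injOn (hinj.mono hT)]
    rw [Finset.disjoint_left]
    intro O hO hOX
    obtain ⟨Q, hQ, rfl⟩ := Finset.mem_image.1 hO
    exact ((hX _).1 hOX).2 Q (hT Q hQ) rfl
  have e1 := h₁ (T.image p ∪ X) (by
    intro O hO
    rcases Finset.mem_union.1 hO with hO | hO
    · obtain ⟨Q, hQ, rfl⟩ := Finset.mem_image.1 hO
      exact (hp Q (hT Q hQ)).1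
    · exact ((hX O).1 hO).1)
  have e2 := h₂ T hT
  have hℓ : 2 ≤ ℓ := (Fact.out : ℓ.Prime).two_le
  have hfin : Finite {v : V ℓ F₁ // ∀ O ∈ Plc k₁, O ∉ T.image p ∪ X → v ∈ UC ℓ O} := by
    apply Nat.finite_of_card_ne_zero
    rw [e1]
    exact pow_ne_zero _ (by omega)
  have hle : Nat.card {v : V ℓ F₂ // ∀ O ∈ Plc k₂, O ∉ T → v ∈ UC ℓ O} ≤
      Nat.card {v : V ℓ F₁ // ∀ O ∈ Plc k₁, O ∉ T.image p ∪ X → v ∈ UC ℓ O} := by
    refine Nat.card_le_card_of_injective (fun v => ⟨Θ'.symm v.1, fun P hP hPT => ?_⟩) ?_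
    · rw [Finset.mem_union, not_or] at hPT
      have h3 : ¬ ∀ Q ∈ Plc k₂, p Q ≠ P := fun h4 => hPT.2 ((hX P).2 ⟨hP, h4⟩)
      push Not at h3
      obtain ⟨Q, hQ, rfl⟩ := h3
      rw [← (hp Q hQ).2, LinearEquiv.apply_symm_apply]
      exact v.2 Q hQ fun h4 => hPT.1 (Finset.mem_image_of_mem p h4)
    · intro v w hvw
      have h3 : Θ'.symm v.1 = Θ'.symm w.1 := congrArg Subtype.val hvw
      exact Subtype.ext (Θ'.symm.injective h3)
  rw [e1, e2, hcard] at hle
  exact (Nat.pow_le_pow_iff_right hℓ).1 hle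

/-- the choice of the places. -/
theorem r8_choose {g₂ : ℕ} (hcv₂ : Cv k₂) (h₂ : CurveCard ℓ k₂ g₂)
    (hQ : ∀ Q ∈ Plc k₂, ∃ P ∈ Plc k₁, ∀ v, Θ' v ∈ UC ℓ Q ↔ v ∈ UC ℓ P) :
    ∃ p : ValuationSubring F₂ → ValuationSubring F₁,
      (∀ Q ∈ Plc k₂, p Q ∈ Plc k₁ ∧ ∀ v, Θ' v ∈ UC ℓ Q ↔ v ∈ UC ℓ (p Q)) ∧
      Set.InjOn p (Plc k₂) := by
  have key : ∀ Q : ValuationSubring F₂, ∃ P : ValuationSubring F₁, Q ∈ Plc k₂ →
      P ∈ Plc k₁ ∧ ∀ v, Θ' v ∈ UC ℓ Q ↔ v ∈ UC ℓ P := by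
    intro Q
    by_cases h : Q ∈ Plc k₂
    · obtain ⟨P, hP, hv⟩ := hQ Q h
      exact ⟨P, fun _ => ⟨hP, hv⟩⟩
    · exact ⟨⊤, fun h' => absurd h' h⟩
  choose p hp using key
  refine ⟨p, hp, fun Q hQ' R hR h => plc_inj hcv₂ h₂ hQ' hR fun w => ?_⟩
  have h3 := (hp Q hQ').2 (Θ'.symm w)
  have h4 := (hp R hR).2 (Θ'.symm w)
  rw [LinearEquiv.apply_symm_apply] at h3 h4
  rw [h3, h4, h]

/-- equality of the genera. -/
theorem cnt_eq {g₁ g₂ : ℕ} (hcv₁ : Cv k₁) (hcv₂ : Cv k₂) (h₁ : CurveCard ℓ k₁ g₁)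
    (h₂ : CurveCard ℓ k₂ g₂)
    (hQ : ∀ Q ∈ Plc k₂, ∃ P ∈ Plc k₁, ∀ v, Θ' v ∈ UC ℓ Q ↔ v ∈ UC ℓ P) : g₁ = g₂ := by
  classical
  obtain ⟨p, hp, hinj⟩ := r8_choose hcv₂ h₂ hQ
  obtain ⟨Q₀, hQ₀⟩ := (r8_inf hcv₂).nonempty
  have hfin : {O : ValuationSubring F₁ | O ∈ Plc k₁ ∧ ∀ Q ∈ Plc k₂, p Q ≠ O}.Finite := by
    by_contra hcon
    obtain ⟨X, hX, hXc⟩ := Set.Infinite.exists_subset_card_eq hcon (2 * g₂ + 2)
    have h3 := r8_le h₁ h₂ hp hinj ∅ (fun O hO => absurd hO (Finset.notMem_empty O)) X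
      (fun O hO => hX hO)
    rw [hXc, Finset.card_empty] at h3
    omega
  have hX : ∀ O, O ∈ hfin.toFinset ↔ O ∈ Plc k₁ ∧ ∀ Q ∈ Plc k₂, p Q ≠ O := fun O =>
    hfin.mem_toFinset
  have hT₀ : ∀ O ∈ (∅ : Finset (ValuationSubring F₂)), O ∈ Plc k₂ := fun O hO =>
    absurd hO (Finset.notMem_empty O)
  have hT₁ : ∀ O ∈ ({Q₀} : Finset (ValuationSubring F₂)), O ∈ Plc k₂ := fun O hO => by
    rw [Finset.mem_singleton.1 hO]
    exact hQ₀
  have a1 := r8_le h₁ h₂ hp hinj ∅ hT₀ hfin.toFinset fun O hO => (hX O).1 hO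
  have a2 := r8_ge h₁ h₂ hp hinj ∅ hT₀ hfin.toFinset hX
  have b1 := r8_le h₁ h₂ hp hinj {Q₀} hT₁ hfin.toFinset fun O hO => (hX O).1 hO
  have b2 := r8_ge h₁ h₂ hp hinj {Q₀} hT₁ hfin.toFinset hX
  rw [Finset.card_empty] at a1 a2
  rw [Finset.card_singleton] at b1 b2
  omega

/-- the degree bound. -/
theorem deg_abs {g₁ g₂ : ℕ} (hcv₁ : Cv k₁) (hcv₂ : Cv k₂)
    (h₁ : CurveCard ℓ k₁ g₁) (h₂ : CurveCard ℓ k₂ g₂) (hrh : CurveRH ℓ k₂ g₂)
    (hQ : ∀ Q ∈ Plc k₂, ∃ P ∈ Plc k₁, ∀ v, Θ' v ∈ UC ℓ Q ↔ v ∈ UC ℓ P)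
    {x : F₂} (hx : x ∉ k₂) (s : Finset F₂) (hs : ∀ c ∈ s, c ∈ k₂) (hs5 : s.card = 5) {M : ℕ}
    (hy : ∀ c ∈ s, ∃ y : F₁, y ≠ 0 ∧ Θ' (cl ℓ y) = cl ℓ (x - c) ∧
      (y ∉ k₁ → Module.finrank (adj k₁ y) F₁ ≤ M)) :
    Module.finrank (adj k₂ x) F₂ ≤ 4 * g₁ + 5 * (2 * M) := by
  obtain ⟨p, hp, hinj⟩ := r8_choose hcv₂ h₂ hQ
  rw [cnt_eq hcv₁ hcv₂ h₁ h₂ hQ]
  refine hrh.rh x hx (2 * M) s hs hs5 fun c hc => ?_
  obtain ⟨y, hy0, hyc, hyM⟩ := hy c hc
  refine le_trans ?_ (dbd_nonunit (ℓ := ℓ) hcv₁ hy0 hyM)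
  refine Set.encard_le_encard_of_injOn (f := p) ?_ (hinj.mono fun O hO => hO.1)
  rintro O ⟨hO, -, hOc⟩
  refine ⟨(hp O hO).1, fun hcP => hOc ?_⟩
  rw [← hyc, (hp O hO).2]
  exact hcP

end Vale.Agent.P019P
end
end

section

end

section

end
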