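import Vale.Agent.P019.MathlibFull
import Vale.Agent.P019.MathlibFull2
import Vale.Agent.P019.MathlibUsed
import Vale.Agent.P019.Bd4.B4
import Vale.Agent.P019.Bd4.B3
import Vale.Agent.P019.Bd4.B5
import Vale.Agent.P019.Bd4.B1
import Vale.Agent.P019.Bd4.B6
import Vale.Agent.P019.Bd4.B2

set_option linter.all false

namespace AFast8a0e5cx12a
@[reducible] noncomputable def a0.{u1} {x1 : ℕ} {x2 : Type u1} [x3 : Field x2] : AddCommMonoid (Vale.Agent.P019.V x1 x2) := inferInstance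
theorem a1.{u1} {x1 : ℕ} [x2 : Fact (Nat.Prime x1)] {x3 : Type u1} [x4 : Field x3] : AddMonoidHomClass (Vale.Agent.P019.V x1 x3 →ₗ[ZMod x1] ZMod x1) (Vale.Agent.P019.V x1 x3) (ZMod x1) := inferInstance
@[reducible] noncomputable def a2.{u1} {x1 : Type u1} [x2 : Field x1] {x3 : Subfield x1} : Module (↥x3) (Polynomial ↥x3) := inferInstance
@[reducible] def a3.{u1} {x1 : Type u1} [x2 : Field x1] {x3 : Subfield x1} : Zero ↥x3 := inferInstance
@[reducible] noncomputable def a4.{u1} {x1 : ℕ} {x2 : Type u1} [x3 : Field x2] : SMulZeroClass (ZMod x1) (Vale.Agent.P019.V x1 x2) := inferInstance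
@[reducible] noncomputable def a5.{u1} {x1 : ℕ} {x2 : Type u1} [x3 : Field x2] : SMul (ZMod x1) (Vale.Agent.P019.V x1 x2) := inferInstance
end AFast8a0e5cx12a
attribute [local instance] AFast8a0e5cx12a.a0 AFast8a0e5cx12a.a1 AFast8a0e5cx12a.a2
  AFast8a0e5cx12a.a3 AFast8a0e5cx12a.a4 AFast8a0e5cx12a.a5
namespace AFast8a0e5cx12b
theorem a0.{u1} {x1 : Type u1} [x2 : Field x1] {x3 : Subfield x1} [x4 : IsAlgClosed ↥x3] : PerfectField ↥x3 := inferInstance
theorem a1.{u1} {x1 : Type u1} [x2 : Field x1] {x3 : Subfield x1} : AddHomClass (Polynomial (Polynomial ↥x3) →+* x1) (Polynomial (Polynomial ↥x3)) x1 := inferInstance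
theorem a2.{u1} {x1 : Type u1} [x2 : Field x1] {x3 : Subfield x1} : AddHomClass (Polynomial ↥x3 →ₐ[↥x3] x1) (Polynomial ↥x3) x1 := inferInstance
theorem a3.{u1} {x1 : Type u1} [x2 : Field x1] {x3 : Subfield x1} : LinearMapClass (Polynomial ↥x3 →ₐ[↥x3] x1) (↥x3) (Polynomial ↥x3) x1 := inferInstance
theorem a4.{u1} {x1 : Type u1} [x2 : Field x1] {x3 : Subfield x1} : AddMonoidHomClass (Polynomial (Polynomial ↥x3) →+* x1) (Polynomial (Polynomial ↥x3)) x1 := inferInstance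
end AFast8a0e5cx12b
attribute [local instance] AFast8a0e5cx12b.a0 AFast8a0e5cx12b.a1 AFast8a0e5cx12b.a2
  AFast8a0e5cx12b.a3 AFast8a0e5cx12b.a4
attribute [local instance] O19.fr O19.tf O19.pj O19.fl

section

section

/-!
# Free subfields
-/

namespace Vale.Agent.P019P

open Vale.Agent.P019

set_option linter.style.haveILetI false
set_option linter.unusedSectionVars false

open Polynomial Filter

variable {Ω : Type*} [Field Ω]

/-- one step: adjoining a free element keeps linear independence. -/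
theorem e4f_step {A N : Subfield Ω} (hN : IsAlgClosed N) (hNA : N ≤ A) {b : Ω}
    (hb : ¬ IsAlgebraic A b) {ι : Type*} [Fintype ι] {p : ι → Ω} (hp : ∀ i, p i ∈ A)
    (hind : ¬ LinearIndependent (rac (adj N b)) p) : ¬ LinearIndependent N p := by
  classical
  rw [Fintype.not_linearIndependent_iff] at hind ⊢
  obtain ⟨g, hg, i₀, hi₀⟩ := hind
  obtain ⟨P, hPA, -, -, hPB⟩ := exists_one (K := Ω) (Ω := AlgebraicClosure Ω) hN hNA hb
    N.zero_mem
  obtain ⟨j, -, hjmax⟩ := Finset.univ.exists_max_image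
    (fun i => P.O.valuation ((g i : rac (adj N b)) : Ω)) ⟨i₀, Finset.mem_univ i₀⟩
  have hj0 : ((g j : rac (adj N b)) : Ω) ≠ 0 := by
    intro h
    have h1 := hjmax i₀ (Finset.mem_univ i₀)
    rw [h, map_zero, le_zero_iff, Valuation.zero_iff] at h1
    exact hi₀ (Subtype.ext h1)
  have hcO : ∀ i, ((g i : rac (adj N b)) : Ω) / (g j : Ω) ∈ P.O := by
    intro i
    rw [← P.O.valuation_le_one_iff, map_div₀]
    exact div_le_one_of_le₀ (hjmax i (Finset.mem_univ i)) zero_le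
  have hcB : ∀ i, ∃ d ∈ N, P.ev (((g i : rac (adj N b)) : Ω) / (g j : Ω)) =
      algebraMap Ω (AlgebraicClosure Ω) d := fun i =>
    hPB _ (hcO i) (mem_rac.1 (Subfield.div_mem _ (g i).2 (g j).2))
  choose d hdN hd using hcB
  refine ⟨fun i => ⟨d i, hdN i⟩, ?_, j, ?_⟩
  · have h1 : ∑ i, (((g i : rac (adj N b)) : Ω) / (g j : Ω)) * p i = 0 := by
      have h2 : ∑ i, ((g i : rac (adj N b)) : Ω) * p i = 0 := hg
      have h3 : ∑ i, (((g i : rac (adj N b)) : Ω) / (g j : Ω)) * p i =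
          (∑ i, ((g i : rac (adj N b)) : Ω) * p i) / (g j : Ω) := by
        rw [Finset.sum_div]
        exact Finset.sum_congr rfl fun i _ => by ring
      rw [h3, h2, zero_div]
    have h4 : ∀ s : Finset ι, (∑ i ∈ s, (((g i : rac (adj N b)) : Ω) / (g j : Ω)) * p i ∈ P.O) ∧
        P.ev (∑ i ∈ s, (((g i : rac (adj N b)) : Ω) / (g j : Ω)) * p i) =
          algebraMap Ω (AlgebraicClosure Ω) (∑ i ∈ s, d i * p i) := by
      intro s
      induction s using Finset.induction_on with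
      | empty => exact ⟨by simp, by simp [P.ev_zero]⟩
      | insert i s his ih =>
        have h5 : (((g i : rac (adj N b)) : Ω) / (g j : Ω)) * p i ∈ P.O :=
          P.O.mul_mem _ _ (hcO i) (hPA _ (hp i)).1
        refine ⟨?_, ?_⟩
        · rw [Finset.sum_insert his]
          exact P.O.add_mem _ _ h5 ih.1
        · rw [Finset.sum_insert his, Finset.sum_insert his, P.ev_add h5 ih.1, ih.2,
            P.ev_mul (hcO i) (hPA _ (hp i)).1, hd, (hPA _ (hp i)).2, map_add, map_mul]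
    have h6 := (h4 Finset.univ).2
    rw [h1, P.ev_zero] at h6
    have h7 : ∑ i, d i * p i = 0 :=
      (map_eq_zero_iff _ (algebraMap Ω (AlgebraicClosure Ω)).injective).1 h6.symm
    exact h7
  · intro h
    have h1 : d j = 0 := congrArg Subtype.val h
    have h2 := hd j
    rw [div_self hj0, P.ev_one, h1, map_zero] at h2
    exact one_ne_zero h2

/-- free subfields over an algebraically closed one are linearly disjoint. -/
theorem Fre.indep {R P Q : Subfield Ω} (hR : IsAlgClosed R) (hQ : IsAlgClosed Q) (hRP : R ≤ P)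
    (hRQ : R ≤ Q) (h : Fre R P Q) {ι : Type*} [Fintype ι] {p : ι → Ω} (hp : ∀ i, p i ∈ P)
    (hind : LinearIndependent R p) : LinearIndependent Q p := by
  classical
  by_contra hcon
  rw [Fintype.not_linearIndependent_iff] at hcon
  obtain ⟨g, hg, i₀, hi₀⟩ := hcon
  have hQR : RAC Q := RAC_of_isAlgClosed Q hQ
  set T : Finset Ω := Finset.univ.image fun i => (g i : Ω) with hT
  have hTQ : ∀ c ∈ T, c ∈ Q := by
    intro c hc
    obtain ⟨i, -, rfl⟩ := Finset.mem_image.1 hc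
    exact (g i).2
  have h0 : ¬ LinearIndependent (rcl R T) p := by
    rw [Fintype.not_linearIndependent_iff]
    refine ⟨fun i => ⟨(g i : Ω), mem_rcl (Finset.mem_image.2 ⟨i, Finset.mem_univ i, rfl⟩)⟩,
      hg, i₀, ?_⟩
    intro h1
    have h2 : ((g i₀ : Q) : Ω) = 0 := congrArg (fun z : rcl R T => (z : Ω)) h1
    exact hi₀ (Subtype.ext h2)
  refine chain_down (B := Q) (RAC_of_isAlgClosed R hR) (fun N => ¬ LinearIndependent N p)
    ?_ T hTQ h0 hind
  intro S hS b hb hbN hN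
  have hNR := rcl_RAC R S
  have hNQ := rcl_le hQR hRQ hS
  have hNc : IsAlgClosed (rcl R S) := isAlgClosed_of_RAC hQ hNR hNQ
  -- independence over `N` from the step over `P ⊔ N`
  exact e4f_step (A := P ⊔ rcl R S) hNc le_sup_right
    (fun h1 => hbN (h _ hNR (le_rcl R S) hNQ b hb h1))
    (fun i => (le_sup_left : P ≤ P ⊔ rcl R S) (hp i)) hN

/-- `rcl k S` and `rcl k T` are free over `rcl k (S ∩ T)`. -/
theorem rcl_fre [IsAlgClosed Ω] [DecidableEq Ω] {k : Subfield Ω} (hk : IsAlgClosed k)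
    {B : Finset Ω} (hB : Indp k B) {S T : Finset Ω} (hS : S ⊆ B) (hT : T ⊆ B) :
    Fre (rcl k (S ∩ T)) (rcl k S) (rcl k T) := by
  intro N hN hlN hNT a ha halg
  have h1 : rcl k S ≤ rcl N (S \ T) := by
    refine rcl_le (rcl_RAC _ _) ((le_rcl k _).trans (hlN.trans (le_rcl _ _))) ?_
    intro c hc
    by_cases hcT : c ∈ T
    · exact le_rcl _ _ (hlN (mem_rcl (Finset.mem_inter.2 ⟨hc, hcT⟩)))
    · exact mem_rcl (Finset.mem_sdiff.2 ⟨hc, hcT⟩)
  have h2 : a ∈ rcl N (S \ T) :=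
    rcl_RAC _ _ a (isAlgebraic_mono (sup_le h1 (le_rcl _ _)) halg)
  have h3 : ∀ X : Finset Ω, X ⊆ S \ T → a ∈ rcl N X → a ∈ N := by
    intro X
    induction X using Finset.induction_on with
    | empty =>
      intro _ h
      rwa [rcl_empty hN] at h
    | insert s X hsX ih =>
      intro hX h
      have hX' : X ⊆ S \ T := fun c hc => hX (Finset.mem_insert_of_mem hc)
      have hs := Finset.mem_sdiff.1 (hX (Finset.mem_insert_self s X))
      apply ih hX'
      by_contra haX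
      rw [rcl_insert] at h
      have h4 : IsAlgebraic (adj (rcl N X) a) s :=
        exchange (fun h5 => haX (rcl_RAC _ _ a h5)) (mem_rac.1 h)
      have h6 : rcl N X ≤ rac (gsp k (T ∪ X)) := by
        refine rcl_le (RAC_rac _) (hNT.trans (rcl_le (RAC_rac _) ?_ ?_)) ?_
        · exact (le_gsp _ _).trans (le_rac _)
        · intro c hc
          exact le_rac _ (mem_gsp (Finset.mem_union_left _ hc))
        · intro c hc
          exact le_rac _ (mem_gsp (Finset.mem_union_right _ hc))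
      have h7 : a ∈ rac (gsp k (T ∪ X)) := by
        refine (rcl_le (RAC_rac _) ?_ ?_ : rcl k T ≤ rac (gsp k (T ∪ X))) ha
        · exact (le_gsp _ _).trans (le_rac _)
        · intro c hc
          exact le_rac _ (mem_gsp (Finset.mem_union_left _ hc))
      have h8 : adj (rcl N X) a ≤ rac (gsp k (T ∪ X)) :=
        (le_rac _).trans (RAC_adj_le (RAC_rac _) h6 h7)
      refine hB (T ∪ X) ?_ s (hS hs.1) ?_ (mem_rac.1 (RAC_rac _ s (isAlgebraic_mono h8 h4)))
      · intro c hc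
        rcases Finset.mem_union.1 hc with hc | hc
        · exact hT hc
        · exact hS (Finset.mem_sdiff.1 (hX' hc)).1
      · intro h9
        rcases Finset.mem_union.1 h9 with h9 | h9
        · exact hs.2 h9
        · exact hsX h9
  exact h3 _ (Finset.Subset.refl _) h2

end Vale.Agent.P019P
end
end

section

section

/-!
# Transferred valuations (perfect version)

`exists_neg`, `Rk2.map` are those of the old file.
-/

namespace Vale.Agent.P019P

open Vale.Agent.P019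

set_option linter.style.haveILetI false
set_option linter.unusedSectionVars false

open Polynomial Filter

variable {K L : Type*} [Field K] [Field L] [PerfectField K] [PerfectField L] {ℓ : ℕ}
  [Fact ℓ.Prime] [NeZero (ℓ : K)] [NeZero (ℓ : L)]
  {k : Subfield K} {l : Subfield L} {Θ : V ℓ K ≃ₗ[ZMod ℓ] V ℓ L}

theorem FG.adj {K : Type*} [Field K] [PerfectField K] {k F : Subfield K} (h : FG k F) (s : K) :
    FG k (adj F s) := h.adj_right s

/-- existence of transferred valuations. -/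
theorem Hyp.exists_tr (H : Hyp ℓ k l Θ) {F : Subfield K} (hkF : k ≤ F) (hfg : FG k F)
    {W : ValuationSubring K} {π θ : K} (hW : Nice W F π θ) {y : K} (hy : Good k y)
    (hyW : TrivOn W (adj k y)) : ∃ O : ValuationSubring L, TrivOn O l ∧ Tr Θ W π O := by
  have hfin := hW.finite (ℓ := ℓ) H.ack hkF hfg (le_adj k y) hyW
  obtain ⟨g₀, -, hg₀⟩ := exists_nr H.ack hy hfin
  obtain ⟨O, hO1, hO2⟩ := transfer H.comp (exists_neg H.ack) (exists_neg H.acl) hW.unif g₀ hg₀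
  refine ⟨O, H.ltr (U1 ℓ W) y hy hfin O ?_, fun _ => hO1, hO2⟩
  intro z hz
  rw [← hO2, LinearEquiv.apply_symm_apply]
  exact cl_mem_U1 hz

/-- the transferred valuation is trivial on curves corresponding to trivially valued ones. -/
theorem Hyp.triv_crv (H : Hyp ℓ k l Θ) {F : Subfield K} (hkF : k ≤ F) (hfg : FG k F)
    {W : ValuationSubring K} {π θ : K} (hW : Nice W F π θ) {O : ValuationSubring L}
    (hOl : TrivOn O l) (hT : Tr Θ W π O) {y : K} (hy : y ∉ k) (hyW : TrivOn W (adj k y))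
    {E : Subfield L} (hE : Crv l E) (hVS : ∀ v ∈ VS ℓ (adj k y), Θ v ∈ VS ℓ E) :
    TrivOn O E := by
  refine triv_of_rk2 (ℓ := ℓ) H.acl hE hOl ?_
  refine Rk2.map (Θ := Θ) (rk2_of_finite (VS_infinite H.ack H.fgk (le_adj k y)
    (fun h => hy (h (mem_adj k y))))
    (hW.finite (ℓ := ℓ) H.ack hkF hfg (le_adj k y) hyW)) hVS (fun v hv => (hT.iff v).1 hv)

theorem Tr.not_triv {W : ValuationSubring K} {π : K} {O : ValuationSubring L}
    (hT : Tr Θ W π O) (hW : IsUnif W π) {E : Subfield L} (h : Θ (cl ℓ π) ∈ VS ℓ E) :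
    ¬ TrivOn O E := by
  intro hO
  obtain ⟨x, hx, hx0, hx1⟩ := h
  have h1 := hT.unit hW x (hO.eq_one hx hx0)
  rw [← hx1, LinearEquiv.symm_apply_apply, hW.fn_self ℓ] at h1
  exact one_ne_zero h1

end Vale.Agent.P019P
end
end

section

section

/-!
# Rationality of the corresponding curves (perfect version)

`Rk2.mono`, `ne_ae` are those of the old file.
-/

namespace Vale.Agent.P019P

open Vale.Agent.P019

set_option linter.style.haveILetI false
set_option linter.unusedSectionVars false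

open Polynomial Filter

section shift

variable {K : Type*} [Field K] {ℓ : ℕ} [Fact ℓ.Prime] {k : Subfield K}

theorem cl_shift {O : ValuationSubring K} {y z : K} (hyk : y ∉ k) (hy : TrivOn O (adj k y))
    (hz : O.valuation (z - y) < 1) {b : K} (hb : b ∈ k) :
    cl ℓ (y - b) - cl ℓ (z - b) ∈ U1 ℓ O := by
  have hyb : y - b ∈ adj k y := sub_mem (mem_adj k y) (le_adj k y hb)
  have hyb0 : y - b ≠ 0 := by
    intro h
    rw [sub_eq_zero] at h
    exact hyk (h ▸ hb)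
  rw [← neg_mem_iff, neg_sub]
  refine cl_sub_cl_mem_U1 (hy.eq_one hyb hyb0) ?_
  have : z - b - (y - b) = z - y := by ring
  rwa [this]

theorem VS_le_of_shift [PerfectField K] [NeZero (ℓ : K)] (hk : IsAlgClosed k) {y z : K}
    (hy : y ∉ k)
    {U : Submodule (ZMod ℓ) (V ℓ K)} (m : K → K) (hm : ∀ b ∈ k, m b ∈ k)
    (h : ∀ b ∈ k, cl ℓ (y - b) - cl ℓ (z - m b) ∈ U) :
    VS ℓ (adj k y) ≤ VS ℓ (adj k z) ⊔ U := by
  intro v hv
  obtain ⟨s, n, hs, rfl⟩ := adj_factor hk hy hv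
  refine sum_mem fun c hc => Submodule.smul_mem _ _ ?_
  have h1 : cl ℓ (y - c) = cl ℓ (z - m c) + (cl ℓ (y - c) - cl ℓ (z - m c)) := by abel
  rw [h1]
  exact Submodule.add_mem_sup (cl_mem_VS (sub_mem (mem_adj k z) (le_adj k z (hm c (hs c hc)))))
    (h c (hs c hc))

end shift

variable {K L : Type*} [Field K] [Field L] [PerfectField K] [PerfectField L] {ℓ : ℕ}
  [Fact ℓ.Prime] [NeZero (ℓ : K)] [NeZero (ℓ : L)]
  {k : Subfield K} {l : Subfield L} {Θ : V ℓ K ≃ₗ[ZMod ℓ] V ℓ L}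

/-- the situation in which the core lemma applies. -/
theorem Hyp.rat_of (H : Hyp ℓ k l Θ) {G : Subfield K} (hkG : k ≤ G) (hfg : FG k G) {s : K}
    {W : ValuationSubring K} {π θ : K}
    (hW : Nice W (adj G s) π θ) {O : ValuationSubring L} (hT : Tr Θ W π O) {y z : L}
    (hy : y ∉ l) (h1 : VS ℓ (adj l z) ≤ VS ℓ (adj l y) ⊔ U1 ℓ O)
    (h2 : VS ℓ (adj l y) ≤ VS ℓ (adj l z) ⊔ U1 ℓ O)
    (hys : ∀ v ∈ VS ℓ (adj l y), Θ.symm v ∈ VS ℓ (adj k s)) {E : Subfield K} (hE : Crv k E)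
    (hEz : ∀ v, Θ.symm v ∈ VS ℓ E ↔ v ∈ VS ℓ (adj l z)) :
    TrivOn W E ∧ VS ℓ E ≤ VS ℓ (adj k s) ⊔ U1 ℓ W := by
  have hWG : TrivOn W (adj G s) := hW.triv
  have hWs : TrivOn W (adj k s) := hWG.mono (adj_mono hkG s)
  have hWk : TrivOn W k := hWs.mono (le_adj k s)
  constructor
  · refine triv_of_rk2 (ℓ := ℓ) H.ack hE hWk ?_
    have hfin : ((U1 ℓ O ⊓ VS ℓ (adj l y) : Submodule (ZMod ℓ) (V ℓ L)) :
        Set (V ℓ L)).Finite := by
      refine Set.Finite.of_finite_image (f := Θ.symm) ((hW.finite (ℓ := ℓ) H.ack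
        (hkG.trans (le_adj G s)) (hfg.adj s) (le_adj k s) hWs).subset ?_)
        (Θ.symm.injective.injOn)
      rintro _ ⟨v, ⟨hv1, hv2⟩, rfl⟩
      refine ⟨?_, hys v hv2⟩
      refine (hT.iff _).1 ?_
      rwa [LinearEquiv.apply_symm_apply]
    have h3 : Rk2 (VS ℓ (adj l y)) (U1 ℓ O) :=
      rk2_of_finite (VS_infinite H.acl H.fgl (le_adj l y) (fun h => hy (h (mem_adj l y)))) hfin
    refine Rk2.map (Θ := Θ.symm) (h3.mono h2) (fun v hv => (hEz v).2 hv) ?_
    intro v hv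
    have := (hT.iff (Θ.symm v)).2 hv
    rwa [LinearEquiv.apply_symm_apply] at this
  · intro w hw
    have h3 : Θ w ∈ VS ℓ (adj l z) := (hEz _).1 (by rwa [LinearEquiv.symm_apply_apply])
    obtain ⟨a, ha, b, hb, hab⟩ := Submodule.mem_sup.1 (h1 h3)
    have h4 : w = Θ.symm a + Θ.symm b := by
      rw [← map_add, hab, LinearEquiv.symm_apply_apply]
    rw [h4]
    refine Submodule.add_mem_sup (hys a ha) ((hT.iff _).1 ?_)
    rwa [LinearEquiv.apply_symm_apply]

/-- curves of alg. independent good elements are different. -/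
theorem Hyp.crv_ne (H : Hyp ℓ k l Θ) {t s : K} (hs : s ∉ k) (ht : ¬ IsAlgebraic (adj k s) t)
    {E₁ E₂ : Subfield L} (h₁ : ∀ v, Θ v ∈ VS ℓ E₁ ↔ v ∈ VS ℓ (adj k t))
    (h₂ : ∀ v, Θ v ∈ VS ℓ E₂ ↔ v ∈ VS ℓ (adj k s)) : E₁ ≠ E₂ := by
  rintro rfl
  have h3 : VS ℓ (adj k s) = VS ℓ (adj k t) := by
    ext v
    rw [← h₁, ← h₂]
  have hfin := int_top (ℓ := ℓ) H.ack H.fgk (le_adj k s) (le_adj k t) (mem_adj k t) ht
    (fun z hz => isAlgebraic_of_mem hz)
  rw [← h3, inf_idem] at hfin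
  exact VS_infinite H.ack H.fgk (le_adj k s) (fun h => hs (h (mem_adj k s))) hfin

/-- there are two alg. independent good elements. -/
theorem Hyp.exists_good_pair (H : Hyp ℓ k l Θ) :
    ∃ t s, Good k t ∧ Good k s ∧ ¬ IsAlgebraic (adj k s) t := by
  obtain ⟨x, y, hx, hy⟩ := H.trk
  have := ae_neBot_of_isAlgClosed H.ack
  have h1 := H.bert x y hx hy
  obtain ⟨c₁, hc₁, hg₁⟩ := ((ae_mem k).and h1).exists
  have h2 : ∀ᶠ c in ae k, c ≠ c₁ := by
    rw [ae_iff]
    refine (Set.finite_singleton c₁).subset ?_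
    rintro c ⟨-, hc⟩
    rw [not_not] at hc
    exact hc
  obtain ⟨c₂, ⟨hc₂, hg₂⟩, hne⟩ := (((ae_mem k).and h1).and h2).exists
  refine ⟨x + c₁ * y, x + c₂ * y, hg₁, hg₂, fun halg => ?_⟩
  set s := x + c₂ * y with hs
  have hk : RAC k := RAC_of_isAlgClosed k H.ack
  have hcr : Crv k (adj k s) := Crv.of_good hg₂
  have ht : x + c₁ * y ∈ adj k s := hcr.rac _ halg
  have hkc : c₂ - c₁ ∈ adj k s := hcr.le (k.sub_mem hc₂ hc₁)
  have hne' : c₂ - c₁ ≠ 0 := sub_ne_zero.2 hne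
  have hym : y ∈ adj k s := by
    have : y = (s - (x + c₁ * y)) / (c₂ - c₁) := by
      rw [hs]; field_simp; ring
    rw [this]
    exact div_mem (sub_mem (mem_adj k s) ht) hkc
  have hxm : x ∈ adj k s := by
    have : x = s - c₂ * y := by rw [hs]; ring
    rw [this]
    exact sub_mem (mem_adj k s) (mul_mem (hcr.le hc₂) hym)
  exact hy (hcr.alg hk hxm hx y hym)

theorem adj_mul_const {k : Subfield K} {y c : K} (hc : c ∈ k) (hc0 : c ≠ 0) :
    adj k (c * y) = adj k y := by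
  apply le_antisymm
  · exact adj_le (le_adj k y) (mul_mem (le_adj k y hc) (mem_adj k y))
  · refine adj_le (le_adj k _) ?_
    have h1 : c⁻¹ * (c * y) ∈ adj k (c * y) :=
      mul_mem (le_adj k _ (k.inv_mem hc)) (mem_adj k _)
    rwa [inv_mul_cancel_left₀ hc0] at h1

/-- from the core lemma to a rational coordinate. -/
theorem Hyp.rt_of (H : Hyp ℓ k l Θ) {G : Subfield K} (hkG : k ≤ G) (hfg : FG k G) {s : K}
    (hs : ¬ IsAlgebraic G s) {W : ValuationSubring K} {π θ : K}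
    (hW : Nice W (adj G s) π θ) {O : ValuationSubring L} (hT : Tr Θ W π O) {y z : L}
    (hy : y ∉ l) (hz : Good l z) (h1 : VS ℓ (adj l z) ≤ VS ℓ (adj l y) ⊔ U1 ℓ O)
    (h2 : VS ℓ (adj l y) ≤ VS ℓ (adj l z) ⊔ U1 ℓ O)
    (hys : ∀ v ∈ VS ℓ (adj l y), Θ.symm v ∈ VS ℓ (adj k s)) : ∃ u, Rt k l Θ u z := by
  obtain ⟨E, hE, hEz⟩ := H.stepA' z hz
  obtain ⟨hWE, hV⟩ := H.rat_of hkG hfg hW hT hy h1 h2 hys hE hEz
  have hEk : ¬ E ≤ k := by
    obtain ⟨y₀, hy₀, hy₀k, -⟩ := hE.ex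
    exact fun h => hy₀k (h hy₀)
  haveI : PerfectField E := hE.perfect
  haveI : IsAlgClosed k := H.ack
  obtain ⟨u, hu, rfl⟩ := core_rat H.ack hkG hfg hs hW hE.le hWE hV hEk
  refine ⟨u, ⟨fun huk => hEk (adj_le le_rfl huk), hE.rac⟩, hz, fun v => ?_⟩
  rw [← hEz, LinearEquiv.symm_apply_apply]

theorem Hyp.exists_rt (H : Hyp ℓ k l Θ) : ∃ s s', Rt k l Θ s s' := by
  obtain ⟨t, s, ht, hs, hts⟩ := H.exists_good_pair
  have hk : RAC k := RAC_of_isAlgClosed k H.ack
  have hl : RAC l := RAC_of_isAlgClosed l H.acl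
  obtain ⟨Et, hEt, hEt'⟩ := H.stepA t ht
  obtain ⟨Es, hEs, hEs'⟩ := H.stepA s hs
  haveI : PerfectField Et := hEt.perfect
  haveI : PerfectField Es := hEs.perfect
  have hne := H.crv_ne hs.1 hts hEt' hEs'
  obtain ⟨G, hG⟩ := exists_frame H.fgk (fun h => hs.1 (hk s h)) hts
  obtain ⟨θ, hθ⟩ := hG.nice H.fgk
  have := ae_neBot_of_isAlgClosed H.ack
  have hkF : k ≤ adj G s := hG.le.trans (le_adj G s)
  obtain ⟨a, hak, ha⟩ := ((ae_mem k).and (hθ.filter_mono (ae_mono hkF))).exists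
  obtain ⟨W, hWo⟩ := exists_over hG.tt (hkF hak)
  have hW := ha W hWo
  have hWs : TrivOn W (adj k s) := hW.triv.mono (adj_mono hG.le s)
  obtain ⟨O, hOl, hT⟩ := H.exists_tr hkF (hG.fg.adj s) hW hs hWs
  have hOs : TrivOn O Es := H.triv_crv hkF (hG.fg.adj s) hW hOl hT hs.1 hWs hEs
    (fun v hv => (hEs' v).2 hv)
  have hOt : ¬ TrivOn O Et := hT.not_triv hW.unif ((hEt' _).2
    (cl_mem_VS (sub_mem (mem_adj k t) (le_adj k t hak))))
  obtain ⟨x₀, hx₀, hx₀O⟩ : ∃ c ∈ Et, c ∉ O := by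
    by_contra hcon
    push Not at hcon
    exact hOt hcon
  have hx₀0 : x₀ ≠ 0 := by rintro rfl; exact hx₀O (zero_mem O)
  set x := x₀⁻¹ with hx
  have hxE : x ∈ Et := Et.inv_mem hx₀
  have hxO : O.valuation x < 1 := by
    rw [hx, map_inv₀]
    have h1 : 1 < O.valuation x₀ := by
      rw [← not_le, O.valuation_le_one_iff]; exact hx₀O
    exact inv_lt_one_of_one_lt₀ h1
  have hx0 : x ≠ 0 := inv_ne_zero hx₀0
  have hxl : x ∉ l := by
    intro h
    exact hx0 (hOl.eq_zero h hxO)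
  obtain ⟨y, hyE, hyl, -⟩ := hEs.ex
  have hxy : ¬ IsAlgebraic (adj l x) y := by
    intro h
    have hyt : y ∈ Et := hEt.rac y (isAlgebraic_mono (adj_le hEt.le hxE) h)
    exact hne (Crv.eq hl hEt hEs hyt hyE hyl)
  have := ae_neBot_of_isAlgClosed H.acl
  obtain ⟨c, ⟨hcl, hc0⟩, hgood⟩ := (((ae_mem l).and (ne_ae l 0)).and (H.bert' x y hxl hxy)).exists
  have hadj : adj l (c * y) = adj l y := adj_mul_const hcl hc0
  have hcyl : c * y ∉ l := by
    intro h
    apply hyl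
    have : y = c⁻¹ * (c * y) := by field_simp
    rw [this]
    exact l.mul_mem (l.inv_mem hcl) h
  have hadjE : adj l (c * y) ≤ Es := by rw [hadj]; exact adj_le hEs.le hyE
  have hOy : TrivOn O (adj l (c * y)) := hOs.mono hadjE
  have hval : O.valuation (x + c * y - c * y) < 1 := by
    rw [add_sub_cancel_right]; exact hxO
  have hsh : ∀ b ∈ l, cl ℓ (c * y - b) - cl ℓ (x + c * y - b) ∈ U1 ℓ O := fun b hb =>
    cl_shift hcyl hOy hval hb
  obtain ⟨u, hu⟩ := H.rt_of hG.le hG.fg hG.ss hW hT hcyl hgood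
    (VS_le_of_shift H.acl hgood.1 (fun b => b) (fun b hb => hb) (fun b hb => by
      rw [← neg_mem_iff, neg_sub]; exact hsh b hb))
    (VS_le_of_shift H.acl hcyl (fun b => b) (fun b hb => hb) hsh)
    (fun v hv => by
      rw [← hEs', LinearEquiv.apply_symm_apply]
      exact VS_mono hadjE hv)
  exact ⟨u, _, hu⟩

theorem fn_U1 {W : ValuationSubring K} {π : K} (hW : IsUnif W π) {v : V ℓ K}
    (hv : v ∈ U1 ℓ W) : hW.fn ℓ v = 0 := by
  obtain ⟨m, hm, rfl⟩ := hv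
  exact hW.fn_unit ℓ _ (val_one_add hm)

omit [PerfectField K] [PerfectField L] [NeZero (ℓ : K)] [NeZero (ℓ : L)] in
/-- classes at infinity. -/
theorem cl_at_infty {O : ValuationSubring K} (hOk : TrivOn O k) {t : K}
    (ht : 1 < O.valuation t) {b : K} (hb : b ∈ k) : cl ℓ (t - b) - cl ℓ t ∈ U1 ℓ O := by
  have ht0 : t ≠ 0 := by
    rintro rfl
    rw [map_zero] at ht
    exact not_lt_zero ht
  have hm : O.valuation (-(b / t)) < 1 := by
    rw [Valuation.map_neg, map_div₀]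
    have hpos : 0 < O.valuation t := lt_trans zero_lt_one ht
    rw [div_lt_one₀ hpos]
    exact lt_of_le_of_lt (hOk.le_one hb) ht
  have hb0 : t - b ≠ 0 := by
    intro h
    rw [sub_eq_zero] at h
    rw [h] at ht
    exact absurd (hOk.le_one hb) (not_le.2 ht)
  rw [← cl_div ℓ hb0 ht0]
  have : (t - b) / t = 1 + -(b / t) := by field_simp; ring
  rw [this]
  exact cl_mem_U1 hm

/-- at most one fibre has its centre at infinity. -/
theorem two_infty {l : Subfield L} (hk : IsAlgClosed k) (hl : IsAlgClosed l)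
    {t : K} {x : L} {c₁ c₂ : L}
    (htk : t ∉ k) (hc₁ : c₁ ∈ l) (hc₂ : c₂ ∈ l) (hne : c₁ ≠ c₂)
    {W₁ W₂ : ValuationSubring L} {O₁ O₂ : ValuationSubring K} (hW₁ : IsUnif W₁ (x - c₁))
    (hW₂ : IsUnif W₂ (x - c₂)) (hT₁ : Tr Θ.symm W₁ (x - c₁) O₁) (hT₂ : Tr Θ.symm W₂ (x - c₂) O₂)
    (hWl : TrivOn W₂ l)
    (hO₁ : TrivOn O₁ k) (hO₂ : TrivOn O₂ k) (hx₁ : Θ.symm (cl ℓ (x - c₁)) ∈ VS ℓ (adj k t))
    (hx₂ : Θ.symm (cl ℓ (x - c₂)) ∈ VS ℓ (adj k t)) (h₁ : 1 < O₁.valuation t)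
    (h₂ : 1 < O₂.valuation t) : False := by
  obtain ⟨S, n, hS, hv⟩ := adj_factor hk htk hx₁
  -- modulo `U1` every class of `k(t)` is a multiple of `cl t`
  have key : ∀ O : ValuationSubring K, TrivOn O k → 1 < O.valuation t →
      ∑ c ∈ S, n c • cl ℓ (t - c) - (∑ c ∈ S, n c) • cl ℓ t ∈ U1 ℓ O := by
    intro O hO ht
    rw [Finset.sum_smul, ← Finset.sum_sub_distrib]
    refine sum_mem fun c hc => ?_
    rw [← smul_sub]
    exact Submodule.smul_mem _ _ (cl_at_infty hO ht (hS c hc))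
  -- `x - c₁` is a constant modulo `W₂`
  have h3 : cl ℓ (x - c₁) ∈ U1 ℓ W₂ := by
    have hc : c₂ - c₁ ∈ l := l.sub_mem hc₂ hc₁
    have hc0 : c₂ - c₁ ≠ 0 := sub_ne_zero.2 hne.symm
    have h4 := cl_sub_cl_mem_U1 (ℓ := ℓ) (x := x - c₁) (hWl.eq_one hc hc0) (by
      have : x - c₁ - (c₂ - c₁) = x - c₂ := by ring
      rw [this]
      exact hW₂.lt)
    rwa [line_cl_const hl hc, sub_zero] at h4
  have h4 : ∑ c ∈ S, n c • cl ℓ (t - c) ∈ U1 ℓ O₂ := by
    rw [← hv]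
    exact (hT₂.iff _).2 h3
  have h5 : (∑ c ∈ S, n c) • cl ℓ t ∈ U1 ℓ O₂ := by
    have := Submodule.sub_mem _ h4 (key O₂ hO₂ h₂)
    rwa [sub_sub_cancel] at this
  by_cases hN : ∑ c ∈ S, n c = 0
  · -- then `cl (x - c₁)` is in `U1 W₁`
    have h6 := key O₁ hO₁ h₁
    rw [hN, zero_smul, sub_zero, ← hv] at h6
    have h7 := (hT₁.iff _).1 h6
    have h8 := fn_U1 hW₁ h7
    rw [hW₁.fn_self ℓ] at h8
    exact one_ne_zero h8
  · have h6 : cl ℓ t ∈ U1 ℓ O₂ := by
      have h7 := Submodule.smul_mem (U1 ℓ O₂) (∑ c ∈ S, n c)⁻¹ h5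
      rwa [smul_smul, inv_mul_cancel₀ hN, one_smul] at h7
    have h7 : ∀ b ∈ k, cl ℓ (t - b) ∈ U1 ℓ O₂ := by
      intro b hb
      have h8 := Submodule.add_mem _ (cl_at_infty (ℓ := ℓ) hO₂ h₂ hb) h6
      rwa [sub_add_cancel] at h8
    obtain ⟨S', n', hS', hv'⟩ := adj_factor hk htk hx₂
    have h8 : Θ.symm (cl ℓ (x - c₂)) ∈ U1 ℓ O₂ := by
      rw [hv']
      exact sum_mem fun c hc => Submodule.smul_mem _ _ (h7 c (hS' c hc))
    have h9 := fn_U1 hW₂ ((hT₂.iff _).1 h8)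
    rw [hW₂.fn_self ℓ] at h9
    exact one_ne_zero h9

theorem Hyp.rt_add (H : Hyp ℓ k l Θ) {s : K} {s' : L} (h : Rt k l Θ s s') {t : K}
    (ht : Good k t) (hts : ¬ IsAlgebraic (adj k s) t) (hg : Good k (t + s)) :
    ∃ z', Rt k l Θ (t + s) z' := by
  have hk : RAC k := RAC_of_isAlgClosed k H.ack
  have hl : RAC l := RAC_of_isAlgClosed l H.acl
  obtain ⟨Et, hEt, hEt'⟩ := H.stepA t ht
  have hne := H.crv_ne h.good.1 hts hEt' h.map
  have hcs : Crv l (adj l s') := Crv.of_good h.good'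
  obtain ⟨x, hxE, hxl, -⟩ := hEt.ex
  have hxs : ¬ IsAlgebraic (adj l s') x := by
    intro h1
    have hx : x ∈ adj l s' := hcs.rac x h1
    exact hne (Crv.eq hl hEt hcs hxE hx hxl)
  obtain ⟨G, hG⟩ := exists_frame H.fgl (fun h1 => h.good'.1 (hl s' h1)) hxs
  obtain ⟨θ, hθ⟩ := hG.nice H.fgl
  have := ae_neBot_of_isAlgClosed H.acl
  have hlF : l ≤ adj G s' := hG.le.trans (le_adj G s')
  -- for almost all `c` there are `W, O`
  have hex : ∀ᶠ c in ae l, ∃ (W : ValuationSubring L) (O : ValuationSubring K),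
      Nice W (adj G s') (x - c) θ ∧ TrivOn O k ∧ Tr Θ.symm W (x - c) O := by
    filter_upwards [ae_mem l, hθ.filter_mono (ae_mono hlF)] with c hcl hc
    obtain ⟨W, hWo⟩ := exists_over hG.tt (hlF hcl)
    have hW := hc W hWo
    obtain ⟨O, hO1, hO2⟩ := H.symm.exists_tr hlF (hG.fg.adj s') hW h.good'
      (hW.triv.mono (adj_mono hG.le s'))
    exact ⟨W, O, hW, hO1, hO2⟩
  have hmem : ∀ c ∈ l, Θ.symm (cl ℓ (x - c)) ∈ VS ℓ (adj k t) := by
    intro c hc
    rw [← hEt', LinearEquiv.apply_symm_apply]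
    exact cl_mem_VS (sub_mem hxE (hEt.le hc))
  -- one of them is centred at a finite point
  obtain ⟨c, hcl, W, O, hW, hOk, hT, a, ha, hta⟩ : ∃ c ∈ l, ∃ (W : ValuationSubring L)
      (O : ValuationSubring K), Nice W (adj G s') (x - c) θ ∧ TrivOn O k ∧
      Tr Θ.symm W (x - c) O ∧ ∃ a ∈ k, O.valuation (t - a) < 1 := by
    obtain ⟨c₁, hc₁, W₁, O₁, hW₁, hO₁, hT₁⟩ := ((ae_mem l).and hex).exists
    have hn₁ : ¬ TrivOn O₁ (adj k t) := hT₁.not_triv hW₁.unif (hmem c₁ hc₁)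
    rcases exists_centre H.ack ht hO₁ hn₁ with ⟨a, ha, hta⟩ | hinf₁
    · exact ⟨c₁, hc₁, W₁, O₁, hW₁, hO₁, hT₁, a, ha, hta⟩
    obtain ⟨c₂, ⟨hc₂, hne₂⟩, W₂, O₂, hW₂, hO₂, hT₂⟩ :=
      (((ae_mem l).and (ne_ae l c₁)).and hex).exists
    have hn₂ : ¬ TrivOn O₂ (adj k t) := hT₂.not_triv hW₂.unif (hmem c₂ hc₂)
    rcases exists_centre H.ack ht hO₂ hn₂ with ⟨a, ha, hta⟩ | hinf₂
    · exact ⟨c₂, hc₂, W₂, O₂, hW₂, hO₂, hT₂, a, ha, hta⟩
    exact (two_infty H.ack H.acl ht.1 hc₁ hc₂ hne₂.symm hW₁.unif hW₂.unif hT₁ hT₂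
      (hW₂.triv.mono hlF) hO₁ hO₂ (hmem c₁ hc₁) (hmem c₂ hc₂) hinf₁ hinf₂).elim
  have hWs : TrivOn W (adj l s') := hW.triv.mono (adj_mono hG.le s')
  have hOs : TrivOn O (adj k s) := H.symm.triv_crv hlF (hG.fg.adj s') hW hOk hT h.good'.1 hWs
    (Crv.of_good h.good) (fun v hv => by
      rw [← h.map, LinearEquiv.apply_symm_apply]; exact hv)
  have hval : O.valuation (t + s - a - s) < 1 := by
    have : t + s - a - s = t - a := by ring
    rw [this]; exact hta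
  have hsh : ∀ b ∈ k, cl ℓ (s - b) - cl ℓ (t + s - (a + b)) ∈ U1 ℓ O := by
    intro b hb
    have h1 := cl_shift (ℓ := ℓ) h.good.1 hOs hval hb
    have : t + s - a - b = t + s - (a + b) := by ring
    rwa [this] at h1
  obtain ⟨u, hu⟩ := H.symm.rt_of hG.le hG.fg hG.ss hW hT h.good.1 hg
    (VS_le_of_shift H.ack hg.1 (fun b => b - a) (fun b hb => k.sub_mem hb ha) (fun b hb => by
      have h1 := hsh (b - a) (k.sub_mem hb ha)
      rw [add_sub_cancel] at h1
      rw [← neg_mem_iff, neg_sub]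
      exact h1))
    (VS_le_of_shift H.ack h.good.1 (fun b => a + b) (fun b hb => k.add_mem ha hb) hsh)
    (fun v hv => by
      rw [LinearEquiv.symm_symm, h.map]; exact hv)
  refine ⟨u, hg, hu.good, fun v => ?_⟩
  have h1 := hu.map (Θ v)
  rw [LinearEquiv.symm_apply_apply] at h1
  exact h1.symm

theorem Hyp.rt_all (H : Hyp ℓ k l Θ) {t : K} (ht : Good k t) : ∃ t', Rt k l Θ t t' := by
  have hk : RAC k := RAC_of_isAlgClosed k H.ack
  obtain ⟨s, s', h⟩ := H.exists_rt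
  by_cases hts : IsAlgebraic (adj k s) t
  · have hadj : adj k t = adj k s :=
      Crv.eq hk (Crv.of_good ht) (Crv.of_good h.good) (mem_adj k t)
        (h.good.2 t hts) ht.1
    exact ⟨s', ht, h.good', fun v => by rw [hadj]; exact h.map v⟩
  · have hst : ¬ IsAlgebraic (adj k t) s := by
      intro h1
      have hadj : adj k s = adj k t :=
        Crv.eq hk (Crv.of_good h.good) (Crv.of_good ht) (mem_adj k s) (ht.2 s h1) h.good.1
      apply hts
      rw [hadj]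
      exact isAlgebraic_of_mem (mem_adj k t)
    have := ae_neBot_of_isAlgClosed H.ack
    obtain ⟨c, ⟨hck, hc0⟩, hgood⟩ :=
      (((ae_mem k).and (ne_ae k 0)).and (H.bert t s ht.1 hst)).exists
    have hnc : -c ∈ k := k.neg_mem hck
    have hnc0 : -c ≠ 0 := neg_ne_zero.2 hc0
    have hadj : adj k (-c * s) = adj k s := adj_mul_const hnc hnc0
    have hcs : -c * s ∉ k := by
      intro h1
      apply h.good.1
      have : s = (-c)⁻¹ * (-c * s) := by field_simp
      rw [this]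
      exact k.mul_mem (k.inv_mem hnc) h1
    have hR : Rt k l Θ (-c * s) s' := by
      refine ⟨⟨hcs, ?_⟩, h.good', fun v => ?_⟩
      · rw [hadj]; exact h.good.2
      · rw [hadj]; exact h.map v
    have e : t + c * s + -c * s = t := by ring
    obtain ⟨z', hz'⟩ := H.rt_add hR (t := t + c * s) hgood (by
      rw [hadj]
      intro h1
      apply hts
      have h2 : t + c * s ∈ adj k s := h.good.2 _ h1
      have : t = (t + c * s) - c * s := by ring
      rw [this]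
      exact isAlgebraic_of_mem (sub_mem h2 (mul_mem (le_adj k s hck) (mem_adj k s))))
      (by rw [e]; exact ht)
    rw [e] at hz'
    exact ⟨z', hz'⟩

end Vale.Agent.P019P
end
end

section

section

/-!
# The correspondence of points on rational curves
-/

set_option linter.unusedSectionVars false
set_option linter.unusedVariables false

namespace Vale.Agent.P019P

open Vale.Agent.P019

set_option linter.style.haveILetI false
set_option linter.unusedSectionVars false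

open Polynomial Filter

variable {K L : Type*} [Field K] [Field L] [PerfectField K] [PerfectField L] {ℓ : ℕ}
  [Fact ℓ.Prime] [NeZero (ℓ : K)] [NeZero (ℓ : L)]
  {k : Subfield K} {l : Subfield L} {Θ : V ℓ K ≃ₗ[ZMod ℓ] V ℓ L}

theorem Rt.symm {s : K} {s' : L} (h : Rt k l Θ s s') : Rt l k Θ.symm s' s where
  good := h.good'
  good' := h.good
  map := by
    intro v
    rw [← h.map, LinearEquiv.apply_symm_apply]

theorem Cor.symm {s : K} {s' : L} (hR : Rt k l Θ s s') {e : ZMod ℓ} (he : e ≠ 0) {b : K} {β : L}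
    (h : Cor k l Θ s s' e b β) : Cor l k Θ.symm s' s e⁻¹ β b := by
  intro v hv
  have h1 : Θ.symm v ∈ VS ℓ (adj k s) := (hR.symm.map v).2 hv
  rw [h _ h1, LinearEquiv.apply_symm_apply, inv_mul_cancel_left₀ he]

/-- the corresponding point and the coefficient are unique. -/
theorem Cor.unique (hk : IsAlgClosed k) (hl : IsAlgClosed l) {s : K} {s' : L}
    (hR : Rt k l Θ s s') {e e' : ZMod ℓ} (he : e ≠ 0) {b : K} (hb : b ∈ k) {β β' : L}
    (hβ : β ∈ l) (hβ' : β' ∈ l) (h : Cor k l Θ s s' e b β) (h' : Cor k l Θ s s' e' b β') :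
    β = β' ∧ e = e' := by
  have hv : cl ℓ (s' - β) ∈ VS ℓ (adj l s') :=
    cl_mem_VS ((adj l s').sub_mem (mem_adj l s') (le_adj l s' hβ))
  have h1 : Θ.symm (cl ℓ (s' - β)) ∈ VS ℓ (adj k s) := (hR.symm.map _).2 hv
  have h2 := h _ h1
  have h3 := h' _ h1
  rw [LinearEquiv.apply_symm_apply] at h2 h3
  rw [del_self hl hR.good' hβ, mul_one] at h2
  by_cases hβ1 : β = β'
  · subst hβ1
    rw [del_self hl hR.good' hβ, mul_one] at h3
    exact ⟨rfl, h2.symm.trans h3⟩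
  · rw [del_ne hl hR.good' hβ' hβ hβ1, mul_zero] at h3
    exact absurd (h2.symm.trans h3) he

/-- correspondence is injective. -/
theorem Cor.inj (hk : IsAlgClosed k) (hl : IsAlgClosed l) {s : K} {s' : L}
    (hR : Rt k l Θ s s') {e e' : ZMod ℓ} (he : e ≠ 0) (he' : e' ≠ 0) {b b' : K} (hb : b ∈ k)
    (hb' : b' ∈ k) {β : L} (hβ : β ∈ l) (h : Cor k l Θ s s' e b β)
    (h' : Cor k l Θ s s' e' b' β) : b = b' := by
  have hv : cl ℓ (s - b) ∈ VS ℓ (adj k s) :=
    cl_mem_VS ((adj k s).sub_mem (mem_adj k s) (le_adj k s hb))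
  have h2 := h _ hv
  have h3 := h' _ hv
  rw [del_self hk hR.good hb] at h2
  by_contra hne
  rw [del_ne hk hR.good hb' hb hne] at h3
  have h4 : del ℓ l s' β (Θ (cl ℓ (s - b))) ≠ 0 := by
    intro h0
    rw [h0, mul_zero] at h2
    exact one_ne_zero h2
  exact (mul_ne_zero he' h4) h3.symm

/-- a good element independent of a given one. -/
theorem Hyp.exists_indep (H : Hyp ℓ k l Θ) {s : K} (hs : Good k s) :
    ∃ t, Good k t ∧ ¬ IsAlgebraic (adj k s) t := by
  have hRAC := RAC_of_isAlgClosed k H.ack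
  have hsk : ¬ IsAlgebraic k s := fun h => hs.1 (hRAC s h)
  obtain ⟨x, y, hx, hxy⟩ := H.trk
  have hex : ∃ w : K, ¬ IsAlgebraic (adj k s) w := by
    by_contra hcon
    push Not at hcon
    have h1 : ¬ IsAlgebraic k x := fun h => hx (hRAC x h)
    have h2 : IsAlgebraic (adj k x) s := exchange h1 (hcon x)
    have h3 : adj k s ≤ rac (adj k x) :=
      adj_le ((le_adj k x).trans (le_rac _)) (mem_rac.2 h2)
    exact hxy (mem_rac.1 ((RAC_rac (adj k x)).le h3 (mem_rac.2 (hcon y))))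
  obtain ⟨w, hw⟩ := hex
  have hwk : w ∉ k := fun h => hw (isAlgebraic_of_mem (le_adj k s h))
  have hws : ¬ IsAlgebraic (adj k w) s := fun h => hw (exchange hsk h)
  have hne := ae_neBot_of_isAlgClosed H.ack
  obtain ⟨c, hc, hck⟩ := ((H.bert w s hwk hws).and (ae_mem k)).exists
  refine ⟨w + c * s, hc, fun h => hw ?_⟩
  have h1 : w + c * s ∈ rac (adj k s) := mem_rac.2 h
  have h2 : c * s ∈ rac (adj k s) :=
    le_rac _ ((adj k s).mul_mem (le_adj k s hck) (mem_adj k s))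
  have h3 := (rac (adj k s)).sub_mem h1 h2
  rw [add_sub_cancel_right] at h3
  exact mem_rac.1 h3

/-- the functionals of the points corresponding to a pole. -/
def PoleAt (k : Subfield K) (l : Subfield L) (Θ : V ℓ K ≃ₗ[ZMod ℓ] V ℓ L) (s : K) (s' : L)
    (b : K) : Prop :=
  ∃ f : V ℓ L →ₗ[ZMod ℓ] ZMod ℓ, (∀ v ∈ VS ℓ (adj k s), del ℓ k s b v = f (Θ v)) ∧
    ∀ c ∈ l, f (cl ℓ (s' - c)) = f (cl ℓ s')

theorem PoleAt.prop (hl : IsAlgClosed l) {s' : L} (hs' : Good l s')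
    {f : V ℓ L →ₗ[ZMod ℓ] ZMod ℓ} (hf : ∀ c ∈ l, f (cl ℓ (s' - c)) = f (cl ℓ s'))
    {g : V ℓ L →ₗ[ZMod ℓ] ZMod ℓ} (hg : ∀ c ∈ l, g (cl ℓ (s' - c)) = g (cl ℓ s'))
    {w : V ℓ L} (hw : w ∈ VS ℓ (adj l s')) : f w * g (cl ℓ s') = g w * f (cl ℓ s') := by
  classical
  obtain ⟨T, n, hT, rfl⟩ := adj_factor hl hs'.1 hw
  have key : ∀ {h : V ℓ L →ₗ[ZMod ℓ] ZMod ℓ}, (∀ c ∈ l, h (cl ℓ (s' - c)) = h (cl ℓ s')) →
      h (∑ c ∈ T, n c • cl ℓ (s' - c)) = (∑ c ∈ T, n c) * h (cl ℓ s') := by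
    intro h hh
    rw [map_sum, Finset.sum_mul]
    refine Finset.sum_congr rfl fun c hc => ?_
    rw [map_smul, hh c (hT c hc), smul_eq_mul]
  rw [key hf, key hg]
  ring

theorem PoleAt.unique (hk : IsAlgClosed k) (hl : IsAlgClosed l) {s : K} {s' : L}
    (hR : Rt k l Θ s s') {b₁ b₂ : K} (h₁ : b₁ ∈ k) (h₂ : b₂ ∈ k) (hp₁ : PoleAt k l Θ s s' b₁)
    (hp₂ : PoleAt k l Θ s s' b₂) : b₁ = b₂ := by
  by_contra hne
  obtain ⟨f₁, hf₁, hf₁'⟩ := hp₁
  obtain ⟨f₂, hf₂, hf₂'⟩ := hp₂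
  have hv₁ : cl ℓ (s - b₁) ∈ VS ℓ (adj k s) :=
    cl_mem_VS ((adj k s).sub_mem (mem_adj k s) (le_adj k s h₁))
  have hv₂ : cl ℓ (s - b₂) ∈ VS ℓ (adj k s) :=
    cl_mem_VS ((adj k s).sub_mem (mem_adj k s) (le_adj k s h₂))
  have a11 := hf₁ _ hv₁
  have a21 := hf₂ _ hv₁
  have a12 := hf₁ _ hv₂
  have a22 := hf₂ _ hv₂
  rw [del_self hk hR.good h₁] at a11
  rw [del_ne hk hR.good h₂ h₁ hne] at a21
  rw [del_ne hk hR.good h₁ h₂ (Ne.symm hne)] at a12
  rw [del_self hk hR.good h₂] at a22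
  have k1 := PoleAt.prop hl hR.good' hf₁' hf₂' ((hR.map _).2 hv₁)
  have k2 := PoleAt.prop hl hR.good' hf₁' hf₂' ((hR.map _).2 hv₂)
  rw [← a11, ← a21, one_mul, zero_mul] at k1
  rw [← a12, ← a22, one_mul, zero_mul] at k2
  -- both constants vanish
  obtain ⟨T, n, hT, hw⟩ := adj_factor hl hR.good'.1 ((hR.map _).2 hv₁)
  rw [hw, map_sum] at a11
  rw [Finset.sum_eq_zero] at a11
  · exact one_ne_zero a11
  · intro c hc
    rw [map_smul, hf₁' c (hT c hc), ← k2, smul_zero]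

/-- almost all points have a corresponding point. -/
theorem Hyp.exists_cor (H : Hyp ℓ k l Θ) {s : K} {s' : L} (hR : Rt k l Θ s s') :
    ∀ᶠ b in ae k, ∃ β ∈ l, ∃ e : ZMod ℓ, e ≠ 0 ∧ Cor k l Θ s s' e b β := by
  obtain ⟨t, ht, hst⟩ := H.exists_indep hR.good
  have hRAC := RAC_of_isAlgClosed k H.ack
  have htk : ¬ IsAlgebraic k t := fun h => ht.1 (hRAC t h)
  have hsk : ¬ IsAlgebraic k s := fun h => hR.good.1 (hRAC s h)
  have hts : ¬ IsAlgebraic (adj k t) s := fun h => hst (exchange hsk h)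
  obtain ⟨G, hG⟩ := exists_frame H.fgk htk hts
  obtain ⟨θ, hθ⟩ := hG.nice H.fgk
  have hkF : k ≤ adj G t := hG.le.trans (le_adj G t)
  have hθ' := (ae_mono hkF) hθ
  have hmain : ∀ᶠ b in ae k, (∃ β ∈ l, ∃ e : ZMod ℓ, e ≠ 0 ∧ Cor k l Θ s s' e b β) ∨
      PoleAt k l Θ s s' b := by
    filter_upwards [hθ', ae_mem k] with b hb hbk
    obtain ⟨W, hW⟩ := exists_over hG.tt (hkF hbk)
    have hN := hb W hW
    have hWt : TrivOn W (adj k t) := hN.triv.mono (adj_mono hG.le t)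
    have hWk : TrivOn W k := hN.triv.mono hkF
    obtain ⟨O, hOl, hT⟩ := H.exists_tr hkF (hG.fg.adj t) hN ht hWt
    have hsb : cl ℓ (s - b) ∈ VS ℓ (adj k s) :=
      cl_mem_VS ((adj k s).sub_mem (mem_adj k s) (le_adj k s hbk))
    have hnt : ¬ TrivOn O (adj l s') := hT.not_triv hN.unif ((hR.map _).2 hsb)
    set f : V ℓ L →ₗ[ZMod ℓ] ZMod ℓ := (hN.unif.fn ℓ) ∘ₗ Θ.symm.toLinearMap with hf
    have hfu : ∀ z, O.valuation z = 1 → f (cl ℓ z) = 0 := fun z hz => hT.unit hN.unif z hz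
    have hdel : ∀ v ∈ VS ℓ (adj k s), del ℓ k s b v = f (Θ v) := by
      intro v hv
      have h1 := del_of_kills H.ack hR.good hWk hbk hW.lt (hN.unif.fn ℓ)
        (fun z hz => hN.unif.fn_unit ℓ z hz) hv
      rw [hN.unif.fn_self ℓ, one_mul] at h1
      rw [← h1]
      change _ = hN.unif.fn ℓ (Θ.symm (Θ v))
      rw [LinearEquiv.symm_apply_apply]
    rcases exists_centre H.acl hR.good' hOl hnt with ⟨β, hβ, hβ1⟩ | hinf
    · left
      have hcor : ∀ v ∈ VS ℓ (adj k s),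
          del ℓ k s b v = f (cl ℓ (s' - β)) * del ℓ l s' β (Θ v) := by
        intro v hv
        rw [hdel v hv]
        exact del_of_kills H.acl hR.good' hOl hβ hβ1 f hfu ((hR.map v).2 hv)
      refine ⟨β, hβ, f (cl ℓ (s' - β)), ?_, hcor⟩
      intro h0
      have h1 := hcor _ hsb
      rw [h0, zero_mul, del_self H.ack hR.good hbk] at h1
      exact one_ne_zero h1
    · right
      refine ⟨f, hdel, fun c hc => ?_⟩
      have hs0 : s' ≠ 0 := by
        rintro rfl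
        rw [map_zero] at hinf
        exact absurd hinf (not_lt.2 zero_le_one)
      have hcle : O.valuation c < O.valuation s' := (hOl.le_one hc).trans_lt hinf
      have hval : O.valuation (s' - c) = O.valuation s' :=
        Valuation.map_sub_eq_of_lt_left _ hcle
      have hsc0 : s' - c ≠ 0 := by
        intro h
        rw [h, map_zero] at hval
        exact (Valuation.ne_zero_iff O.valuation).2 hs0 hval.symm
      have h1 : O.valuation ((s' - c) / s') = 1 := by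
        rw [map_div₀, hval, div_self ((Valuation.ne_zero_iff O.valuation).2 hs0)]
      have h2 := hfu _ h1
      rw [cl_div ℓ hsc0 hs0, map_sub, sub_eq_zero] at h2
      exact h2
  have hpole : ∀ᶠ b in ae k, ¬ PoleAt k l Θ s s' b := by
    rw [ae_iff]
    refine Set.Subsingleton.finite ?_
    rintro b₁ ⟨h₁, hp₁⟩ b₂ ⟨h₂, hp₂⟩
    rw [not_not] at hp₁ hp₂
    exact PoleAt.unique H.ack H.acl hR h₁ h₂ hp₁ hp₂
  filter_upwards [hmain, hpole] with b h1 h2
  exact h1.resolve_right h2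

/-- the correspondence as a map. -/
structure Psi (k : Subfield K) (l : Subfield L) (Θ : V ℓ K ≃ₗ[ZMod ℓ] V ℓ L) (s : K) (s' : L)
    (ψ : K → L) (e : K → ZMod ℓ) : Prop where
  cor : ∀ᶠ b in ae k, ψ b ∈ l ∧ e b ≠ 0 ∧ Cor k l Θ s s' (e b) b (ψ b)
  surj : ∀ᶠ β in ae l, ∃ b ∈ k, ψ b = β ∧ e b ≠ 0 ∧ Cor k l Θ s s' (e b) b (ψ b)

theorem Hyp.exists_psi (H : Hyp ℓ k l Θ) {s : K} {s' : L} (hR : Rt k l Θ s s') :
    ∃ ψ e, Psi k l Θ s s' ψ e := by
  classical
  have hex : ∃ (ψ : K → L) (e : K → ZMod ℓ), ∀ b, (∃ β ∈ l, ∃ e : ZMod ℓ, e ≠ 0 ∧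
      Cor k l Θ s s' e b β) → ψ b ∈ l ∧ e b ≠ 0 ∧ Cor k l Θ s s' (e b) b (ψ b) := by
    refine ⟨fun b => if h : ∃ β ∈ l, ∃ e : ZMod ℓ, e ≠ 0 ∧ Cor k l Θ s s' e b β then h.choose
      else 0, fun b => if h : ∃ β ∈ l, ∃ e : ZMod ℓ, e ≠ 0 ∧ Cor k l Θ s s' e b β then
        h.choose_spec.2.choose else 0, fun b h => ?_⟩
    simp only [dif_pos h]
    exact ⟨h.choose_spec.1, h.choose_spec.2.choose_spec.1, h.choose_spec.2.choose_spec.2⟩
  obtain ⟨ψ, e, hψ⟩ := hex
  have hcor : ∀ᶠ b in ae k, ψ b ∈ l ∧ e b ≠ 0 ∧ Cor k l Θ s s' (e b) b (ψ b) := by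
    filter_upwards [H.exists_cor hR] with b hb
    exact hψ b hb
  refine ⟨ψ, e, hcor, ?_⟩
  have h1 := H.symm.exists_cor hR.symm
  rw [ae_iff] at hcor
  rw [ae_iff] at h1 ⊢
  have h2 : (⋃ b ∈ {a : K | a ∈ k ∧ ¬ (ψ a ∈ l ∧ e a ≠ 0 ∧ Cor k l Θ s s' (e a) a (ψ a))},
      {β : L | β ∈ l ∧ ∃ e : ZMod ℓ, e ≠ 0 ∧ Cor k l Θ s s' e b β}).Finite := by
    refine hcor.biUnion fun b hb => Set.Subsingleton.finite ?_
    rintro β ⟨hβ, e₁, he₁, hc₁⟩ β' ⟨hβ', e₂, he₂, hc₂⟩
    exact (Cor.unique H.ack H.acl hR he₁ hb.1 hβ hβ' hc₁ hc₂).1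
  refine (h1.union h2).subset ?_
  rintro β ⟨hβ, hno⟩
  by_cases hQ : ∃ b ∈ k, ∃ e : ZMod ℓ, e ≠ 0 ∧ Cor l k Θ.symm s' s e β b
  · right
    obtain ⟨b, hb, e', he', hc⟩ := hQ
    have hc' : Cor k l Θ s s' e'⁻¹ b β := Cor.symm hR.symm he' hc
    rw [Set.mem_iUnion₂]
    refine ⟨b, ⟨hb, fun hgood => hno ?_⟩, hβ, e'⁻¹, inv_ne_zero he', hc'⟩
    exact ⟨b, hb, (Cor.unique H.ack H.acl hR hgood.2.1 hb hgood.1 hβ hgood.2.2 hc').1,
      hgood.2.1, hgood.2.2⟩
  · left
    exact ⟨hβ, hQ⟩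

end Vale.Agent.P019P
end
end

section

section

/-!
# Shifts on fibres and centres
-/

namespace Vale.Agent.P019P

open Vale.Agent.P019

set_option linter.all false

open Polynomial Filter

section shift

variable {K : Type*} [Field K] [PerfectField K] {ℓ : ℕ} [Fact ℓ.Prime] [NeZero (ℓ : K)]
  {k : Subfield K}

theorem del_aeval (hk : IsAlgClosed k) {s : K} (hs : Good k s) {b : k} {F : k[X]} (hF : F ≠ 0) :
    del ℓ k s b (cl ℓ (aeval s F)) = (F.rootMultiplicity b : ZMod ℓ) := by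
  classical
  have hsub : ∀ c : k, s - (c : K) ≠ 0 := by
    intro c h
    apply hs.1
    rw [sub_eq_zero] at h
    rw [h]
    exact c.2
  have key : ∀ m : Multiset k, del ℓ k s b (cl ℓ (aeval s ((m.map fun a => X - C a).prod : k[X])))
      = (m.count b : ZMod ℓ) ∧ aeval s ((m.map fun a => X - C a).prod : k[X]) ≠ 0 := by
    intro m
    induction m using Multiset.induction_on with
    | empty => simp [cl_one]
    | cons a m ih =>
      have e : aeval s (((a ::ₘ m).map fun a => X - C a).prod : k[X]) =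
          (s - (a : K)) * aeval s ((m.map fun a => X - C a).prod : k[X]) := by
        rw [Multiset.map_cons, Multiset.prod_cons, map_mul, map_sub, aeval_X, aeval_C]
        rfl
      rw [e]
      refine ⟨?_, mul_ne_zero (hsub a) ih.2⟩
      rw [cl_mul ℓ (hsub a) ih.2, map_add, ih.1, Multiset.count_cons]
      by_cases hab : b = a
      · subst hab
        rw [del_self hk hs b.2, if_pos rfl]
        push_cast
        ring
      · rw [del_ne hk hs b.2 a.2 (fun h => hab (Subtype.ext h.symm)), if_neg hab]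
        simp
  have h1 : F = C F.leadingCoeff * (F.roots.map fun a => X - C a).prod :=
    (IsAlgClosed.splits F).eq_prod_roots
  have h2 : aeval s F = ((F.leadingCoeff : k) : K) *
      aeval s ((F.roots.map fun a => X - C a).prod : k[X]) := by
    conv_lhs => rw [h1]
    rw [map_mul, aeval_C]
    rfl
  have h3 : ((F.leadingCoeff : k) : K) ≠ 0 := by
    intro h
    exact hF (leadingCoeff_eq_zero.1 (Subtype.ext h))
  rw [h2, cl_mul ℓ h3 (key F.roots).2, line_cl_const hk (F.leadingCoeff).2, zero_add,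
    (key F.roots).1, count_roots]

/-- on the fibres of `t`, the function `z` is a shift of `s`. -/
structure Shift (ℓ : ℕ) (k : Subfield K) (t s z : K) (m : K → K → K) : Prop where
  mem : ∀ a ∈ k, ∀ b ∈ k, m a b ∈ k
  ev : ∀ᶠ a in ae k, (∀ b ∈ k, ∀ b' ∈ k, m a b = m a b' → b = b') ∧
    (∀ c ∈ k, ∃ b ∈ k, m a b = c) ∧
    ∀ O : ValuationSubring K, TrivOn O (adj k s) → O.valuation (t - a) < 1 →
      ∀ b ∈ k, cl ℓ (s - b) - cl ℓ (z - m a b) ∈ U1 ℓ O

theorem shift_add (hk : IsAlgClosed k) {s : K} (hs : s ∉ k) (t : K) :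
    Shift ℓ k t s (t + s) (fun a b => a + b) := by
  refine ⟨fun a ha b hb => add_mem ha hb, ?_⟩
  filter_upwards [ae_mem k] with a ha
  refine ⟨fun b _ b' _ h => add_left_cancel h, fun c hc => ⟨c - a, sub_mem hc ha, by ring⟩, ?_⟩
  intro O hO hta b hb
  have hsb : s - b ∈ adj k s := sub_mem (mem_adj k s) (le_adj k s hb)
  have hsb0 : s - b ≠ 0 := by
    intro h
    rw [sub_eq_zero] at h
    exact hs (h ▸ hb)
  rw [← neg_mem_iff, neg_sub]
  refine cl_sub_cl_mem_U1 (hO.eq_one hsb hsb0) ?_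
  have : t + s - (a + b) - (s - b) = t - a := by ring
  rwa [this]

theorem shift_mul (hk : IsAlgClosed k) {s : K} (hs : s ∉ k) (t : K) :
    Shift ℓ k t s (t * s) (fun a b => a * b) := by
  refine ⟨fun a ha b hb => mul_mem ha hb, ?_⟩
  have h0 : ∀ᶠ a in ae k, a ≠ 0 := by
    rw [ae_iff]
    refine (Set.finite_singleton (0 : K)).subset ?_
    rintro a ⟨_, ha⟩
    exact not_not.1 ha
  filter_upwards [ae_mem k, h0] with a ha ha0
  refine ⟨fun b _ b' _ h => mul_left_cancel₀ ha0 h,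
    fun c hc => ⟨c / a, div_mem hc ha, by field_simp⟩, ?_⟩
  intro O hO hta b hb
  have hsb : s - b ∈ adj k s := sub_mem (mem_adj k s) (le_adj k s hb)
  have hsb0 : s - b ≠ 0 := by
    intro h
    rw [sub_eq_zero] at h
    exact hs (h ▸ hb)
  have hs0 : s ≠ 0 := by
    rintro rfl
    exact hs (zero_mem k)
  have hasb : a * (s - b) ∈ adj k s := mul_mem (le_adj k s ha) hsb
  have e1 : cl ℓ (a * (s - b)) = cl ℓ (s - b) := by
    rw [cl_mul ℓ ha0 hsb0, line_cl_const hk ha, zero_add]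
  rw [← neg_mem_iff, neg_sub, ← e1]
  refine cl_sub_cl_mem_U1 (hO.eq_one hasb (mul_ne_zero ha0 hsb0)) ?_
  have : t * s - a * b - a * (s - b) = (t - a) * s := by ring
  rw [this, map_mul, hO.eq_one (mem_adj k s) hs0, mul_one]
  exact hta

end shift

variable {K L : Type*} [Field K] [Field L] [PerfectField K] [PerfectField L] {ℓ : ℕ}
  [Fact ℓ.Prime] [NeZero (ℓ : K)] [NeZero (ℓ : L)]
  {k : Subfield K} {l : Subfield L} {Θ : V ℓ K ≃ₗ[ZMod ℓ] V ℓ L}

/-- the transferred valuation is centred at the corresponding point. -/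
theorem Hyp.centre (H : Hyp ℓ k l Θ) {t : K} {t' : L} (hR : Rt k l Θ t t') {a : K} (ha : a ∈ k)
    {α : L} (hα : α ∈ l) {e : ZMod ℓ} (he : e ≠ 0) (hc : Cor k l Θ t t' e a α)
    {W : ValuationSubring L} (hWl : TrivOn W l) (hW : IsUnif W (t' - α)) {O : ValuationSubring K}
    (hOk : TrivOn O k) (hT : Tr Θ.symm W (t' - α) O) : O.valuation (t - a) < 1 := by
  set f : V ℓ K →ₗ[ZMod ℓ] ZMod ℓ := (hW.fn ℓ) ∘ₗ Θ.toLinearMap with hfdef
  have hf : ∀ z, O.valuation z = 1 → f (cl ℓ z) = 0 := by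
    intro z hz
    have := hT.unit hW z hz
    rwa [LinearEquiv.symm_symm] at this
  have hfv : ∀ v ∈ VS ℓ (adj k t), del ℓ k t a v = e * f v := by
    intro v hv
    have h1 : Θ v ∈ VS ℓ (adj l t') := (hR.map v).2 hv
    have h2 := del_of_kills (ℓ := ℓ) H.acl hR.good' hWl hα hW.lt (hW.fn ℓ) (hW.fn_unit ℓ) h1
    have hself : hW.fn ℓ (cl ℓ (t' - α)) = 1 := hW.fn_self ℓ
    rw [hself, one_mul] at h2
    rw [hc v hv, ← h2]
    rfl
  have hmem : ∀ b ∈ k, cl ℓ (t - b) ∈ VS ℓ (adj k t) := fun b hb =>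
    cl_mem_VS (sub_mem (mem_adj k t) (le_adj k t hb))
  have hta : e * f (cl ℓ (t - a)) = 1 := by
    rw [← hfv _ (hmem a ha), del_self H.ack hR.good ha]
  have hne : f (cl ℓ (t - a)) ≠ 0 := by
    intro h
    rw [h, mul_zero] at hta
    exact zero_ne_one hta
  have hnt : ¬ TrivOn O (adj k t) := by
    refine hT.not_triv hW ?_
    rw [← hR.map, LinearEquiv.apply_symm_apply]
    exact cl_mem_VS (sub_mem (mem_adj l t') (le_adj l t' hα))
  rcases exists_centre H.ack hR.good hOk hnt with ⟨b, hb, hbt⟩ | hbig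
  · have h1 := del_of_kills (ℓ := ℓ) H.ack hR.good hOk hb hbt f hf (hmem a ha)
    have h2 : a = b := by
      by_contra hab
      rw [del_ne H.ack hR.good hb ha hab, mul_zero] at h1
      exact hne h1
    rw [h2]
    exact hbt
  · exfalso
    have ha' : a + 1 ∈ k := add_mem ha (one_mem k)
    have hval : ∀ b ∈ k, O.valuation (t - b) = O.valuation t := by
      intro b hb
      rw [Valuation.map_sub_eq_of_lt_left]
      exact lt_of_le_of_lt (hOk.le_one hb) hbig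
    have hsub : ∀ b ∈ k, t - b ≠ 0 := by
      intro b hb h
      rw [sub_eq_zero] at h
      exact hR.good.1 (h ▸ hb)
    have ht0 : O.valuation t ≠ 0 := by
      intro h
      rw [h] at hbig
      exact absurd hbig (not_lt.2 zero_le_one)
    have h1 : O.valuation ((t - a) / (t - (a + 1))) = 1 := by
      rw [map_div₀, hval a ha, hval _ ha', div_self ht0]
    have h2 := hf _ h1
    rw [cl_div ℓ (hsub a ha) (hsub _ ha'), map_sub, sub_eq_zero] at h2
    have h3 := hfv _ (hmem _ ha')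
    rw [del_ne H.ack hR.good ha ha' (by simp)] at h3
    rcases mul_eq_zero.1 h3.symm with h4 | h4
    · exact he h4
    · exact hne (h2.trans h4)

end Vale.Agent.P019P
end
end

section

section

/-!
# Twisting the coordinates by Frobenius
-/

namespace Vale.Agent.P019P

open Vale.Agent.P019

set_option linter.style.haveILetI false
set_option linter.unusedSectionVars false

open Polynomial Filter

variable {K L : Type*} [Field K] [Field L] [PerfectField K] [PerfectField L] {ℓ : ℕ}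
  [Fact ℓ.Prime] [NeZero (ℓ : K)] [NeZero (ℓ : L)]
  {k : Subfield K} {l : Subfield L} {Θ : V ℓ K ≃ₗ[ZMod ℓ] V ℓ L}

theorem Rt.root (hl : IsAlgClosed l) {s : K} {s' y : L} (h : Rt k l Θ s s') {n : ℕ}
    (hy : y ^ (ringExpChar L) ^ n = s') : Rt k l Θ s y := by
  haveI : IsAlgClosed l := hl
  haveI : PerfectField l := inferInstance
  subst hy
  refine ⟨h.good, good_pow.1 h.good', fun v => ?_⟩
  have h1 := h.map v
  rwa [adj_pow] at h1

theorem Rt.pow (hl : IsAlgClosed l) {s : K} {s' : L} (h : Rt k l Θ s s') (n : ℕ) :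
    Rt k l Θ s (s' ^ (ringExpChar L) ^ n) := by
  haveI : IsAlgClosed l := hl
  haveI : PerfectField l := inferInstance
  refine ⟨h.good, good_pow.2 h.good', fun v => ?_⟩
  rw [adj_pow]
  exact h.map v

theorem Cor.root (hk : IsAlgClosed k) (hl : IsAlgClosed l) {s : K} {s' y : L}
    (h : Rt k l Θ s s') {n : ℕ}
    (hy : y ^ (ringExpChar L) ^ n = s') {e : ZMod ℓ} {b : K} {β γ : L} (hγ : γ ∈ l)
    (hβ : γ ^ (ringExpChar L) ^ n = β) (hc : Cor k l Θ s s' e b β) :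
    Cor k l Θ s y (e * (((ringExpChar L) ^ n : ℕ) : ZMod ℓ)⁻¹) b γ := by
  intro v hv
  have h1 : Rt k l Θ s y := h.root hl hy
  have h2 := del_pow hl h1.good' hγ n ((h1.map v).2 hv)
  have h3 := hc v hv
  have h4 := q_pow_ne_zero ℓ L n
  rw [hy, hβ] at h2
  rw [h3, ← h2, mul_assoc, inv_mul_cancel_left₀ h4]

theorem Cor.pow (hk : IsAlgClosed k) (hl : IsAlgClosed l) {s : K} {s' : L}
    (h : Rt k l Θ s s') (n : ℕ) {e : ZMod ℓ} {b : K} {β : L} (hβ : β ∈ l)
    (hc : Cor k l Θ s s' e b β) :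
    Cor k l Θ s (s' ^ (ringExpChar L) ^ n) (e * (((ringExpChar L) ^ n : ℕ) : ZMod ℓ)) b
      (β ^ (ringExpChar L) ^ n) := by
  intro v hv
  have h2 := del_pow hl h.good' hβ n ((h.map v).2 hv)
  rw [hc v hv, ← h2, mul_assoc]

/-- the twisted correspondence. -/
theorem Psi.root (hk : IsAlgClosed k) (hl : IsAlgClosed l) {s : K} {s' y : L}
    (h : Rt k l Θ s s') {n : ℕ} (hy : y ^ (ringExpChar L) ^ n = s') {ψ : K → L}
    {e : K → ZMod ℓ} (p : Psi k l Θ s s' ψ e) :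
    ∃ ψ' : K → L, (∀ b, ψ' b ^ (ringExpChar L) ^ n = ψ b) ∧
      Psi k l Θ s y ψ' (fun b => e b * (((ringExpChar L) ^ n : ℕ) : ZMod ℓ)⁻¹) := by
  haveI : IsAlgClosed l := hl
  haveI : PerfectField l := inferInstance
  choose ψ' hψ using fun b => exists_root (ψ b) n
  have h4 := q_pow_ne_zero ℓ L n
  refine ⟨ψ', hψ, ⟨?_, ?_⟩⟩
  · filter_upwards [p.cor] with b hb
    have h5 : ψ' b ∈ l := mem_of_pow_q (n := n) (by rw [hψ b]; exact hb.1)
    exact ⟨h5, mul_ne_zero hb.2.1 (inv_ne_zero h4),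
      Cor.root hk hl h hy h5 (hψ b) hb.2.2⟩
  · have h6 : ∀ᶠ γ in ae l, ∃ b ∈ k, ψ b = γ ^ (ringExpChar L) ^ n ∧ e b ≠ 0 ∧
        Cor k l Θ s s' (e b) b (ψ b) := by
      refine relb_comap (k := l) (l := l) (f := fun γ => γ ^ (ringExpChar L) ^ n)
        (G := fun _ => True) (Eventually.of_forall fun _ => trivial)
        (fun a ha _ => l.pow_mem ha _) (fun a _ _ b _ _ hab => pow_q_inj hab) p.surj
    have h7 : ∀ᶠ γ in ae l, γ ∈ l := by
      rw [ae_iff]
      convert Set.finite_empty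
      ext x
      simp
    filter_upwards [h6, h7] with γ h8 h9
    obtain ⟨b, hb, h10, h11, h12⟩ := h8
    have h13 : ψ' b = γ := pow_q_inj (n := n) (by rw [hψ b, h10])
    refine ⟨b, hb, h13, mul_ne_zero h11 (inv_ne_zero h4), ?_⟩
    rw [h13]
    exact Cor.root hk hl h hy h9 h10.symm h12

end Vale.Agent.P019P
end
end

section

section

/-!
# The Moebius relation on the fibres (perfect version)

`relb_comap` is that of the old file.
-/

namespace Vale.Agent.P019P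

open Vale.Agent.P019

set_option linter.style.haveILetI false
set_option linter.unusedSectionVars false

open Polynomial Filter

theorem relb_coprime {K : Type*} [Field K] [PerfectField K] {k : Subfield K}
    (hk : IsAlgClosed k) {x z : K} (hx : x ∉ k) (hz : z ∈ adj k x) :
    ∃ (n : ℕ) (y : K) (p q : k[X]), y ^ (ringExpChar K) ^ n = x ∧ IsCoprime p q ∧ q ≠ 0 ∧
      z = aeval y p / aeval y q := by
  haveI := hk
  obtain ⟨n, y, hy, hzy⟩ := mem_adj_root.1 hz
  have hyk : y ∉ k := by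
    intro h
    apply hx
    rw [← hy]
    exact k.pow_mem h _
  obtain ⟨p, q, h1, h2, h3⟩ := Vale.Agent.P019.relb_coprime hk hyk hzy
  exact ⟨n, y, p, q, hy, h1, h2, h3⟩

section relb_psi

variable {K L : Type*} [Field K] [Field L] [PerfectField K] [PerfectField L] {ℓ : ℕ}
  [Fact ℓ.Prime] [NeZero (ℓ : K)] [NeZero (ℓ : L)]
  {k : Subfield K} {l : Subfield L} {Θ : V ℓ K ≃ₗ[ZMod ℓ] V ℓ L}

/-- the correspondence is generically injective. -/
theorem Psi.relb_pull (hk : IsAlgClosed k) (hl : IsAlgClosed l) {s : K} {s' : L}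
    (hR : Rt k l Θ s s') {ψ : K → L} {e : K → ZMod ℓ} (p : Psi k l Θ s s' ψ e) {P : L → Prop}
    (hP : ∀ᶠ β in ae l, P β) : ∀ᶠ b in ae k, P (ψ b) := by
  refine relb_comap p.cor (fun a _ h => h.1) ?_ hP
  intro a ha h b hb h' hab
  refine Cor.inj hk hl hR h.2.1 h'.2.1 ha hb h.1 h.2.2 ?_
  rw [hab]
  exact h'.2.2

/-- value of the functional at the corresponding point. -/
theorem Cor.relb_theta (hk : IsAlgClosed k) {s : K} {s' : L} (hR : Rt k l Θ s s')
    {e : ZMod ℓ} {b : K} (hb : b ∈ k) {β : L} (h : Cor k l Θ s s' e b β) :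
    del ℓ l s' β (Θ (cl ℓ (s - b))) = e⁻¹ := by
  have h1 := h (cl ℓ (s - b)) (cl_mem_VS (sub_mem (mem_adj k s) (le_adj k s hb)))
  rw [del_self hk hR.good hb] at h1
  exact eq_inv_of_mul_eq_one_right h1.symm

theorem Cor.relb_theta_ne (hk : IsAlgClosed k) {s : K} {s' : L} (hR : Rt k l Θ s s')
    {e : ZMod ℓ} (he : e ≠ 0) {b c : K} (hb : b ∈ k) (hc : c ∈ k) (hcb : c ≠ b) {β : L}
    (h : Cor k l Θ s s' e b β) : del ℓ l s' β (Θ (cl ℓ (s - c))) = 0 := by
  have h1 := h (cl ℓ (s - c)) (cl_mem_VS (sub_mem (mem_adj k s) (le_adj k s hc)))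
  rw [del_ne hk hR.good hb hc hcb] at h1
  exact (mul_eq_zero.1 h1.symm).resolve_left he

theorem Psi.relb_sum (hk : IsAlgClosed k) (hl : IsAlgClosed l) {s : K} {s' : L}
    (hR : Rt k l Θ s s') {ψ : K → L} {e : K → ZMod ℓ} {X : Finset L} (hX : ∀ x ∈ X, x ∈ l)
    (hX' : ∀ β ∈ l, β ∉ X → ∃ b ∈ k, ψ b = β ∧ e b ≠ 0 ∧ Cor k l Θ s s' (e b) b (ψ b))
    {b : K} (hb : b ∈ k) (hψ : ψ b ∈ l) [DecidableEq L] :
    Θ (cl ℓ (s - b)) = ∑ x ∈ insert (ψ b) X,
      del ℓ l s' x (Θ (cl ℓ (s - b))) • cl ℓ (s' - x) := by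
  have hmem : Θ (cl ℓ (s - b)) ∈ VS ℓ (adj l s') :=
    (hR.map _).2 (cl_mem_VS (sub_mem (mem_adj k s) (le_adj k s hb)))
  refine del_sum hl hR.good' hmem _ ?_ ?_
  · intro x hx
    rcases Finset.mem_insert.1 hx with rfl | hx
    · exact hψ
    · exact hX x hx
  · intro x hx hxS
    rw [Finset.mem_insert, not_or] at hxS
    obtain ⟨b₁, hb₁, h1, h2, h3⟩ := hX' x hx hxS.2
    rw [h1] at h3
    refine Cor.relb_theta_ne hk hR h2 hb₁ hb ?_ h3
    rintro rfl
    exact hxS.1 h1.symm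

end relb_psi

section relb_poly

variable {L : Type*} [Field L] [PerfectField L] {ℓ : ℕ} [Fact ℓ.Prime] [NeZero (ℓ : L)]
  {l : Subfield L}

theorem relb_aeval_mem {k : Subfield L} (x : L) (F : k[X]) : aeval x F ∈ adj k x :=
  adj0_le_adj k x (Vale.Agent.P019.relb_aeval_mem x F)

theorem relbF_of_mem (P Q : l[X]) {x : L} (hx : x ∈ l) :
    relbF P Q x = P - C (⟨x, hx⟩ : l) * Q := by
  unfold relbF
  rw [dif_pos hx]

theorem relbF_aeval (P Q : l[X]) {x : L} (hx : x ∈ l) (s : L) :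
    aeval s (relbF P Q x) = aeval s P - x * aeval s Q := by
  rw [relbF_of_mem P Q hx, map_sub, map_mul, aeval_C]
  rfl

variable (hl : IsAlgClosed l) {s' z' R : L} (hs' : s' ∉ l) (hz' : z' ∉ l)
  {W : ValuationSubring L} (hWs : TrivOn W (adj l s')) (hWz : TrivOn W (adj l z'))
  {P Q : l[X]} (hQ : Q ≠ 0) (hR : R = aeval s' P / aeval s' Q) (hW : W.valuation (z' - R) < 1)

include hWz hz' hW in
theorem relb_ne {x : L} (hx : x ∈ l) : R ≠ x := by
  rintro rfl
  have h1 : z' - R ∈ adj l z' := sub_mem (mem_adj l z') (le_adj l z' hx)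
  have h2 := hWz.eq_zero h1 hW
  rw [sub_eq_zero] at h2
  rw [h2] at hz'
  exact hz' hx

include hl hs' hWz hz' hQ hR hW in
theorem relbF_ne {x : L} (hx : x ∈ l) : relbF P Q x ≠ 0 := by
  intro h
  have h1 := relbF_aeval P Q hx s'
  rw [h, map_zero] at h1
  have h2 : aeval s' Q ≠ 0 := line_aeval_ne hl hs' hQ
  apply relb_ne hz' hWz hW hx
  rw [hR, div_eq_iff h2]
  exact (sub_eq_zero.1 h1.symm)

include hl hs' hWz hz' hQ hR hW in
theorem relb_U1 {x : L} (hx : x ∈ l) :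
    cl ℓ (z' - x) - (cl ℓ (aeval s' (relbF P Q x)) - cl ℓ (aeval s' Q)) ∈ U1 ℓ W := by
  have h2 : aeval s' Q ≠ 0 := line_aeval_ne hl hs' hQ
  have h3 : aeval s' (relbF P Q x) ≠ 0 :=
    line_aeval_ne hl hs' (relbF_ne hl hs' hz' hWz hQ hR hW hx)
  have h4 : R - x = aeval s' (relbF P Q x) / aeval s' Q := by
    rw [relbF_aeval P Q hx, hR]
    field_simp
  have h5 : z' - x ≠ 0 := by
    intro h
    rw [sub_eq_zero] at h
    rw [h] at hz'
    exact hz' hx
  have h6 : W.valuation (z' - x) = 1 :=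
    hWz.eq_one (sub_mem (mem_adj l z') (le_adj l z' hx)) h5
  rw [← cl_div ℓ h3 h2, ← h4, ← neg_mem_iff, neg_sub]
  refine cl_sub_cl_mem_U1 h6 ?_
  have : R - x - (z' - x) = -(z' - R) := by ring
  rw [this, Valuation.map_neg]
  exact hW

include hl hs' hWz hz' hQ hR hW in
/-- the congruence for sums. -/
theorem relb_sum_U1 (S : Finset L) (hS : ∀ x ∈ S, x ∈ l) (n : L → ZMod ℓ) :
    ∑ x ∈ S, n x • cl ℓ (z' - x) -
      ∑ x ∈ S, n x • (cl ℓ (aeval s' (relbF P Q x)) - cl ℓ (aeval s' Q)) ∈ U1 ℓ W := by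
  rw [← Finset.sum_sub_distrib]
  refine sum_mem fun x hx => ?_
  rw [← smul_sub]
  exact Submodule.smul_mem _ _ (relb_U1 hl hs' hz' hWz hQ hR hW (hS x hx))

theorem relb_sum_VS (S : Finset L) (n : L → ZMod ℓ) (P Q : l[X]) (s' : L) :
    ∑ x ∈ S, n x • (cl ℓ (aeval s' (relbF P Q x)) - cl ℓ (aeval s' Q)) ∈ VS ℓ (adj l s') :=
  sum_mem fun _ _ => Submodule.smul_mem _ _ (sub_mem (cl_mem_VS (relb_aeval_mem s' _))
    (cl_mem_VS (relb_aeval_mem s' _)))

include hl hs' hWz hz' hQ hR hW in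
/-- value of the functionals. -/
theorem relb_del (hg : Good l s') {β : L} (hβ : β ∈ l) {x : L} (hx : x ∈ l) :
    del ℓ l s' β (cl ℓ (aeval s' (relbF P Q x)) - cl ℓ (aeval s' Q)) =
      ((relbF P Q x).rootMultiplicity ⟨β, hβ⟩ : ZMod ℓ) -
        (Q.rootMultiplicity ⟨β, hβ⟩ : ZMod ℓ) := by
  rw [map_sub]
  have h1 := del_aeval (ℓ := ℓ) hl hg (b := ⟨β, hβ⟩)
    (relbF_ne hl hs' hz' hWz hQ hR hW hx)
  have h2 := del_aeval (ℓ := ℓ) hl hg (b := ⟨β, hβ⟩) hQ
  rw [← h1, ← h2]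

/-- almost all points are not roots of a given polynomial. -/
theorem relb_root_ae {F : l[X]} (hF : F ≠ 0) :
    ∀ᶠ β in ae l, ∀ h : β ∈ l, F.rootMultiplicity ⟨β, h⟩ = 0 ∧ F.eval ⟨β, h⟩ ≠ 0 := by
  classical
  rw [ae_iff]
  refine ((F.roots.toFinset.finite_toSet).image (Subtype.val : l → L)).subset ?_
  rintro β ⟨hβ, h⟩
  refine ⟨⟨β, hβ⟩, ?_, rfl⟩
  rw [Finset.mem_coe, Multiset.mem_toFinset, mem_roots hF]
  by_contra hcon
  apply h
  intro _
  exact ⟨rootMultiplicity_eq_zero hcon, hcon⟩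

end relb_poly

/-- multiplicity of the root of a twisted linear polynomial. -/
theorem relb_mult {l : Type*} [Field l] {j : ℕ} {a b c : l} (ha : a ≠ 0)
    (h : (C a * X ^ (ringExpChar l) ^ j + C b : l[X]).eval c = 0) :
    (C a * X ^ (ringExpChar l) ^ j + C b : l[X]).rootMultiplicity c = (ringExpChar l) ^ j := by
  have h1 : b = -(a * c ^ (ringExpChar l) ^ j) := by
    simp only [eval_add, eval_mul, eval_C, eval_pow, eval_X] at h
    linear_combination h
  haveI : ExpChar l[X] (ringExpChar l) := expChar_of_injective_ringHom (C_injective (R := l)) _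
  have h2 : (C a * X ^ (ringExpChar l) ^ j + C b : l[X]) =
      C a * (X - C c) ^ (ringExpChar l) ^ j := by
    rw [sub_pow_expChar_pow, h1, mul_sub, C_neg, C_mul, C_pow]
    ring
  have h3 : (C a * (X - C c) ^ (ringExpChar l) ^ j : l[X]) ≠ 0 :=
    mul_ne_zero (C_ne_zero.2 ha) (pow_ne_zero _ (X_sub_C_ne_zero c))
  rw [h2, rootMultiplicity_mul h3, rootMultiplicity_C, zero_add, rootMultiplicity_X_sub_C_pow]

variable {K L : Type*} [Field K] [Field L] [PerfectField K] [PerfectField L] {ℓ : ℕ}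
  [Fact ℓ.Prime] [NeZero (ℓ : K)] [NeZero (ℓ : L)]
  {k : Subfield K} {l : Subfield L} {Θ : V ℓ K ≃ₗ[ZMod ℓ] V ℓ L}

/-- one generic point. -/
theorem relb_point (hk : IsAlgClosed k) (hl : IsAlgClosed l) {s z : K} {s' z' : L}
    (hs : Rt k l Θ s s') (hz : Rt k l Θ z z') {ψz : K → L} {ez : K → ZMod ℓ}
    {W : ValuationSubring L} (hWz : TrivOn W (adj l z'))
    {P Q : l[X]} {R : L} (hQ : Q ≠ 0) (hR : R = aeval s' P / aeval s' Q)
    (hW : W.valuation (z' - R) < 1) {Xz : Finset L} (hXz : ∀ x ∈ Xz, x ∈ l)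
    (hXz' : ∀ β ∈ l, β ∉ Xz → ∃ b ∈ k, ψz b = β ∧ ez b ≠ 0 ∧ Cor k l Θ z z' (ez b) b (ψz b))
    {b c : K} (hb : b ∈ k) (hc : c ∈ k)
    (hU : Θ (cl ℓ (s - b)) - Θ (cl ℓ (z - c)) ∈ U1 ℓ W)
    {e : ZMod ℓ} {β : L} (hβ : β ∈ l) (hcor : Cor k l Θ s s' e b β)
    (hβ' : ψz c ∈ l) (hcor' : Cor k l Θ z z' (ez c) c (ψz c))
    (h1 : ∀ y ∈ (U1 ℓ W ⊓ VS ℓ (adj l s') : Submodule (ZMod ℓ) (V ℓ L)), del ℓ l s' β y = 0)
    (h2 : Q.rootMultiplicity ⟨β, hβ⟩ = 0)
    (h3 : ∀ x ∈ Xz, (relbF P Q x).rootMultiplicity ⟨β, hβ⟩ = 0) :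
    e⁻¹ = (ez c)⁻¹ * ((relbF P Q (ψz c)).rootMultiplicity ⟨β, hβ⟩ : ZMod ℓ) := by
  classical
  have hs'l : s' ∉ l := hs.good'.1
  have hz'l : z' ∉ l := hz.good'.1
  set n : L → ZMod ℓ := fun x => del ℓ l z' x (Θ (cl ℓ (z - c))) with hn
  have hw : Θ (cl ℓ (z - c)) = ∑ x ∈ insert (ψz c) Xz, n x • cl ℓ (z' - x) :=
    Psi.relb_sum hk hl hz hXz hXz' hc hβ'
  have hSl : ∀ x ∈ insert (ψz c) Xz, x ∈ l := by
    intro x hx
    rcases Finset.mem_insert.1 hx with rfl | hx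
    · exact hβ'
    · exact hXz x hx
  have h4 := relb_sum_U1 (ℓ := ℓ) hl hs'l hz'l hWz hQ hR hW _ hSl n
  rw [← hw] at h4
  have h5 := add_mem hU h4
  rw [sub_add_sub_cancel] at h5
  have h6 : Θ (cl ℓ (s - b)) - ∑ x ∈ insert (ψz c) Xz,
      n x • (cl ℓ (aeval s' (relbF P Q x)) - cl ℓ (aeval s' Q)) ∈ VS ℓ (adj l s') :=
    sub_mem ((hs.map _).2 (cl_mem_VS (sub_mem (mem_adj k s) (le_adj k s hb))))
      (relb_sum_VS _ n P Q s')
  have h7 := h1 _ ⟨h5, h6⟩
  rw [map_sub, Cor.relb_theta hk hs hb hcor, map_sum, sub_eq_zero] at h7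
  rw [h7, Finset.sum_eq_single (ψz c)]
  · rw [map_smul, relb_del hl hs'l hz'l hWz hQ hR hW hs.good' hβ hβ', h2, Nat.cast_zero,
      sub_zero, smul_eq_mul]
    congr 1
    exact Cor.relb_theta hk hz hc hcor'
  · intro x hx hxc
    have hxX : x ∈ Xz := (Finset.mem_insert.1 hx).resolve_left hxc
    rw [map_smul, relb_del hl hs'l hz'l hWz hQ hR hW hs.good' hβ (hXz x hxX), h2, h3 x hxX]
    simp
  · intro h
    exact absurd (Finset.mem_insert_self _ _) h

/-- the relation on one fibre, for a coordinate of which `z'` is a rational function. -/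
theorem Hyp.relb_at0 (H : Hyp ℓ k l Θ) {s z : K} {s' z' : L} (hs : Rt k l Θ s s')
    (hz : Rt k l Θ z z') {ψs ψz : K → L} {es ez : K → ZMod ℓ} (ps : Psi k l Θ s s' ψs es)
    (pz : Psi k l Θ z z' ψz ez) {μ : K → K} (hμ : ∀ b ∈ k, μ b ∈ k)
    (hμi : ∀ b ∈ k, ∀ b' ∈ k, μ b = μ b' → b = b')
    {W : ValuationSubring L} (hWs : TrivOn W (adj l s')) (hWz : TrivOn W (adj l z'))
    (hfin : ((U1 ℓ W ⊓ VS ℓ (adj l s') : Submodule (ZMod ℓ) (V ℓ L)) : Set (V ℓ L)).Finite)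
    {R : L} (hWR : W.valuation (z' - R) < 1) {P Q : l[X]} (hcop : IsCoprime P Q) (hQ0 : Q ≠ 0)
    (hR : R = aeval s' P / aeval s' Q)
    (hU : ∀ b ∈ k, Θ (cl ℓ (s - b)) - Θ (cl ℓ (z - μ b)) ∈ U1 ℓ W) :
    ∃ j : ℕ, ∃ A ∈ l, ∃ B ∈ l, ∃ C ∈ l, ∃ D ∈ l, A * D - B * C ≠ 0 ∧
      (∀ᶠ b in ae k, ψz (μ b) * (C * ψs b ^ (ringExpChar L) ^ j + D) =
          A * ψs b ^ (ringExpChar L) ^ j + B ∧
        ez (μ b) = (((ringExpChar L) ^ j : ℕ) : ZMod ℓ) * es b) ∧
      W.valuation (z' * (C * s' ^ (ringExpChar L) ^ j + D) -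
        (A * s' ^ (ringExpChar L) ^ j + B)) < 1 := by
  classical
  have hk := H.ack
  have hl := H.acl
  have hs'l : s' ∉ l := hs.good'.1
  have hz'l : z' ∉ l := hz.good'.1
  -- the exceptional points
  set Xz : Finset L := (ae_iff.1 pz.surj).toFinset with hXzd
  have hXz : ∀ x ∈ Xz, x ∈ l := fun x hx => ((Set.Finite.mem_toFinset _).1 hx).1
  have hXz' : ∀ β ∈ l, β ∉ Xz →
      ∃ b ∈ k, ψz b = β ∧ ez b ≠ 0 ∧ Cor k l Θ z z' (ez b) b (ψz b) := by
    intro β hβ h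
    by_contra hcon
    exact h ((Set.Finite.mem_toFinset _).2 ⟨hβ, hcon⟩)
  have c1 : ∀ᶠ β in ae l, ∀ y ∈ ((U1 ℓ W ⊓ VS ℓ (adj l s') : Submodule (ZMod ℓ) (V ℓ L)) :
      Set (V ℓ L)), del ℓ l s' β y = 0 :=
    (eventually_all_finite hfin).2 fun y hy => del_ae hl hs.good' hy.2
  have c2 := relb_root_ae hQ0
  have c3 : ∀ᶠ β in ae l, ∀ x ∈ Xz, ∀ h : β ∈ l,
      (relbF P Q x).rootMultiplicity ⟨β, h⟩ = 0 ∧ (relbF P Q x).eval ⟨β, h⟩ ≠ 0 :=
    (eventually_all_finset Xz).2 fun x hx =>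
      relb_root_ae (relbF_ne hl hs'l hz'l hWz hQ0 hR hWR (hXz x hx))
  have c5 : ∀ᶠ b in ae k, ψz (μ b) ∈ l ∧ ez (μ b) ≠ 0 ∧
      Cor k l Θ z z' (ez (μ b)) (μ b) (ψz (μ b)) :=
    relb_comap (l := k) (f := μ) (G := fun _ => True) (Eventually.of_forall fun _ => trivial)
      (fun a ha _ => hμ a ha) (fun a ha _ b hb _ h => hμi a ha b hb h) pz.cor
  -- the generic points
  have key : ∀ᶠ b in ae k, b ∈ k ∧ (es b ≠ 0 ∧ Cor k l Θ s s' (es b) b (ψs b)) ∧
      (ez (μ b) ≠ 0 ∧ Cor k l Θ z z' (ez (μ b)) (μ b) (ψz (μ b))) ∧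
      ∃ (h : ψs b ∈ l) (h' : ψz (μ b) ∈ l), P.eval ⟨ψs b, h⟩ =
        ⟨ψz (μ b), h'⟩ * Q.eval ⟨ψs b, h⟩ ∧ Q.eval ⟨ψs b, h⟩ ≠ 0 ∧
        (es b)⁻¹ = (ez (μ b))⁻¹ *
          ((relbF P Q (ψz (μ b))).rootMultiplicity ⟨ψs b, h⟩ : ZMod ℓ) := by
    filter_upwards [ae_mem k, ps.cor, Psi.relb_pull hk hl hs ps (c1.and (c2.and c3)), c5]
      with b hb hcor hgen hz5
    obtain ⟨hβ, hes, hcs⟩ := hcor
    obtain ⟨g1, g2, g3⟩ := hgen
    obtain ⟨hβ', hez, hcz⟩ := hz5
    refine ⟨hb, ⟨hes, hcs⟩, ⟨hez, hcz⟩, hβ, hβ', ?_⟩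
    have h1 := relb_point hk hl hs hz hWz hQ0 hR hWR hXz hXz' hb (hμ b hb) (hU b hb) hβ
      hcs hβ' hcz g1 (g2 hβ).1 (fun x hx => (g3 x hx hβ).1)
    have h2 : (relbF P Q (ψz (μ b))).rootMultiplicity ⟨ψs b, hβ⟩ ≠ 0 := by
      intro h
      rw [h, Nat.cast_zero, mul_zero] at h1
      exact inv_ne_zero hes h1
    have h3 : (relbF P Q (ψz (μ b))).eval ⟨ψs b, hβ⟩ = 0 := by
      have h4 := (rootMultiplicity_pos (relbF_ne hl hs'l hz'l hWz hQ0 hR hWR hβ')).1
        (Nat.pos_of_ne_zero h2)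
      exact h4
    refine ⟨?_, (g2 hβ).2, h1⟩
    rw [relbF_of_mem P Q hβ', eval_sub, eval_mul, eval_C, sub_eq_zero] at h3
    exact h3
  -- the set of generic points is cofinite
  set S : Set l := {x | ∃ b ∈ k, (es b ≠ 0 ∧ Cor k l Θ s s' (es b) b (ψs b)) ∧
      (ez (μ b) ≠ 0 ∧ Cor k l Θ z z' (ez (μ b)) (μ b) (ψz (μ b))) ∧ ψs b = x ∧
      ∃ (h : ψs b ∈ l) (h' : ψz (μ b) ∈ l), P.eval ⟨ψs b, h⟩ =
        ⟨ψz (μ b), h'⟩ * Q.eval ⟨ψs b, h⟩ ∧ Q.eval ⟨ψs b, h⟩ ≠ 0} with hSd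
  have hSfin : Sᶜ.Finite := by
    have f1 := ae_iff.1 ps.surj
    have f2 := ae_iff.1 key
    refine Set.Finite.of_finite_image (f := (Subtype.val : l → L))
      ((f1.union (f2.image ψs)).subset ?_) Subtype.val_injective.injOn
    rintro _ ⟨x, hx, rfl⟩
    by_contra hcon
    rw [Set.mem_union, not_or] at hcon
    obtain ⟨n1, n2⟩ := hcon
    have n3 : ∃ b ∈ k, ψs b = x ∧ es b ≠ 0 ∧ Cor k l Θ s s' (es b) b (ψs b) := by
      by_contra h
      exact n1 ⟨x.2, h⟩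
    obtain ⟨b, hb, hbx, -, -⟩ := n3
    have n4 : b ∈ k ∧ (es b ≠ 0 ∧ Cor k l Θ s s' (es b) b (ψs b)) ∧
      (ez (μ b) ≠ 0 ∧ Cor k l Θ z z' (ez (μ b)) (μ b) (ψz (μ b))) ∧
      ∃ (h : ψs b ∈ l) (h' : ψz (μ b) ∈ l), P.eval ⟨ψs b, h⟩ =
        ⟨ψz (μ b), h'⟩ * Q.eval ⟨ψs b, h⟩ ∧ Q.eval ⟨ψs b, h⟩ ≠ 0 ∧
        (es b)⁻¹ = (ez (μ b))⁻¹ *
          ((relbF P Q (ψz (μ b))).rootMultiplicity ⟨ψs b, h⟩ : ZMod ℓ) := by
      by_contra h
      exact n2 ⟨b, ⟨hb, h⟩, hbx⟩
    obtain ⟨-, m1, m2, h, h', m3, m4, -⟩ := n4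
    exact hx ⟨b, hb, m1, m2, hbx, h, h', m3, m4⟩
  have hinj : ∀ x ∈ S, ∀ y ∈ S, P.eval x * Q.eval y = P.eval y * Q.eval x → x = y := by
    rintro x ⟨b, hb, u1, u2, hbx, h, h', u3, u4⟩ y ⟨b', hb', v1, v2, hby, i, i', v3, v4⟩ hxy
    have hx : x = ⟨ψs b, h⟩ := Subtype.ext hbx.symm
    have hy : y = ⟨ψs b', i⟩ := Subtype.ext hby.symm
    rw [hx, hy, u3, v3] at hxy
    have w1 : (⟨ψz (μ b), h'⟩ : l) = ⟨ψz (μ b'), i'⟩ := by
      have w2 : (⟨ψz (μ b), h'⟩ : l) * (Q.eval ⟨ψs b, h⟩ * Q.eval ⟨ψs b', i⟩) =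
          ⟨ψz (μ b'), i'⟩ * (Q.eval ⟨ψs b, h⟩ * Q.eval ⟨ψs b', i⟩) := by
        linear_combination hxy
      exact mul_right_cancel₀ (mul_ne_zero u4 v4) w2
    have w3 : ψz (μ b) = ψz (μ b') := congrArg Subtype.val w1
    have w4 : μ b = μ b' := by
      refine Cor.inj hk hl hz u2.1 v2.1 (hμ b hb) (hμ b' hb') h' u2.2 ?_
      rw [w3]
      exact v2.2
    rw [hx, hy]
    rw [Subtype.mk.injEq, hμi b hb b' hb' w4]
  haveI : IsAlgClosed l := hl
  have hq : ringExpChar l = ringExpChar L := ringExpChar.eq l (ringExpChar L)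
  obtain ⟨j, A, B, C', D, hdet, hP, hQ⟩ := mob_of_inj P Q hcop S hSfin hinj
  have eP : ∀ x : L, ∀ hx : x ∈ l, ((P.eval ⟨x, hx⟩ : l) : L) =
      A * x ^ (ringExpChar L) ^ j + B := by
    intro x hx
    rw [hP, hq]
    simp
  have eQ : ∀ x : L, ∀ hx : x ∈ l, ((Q.eval ⟨x, hx⟩ : l) : L) =
      C' * x ^ (ringExpChar L) ^ j + D := by
    intro x hx
    rw [hQ, hq]
    simp
  have aP : aeval s' P = A * s' ^ (ringExpChar L) ^ j + B := by
    rw [hP, hq, map_add, map_mul, aeval_C, aeval_C, map_pow, aeval_X]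
    rfl
  have aQ : aeval s' Q = C' * s' ^ (ringExpChar L) ^ j + D := by
    rw [hQ, hq, map_add, map_mul, aeval_C, aeval_C, map_pow, aeval_X]
    rfl
  refine ⟨j, A, A.2, B, B.2, C', C'.2, D, D.2, ?_, ?_, ?_⟩
  · intro h
    apply hdet
    apply Subtype.ext
    exact h
  · filter_upwards [key] with b hb
    obtain ⟨-, hes, hez, h, h', m3, -, m5⟩ := hb
    constructor
    · have m6 := congrArg (Subtype.val : l → L) m3
      rw [eP] at m6
      rw [m6]
      change _ = (ψz (μ b)) * ((Q.eval ⟨ψs b, h⟩ : l) : L)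
      rw [eQ]
    · have hF : relbF P Q (ψz (μ b)) = Polynomial.C (A - ⟨ψz (μ b), h'⟩ * C') *
          X ^ (ringExpChar l) ^ j + Polynomial.C (B - ⟨ψz (μ b), h'⟩ * D) := by
        rw [relbF_of_mem P Q h', hP, hQ]
        simp only [map_sub, map_mul]
        ring
      have hF0 := relbF_ne hl hs'l hz'l hWz hQ0 hR hWR h'
      have hFe : (relbF P Q (ψz (μ b))).eval ⟨ψs b, h⟩ = 0 := by
        rw [relbF_of_mem P Q h', eval_sub, eval_mul, eval_C, sub_eq_zero]
        exact m3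
      have ha : A - ⟨ψz (μ b), h'⟩ * C' ≠ 0 := by
        intro ha
        rw [hF, ha, map_zero, zero_mul, zero_add] at hFe hF0
        rw [eval_C] at hFe
        rw [hFe, map_zero] at hF0
        exact hF0 rfl
      rw [hF] at hFe
      have hm := relb_mult ha hFe
      rw [hF, hm, hq] at m5
      have n1 := hes.1
      have n2 := hez.1
      field_simp at m5
      rw [m5]
      ring
  · have hQs : aeval s' Q ≠ 0 := line_aeval_ne hl hs'l hQ0
    have h1 : z' * (C' * s' ^ (ringExpChar L) ^ j + D) -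
        (A * s' ^ (ringExpChar L) ^ j + B) = aeval s' Q * (z' - R) := by
      rw [← aP, ← aQ, hR]
      field_simp
    rw [h1, map_mul, hWs.eq_one (relb_aeval_mem s' Q) hQs, one_mul]
    exact hWR

/-- the relation on one fibre. -/
theorem Hyp.relb_at (H : Hyp ℓ k l Θ) {s z : K} {s' z' : L} (hs : Rt k l Θ s s')
    (hz : Rt k l Θ z z') {ψs ψz : K → L} {es ez : K → ZMod ℓ} (ps : Psi k l Θ s s' ψs es)
    (pz : Psi k l Θ z z' ψz ez) {μ : K → K} (hμ : ∀ b ∈ k, μ b ∈ k)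
    (hμi : ∀ b ∈ k, ∀ b' ∈ k, μ b = μ b' → b = b') {G' : Subfield L} (hlG : l ≤ G')
    (hfg : FG l G') (hss : ¬ IsAlgebraic G' s') {W : ValuationSubring L} {π θ : L}
    (hW : Nice W (adj G' s') π θ) (hWz : TrivOn W (adj l z'))
    (hV : VS ℓ (adj l z') ≤ VS ℓ (adj l s') ⊔ U1 ℓ W)
    (hU : ∀ b ∈ k, Θ (cl ℓ (s - b)) - Θ (cl ℓ (z - μ b)) ∈ U1 ℓ W) :
    ∃ i j : ℕ, ∃ A ∈ l, ∃ B ∈ l, ∃ C ∈ l, ∃ D ∈ l, A * D - B * C ≠ 0 ∧
      (∀ᶠ b in ae k, ψz (μ b) ^ (ringExpChar L) ^ i * (C * ψs b ^ (ringExpChar L) ^ j + D) =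
          A * ψs b ^ (ringExpChar L) ^ j + B ∧
        (((ringExpChar L) ^ i : ℕ) : ZMod ℓ) * ez (μ b) =
          (((ringExpChar L) ^ j : ℕ) : ZMod ℓ) * es b) ∧
      W.valuation (z' ^ (ringExpChar L) ^ i * (C * s' ^ (ringExpChar L) ^ j + D) -
        (A * s' ^ (ringExpChar L) ^ j + B)) < 1 := by
  have hk := H.ack
  have hl := H.acl
  have hs'l : s' ∉ l := hs.good'.1
  have hWs : TrivOn W (adj l s') := hW.triv.mono (adj_mono hlG s')
  obtain ⟨R, hRmem, hWR⟩ := core hl hlG hfg hss hW (le_adj l z') hWz hV z' (mem_adj l z')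
  obtain ⟨n, y, P, Q, hy, hcop, hQ0, hR⟩ := relb_coprime hl hs'l hRmem
  have hfin : ((U1 ℓ W ⊓ VS ℓ (adj l s') : Submodule (ZMod ℓ) (V ℓ L)) : Set (V ℓ L)).Finite :=
    hW.finite hl (hlG.trans (le_adj G' s')) (hfg.adj s') (le_adj l s') hWs
  have hadj : adj l s' = adj l y := by rw [← hy, adj_pow]
  rw [hadj] at hWs hfin
  obtain ⟨ψ', hψ', ps'⟩ := ps.root hk hl hs hy
  obtain ⟨j, A, hA, B, hB, C', hC, D, hD, hdet, hgen, hval⟩ := H.relb_at0 (hs.root hl hy) hz ps'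
    pz hμ hμi hWs hWz hfin hWR hcop hQ0 hR hU
  have hq := q_pow_ne_zero ℓ L n
  have hcomm : ∀ x : L, (x ^ (ringExpChar L) ^ j) ^ (ringExpChar L) ^ n =
      (x ^ (ringExpChar L) ^ n) ^ (ringExpChar L) ^ j := by
    intro x
    rw [← pow_mul, ← pow_mul, mul_comm]
  refine ⟨n, j, A ^ (ringExpChar L) ^ n, l.pow_mem hA _, B ^ (ringExpChar L) ^ n,
    l.pow_mem hB _, C' ^ (ringExpChar L) ^ n, l.pow_mem hC _, D ^ (ringExpChar L) ^ n,
    l.pow_mem hD _, ?_, ?_, ?_⟩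
  · rw [← mul_pow, ← mul_pow, ← sub_pow_q]
    exact pow_ne_zero _ hdet
  · filter_upwards [hgen] with b hb
    obtain ⟨h1, h2⟩ := hb
    constructor
    · have h3 := congrArg (fun x => x ^ (ringExpChar L) ^ n) h1
      simp only [mul_pow, add_pow_q, hcomm, hψ'] at h3
      exact h3
    · rw [h2]
      field_simp
  · have h3 : z' ^ (ringExpChar L) ^ n *
        (C' ^ (ringExpChar L) ^ n * s' ^ (ringExpChar L) ^ j + D ^ (ringExpChar L) ^ n) -
        (A ^ (ringExpChar L) ^ n * s' ^ (ringExpChar L) ^ j + B ^ (ringExpChar L) ^ n) =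
        (z' * (C' * y ^ (ringExpChar L) ^ j + D) -
          (A * y ^ (ringExpChar L) ^ j + B)) ^ (ringExpChar L) ^ n := by
      simp only [sub_pow_q, mul_pow, add_pow_q, hcomm, hy]
    rw [h3, map_pow]
    exact pow_lt_one₀ zero_le hval (pow_pos (expChar_pos L _) n).ne'

/-- the Moebius relation on the fibres. -/
theorem Hyp.rel (H : Hyp ℓ k l Θ) {t s z : K} {t' s' z' : L}
    (hts : ¬ IsAlgebraic (adj k s) t) (ht : Rt k l Θ t t') (hs : Rt k l Θ s s')
    (hz : Rt k l Θ z z') {m : K → K → K} (hm : Shift ℓ k t s z m) {ψt ψs ψz : K → L}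
    {et es ez : K → ZMod ℓ} (pt : Psi k l Θ t t' ψt et) (ps : Psi k l Θ s s' ψs es)
    (pz : Psi k l Θ z z' ψz ez) :
    ∃ G' : Subfield L, Frame l G' t' s' ∧ ∀ᶠ a in ae k,
      ∃ i j : ℕ, ∃ A ∈ l, ∃ B ∈ l, ∃ C ∈ l, ∃ D ∈ l, A * D - B * C ≠ 0 ∧
        (∀ᶠ b in ae k,
          ψz (m a b) ^ (ringExpChar L) ^ i * (C * ψs b ^ (ringExpChar L) ^ j + D) =
            A * ψs b ^ (ringExpChar L) ^ j + B ∧
          (((ringExpChar L) ^ i : ℕ) : ZMod ℓ) * ez (m a b) =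
            (((ringExpChar L) ^ j : ℕ) : ZMod ℓ) * es b) ∧
        ∃ W : ValuationSubring L, Over W (adj G' s') t' (ψt a) ∧
          W.valuation (z' ^ (ringExpChar L) ^ i * (C * s' ^ (ringExpChar L) ^ j + D) -
            (A * s' ^ (ringExpChar L) ^ j + B)) < 1 := by
  have hk := H.ack
  have hl := H.acl
  have hRl : RAC l := RAC_of_isAlgClosed l hl
  have hs'l : s' ∉ l := hs.good'.1
  have ht'l : t' ∉ l := ht.good'.1
  -- `t'` and `s'` are independent
  have ht's' : ¬ IsAlgebraic (adj l s') t' := by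
    intro h
    have h1 : t' ∈ adj l s' := hs.good'.2 t' h
    have h2 : adj l t' = adj l s' :=
      Crv.eq hRl (Crv.of_good ht.good') (Crv.of_good hs.good') (mem_adj l t') h1 ht'l
    exact H.crv_ne hs.good.1 hts ht.map hs.map h2
  obtain ⟨G', hfr⟩ := exists_frame H.fgl (fun h => hs'l (hRl _ h)) ht's'
  refine ⟨G', hfr, ?_⟩
  obtain ⟨θ, hθ⟩ := hfr.nice H.fgl
  have hlF : l ≤ adj G' s' := hfr.le.trans (le_adj G' s')
  have hθ' := (ae_mono hlF) hθ
  filter_upwards [ae_mem k, pt.cor, Psi.relb_pull hk hl ht pt hθ', hm.ev] with a ha hcor hnice hev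
  obtain ⟨hα, he, hc⟩ := hcor
  obtain ⟨hinj, hsurj, hO⟩ := hev
  obtain ⟨W, hWo⟩ := exists_over hfr.tt (hlF hα)
  have hW : Nice W (adj G' s') (t' - ψt a) θ := hnice W hWo
  have hfgF : FG l (adj G' s') := hfr.fg.adj s'
  have hWs : TrivOn W (adj l s') := hW.triv.mono (adj_mono hfr.le s')
  have hWl : TrivOn W l := hW.triv.mono hlF
  obtain ⟨O, hOk, hT⟩ := H.symm.exists_tr hlF hfgF hW hs.good' hWs
  have hys : ∀ v ∈ VS ℓ (adj l s'), Θ.symm v ∈ VS ℓ (adj k s) := by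
    intro v hv
    refine (hs.map _).1 ?_
    rwa [LinearEquiv.apply_symm_apply]
  have hOs : TrivOn O (adj k s) :=
    H.symm.triv_crv hlF hfgF hW hOk hT hs'l hWs (Crv.of_good hs.good) hys
  have hcen : O.valuation (t - a) < 1 := H.centre ht ha hα he hc hWl hW.unif hOk hT
  have hU := hO O hOs hcen
  have hUL : ∀ b ∈ k, Θ (cl ℓ (s - b)) - Θ (cl ℓ (z - m a b)) ∈ U1 ℓ W := by
    intro b hb
    rw [← map_sub]
    refine (hT.iff _).1 ?_
    rw [LinearEquiv.symm_apply_apply]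
    exact hU b hb
  have hV1 : VS ℓ (adj k s) ≤ VS ℓ (adj k z) ⊔ U1 ℓ O :=
    VS_le_of_shift hk hs.good.1 (m a) (fun b hb => hm.mem a ha b hb) hU
  have hV2 : VS ℓ (adj k z) ≤ VS ℓ (adj k s) ⊔ U1 ℓ O := by
    have h1 : ∀ c : K, ∃ b : K, c ∈ k → b ∈ k ∧ m a b = c := by
      intro c
      by_cases hc : c ∈ k
      · obtain ⟨b, hb, h⟩ := hsurj c hc
        exact ⟨b, fun _ => ⟨hb, h⟩⟩
      · exact ⟨0, fun h => absurd h hc⟩
    choose m' hm' using h1
    refine VS_le_of_shift hk hz.good.1 m' (fun c hc => (hm' c hc).1) ?_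
    intro c hc
    have h2 := hU (m' c) (hm' c hc).1
    rw [(hm' c hc).2] at h2
    rw [← neg_mem_iff, neg_sub]
    exact h2
  obtain ⟨hWz, hV⟩ := H.symm.rat_of hfr.le hfr.fg hW hT hs.good.1 hV2 hV1
    (fun v hv => (hs.map v).2 hv) (Crv.of_good hz.good') hz.map
  obtain ⟨i, j, A, hA, B, hB, C', hC, D, hD, hdet, hgen, hval⟩ := H.relb_at hs hz ps pz
    (μ := m a) (fun b hb => hm.mem a ha b hb) hinj hfr.le hfr.fg hfr.ss hW hWz hV hUL
  exact ⟨i, j, A, hA, B, hB, C', hC, D, hD, hdet, hgen, W, hWo, hval⟩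

end Vale.Agent.P019P
end
end

section

section

/-!
# The coordinate of the sum is a rational function
-/

namespace Vale.Agent.P019P

open Vale.Agent.P019

set_option linter.style.haveILetI false
set_option linter.unusedSectionVars false

open Polynomial Filter

variable {K L : Type*} [Field K] [Field L] [PerfectField K] [PerfectField L] {ℓ : ℕ}
  [Fact ℓ.Prime] [NeZero (ℓ : K)] [NeZero (ℓ : L)]
  {k : Subfield K} {l : Subfield L} {Θ : V ℓ K ≃ₗ[ZMod ℓ] V ℓ L}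

/-- the Moebius relation on all fibres (compare `Hyp.rel`). -/
theorem Hyp.rel_all (H : Hyp ℓ k l Θ) {t s z : K} {t' s' z' : L}
    (hts : ¬ IsAlgebraic (adj k s) t) (ht : Rt k l Θ t t') (hs : Rt k l Θ s s')
    (hz : Rt k l Θ z z') {m : K → K → K} (hm : Shift ℓ k t s z m) {ψt ψs ψz : K → L}
    {et es ez : K → ZMod ℓ} (pt : Psi k l Θ t t' ψt et) (ps : Psi k l Θ s s' ψs es)
    (pz : Psi k l Θ z z' ψz ez) :
    ∃ G' : Subfield L, Frame l G' t' s' ∧ ∀ᶠ a in ae k, ψt a ∈ l ∧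
      ∀ W : ValuationSubring L, Over W (adj G' s') t' (ψt a) →
      ∃ i j : ℕ, ∃ A ∈ l, ∃ B ∈ l, ∃ C ∈ l, ∃ D ∈ l, A * D - B * C ≠ 0 ∧
        (∀ᶠ b in ae k,
          ψz (m a b) ^ (ringExpChar L) ^ i * (C * ψs b ^ (ringExpChar L) ^ j + D) =
            A * ψs b ^ (ringExpChar L) ^ j + B) ∧
          W.valuation (z' ^ (ringExpChar L) ^ i * (C * s' ^ (ringExpChar L) ^ j + D) -
            (A * s' ^ (ringExpChar L) ^ j + B)) < 1 := by
  have hk := H.ack
  have hl := H.acl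
  have hRl : RAC l := RAC_of_isAlgClosed l hl
  have hs'l : s' ∉ l := hs.good'.1
  have ht'l : t' ∉ l := ht.good'.1
  -- `t'` and `s'` are independent
  have ht's' : ¬ IsAlgebraic (adj l s') t' := by
    intro h
    have h1 : t' ∈ adj l s' := hs.good'.2 t' h
    have h2 : adj l t' = adj l s' :=
      Crv.eq hRl (Crv.of_good ht.good') (Crv.of_good hs.good') (mem_adj l t') h1 ht'l
    exact H.crv_ne hs.good.1 hts ht.map hs.map h2
  obtain ⟨G', hfr⟩ := exists_frame H.fgl (fun h => hs'l (hRl _ h)) ht's'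
  refine ⟨G', hfr, ?_⟩
  obtain ⟨θ, hθ⟩ := hfr.nice H.fgl
  have hlF : l ≤ adj G' s' := hfr.le.trans (le_adj G' s')
  have hθ' := (ae_mono hlF) hθ
  filter_upwards [ae_mem k, pt.cor, Psi.relb_pull hk hl ht pt hθ', hm.ev] with a ha hcor hnice hev
  obtain ⟨hα, he, hc⟩ := hcor
  obtain ⟨hinj, hsurj, hO⟩ := hev
  refine ⟨hα, fun W hWo => ?_⟩
  have hW : Nice W (adj G' s') (t' - ψt a) θ := hnice W hWo
  have hfgF : FG l (adj G' s') := hfr.fg.adj s'
  have hWs : TrivOn W (adj l s') := hW.triv.mono (adj_mono hfr.le s')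
  have hWl : TrivOn W l := hW.triv.mono hlF
  obtain ⟨O, hOk, hT⟩ := H.symm.exists_tr hlF hfgF hW hs.good' hWs
  have hys : ∀ v ∈ VS ℓ (adj l s'), Θ.symm v ∈ VS ℓ (adj k s) := by
    intro v hv
    refine (hs.map _).1 ?_
    rwa [LinearEquiv.apply_symm_apply]
  have hOs : TrivOn O (adj k s) :=
    H.symm.triv_crv hlF hfgF hW hOk hT hs'l hWs (Crv.of_good hs.good) hys
  have hcen : O.valuation (t - a) < 1 := H.centre ht ha hα he hc hWl hW.unif hOk hT
  have hU := hO O hOs hcen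
  have hUL : ∀ b ∈ k, Θ (cl ℓ (s - b)) - Θ (cl ℓ (z - m a b)) ∈ U1 ℓ W := by
    intro b hb
    rw [← map_sub]
    refine (hT.iff _).1 ?_
    rw [LinearEquiv.symm_apply_apply]
    exact hU b hb
  have hV1 : VS ℓ (adj k s) ≤ VS ℓ (adj k z) ⊔ U1 ℓ O :=
    VS_le_of_shift hk hs.good.1 (m a) (fun b hb => hm.mem a ha b hb) hU
  have hV2 : VS ℓ (adj k z) ≤ VS ℓ (adj k s) ⊔ U1 ℓ O := by
    have h1 : ∀ c : K, ∃ b : K, c ∈ k → b ∈ k ∧ m a b = c := by
      intro c
      by_cases hc : c ∈ k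
      · obtain ⟨b, hb, h⟩ := hsurj c hc
        exact ⟨b, fun _ => ⟨hb, h⟩⟩
      · exact ⟨0, fun h => absurd h hc⟩
    choose m' hm' using h1
    refine VS_le_of_shift hk hz.good.1 m' (fun c hc => (hm' c hc).1) ?_
    intro c hc
    have h2 := hU (m' c) (hm' c hc).1
    rw [(hm' c hc).2] at h2
    rw [← neg_mem_iff, neg_sub]
    exact h2
  obtain ⟨hWz, hV⟩ := H.symm.rat_of hfr.le hfr.fg hW hT hs.good.1 hV2 hV1
    (fun v hv => (hs.map v).2 hv) (Crv.of_good hz.good') hz.map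
  obtain ⟨i, j, A, hA, B, hB, C', hC, D, hD, hdet, hgen, hval⟩ := H.relb_at hs hz ps pz
    (μ := m a) (fun b hb => hm.mem a ha b hb) hinj hfr.le hfr.fg hfr.ss hW hWz hV hUL
  exact ⟨i, j, A, hA, B, hB, C', hC, D, hD, hdet, hgen.mono fun b hb => hb.1, hval⟩

/-- the denominator does not vanish. -/
theorem relca_den_ne (hl : IsAlgClosed l) {x : L} (hx : x ∉ l) {A B C D : L} (hC : C ∈ l)
    (hD : D ∈ l) (hdet : A * D - B * C ≠ 0) (j : ℕ) :
    C * x ^ (ringExpChar L) ^ j + D ≠ 0 := by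
  intro h
  by_cases hC0 : C = 0
  · rw [hC0, zero_mul, zero_add] at h
    apply hdet
    rw [hC0, h, mul_zero, mul_zero, sub_zero]
  · haveI := hl
    have h1 : x ^ (ringExpChar L) ^ j ∈ l := by
      have h2 : x ^ (ringExpChar L) ^ j = -D / C := by
        rw [eq_div_iff hC0]
        linear_combination h
      rw [h2]
      exact l.div_mem (l.neg_mem hD) hC
    exact hx (mem_of_pow_q h1)

/-- a polynomial identity holding at infinitely many points of `l` holds at `x`. -/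
theorem relca_ident {A B C D A' B' C' D' : L} {n₁ n₂ n₃ n₄ : ℕ}
    (hinf : {x : L | x ∈ l ∧ (A * x ^ n₁ + B) ^ n₂ * (C' * x ^ n₃ + D') ^ n₄ =
      (A' * x ^ n₃ + B') ^ n₄ * (C * x ^ n₁ + D) ^ n₂}.Infinite) (x : L) :
    (A * x ^ n₁ + B) ^ n₂ * (C' * x ^ n₃ + D') ^ n₄ =
      (A' * x ^ n₃ + B') ^ n₄ * (C * x ^ n₁ + D) ^ n₂ := by
  let F : L[X] := (Polynomial.C A * X ^ n₁ + Polynomial.C B) ^ n₂ *
      (Polynomial.C C' * X ^ n₃ + Polynomial.C D') ^ n₄ -
    (Polynomial.C A' * X ^ n₃ + Polynomial.C B') ^ n₄ *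
      (Polynomial.C C * X ^ n₁ + Polynomial.C D) ^ n₂
  have hev : ∀ y : L, F.eval y = (A * y ^ n₁ + B) ^ n₂ * (C' * y ^ n₃ + D') ^ n₄ -
      (A' * y ^ n₃ + B') ^ n₄ * (C * y ^ n₁ + D) ^ n₂ := by
    intro y
    simp only [F, eval_sub, eval_mul, eval_pow, eval_add, eval_C, eval_X]
  have hF : F = 0 := by
    refine Polynomial.eq_zero_of_infinite_isRoot F (hinf.mono ?_)
    rintro y ⟨-, hy⟩
    rw [Set.mem_ofPred_eq, IsRoot.def, hev, hy, sub_self]
  have h1 := hev x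
  rw [hF, eval_zero] at h1
  exact (sub_eq_zero.1 h1.symm)

/-- infinitely many values. -/
theorem relca_inf (hk : IsAlgClosed k) (hl : IsAlgClosed l) {s : K} {s' : L}
    (hR : Rt k l Θ s s') {ψ : K → L} {e : K → ZMod ℓ} (p : Psi k l Θ s s' ψ e) {P : L → Prop}
    (hP : ∀ᶠ b in ae k, P (ψ b)) : {x : L | x ∈ l ∧ P x}.Infinite := by
  intro hfin
  have h1 : ∀ᶠ β in ae l, ¬ P β := by
    rw [ae_iff]
    refine hfin.subset ?_
    rintro β ⟨hβ, h⟩
    exact ⟨hβ, not_not.1 h⟩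
  have h2 := Psi.relb_pull hk hl hR p h1
  haveI := ae_neBot_of_isAlgClosed hk
  obtain ⟨b, hb1, hb2⟩ := (hP.and h2).exists
  exact hb2 hb1

/-- comparison of two Moebius relations. -/
theorem relca_cmp {q : ℕ} {y x A B C D A' B' C' D' : L} {i i' j j' : ℕ}
    (h : y ^ q ^ i * (C * x ^ q ^ j + D) = A * x ^ q ^ j + B)
    (h' : y ^ q ^ i' * (C' * x ^ q ^ j' + D') = A' * x ^ q ^ j' + B') :
    (A * x ^ q ^ j + B) ^ q ^ i' * (C' * x ^ q ^ j' + D') ^ q ^ i =
      (A' * x ^ q ^ j' + B') ^ q ^ i * (C * x ^ q ^ j + D) ^ q ^ i' := by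
  rw [← h, ← h', mul_pow, mul_pow, ← pow_mul, ← pow_mul, mul_comm (q ^ i) (q ^ i')]
  ring

/-- the value of the coordinate at the fibre does not depend on the valuation. -/
theorem relca_same (hl : IsAlgClosed l) {x c : L} (hx : x ∉ l) {A B C D A' B' C' D' : L}
    {i i' j j' : ℕ} (hC : C ∈ l) (hD : D ∈ l) (hdet : A * D - B * C ≠ 0)
    (hc : c ^ (ringExpChar L) ^ i * (C * x ^ (ringExpChar L) ^ j + D) =
      A * x ^ (ringExpChar L) ^ j + B)
    (h : (A * x ^ (ringExpChar L) ^ j + B) ^ (ringExpChar L) ^ i' *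
        (C' * x ^ (ringExpChar L) ^ j' + D') ^ (ringExpChar L) ^ i =
      (A' * x ^ (ringExpChar L) ^ j' + B') ^ (ringExpChar L) ^ i *
        (C * x ^ (ringExpChar L) ^ j + D) ^ (ringExpChar L) ^ i') :
    c ^ (ringExpChar L) ^ i' * (C' * x ^ (ringExpChar L) ^ j' + D') =
      A' * x ^ (ringExpChar L) ^ j' + B' := by
  have hne := relca_den_ne hl hx hC hD hdet j
  refine pow_q_inj (n := i) ?_
  refine mul_right_cancel₀ (pow_ne_zero ((ringExpChar L) ^ i') hne) ?_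
  rw [← h, ← hc, mul_pow, mul_pow, ← pow_mul, ← pow_mul,
    mul_comm ((ringExpChar L) ^ i) ((ringExpChar L) ^ i')]
  ring

/-- the value of the coordinate at a generic fibre. -/
theorem Hyp.relca_val (H : Hyp ℓ k l Θ) {s : K} {s' z' : L} (hs : Rt k l Θ s s')
    {ψs : K → L} {es : K → ZMod ℓ} (ps : Psi k l Θ s s' ψs es) {f : K → L}
    {G' : Subfield L} (hlG : l ≤ G') {t' α : L} (hα : α ∈ l)
    (htt : ¬ IsAlgebraic (adj G' s') t')
    (hall : ∀ W : ValuationSubring L, Over W (adj G' s') t' α →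
      ∃ i j : ℕ, ∃ A ∈ l, ∃ B ∈ l, ∃ C ∈ l, ∃ D ∈ l, A * D - B * C ≠ 0 ∧
        (∀ᶠ b in ae k, f b ^ (ringExpChar L) ^ i * (C * ψs b ^ (ringExpChar L) ^ j + D) =
            A * ψs b ^ (ringExpChar L) ^ j + B) ∧
          W.valuation (z' ^ (ringExpChar L) ^ i * (C * s' ^ (ringExpChar L) ^ j + D) -
            (A * s' ^ (ringExpChar L) ^ j + B)) < 1) :
    ∃ c ∈ adj l s', ∀ W : ValuationSubring L, Over W (adj G' s') t' α →
      W.valuation (z' - c) < 1 := by
  have hk := H.ack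
  have hl := H.acl
  have hs'l : s' ∉ l := hs.good'.1
  have hlF : l ≤ adj G' s' := hlG.trans (le_adj G' s')
  obtain ⟨W₀, hW₀⟩ := exists_over htt (hlF hα)
  obtain ⟨i, j, A, hA, B, hB, C, hC, D, hD, hdet, hgen, -⟩ := hall W₀ hW₀
  have hne := relca_den_ne hl hs'l hC hD hdet j
  have hmem : (A * s' ^ (ringExpChar L) ^ j + B) / (C * s' ^ (ringExpChar L) ^ j + D) ∈
      adj l s' := by
    have h1 : s' ^ (ringExpChar L) ^ j ∈ adj l s' := (adj l s').pow_mem (mem_adj l s') _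
    exact (adj l s').div_mem
      ((adj l s').add_mem ((adj l s').mul_mem (le_adj l s' hA) h1) (le_adj l s' hB))
      ((adj l s').add_mem ((adj l s').mul_mem (le_adj l s' hC) h1) (le_adj l s' hD))
  obtain ⟨c, hc, hci⟩ := exists_root_q (adj l s') hmem i
  have hc' : c ^ (ringExpChar L) ^ i * (C * s' ^ (ringExpChar L) ^ j + D) =
      A * s' ^ (ringExpChar L) ^ j + B := by
    rw [hci, div_mul_cancel₀ _ hne]
  refine ⟨c, hc, fun W hW => ?_⟩
  obtain ⟨i', j', A', hA', B', hB', C', hC', D', hD', hdet', hgen', hval⟩ := hall W hW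
  have hinf := relca_inf (P := fun x => (A * x ^ (ringExpChar L) ^ j + B) ^ (ringExpChar L) ^ i' *
        (C' * x ^ (ringExpChar L) ^ j' + D') ^ (ringExpChar L) ^ i =
      (A' * x ^ (ringExpChar L) ^ j' + B') ^ (ringExpChar L) ^ i *
        (C * x ^ (ringExpChar L) ^ j + D) ^ (ringExpChar L) ^ i') hk hl hs ps
    (by
      filter_upwards [hgen, hgen'] with b h1 h2
      exact relca_cmp h1 h2)
  have h3 := relca_same hl hs'l hC hD hdet hc'
    (relca_ident hinf s')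
  have hne' := relca_den_ne hl hs'l hC' hD' hdet' j'
  have hden : C' * s' ^ (ringExpChar L) ^ j' + D' ∈ adj G' s' :=
    (adj G' s').add_mem ((adj G' s').mul_mem (hlF hC')
      ((adj G' s').pow_mem (mem_adj G' s') _)) (hlF hD')
  have h4 : z' ^ (ringExpChar L) ^ i' * (C' * s' ^ (ringExpChar L) ^ j' + D') -
      (A' * s' ^ (ringExpChar L) ^ j' + B') =
      (z' - c) ^ (ringExpChar L) ^ i' * (C' * s' ^ (ringExpChar L) ^ j' + D') := by
    rw [← h3, sub_pow_q]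
    ring
  rw [h4, map_mul, hW.triv.eq_one hden hne', mul_one, map_pow] at hval
  by_contra hcon
  exact absurd hval (not_lt.2 (one_le_pow₀ (not_lt.1 hcon)))

/-- the coordinate of the sum is rational. -/
theorem Hyp.z_mem (H : Hyp ℓ k l Θ) {t s z : K} {t' s' z' : L}
    (hts : ¬ IsAlgebraic (adj k s) t) (ht : Rt k l Θ t t') (hs : Rt k l Θ s s')
    (hz : Rt k l Θ z z') {m : K → K → K} (hm : Shift ℓ k t s z m) :
    z' ∈ adj (adj l s') t' := by
  have hk := H.ack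
  have hl := H.acl
  obtain ⟨ψt, et, pt⟩ := H.exists_psi ht
  obtain ⟨ψs, es, ps⟩ := H.exists_psi hs
  obtain ⟨ψz, ez, pz⟩ := H.exists_psi hz
  obtain ⟨G', hfr, hev⟩ := H.rel_all hts ht hs hz hm pt ps pz
  have hinf := relca_inf (P := fun β => ∃ c ∈ adj l s', ∀ W : ValuationSubring L,
    Over W (adj G' s') t' β → W.valuation (z' - c) < 1) hk hl ht pt
    (by
      filter_upwards [hev] with a ha
      exact H.relca_val hs ps hfr.le ha.1 hfr.tt ha.2)
  haveI := hfr.perfect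
  have hle : adj l s' ≤ adj G' s' := adj_mono hfr.le s'
  have h1 : z' ∈ adj (adj G' s') t' := by
    refine lemZ hfr.tt (hfr.alg z') (hinf.mono ?_)
    rintro β ⟨hβ, c, hc, hW⟩
    exact ⟨hle (le_adj l s' hβ), c, hle hc, hW⟩
  refine rat_descent hle hfr.tt h1 (hinf.mono ?_)
  rintro β ⟨hβ, c, hc, hW⟩
  exact ⟨le_adj l s' hβ, c, hc, hW⟩

end Vale.Agent.P019P
end
end

section

section

/-!
# The bilinear form, preparations
-/

namespace Vale.Agent.P019P

open Vale.Agent.P019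

set_option linter.style.haveILetI false
set_option linter.unusedSectionVars false

open Polynomial Filter

section alg

theorem bl_q {L : Type*} [Field L] (l : Subfield L) : ringExpChar l = ringExpChar L :=
  ringExpChar.eq l (ringExpChar L)

theorem bl_aeval_coe {L : Type*} [Field L] {l : Subfield L} (β : l) (c : l[X]) :
    aeval (β : L) c = ((c.eval β : l) : L) := by
  have h := aeval_algebraMap_apply L β c
  rw [coe_aeval_eq_eval] at h
  exact h

theorem blE_eval {L : Type*} [Field L] {l : Subfield L} (β : l) (y : L) (P : l[X][X]) :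
    blE l (β : L) y P = aeval y (P.map (evalRingHom β)) := by
  induction P using Polynomial.induction_on' with
  | add p q hp hq => rw [map_add, Polynomial.map_add, map_add, hp, hq]
  | monomial n a =>
    rw [blE_monomial, map_monomial, aeval_monomial, bl_aeval_coe]
    rfl

/-- division by the greatest common divisor of four polynomials. -/
theorem bl_gcd4 {l : Type*} [Field l] {P₁ P₀ Q₁ Q₀ : l[X]} (h : P₁ * Q₀ - P₀ * Q₁ ≠ 0) :
    ∃ g p₁ p₀ q₁ q₀ u₁ u₀ v₁ v₀ : l[X], g ≠ 0 ∧ P₁ = g * p₁ ∧ P₀ = g * p₀ ∧ Q₁ = g * q₁ ∧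
      Q₀ = g * q₀ ∧ u₁ * p₁ + u₀ * p₀ + v₁ * q₁ + v₀ * q₀ = 1 ∧ p₁ * q₀ - p₀ * q₁ ≠ 0 := by
  obtain ⟨g, hg⟩ := (IsPrincipalIdealRing.principal
    (Ideal.span ({P₁, P₀, Q₁, Q₀} : Set l[X]))).principal
  have hmem : ∀ x ∈ ({P₁, P₀, Q₁, Q₀} : Set l[X]), ∃ y, x = g * y := by
    intro x hx
    have h1 : x ∈ Ideal.span ({P₁, P₀, Q₁, Q₀} : Set l[X]) := Ideal.subset_span hx
    rw [hg] at h1
    obtain ⟨y, hy⟩ := Submodule.mem_span_singleton.1 h1
    exact ⟨y, by rw [← hy, smul_eq_mul, mul_comm]⟩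
  obtain ⟨p₁, hp₁⟩ := hmem P₁ (by simp)
  obtain ⟨p₀, hp₀⟩ := hmem P₀ (by simp)
  obtain ⟨q₁, hq₁⟩ := hmem Q₁ (by simp)
  obtain ⟨q₀, hq₀⟩ := hmem Q₀ (by simp)
  have hg0 : g ≠ 0 := by
    rintro rfl
    apply h
    rw [hp₁, hp₀]
    ring
  have h2 : g ∈ Ideal.span ({P₁, P₀, Q₁, Q₀} : Set l[X]) := by
    rw [hg]
    exact Submodule.mem_span_singleton_self g
  rw [Ideal.mem_span_insert] at h2
  obtain ⟨u₁, z₁, hz₁, e₁⟩ := h2
  rw [Ideal.mem_span_insert] at hz₁
  obtain ⟨u₀, z₂, hz₂, e₂⟩ := hz₁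
  rw [Ideal.mem_span_pair] at hz₂
  obtain ⟨v₁, v₀, e₃⟩ := hz₂
  refine ⟨g, p₁, p₀, q₁, q₀, u₁, u₀, v₁, v₀, hg0, hp₁, hp₀, hq₁, hq₀, ?_, ?_⟩
  · apply mul_left_cancel₀ hg0
    calc g * (u₁ * p₁ + u₀ * p₀ + v₁ * q₁ + v₀ * q₀) =
        u₁ * (g * p₁) + (u₀ * (g * p₀) + (v₁ * (g * q₁) + v₀ * (g * q₀))) := by ring
      _ = u₁ * P₁ + (u₀ * P₀ + (v₁ * Q₁ + v₀ * Q₀)) := by rw [← hp₁, ← hp₀, ← hq₁, ← hq₀]
      _ = g := by rw [e₃, ← e₂, ← e₁]
      _ = g * 1 := (mul_one g).symm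
  · intro h0
    apply h
    rw [hp₁, hp₀, hq₁, hq₀]
    have : g * p₁ * (g * q₀) - g * p₀ * (g * q₁) = g * g * (p₁ * q₀ - p₀ * q₁) := by ring
    rw [this, h0, mul_zero]

/-- the leading coefficient of a pair. -/
theorem bl_top {R : Type*} [CommRing R] {P Q : R[X]} (h : P ≠ 0 ∨ Q ≠ 0) :
    P.coeff (max P.natDegree Q.natDegree) ≠ 0 ∨ Q.coeff (max P.natDegree Q.natDegree) ≠ 0 := by
  by_cases hP : P = 0
  · right
    have hQ := h.resolve_left (not_not.2 hP)
    rw [hP, natDegree_zero, max_eq_right (Nat.zero_le _)]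
    exact leadingCoeff_ne_zero.2 hQ
  · by_cases hQ : Q = 0
    · left
      rw [hQ, natDegree_zero, max_eq_left (Nat.zero_le _)]
      exact leadingCoeff_ne_zero.2 hP
    · rcases le_total P.natDegree Q.natDegree with h1 | h1
      · right
        rw [max_eq_right h1]
        exact leadingCoeff_ne_zero.2 hQ
      · left
        rw [max_eq_left h1]
        exact leadingCoeff_ne_zero.2 hP

end alg

section hyp

variable {K L : Type*} [Field K] [Field L] [PerfectField K] [PerfectField L] {ℓ : ℕ}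
  [Fact ℓ.Prime] [NeZero (ℓ : K)] [NeZero (ℓ : L)]
  {k : Subfield K} {l : Subfield L} {Θ : V ℓ K ≃ₗ[ZMod ℓ] V ℓ L}

/-- a polynomial which vanishes at almost all corresponding points is zero. -/
theorem bl_ae_zero (hk : IsAlgClosed k) (hl : IsAlgClosed l) {s : K} {s' : L}
    (hR : Rt k l Θ s s') {ψ : K → L} {e : K → ZMod ℓ} (p : Psi k l Θ s s' ψ e) {F : l[X]}
    (h : ∀ᶠ b in ae k, ∀ hb : ψ b ∈ l, F.eval ⟨ψ b, hb⟩ = 0) : F = 0 := by
  by_contra hF
  haveI := ae_neBot_of_isAlgClosed hk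
  have h1 := Psi.relb_pull hk hl hR p (relb_root_ae hF)
  obtain ⟨b, ⟨h2, h3⟩, h4⟩ := ((h.and h1).and p.cor).exists
  exact (h3 h4.1).2 (h2 h4.1)

/-- a nonzero polynomial does not vanish at almost all corresponding points. -/
theorem bl_ae_ne (hk : IsAlgClosed k) (hl : IsAlgClosed l) {s : K} {s' : L}
    (hR : Rt k l Θ s s') {ψ : K → L} {e : K → ZMod ℓ} (p : Psi k l Θ s s' ψ e) {F : l[X]}
    (hF : F ≠ 0) : ∀ᶠ b in ae k, ∀ hb : ψ b ∈ l, F.eval ⟨ψ b, hb⟩ ≠ 0 := by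
  filter_upwards [Psi.relb_pull hk hl hR p (relb_root_ae hF)] with b h hb
  exact (h hb).2

/-- the relation on the fibres of `t`, in terms of polynomials. -/
theorem Hyp.bl_fibre (H : Hyp ℓ k l Θ) {t s z : K} {t' s' z' : L}
    (hts : ¬ IsAlgebraic (adj k s) t) (ht : Rt k l Θ t t') (hs : Rt k l Θ s s')
    (hz : Rt k l Θ z z') {m : K → K → K} (hm : Shift ℓ k t s z m) {ψt ψs ψz : K → L}
    {et es ez : K → ZMod ℓ} (pt : Psi k l Θ t t' ψt et) (ps : Psi k l Θ s s' ψs es)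
    (pz : Psi k l Θ z z' ψz ez) :
    ∀ᶠ a in ae k, ψt a ∈ l ∧ ∃ (i j : ℕ) (A B C' D : l), A * D - B * C' ≠ 0 ∧
      (∀ᶠ b in ae k, ψz (m a b) ^ (ringExpChar L) ^ i * (C' * ψs b ^ (ringExpChar L) ^ j + D) =
            A * ψs b ^ (ringExpChar L) ^ j + B) ∧
      ∀ (n : ℕ) (Ps Qs : L) (P₁ Q₁ : l[X]),
        (∀ W : ValuationSubring L, TrivOn W l → s' ∈ W → t' ∈ W → W.valuation (t' - ψt a) < 1 →
          blR W Ps (aeval s' P₁) ∧ blR W Qs (aeval s' Q₁)) →
        z' ^ (ringExpChar L) ^ n * Qs = Ps →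
        P₁ ^ (ringExpChar l) ^ i *
            (C C' * X ^ (ringExpChar l) ^ j + C D) ^ (ringExpChar l) ^ n =
          Q₁ ^ (ringExpChar l) ^ i *
            (C A * X ^ (ringExpChar l) ^ j + C B) ^ (ringExpChar l) ^ n := by
  have hl := H.acl
  obtain ⟨G', hfr, h⟩ := H.rel_all hts ht hs hz hm pt ps pz
  filter_upwards [h] with a ha
  obtain ⟨hα, hW⟩ := ha
  refine ⟨hα, ?_⟩
  have hlF : l ≤ adj G' s' := hfr.le.trans (le_adj G' s')
  obtain ⟨W, hWo⟩ := exists_over hfr.tt (hlF hα)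
  obtain ⟨i, j, A, hA, B, hB, C', hC, D, hD, hdet, hgen, hval⟩ := hW W hWo
  refine ⟨i, j, ⟨A, hA⟩, ⟨B, hB⟩, ⟨C', hC⟩, ⟨D, hD⟩, ?_, hgen, ?_⟩
  · intro h0
    exact hdet (congrArg Subtype.val h0)
  · intro n Ps Qs P₁ Q₁ hPQ hzz
    have hWl : TrivOn W l := hWo.triv.mono hlF
    have hsW : s' ∈ W := hWo.triv _ (mem_adj G' s')
    have htW : t' ∈ W := hWo.mem (hlF hα)
    obtain ⟨h1, h2⟩ := hPQ W hWl hsW htW hWo.lt
    have hmem : ∀ P : l[X], aeval s' P ∈ adj G' s' := fun P =>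
      adj_mono hfr.le s' (relb_aeval_mem s' P)
    have hsp : ∀ e : ℕ, s' ^ e ∈ adj G' s' := fun e => pow_mem (mem_adj G' s') e
    have h3 := bl_spec (n := n) (i := i) hWo.triv (hmem P₁) (hmem Q₁)
      (add_mem (mul_mem (hlF hC) (hsp _)) (hlF hD)) (add_mem (mul_mem (hlF hA) (hsp _)) (hlF hB))
      h1 h2 hval hzz
    apply line_transc hl hs.good'.1
    rw [bl_q l]
    simp only [map_mul, map_pow, map_add, aeval_C, aeval_X]
    exact h3

end hyp

end Vale.Agent.P019P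
end
end

section

section

/-!
# The bilinear form, the two steps
-/

namespace Vale.Agent.P019P

open Vale.Agent.P019

set_option linter.style.haveILetI false
set_option linter.unusedSectionVars false

open Polynomial Filter

theorem bl_two {R : Type*} [CommRing R] {P : R[X]} {N : ℕ} (hN : N ≠ 0)
    (h : ∀ e, e ≠ 0 → e ≠ N → P.coeff e = 0) : P = C (P.coeff N) * X ^ N + C (P.coeff 0) := by
  ext e
  rw [coeff_add, coeff_C_mul, coeff_X_pow, coeff_C]
  by_cases h0 : e = 0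
  · subst h0
    rw [if_neg hN.symm, if_pos rfl]
    simp
  · by_cases hN' : e = N
    · subst hN'
      rw [if_pos rfl, if_neg h0]
      simp
    · rw [if_neg hN', if_neg h0, h e h0 hN']
      simp

theorem bl_cop {L : Type*} [Field L] {l : Subfield L} {P Q U V : l[X][X]} {D : l[X]}
    (hUV : U * P + V * Q = C D) {β : l} (hD : D.eval β ≠ 0) :
    IsCoprime (P.map (evalRingHom β)) (Q.map (evalRingHom β)) := by
  have h1 := congrArg (fun F : l[X][X] => F.map (evalRingHom β)) hUV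
  simp only [Polynomial.map_add, Polynomial.map_mul, map_C, coe_evalRingHom] at h1
  refine ⟨C (D.eval β)⁻¹ * U.map (evalRingHom β), C (D.eval β)⁻¹ * V.map (evalRingHom β), ?_⟩
  calc C (D.eval β)⁻¹ * U.map (evalRingHom β) * P.map (evalRingHom β) +
        C (D.eval β)⁻¹ * V.map (evalRingHom β) * Q.map (evalRingHom β) =
      C (D.eval β)⁻¹ * (U.map (evalRingHom β) * P.map (evalRingHom β) +
        V.map (evalRingHom β) * Q.map (evalRingHom β)) := by ring
    _ = C (D.eval β)⁻¹ * C (D.eval β) := by rw [h1]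
    _ = 1 := by rw [← C_mul, inv_mul_cancel₀ hD, C_1]

/-- coprimality on the fibres of the other projection. -/
theorem bl_cop_ae {l : Type*} [Field l] [IsAlgClosed l] {p₁ p₀ q₁ q₀ u₁ u₀ v₁ v₀ : l[X]}
    (hb : u₁ * p₁ + u₀ * p₀ + v₁ * q₁ + v₀ * q₀ = 1) (hd : p₁ * q₀ - p₀ * q₁ ≠ 0) {N : ℕ}
    (hN : N ≠ 0) : ∃ F : l[X], F ≠ 0 ∧ ∀ α : l, F.eval α ≠ 0 →
      IsCoprime (C (α ^ N) * p₁ + p₀) (C (α ^ N) * q₁ + q₀) := by
  classical
  set F : l → l[X] := fun x => if p₁.eval x ≠ 0 ∨ p₀.eval x ≠ 0 then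
    C (p₁.eval x) * X ^ N + C (p₀.eval x) else C (q₁.eval x) * X ^ N + C (q₀.eval x) with hF
  have hlin : ∀ a b : l, (a ≠ 0 ∨ b ≠ 0) → (C a * X ^ N + C b : l[X]) ≠ 0 := by
    intro a b hab h0
    have h1 : (C a * X ^ N + C b : l[X]).coeff N = 0 := by rw [h0]; simp
    have h2 : (C a * X ^ N + C b : l[X]).coeff 0 = 0 := by rw [h0]; simp
    rw [bl_coeff, if_pos rfl, if_neg hN, add_zero] at h1
    rw [bl_coeff, if_pos rfl, if_neg hN.symm, zero_add] at h2
    rcases hab with h | h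
    · exact h h1
    · exact h h2
  have hF0 : ∀ x, F x ≠ 0 := by
    intro x
    by_cases hx : p₁.eval x ≠ 0 ∨ p₀.eval x ≠ 0
    · have : F x = C (p₁.eval x) * X ^ N + C (p₀.eval x) := if_pos hx
      rw [this]
      exact hlin _ _ hx
    · have : F x = C (q₁.eval x) * X ^ N + C (q₀.eval x) := if_neg hx
      rw [this]
      apply hlin
      by_contra hcon
      rw [not_or, not_not, not_not] at hx hcon
      have h1 := congrArg (eval x) hb
      rw [eval_add, eval_add, eval_add, eval_mul, eval_mul, eval_mul, eval_mul, hx.1, hx.2,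
        hcon.1, hcon.2] at h1
      simp at h1
  refine ⟨∏ x ∈ (p₁ * q₀ - p₀ * q₁).roots.toFinset, F x,
    Finset.prod_ne_zero_iff.2 fun x _ => hF0 x, ?_⟩
  intro α hα
  refine (isCoprime_iff_aeval_ne_zero_of_isAlgClosed (k := l) l _ _).2 fun x => ?_
  rw [coe_aeval_eq_eval]
  by_contra hcon
  rw [not_or, not_not, not_not] at hcon
  obtain ⟨h1, h2⟩ := hcon
  rw [eval_add, eval_mul, eval_C] at h1 h2
  have hx : x ∈ (p₁ * q₀ - p₀ * q₁).roots.toFinset := by
    rw [Multiset.mem_toFinset, mem_roots hd, IsRoot.def, eval_sub, eval_mul, eval_mul]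
    linear_combination (q₀.eval x) * 0 + (-(q₁.eval x)) * h1 + (p₁.eval x) * h2
  rw [eval_prod, Finset.prod_ne_zero_iff] at hα
  apply hα x hx
  by_cases hx : p₁.eval x ≠ 0 ∨ p₀.eval x ≠ 0
  · have : F x = C (p₁.eval x) * X ^ N + C (p₀.eval x) := if_pos hx
    rw [this]
    simp only [eval_add, eval_mul, eval_C, eval_pow, eval_X]
    linear_combination h1
  · have : F x = C (q₁.eval x) * X ^ N + C (q₀.eval x) := if_neg hx
    rw [this]
    simp only [eval_add, eval_mul, eval_C, eval_pow, eval_X]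
    linear_combination h2

variable {K L : Type*} [Field K] [Field L] [PerfectField K] [PerfectField L] {ℓ : ℕ}
  [Fact ℓ.Prime] [NeZero (ℓ : K)] [NeZero (ℓ : L)]
  {k : Subfield K} {l : Subfield L} {Θ : V ℓ K ≃ₗ[ZMod ℓ] V ℓ L}

theorem bl_shift (hk : IsAlgClosed k) {t : K} (ht : t ∉ k) (s : K) :
    Shift ℓ k s t (t + s) (fun a b => a + b) := by
  have := shift_add (ℓ := ℓ) hk ht s
  rwa [add_comm s t] at this

/-- the fibre relations determine the form of the polynomials. -/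
theorem bl_core (hk : IsAlgClosed k) (hl : IsAlgClosed l) {s : K} {t' s' z' : L}
    (hs : Rt k l Θ s s') {ψs : K → L} {es : K → ZMod ℓ} (ps : Psi k l Θ s s' ψs es)
    (hfib : ∀ᶠ b in ae k, ψs b ∈ l ∧ ∃ (i j : ℕ) (A B C' D : l), A * D - B * C' ≠ 0 ∧
      ∀ (n : ℕ) (Ps Qs : L) (P₁ Q₁ : l[X]),
        (∀ W : ValuationSubring L, TrivOn W l → t' ∈ W → s' ∈ W → W.valuation (s' - ψs b) < 1 →
          blR W Ps (aeval t' P₁) ∧ blR W Qs (aeval t' Q₁)) →
        z' ^ (ringExpChar L) ^ n * Qs = Ps →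
        P₁ ^ (ringExpChar l) ^ i *
            (C C' * X ^ (ringExpChar l) ^ j + C D) ^ (ringExpChar l) ^ n =
          Q₁ ^ (ringExpChar l) ^ i *
            (C A * X ^ (ringExpChar l) ^ j + C B) ^ (ringExpChar l) ^ n)
    {n : ℕ} {P Q : l[X][X]} (hPQ0 : P ≠ 0 ∨ Q ≠ 0)
    (hcop : ∀ᶠ b in ae k, ∀ hb : ψs b ∈ l,
      IsCoprime (P.map (evalRingHom ⟨ψs b, hb⟩)) (Q.map (evalRingHom ⟨ψs b, hb⟩)))
    (hPQ : z' ^ (ringExpChar L) ^ n * blE l s' t' Q = blE l s' t' P) :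
    ∃ r : ℕ, (∀ e, e ≠ 0 → e ≠ (ringExpChar l) ^ r → P.coeff e = 0 ∧ Q.coeff e = 0) ∧
      P.coeff ((ringExpChar l) ^ r) * Q.coeff 0 -
        P.coeff 0 * Q.coeff ((ringExpChar l) ^ r) ≠ 0 := by
  haveI := hl
  haveI := ae_neBot_of_isAlgClosed hk
  have htop := bl_top hPQ0
  generalize hN : max P.natDegree Q.natDegree = N at htop
  have hPN : P.natDegree ≤ N := by rw [← hN]; exact le_max_left _ _
  have hQN : Q.natDegree ≤ N := by rw [← hN]; exact le_max_right _ _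
  have htop' : ∀ᶠ b in ae k, ∀ hb : ψs b ∈ l, (P.coeff N).eval ⟨ψs b, hb⟩ ≠ 0 ∨
      (Q.coeff N).eval ⟨ψs b, hb⟩ ≠ 0 := by
    rcases htop with h | h
    · filter_upwards [bl_ae_ne hk hl hs ps h] with b hb' hb using Or.inl (hb' hb)
    · filter_upwards [bl_ae_ne hk hl hs ps h] with b hb' hb using Or.inr (hb' hb)
  have h1 : ∀ᶠ b in ae k, (∃ m : ℕ, N = (ringExpChar l) ^ m) ∧ ∀ hb : ψs b ∈ l,
      (∀ e, e ≠ 0 → e ≠ N → (P.coeff e).eval ⟨ψs b, hb⟩ = 0 ∧
        (Q.coeff e).eval ⟨ψs b, hb⟩ = 0) ∧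
      (P.coeff N * Q.coeff 0 - P.coeff 0 * Q.coeff N).eval ⟨ψs b, hb⟩ ≠ 0 := by
    filter_upwards [hfib, hcop, htop'] with b hb hDb htb
    obtain ⟨hβ, i, j, A, B, C', D', hdet, hid⟩ := hb
    have hid' := hid n (blE l s' t' P) (blE l s' t' Q) (P.map (evalRingHom ⟨ψs b, hβ⟩))
      (Q.map (evalRingHom ⟨ψs b, hβ⟩)) (by
        intro W hWl htW hsW hlt
        rw [← blE_eval, ← blE_eval]
        have hx : blR W s' (ψs b) := ⟨hsW, hWl _ hβ, hlt⟩
        exact ⟨blR.blE hWl hx (blR.refl htW) P, blR.blE hWl hx (blR.refl htW) Q⟩) hPQ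
    have h2 := bl_fib (N := N) (hDb hβ) hdet hid' (natDegree_map_le.trans hPN)
      (natDegree_map_le.trans hQN) (by
        rw [coeff_map, coeff_map]
        exact htb hβ)
    simp only [coeff_map, coe_evalRingHom] at h2
    refine ⟨h2.1, fun _ => ⟨h2.2.1, ?_⟩⟩
    rw [eval_sub, eval_mul, eval_mul]
    exact h2.2.2
  obtain ⟨b, ⟨⟨r, hr⟩, hb1⟩, hb2⟩ := (h1.and ps.cor).exists
  refine ⟨r, ?_⟩
  rw [← hr]
  refine ⟨fun e he0 heN => ⟨?_, ?_⟩, ?_⟩
  · exact bl_ae_zero hk hl hs ps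
      (by filter_upwards [h1] with b h hb using ((h.2 hb).1 e he0 heN).1)
  · exact bl_ae_zero hk hl hs ps
      (by filter_upwards [h1] with b h hb using ((h.2 hb).1 e he0 heN).2)
  · intro h0
    apply (hb1 hb2.1).2
    rw [h0, eval_zero]

/-- first step: linear in `t' ^ q^r`. -/
theorem Hyp.bl_step1 (H : Hyp ℓ k l Θ) {t s : K} {t' s' z' : L}
    (hst : Ind k s t) (ht : Rt k l Θ t t') (hs : Rt k l Θ s s')
    (hz : Rt k l Θ (t + s) z') {ψt ψs ψz : K → L}
    {et es ez : K → ZMod ℓ} (pt : Psi k l Θ t t' ψt et) (ps : Psi k l Θ s s' ψs es)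
    (pz : Psi k l Θ (t + s) z' ψz ez) :
    ∃ (n r : ℕ) (P₁ P₀ Q₁ Q₀ : l[X]), P₁ * Q₀ - P₀ * Q₁ ≠ 0 ∧
      z' ^ (ringExpChar L) ^ n * (aeval s' Q₁ * t' ^ (ringExpChar l) ^ r + aeval s' Q₀) =
        aeval s' P₁ * t' ^ (ringExpChar l) ^ r + aeval s' P₀ := by
  have hk := H.ack
  have hl := H.acl
  have hts : ¬ IsAlgebraic (adj k s) t := hst.2
  have hts' : ¬ IsAlgebraic (adj k t) s := (hst.symm hk).2
  have hzm : z' ∈ adj (adj l s') t' := H.z_mem hts ht hs hz (shift_add hk hs.good.1 t)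
  obtain ⟨n, P, Q, U, V, D, hD, hUV, hPQ⟩ := bl_rep hl hs.good'.1 hzm
  have hfib := H.bl_fibre hts' hs ht hz (bl_shift hk ht.good.1 s) ps pt pz
  have hPQ0 : P ≠ 0 ∨ Q ≠ 0 := by
    by_contra hcon
    rw [not_or, not_not, not_not] at hcon
    rw [hcon.1, hcon.2, mul_zero, mul_zero, add_zero] at hUV
    exact hD (C_eq_zero.1 hUV.symm)
  obtain ⟨r, hr1, hr2⟩ := bl_core hk hl hs ps (by
    filter_upwards [hfib] with b hb
    obtain ⟨hβ, i, j, A, B, C', D', hdet, -, hid⟩ := hb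
    exact ⟨hβ, i, j, A, B, C', D', hdet, hid⟩) hPQ0 (by
    filter_upwards [bl_ae_ne hk hl hs ps hD] with b hb hb' using bl_cop hUV (hb hb')) hPQ
  have hN0 : (ringExpChar l) ^ r ≠ 0 := (pow_pos (expChar_pos l _) r).ne'
  have hP2 := bl_two hN0 fun e h0 hN => (hr1 e h0 hN).1
  have hQ2 := bl_two hN0 fun e h0 hN => (hr1 e h0 hN).2
  refine ⟨n, r, P.coeff ((ringExpChar l) ^ r), P.coeff 0, Q.coeff ((ringExpChar l) ^ r),
    Q.coeff 0, hr2, ?_⟩
  rw [hP2, hQ2] at hPQ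
  simp only [map_add, map_mul, map_pow, blE_C, blE_X] at hPQ
  exact hPQ

theorem blE_mapC (x y : L) (p : l[X]) : blE l x y (p.map C) = aeval y p := by
  induction p using Polynomial.induction_on' with
  | add p q hp hq => rw [Polynomial.map_add, map_add, map_add, hp, hq]
  | monomial n a =>
    rw [map_monomial, blE_monomial, aeval_monomial, aeval_C]

/-- second step: the bilinear form. -/
theorem Hyp.bl_step2 (H : Hyp ℓ k l Θ) {t s : K} {t' s' z' : L}
    (hst : Ind k s t) (ht : Rt k l Θ t t') (hs : Rt k l Θ s s')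
    (hz : Rt k l Θ (t + s) z') {ψt ψs ψz : K → L}
    {et es ez : K → ZMod ℓ} (pt : Psi k l Θ t t' ψt et) (ps : Psi k l Θ s s' ψs es)
    (pz : Psi k l Θ (t + s) z' ψz ez) :
    ∃ (n r r' : ℕ) (p : Fin 4 → l[X]), p 0 * p 3 - p 1 * p 2 ≠ 0 ∧
      (∀ i, p i = C ((p i).coeff ((ringExpChar l) ^ r')) * X ^ (ringExpChar l) ^ r' +
        C ((p i).coeff 0)) ∧
      z' ^ (ringExpChar L) ^ n * (aeval s' (p 2) * t' ^ (ringExpChar l) ^ r + aeval s' (p 3)) =
        aeval s' (p 0) * t' ^ (ringExpChar l) ^ r + aeval s' (p 1) := by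
  have hk := H.ack
  have hl := H.acl
  haveI := hl
  obtain ⟨n, r, P₁, P₀, Q₁, Q₀, hdet, hrel⟩ := H.bl_step1 hst ht hs hz pt ps pz
  obtain ⟨g, p₁, p₀, q₁, q₀, u₁, u₀, v₁, v₀, hg0, hp₁, hp₀, hq₁, hq₀, hbez, hdet'⟩ :=
    bl_gcd4 hdet
  have hgs : aeval s' g ≠ 0 := line_aeval_ne hl hs.good'.1 hg0
  set N := (ringExpChar l) ^ r with hN
  have hN0 : N ≠ 0 := (pow_pos (expChar_pos l _) r).ne'
  have hrel' : z' ^ (ringExpChar L) ^ n * (aeval s' q₁ * t' ^ N + aeval s' q₀) =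
      aeval s' p₁ * t' ^ N + aeval s' p₀ := by
    apply mul_left_cancel₀ hgs
    rw [hp₁, hp₀, hq₁, hq₀] at hrel
    simp only [map_mul] at hrel
    linear_combination hrel
  -- the polynomials with the roles of the variables exchanged
  set P : l[X][X] := p₁.map C * C (X ^ N) + p₀.map C with hP
  set Q : l[X][X] := q₁.map C * C (X ^ N) + q₀.map C with hQ
  have hcoef : ∀ (p q : l[X]) (e : ℕ), (p.map C * C (X ^ N) + q.map C : l[X][X]).coeff e =
      C (p.coeff e) * X ^ N + C (q.coeff e) := by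
    intro p q e
    rw [coeff_add, coeff_mul_C, coeff_map, coeff_map]
  have hmap : ∀ (p q : l[X]) (α : l), (p.map C * C (X ^ N) + q.map C : l[X][X]).map
      (evalRingHom α) = C (α ^ N) * p + q := by
    intro p q α
    have hid : (evalRingHom α).comp (C : l →+* l[X]) = RingHom.id l := by
      ext x
      simp
    rw [Polynomial.map_add, Polynomial.map_mul, Polynomial.map_map, Polynomial.map_map, hid,
      Polynomial.map_id, Polynomial.map_id, map_C, coe_evalRingHom, eval_pow, eval_X, mul_comm]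
  have hblE : ∀ p q : l[X], blE l t' s' (p.map C * C (X ^ N) + q.map C) =
      aeval s' p * t' ^ N + aeval s' q := by
    intro p q
    rw [map_add, map_mul, blE_mapC, blE_mapC, blE_C, map_pow, aeval_X]
  have hPQ : z' ^ (ringExpChar L) ^ n * blE l t' s' Q = blE l t' s' P := by
    rw [hP, hQ, hblE, hblE]
    exact hrel'
  have hlin : ∀ a b : l, (C a * X ^ N + C b : l[X]) = 0 → a = 0 ∧ b = 0 := by
    intro a b h0
    have h1 : (C a * X ^ N + C b : l[X]).coeff N = 0 := by rw [h0]; simp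
    have h2 : (C a * X ^ N + C b : l[X]).coeff 0 = 0 := by rw [h0]; simp
    rw [bl_coeff, if_pos rfl, if_neg hN0, add_zero] at h1
    rw [bl_coeff, if_pos rfl, if_neg hN0.symm, zero_add] at h2
    exact ⟨h1, h2⟩
  have hPQ0 : P ≠ 0 ∨ Q ≠ 0 := by
    by_contra hcon
    rw [not_or, not_not, not_not] at hcon
    have key : ∀ (p q : l[X]), (p.map C * C (X ^ N) + q.map C : l[X][X]) = 0 → p = 0 ∧ q = 0 := by
      intro p q h0
      have h1 : ∀ e, p.coeff e = 0 ∧ q.coeff e = 0 := by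
        intro e
        apply hlin
        rw [← hcoef, h0, coeff_zero]
      exact ⟨Polynomial.ext fun e => by rw [(h1 e).1, coeff_zero],
        Polynomial.ext fun e => by rw [(h1 e).2, coeff_zero]⟩
    obtain ⟨e1, e2⟩ := key p₁ p₀ hcon.1
    obtain ⟨e3, e4⟩ := key q₁ q₀ hcon.2
    rw [e1, e2, e3, e4] at hbez
    simp at hbez
  obtain ⟨F, hF0, hF⟩ := bl_cop_ae hbez hdet' hN0
  have hfib := H.bl_fibre hst.2 ht hs hz (shift_add hk hs.good.1 t) pt ps pz
  obtain ⟨r', hr1, -⟩ := bl_core hk hl ht pt (by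
    filter_upwards [hfib] with b hb
    obtain ⟨hβ, i, j, A, B, C', D', hdet, -, hid⟩ := hb
    exact ⟨hβ, i, j, A, B, C', D', hdet, hid⟩) hPQ0 (by
    filter_upwards [bl_ae_ne hk hl ht pt hF0] with a ha ha'
    rw [hP, hQ, hmap, hmap]
    exact hF _ (ha ha')) hPQ
  have hM0 : (ringExpChar l) ^ r' ≠ 0 := (pow_pos (expChar_pos l _) r').ne'
  have h4 : ∀ e, e ≠ 0 → e ≠ (ringExpChar l) ^ r' → (p₁.coeff e = 0 ∧ p₀.coeff e = 0) ∧
      (q₁.coeff e = 0 ∧ q₀.coeff e = 0) := by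
    intro e he0 heN
    obtain ⟨h5, h6⟩ := hr1 e he0 heN
    rw [hP, hcoef] at h5
    rw [hQ, hcoef] at h6
    exact ⟨hlin _ _ h5, hlin _ _ h6⟩
  refine ⟨n, r, r', ![p₁, p₀, q₁, q₀], hdet', ?_, hrel'⟩
  intro i
  fin_cases i
  · exact bl_two hM0 fun e h0 hN => (h4 e h0 hN).1.1
  · exact bl_two hM0 fun e h0 hN => (h4 e h0 hN).1.2
  · exact bl_two hM0 fun e h0 hN => (h4 e h0 hN).2.1
  · exact bl_two hM0 fun e h0 hN => (h4 e h0 hN).2.2

end Vale.Agent.P019P
end
end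

section

section

/-!
# The coordinate of the sum is a bilinear function
-/

namespace Vale.Agent.P019P

open Vale.Agent.P019

set_option linter.style.haveILetI false
set_option linter.unusedSectionVars false

open Polynomial Filter

variable {K L : Type*} [Field K] [Field L] [PerfectField K] [PerfectField L] {ℓ : ℕ}
  [Fact ℓ.Prime] [NeZero (ℓ : K)] [NeZero (ℓ : L)]
  {k : Subfield K} {l : Subfield L} {Θ : V ℓ K ≃ₗ[ZMod ℓ] V ℓ L}

/-- values of a twisted linear polynomial. -/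
theorem bl_eval_lin {L : Type*} [Field L] {l : Subfield L} {p : l[X]} {m : ℕ}
    (hp : p = C (p.coeff ((ringExpChar l) ^ m)) * X ^ (ringExpChar l) ^ m + C (p.coeff 0))
    (β : l) : ((p.eval β : l) : L) = (β : L) ^ (ringExpChar L) ^ m *
      ((p.coeff ((ringExpChar l) ^ m) : l) : L) + ((p.coeff 0 : l) : L) := by
  have h1 := congrArg (eval β) hp
  rw [eval_add, eval_mul, eval_C, eval_C, eval_pow, eval_X] at h1
  have h2 := congrArg (Subtype.val : l → L) h1
  rw [h2]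
  change ((p.coeff ((ringExpChar l) ^ m) : l) : L) * (β : L) ^ (ringExpChar l) ^ m +
    ((p.coeff 0 : l) : L) = _
  rw [bl_q l]
  ring

/-- the bilinear form: `z' ^ q^n` is the quotient of bilinear functions of `t' ^ q^r`,
`s' ^ q^r'`, and the corresponding relation for the points. -/
theorem Hyp.bilin (H : Hyp ℓ k l Θ) {t s : K} {t' s' z' : L}
    (hst : Ind k s t) (ht : Rt k l Θ t t') (hs : Rt k l Θ s s')
    (hz : Rt k l Θ (t + s) z') {ψt ψs ψz : K → L}
    {et es ez : K → ZMod ℓ} (pt : Psi k l Θ t t' ψt et) (ps : Psi k l Θ s s' ψs es)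
    (pz : Psi k l Θ (t + s) z' ψz ez) :
    ∃ (n r r' : ℕ) (X Y : Fin 4 → L), (∀ i, X i ∈ l) ∧ (∀ i, Y i ∈ l) ∧
      ∀ᶠ b in ae k,
        (ψs b ^ (ringExpChar L) ^ r' * X 0 + Y 0) * (ψs b ^ (ringExpChar L) ^ r' * X 3 + Y 3) -
          (ψs b ^ (ringExpChar L) ^ r' * X 1 + Y 1) *
            (ψs b ^ (ringExpChar L) ^ r' * X 2 + Y 2) ≠ 0 ∧
        ∀ᶠ a in ae k,
          ψz (a + b) ^ (ringExpChar L) ^ n *
            ((ψs b ^ (ringExpChar L) ^ r' * X 2 + Y 2) * ψt a ^ (ringExpChar L) ^ r +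
              (ψs b ^ (ringExpChar L) ^ r' * X 3 + Y 3)) =
          (ψs b ^ (ringExpChar L) ^ r' * X 0 + Y 0) * ψt a ^ (ringExpChar L) ^ r +
              (ψs b ^ (ringExpChar L) ^ r' * X 1 + Y 1) := by
  have hk := H.ack
  have hl := H.acl
  haveI := hl
  obtain ⟨n, r, r', p, hdet, hp, hrel⟩ := H.bl_step2 hst ht hs hz pt ps pz
  refine ⟨n, r, r', fun i => ((p i).coeff ((ringExpChar l) ^ r') : l),
    fun i => ((p i).coeff 0 : l), fun i => Subtype.coe_prop _, fun i => Subtype.coe_prop _, ?_⟩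
  have hfib := H.bl_fibre (hst.symm hk).2 hs ht hz (bl_shift hk ht.good.1 s) ps pt pz
  filter_upwards [hfib, bl_ae_ne hk hl hs ps hdet] with b hb hdb
  obtain ⟨hβ, i, j, A, B, C', D, hAD, hgen, hid⟩ := hb
  set β : l := ⟨ψs b, hβ⟩ with hβd
  have hβe : ψs b = (β : L) := rfl
  simp only [hβe, ← bl_eval_lin (hp _) β]
  have hdb' := hdb hβ
  rw [eval_sub, eval_mul, eval_mul] at hdb'
  refine ⟨fun h0 => hdb' (Subtype.ext h0), ?_⟩
  -- the identity of polynomials
  have hid' := hid n (aeval s' (p 0) * t' ^ (ringExpChar l) ^ r + aeval s' (p 1))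
    (aeval s' (p 2) * t' ^ (ringExpChar l) ^ r + aeval s' (p 3))
    (C ((p 0).eval β) * X ^ (ringExpChar l) ^ r + C ((p 1).eval β))
    (C ((p 2).eval β) * X ^ (ringExpChar l) ^ r + C ((p 3).eval β)) (by
      intro W hWl htW hsW hlt
      have hx : blR W s' (β : L) := ⟨hsW, hWl _ hβ, hlt⟩
      have hy : blR W (t' ^ (ringExpChar l) ^ r) (t' ^ (ringExpChar l) ^ r) :=
        blR.refl (pow_mem htW _)
      have key : ∀ i j, blR W (aeval s' (p i) * t' ^ (ringExpChar l) ^ r + aeval s' (p j))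
          (aeval t' (C ((p i).eval β) * X ^ (ringExpChar l) ^ r + C ((p j).eval β))) := by
        intro i j
        rw [map_add, map_mul, aeval_C, aeval_C, map_pow, aeval_X]
        change blR W _ ((((p i).eval β : l) : L) * _ + (((p j).eval β : l) : L))
        rw [← bl_aeval_coe, ← bl_aeval_coe]
        exact ((blR.aeval hWl hx (p i)).mul hy).add (blR.aeval hWl hx (p j))
      exact ⟨key 0 1, key 2 3⟩) hrel
  -- the denominator of the Moebius transformation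
  have hden : (C C' * X ^ (ringExpChar l) ^ j + C D : l[X]) ≠ 0 := by
    intro h0
    have hJ : (ringExpChar l) ^ j ≠ 0 := (pow_pos (expChar_pos l _) j).ne'
    have h1 : (C C' * X ^ (ringExpChar l) ^ j + C D : l[X]).coeff ((ringExpChar l) ^ j) = 0 := by
      rw [h0]; simp
    have h2 : (C C' * X ^ (ringExpChar l) ^ j + C D : l[X]).coeff 0 = 0 := by rw [h0]; simp
    rw [bl_coeff, if_pos rfl, if_neg hJ, add_zero] at h1
    rw [bl_coeff, if_pos rfl, if_neg hJ.symm, zero_add] at h2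
    apply hAD
    rw [h1, h2]
    ring
  filter_upwards [hgen, pt.cor, bl_ae_ne hk hl ht pt hden] with a ha hα hda
  have hα' := hα.1
  set α : l := ⟨ψt a, hα'⟩ with hαd
  have hαe : ψt a = (α : L) := rfl
  have e1 := congrArg (eval α) hid'
  simp only [eval_mul, eval_pow, eval_add, eval_C, eval_X] at e1
  have e2 := congrArg (Subtype.val : l → L) e1
  have e3 : ∀ (u v u' v' : l), ((u ^ (ringExpChar l) ^ i * v ^ (ringExpChar l) ^ n : l) : L) =
      (u : L) ^ (ringExpChar L) ^ i * (v : L) ^ (ringExpChar L) ^ n := by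
    intro u v _ _
    rw [bl_q l]
    rfl
  rw [e3 _ _ 0 0, e3 _ _ 0 0] at e2
  have hda' := hda hα'
  simp only [eval_mul, eval_pow, eval_add, eval_C, eval_X] at hda'
  have hda2 : ((C' * α ^ (ringExpChar l) ^ j + D : l) : L) ≠ 0 := fun h0 =>
    hda' (Subtype.ext h0)
  have ha' : ψz (a + b) ^ (ringExpChar L) ^ i * ((C' * α ^ (ringExpChar l) ^ j + D : l) : L) =
      ((A * α ^ (ringExpChar l) ^ j + B : l) : L) := by
    have h5 := ha
    rw [add_comm b a, hαe] at h5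
    rw [bl_q l]
    exact h5
  rw [hαe]
  have e4 : ∀ i j : Fin 4, (((p i).eval β * α ^ (ringExpChar l) ^ r + (p j).eval β : l) : L) =
      (((p i).eval β : l) : L) * (α : L) ^ (ringExpChar L) ^ r + (((p j).eval β : l) : L) := by
    intro i j
    rw [bl_q l]
    rfl
  rw [e4, e4] at e2
  generalize (((p 0).eval β : l) : L) * (α : L) ^ (ringExpChar L) ^ r +
    (((p 1).eval β : l) : L) = U at e2 ⊢
  generalize (((p 2).eval β : l) : L) * (α : L) ^ (ringExpChar L) ^ r +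
    (((p 3).eval β : l) : L) = V at e2 ⊢
  rw [← ha', mul_pow, ← mul_assoc] at e2
  have e5 := mul_right_cancel₀ (pow_ne_zero _ hda2) e2
  apply pow_q_inj (n := i)
  rw [e5, mul_pow, ← pow_mul, ← pow_mul, mul_comm ((ringExpChar L) ^ n), mul_comm]

/-- injectivity of the correspondence off a finite set. -/
theorem bl_inj (hk : IsAlgClosed k) (hl : IsAlgClosed l) {s : K} {s' : L}
    (hR : Rt k l Θ s s') {ψ : K → L} {e : K → ZMod ℓ} (p : Psi k l Θ s s' ψ e) (n : ℕ) :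
    ∃ S : Set k, S.Finite ∧ Set.InjOn (fun b => rst k l ψ b ^ (ringExpChar l) ^ n) Sᶜ := by
  refine ⟨{b : k | ¬ (ψ b ∈ l ∧ e b ≠ 0 ∧ Cor k l Θ s s' (e b) b (ψ b))}, ?_, ?_⟩
  · exact ae_iff_sub.1 p.cor
  · intro b hb b' hb' hbb
    simp only [Set.mem_compl_iff, Set.mem_ofPred_eq, not_not] at hb hb'
    have h3 : rst k l ψ b = rst k l ψ b' := pow_q_inj hbb
    have h4 := congrArg (Subtype.val : l → L) h3
    rw [sigb_rst_eq hb.1, sigb_rst_eq hb'.1] at h4
    have h5 := hb'.2.2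
    rw [← h4] at h5
    exact Subtype.ext (Cor.inj hk hl hR hb.2.1 hb'.2.1 b.2 b'.2 hb.1 hb.2.2 h5)

/-- exact additive relations for the correspondence of points. -/
theorem Hyp.exact_add (H : Hyp ℓ k l Θ) {t s : K} {t' s' z' : L}
    (hst : Ind k s t) (ht : Rt k l Θ t t') (hs : Rt k l Θ s s')
    (hz : Rt k l Θ (t + s) z') {ψs : K → L}
    {es : K → ZMod ℓ} (ps : Psi k l Θ s s' ψs es) :
    ∃ S : Set K, S.Finite ∧ ∀ c ∈ k, ∃ A ∈ l, ∃ B ∈ l, ∃ C ∈ l, ∃ D ∈ l, A * D - B * C ≠ 0 ∧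
      ∀ b ∈ k, b ∉ S → b + c ∉ S → ψs b ∈ l ∧ ψs (b + c) * (C * ψs b + D) = A * ψs b + B := by
  have hk := H.ack
  have hl := H.acl
  haveI := hk
  haveI := hl
  obtain ⟨ψt, et, pt⟩ := H.exists_psi ht
  obtain ⟨ψz, ez, pz⟩ := H.exists_psi hz
  obtain ⟨n, r, r', X, Y, hX, hY, hb⟩ := H.bilin hst ht hs hz pt ps pz
  obtain ⟨S₀, hS₀, hpen⟩ := pencil (fun b : k => rst k l ψs b ^ (ringExpChar l) ^ r')
    (fun a : k => rst k l ψt a ^ (ringExpChar l) ^ r)
    (fun c : k => rst k l ψz c ^ (ringExpChar l) ^ n) (bl_inj hk hl hs ps r')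
    (bl_inj hk hl ht pt r) (fun i => ⟨X i, hX i⟩) (fun i => ⟨Y i, hY i⟩) (by
      filter_upwards [ae_iff_sub.1 hb, ae_iff_sub.1 ps.cor] with b hb1 hb2
      obtain ⟨h1, h2⟩ := hb1
      have hq := bl_q l
      refine ⟨?_, ?_⟩
      · intro h0
        apply h1
        have h3 := congrArg (Subtype.val : l → L) h0
        change ((rst k l ψs b : L) ^ (ringExpChar l) ^ r' * X 0 + Y 0) *
          ((rst k l ψs b : L) ^ (ringExpChar l) ^ r' * X 3 + Y 3) -
          ((rst k l ψs b : L) ^ (ringExpChar l) ^ r' * X 1 + Y 1) *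
            ((rst k l ψs b : L) ^ (ringExpChar l) ^ r' * X 2 + Y 2) = 0 at h3
        rw [sigb_rst_eq hb2.1, hq] at h3
        exact h3
      · filter_upwards [ae_iff_sub.1 h2, ae_iff_sub.1 pt.cor,
          ae_iff_sub.1 (ae_shift b.2 pz.cor)] with a ha1 ha2 ha3
        refine Subtype.ext ?_
        change (rst k l ψz (a + b) : L) ^ (ringExpChar l) ^ n *
            (((rst k l ψs b : L) ^ (ringExpChar l) ^ r' * X 2 + Y 2) *
              (rst k l ψt a : L) ^ (ringExpChar l) ^ r +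
              ((rst k l ψs b : L) ^ (ringExpChar l) ^ r' * X 3 + Y 3)) =
          ((rst k l ψs b : L) ^ (ringExpChar l) ^ r' * X 0 + Y 0) *
            (rst k l ψt a : L) ^ (ringExpChar l) ^ r +
              ((rst k l ψs b : L) ^ (ringExpChar l) ^ r' * X 1 + Y 1)
        have hzm : ψz ((a + b : k) : K) ∈ l := by
          have h5 := ha3.1
          rw [add_comm] at h5
          exact h5
        rw [sigb_rst_eq hb2.1, sigb_rst_eq ha2.1, sigb_rst_eq hzm, hq]
        exact ha1)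
  refine ⟨Subtype.val '' S₀ ∪ {b : K | b ∈ k ∧ ¬ (ψs b ∈ l ∧ es b ≠ 0 ∧
    Cor k l Θ s s' (es b) b (ψs b))}, (hS₀.image _).union (ae_iff.1 ps.cor), ?_⟩
  intro c hc
  obtain ⟨A, B, C', D, hd, hM⟩ := hpen ⟨c, hc⟩
  obtain ⟨A, rfl⟩ := exists_root A r'
  obtain ⟨B, rfl⟩ := exists_root B r'
  obtain ⟨C', rfl⟩ := exists_root C' r'
  obtain ⟨D, rfl⟩ := exists_root D r'
  refine ⟨A, A.2, B, B.2, C', C'.2, D, D.2, ?_, ?_⟩
  · intro h0
    apply hd
    rw [sg1_det_pow]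
    have h1 : A * D - B * C' = 0 := Subtype.ext h0
    rw [h1, zero_pow (pow_pos (expChar_pos l _) r').ne']
  · intro b hb hbS hbcS
    have hmem : ∀ x ∈ k, x ∉ Subtype.val '' S₀ ∪ {b : K | b ∈ k ∧ ¬ (ψs b ∈ l ∧ es b ≠ 0 ∧
        Cor k l Θ s s' (es b) b (ψs b))} → ψs x ∈ l := by
      intro x hx hxS
      by_contra hcon
      exact hxS (Or.inr ⟨hx, fun h => hcon h.1⟩)
    have hb1 := hmem b hb hbS
    have hb2 := hmem (b + c) (add_mem hb hc) hbcS
    refine ⟨hb1, ?_⟩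
    have h1 := hM ⟨b, hb⟩ (fun h => hbS (Or.inl ⟨_, h, rfl⟩)) (fun h => hbcS (Or.inl ⟨_, h, rfl⟩))
    have h2 := sg1_unpow r' h1
    have h3 := congrArg (Subtype.val : l → L) h2
    change (rst k l ψs (⟨b, hb⟩ + ⟨c, hc⟩) : L) * ((C' : L) * (rst k l ψs ⟨b, hb⟩ : L) + (D : L)) =
      (A : L) * (rst k l ψs ⟨b, hb⟩ : L) + (B : L) at h3
    have hb2' : ψs (((⟨b, hb⟩ : k) + (⟨c, hc⟩ : k) : k) : K) ∈ l := hb2
    rw [sigb_rst_eq (b := ⟨b, hb⟩) hb1, sigb_rst_eq hb2'] at h3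
    exact h3

end Vale.Agent.P019P
end
end

section

section

/-!
# Special elements, all of whose points correspond
-/

namespace Vale.Agent.P019P

open Vale.Agent.P019

set_option linter.style.haveILetI false
set_option linter.unusedSectionVars false

open Polynomial Filter

variable {K L : Type*} [Field K] [Field L] [PerfectField K] [PerfectField L] {ℓ : ℕ}
  [Fact ℓ.Prime] [NeZero (ℓ : K)] [NeZero (ℓ : L)]
  {k : Subfield K} {l : Subfield L} {Θ : V ℓ K ≃ₗ[ZMod ℓ] V ℓ L}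

/-- the type of the point of the line of `z'` below a transferred valuation. -/
theorem Hyp.spec_point (H : Hyp ℓ k l Θ) {F : Subfield K} (hkF : k ≤ F) (hfg : FG k F)
    {W : ValuationSubring K} {π θ : K} (hN : Nice W F π θ) {y : K} (hy : Good k y)
    (hyW : TrivOn W (adj k y)) {z : K} {z' : L} (hR : Rt k l Θ z z') {v₀ : V ℓ K}
    (hv₀ : v₀ ∈ VS ℓ (adj k z)) (h₀ : hN.unif.fn ℓ v₀ ≠ 0) :
    (∃ β ∈ l, ∃ κ : ZMod ℓ, ∀ v ∈ VS ℓ (adj k z),
      hN.unif.fn ℓ v = κ * del ℓ l z' β (Θ v)) ∨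
    (∀ c ∈ l, ∀ c' ∈ l, hN.unif.fn ℓ (Θ.symm (cl ℓ (z' - c) - cl ℓ (z' - c'))) = 0) := by
  obtain ⟨O, hOl, hT⟩ := H.exists_tr hkF hfg hN hy hyW
  have hnt : ¬ TrivOn O (adj l z') := by
    intro hO
    obtain ⟨x, hx, hx0, hx1⟩ := (hR.map v₀).2 hv₀
    have h1 := hT.unit hN.unif x (hO.eq_one hx hx0)
    rw [← hx1, LinearEquiv.symm_apply_apply] at h1
    exact h₀ h1
  set f : V ℓ L →ₗ[ZMod ℓ] ZMod ℓ := (hN.unif.fn ℓ) ∘ₗ Θ.symm.toLinearMap with hf
  have hfv : ∀ v, f (Θ v) = hN.unif.fn ℓ v := by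
    intro v
    change hN.unif.fn ℓ (Θ.symm (Θ v)) = _
    rw [LinearEquiv.symm_apply_apply]
  have hfs : ∀ w, hN.unif.fn ℓ (Θ.symm w) = f w := fun w => rfl
  have hfu : ∀ z, O.valuation z = 1 → f (cl ℓ z) = 0 := fun z hz => hT.unit hN.unif z hz
  rcases exists_centre H.acl hR.good' hOl hnt with ⟨β, hβ, hβ1⟩ | hinf
  · left
    refine ⟨β, hβ, f (cl ℓ (z' - β)), fun v hv => ?_⟩
    rw [← hfv]
    exact del_of_kills H.acl hR.good' hOl hβ hβ1 f hfu ((hR.map v).2 hv)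
  · right
    have key : ∀ c ∈ l, f (cl ℓ (z' - c)) = f (cl ℓ z') := by
      intro c hc
      have hs0 : z' ≠ 0 := by
        rintro rfl
        rw [map_zero] at hinf
        exact absurd hinf (not_lt.2 zero_le_one)
      have hcle : O.valuation c < O.valuation z' := (hOl.le_one hc).trans_lt hinf
      have hval : O.valuation (z' - c) = O.valuation z' :=
        Valuation.map_sub_eq_of_lt_left _ hcle
      have hsc0 : z' - c ≠ 0 := by
        intro h
        rw [h, map_zero] at hval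
        exact (Valuation.ne_zero_iff O.valuation).2 hs0 hval.symm
      have h1 : O.valuation ((z' - c) / z') = 1 := by
        rw [map_div₀, hval, div_self ((Valuation.ne_zero_iff O.valuation).2 hs0)]
      have h2 := hfu _ h1
      rw [cl_div ℓ hsc0 hs0, map_sub, sub_eq_zero] at h2
      exact h2
    intro c hc c' hc'
    rw [hfs, map_sub, key c hc, key c' hc', sub_self]

/-- shifting the parameter. -/
theorem spec_ae_shift {P : K → Prop} (h : ∀ᶠ c in ae k, P c) : ∀ᶠ c in ae k, P (c - 1) := by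
  rw [ae_iff] at h ⊢
  refine (h.image (fun c => c + 1)).subset ?_
  rintro c ⟨hc, hc1⟩
  exact ⟨c - 1, ⟨k.sub_mem hc k.one_mem, hc1⟩, sub_add_cancel c 1⟩

/-- comparison of the coefficients of two points through the degree formula. -/
theorem Hyp.spec_compare (H : Hyp ℓ k l Θ) {z : K} {z' : L} (hR : Rt k l Θ z z')
    (hfin : ∀ b ∈ k,
      (∃ β ∈ l, ∃ κ : ZMod ℓ, ∀ v ∈ VS ℓ (adj k z), del ℓ k z b v = κ * del ℓ l z' β (Θ v)) ∨
      (∀ c ∈ l, ∀ c' ∈ l, del ℓ k z b (Θ.symm (cl ℓ (z' - c) - cl ℓ (z' - c'))) = 0))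
    {g : V ℓ K →ₗ[ZMod ℓ] ZMod ℓ} (hg : ∀ b ∈ k, g (cl ℓ (z - b)) = -1)
    (hinf :
      (∃ β ∈ l, ∃ κ : ZMod ℓ, ∀ v ∈ VS ℓ (adj k z), g v = κ * del ℓ l z' β (Θ v)) ∨
      (∀ c ∈ l, ∀ c' ∈ l, g (Θ.symm (cl ℓ (z' - c) - cl ℓ (z' - c'))) = 0))
    {b b' : K} (hb : b ∈ k) (hb' : b' ∈ k) {β β' : L} (hβ : β ∈ l) (hβ' : β' ∈ l)
    {e e' : ZMod ℓ} (he : e ≠ 0) (he' : e' ≠ 0) (h : Cor k l Θ z z' e b β)
    (h' : Cor k l Θ z z' e' b' β') : e = e' := by
  classical
  by_cases hββ : β = β'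
  · subst hββ
    have hbb := Cor.inj H.ack H.acl hR he he' hb hb' hβ h h'
    subst hbb
    exact (Cor.unique H.ack H.acl hR he hb hβ hβ h h').2
  have hbb : b ≠ b' := by
    rintro rfl
    exact hββ (Cor.unique H.ack H.acl hR he hb hβ hβ' h h').1
  have hz'k : ∀ c ∈ l, cl ℓ (z' - c) ∈ VS ℓ (adj l z') := fun c hc =>
    cl_mem_VS ((adj l z').sub_mem (mem_adj l z') (le_adj l z' hc))
  have hzk : ∀ c ∈ k, cl ℓ (z - c) ∈ VS ℓ (adj k z) := fun c hc =>
    cl_mem_VS ((adj k z).sub_mem (mem_adj k z) (le_adj k z hc))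
  set w : V ℓ L := cl ℓ (z' - β) - cl ℓ (z' - β') with hw
  have hwV : w ∈ VS ℓ (adj l z') := Submodule.sub_mem _ (hz'k β hβ) (hz'k β' hβ')
  set v : V ℓ K := Θ.symm w with hv
  have hΘv : Θ v = w := by rw [hv, LinearEquiv.apply_symm_apply]
  have hvV : v ∈ VS ℓ (adj k z) := by rw [← hR.map, hΘv]; exact hwV
  -- values of the functionals of the second line at `w`
  have hdw : ∀ γ ∈ l, γ ≠ β → γ ≠ β' → del ℓ l z' γ w = 0 := by
    intro γ hγ h1 h2
    rw [hw, map_sub, del_ne H.acl hR.good' hγ hβ (Ne.symm h1),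
      del_ne H.acl hR.good' hγ hβ' (Ne.symm h2), sub_self]
  have hdβ : del ℓ l z' β w = 1 := by
    rw [hw, map_sub, del_self H.acl hR.good' hβ, del_ne H.acl hR.good' hβ hβ' (Ne.symm hββ),
      sub_zero]
  have hdβ' : del ℓ l z' β' w = -1 := by
    rw [hw, map_sub, del_self H.acl hR.good' hβ', del_ne H.acl hR.good' hβ' hβ hββ, zero_sub]
  have hvb : del ℓ k z b v = e := by
    rw [h v hvV, hΘv, hdβ, mul_one]
  have hvb' : del ℓ k z b' v = -e' := by
    rw [h' v hvV, hΘv, hdβ', mul_neg, mul_one]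
  have hvo : ∀ c ∈ k, c ≠ b → c ≠ b' → del ℓ k z c v = 0 := by
    intro c hc hcb hcb'
    rcases hfin c hc with ⟨γ, hγ, κ, hκ⟩ | h1
    · have hκ0 : κ ≠ 0 := by
        rintro rfl
        have h2 := hκ _ (hzk c hc)
        rw [del_self H.ack hR.good hc, zero_mul] at h2
        exact one_ne_zero h2
      rw [hκ v hvV, hΘv]
      by_cases h1 : γ = β
      · subst h1
        exact absurd (Cor.inj H.ack H.acl hR hκ0 he hc hb hγ hκ h) hcb
      by_cases h2 : γ = β'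
      · subst h2
        exact absurd (Cor.inj H.ack H.acl hR hκ0 he' hc hb' hγ hκ h') hcb'
      rw [hdw γ hγ h1 h2, mul_zero]
    · exact h1 β hβ β' hβ'
  have hgv : g v = 0 := by
    rcases hinf with ⟨γ, hγ, κ, hκ⟩ | h1
    · -- a finite point is not proportional to the point of a finite point
      have hcontra : ∀ {b₁ b₂ : K} {e₁ : ZMod ℓ}, b₁ ∈ k → b₂ ∈ k → b₂ ≠ b₁ → e₁ ≠ 0 →
          Cor k l Θ z z' e₁ b₁ γ → False := by
        intro b₁ b₂ e₁ hb₁ hb₂ hne he₁ hC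
        have h2 := hC _ (hzk b₂ hb₂)
        rw [del_ne H.ack hR.good hb₁ hb₂ hne] at h2
        have h3 : del ℓ l z' γ (Θ (cl ℓ (z - b₂))) = 0 :=
          (mul_eq_zero.1 h2.symm).resolve_left he₁
        have h4 := hκ _ (hzk b₂ hb₂)
        rw [h3, mul_zero, hg b₂ hb₂] at h4
        exact one_ne_zero (neg_eq_zero.1 h4)
      rw [hκ v hvV, hΘv]
      by_cases h1 : γ = β
      · subst h1
        exact (hcontra hb hb' (Ne.symm hbb) he h).elim
      by_cases h2 : γ = β'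
      · subst h2
        exact (hcontra hb' hb hbb he' h').elim
      rw [hdw γ hγ h1 h2, mul_zero]
    · exact h1 β hβ β' hβ'
  -- the degree formula
  obtain ⟨T, n, hT, hvT⟩ := adj_factor H.ack hR.good.1 hvV
  have hdel : ∀ c ∈ k, del ℓ k z c v = if c ∈ T then n c else 0 := by
    intro c hc
    rw [hvT]
    exact del_eval H.ack hR.good T hT n hc
  have hgT : g v = -∑ c ∈ T, n c := by
    rw [hvT, map_sum, ← Finset.sum_neg_distrib]
    refine Finset.sum_congr rfl fun c hc => ?_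
    rw [map_smul, hg c (hT c hc), smul_eq_mul, mul_neg, mul_one]
  have hbT : b ∈ T := by
    by_contra hcon
    have h1 := hdel b hb
    rw [if_neg hcon, hvb] at h1
    exact he h1
  have hbT' : b' ∈ T := by
    by_contra hcon
    have h1 := hdel b' hb'
    rw [if_neg hcon, hvb'] at h1
    exact he' (neg_eq_zero.1 h1)
  have hsum : ∑ c ∈ T, n c = e - e' := by
    have h1 : ∀ c ∈ T, n c = (if c = b then e else 0) + (if c = b' then -e' else 0) := by
      intro c hc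
      have h2 := hdel c (hT c hc)
      rw [if_pos hc] at h2
      by_cases h3 : c = b
      · subst h3
        rw [if_pos rfl, if_neg hbb, add_zero, ← h2, hvb]
      by_cases h4 : c = b'
      · subst h4
        rw [if_neg h3, if_pos rfl, zero_add, ← h2, hvb']
      rw [if_neg h3, if_neg h4, add_zero, ← h2, hvo c (hT c hc) h3 h4]
    rw [Finset.sum_congr rfl h1, Finset.sum_add_distrib, Finset.sum_ite_eq', Finset.sum_ite_eq',
      if_pos hbT, if_pos hbT', sub_eq_add_neg]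
  rw [hgv, hsum] at hgT
  have h5 : e - e' = 0 := neg_eq_zero.1 hgT.symm
  exact sub_eq_zero.1 h5

/-- for every good `s` there is `t` such that the coefficients of the correspondence for `t + s`
are constant. -/
theorem Hyp.exists_special (H : Hyp ℓ k l Θ) {s : K} (hs : Good k s) :
    ∃ t, Good k t ∧ Good k (t + s) ∧ Ind k s t ∧ ∀ z', Rt k l Θ (t + s) z' →
      ∃ e₀ : ZMod ℓ, ∀ b ∈ k, ∀ β ∈ l, ∀ e : ZMod ℓ, e ≠ 0 →
        Cor k l Θ (t + s) z' e b β → e = e₀ := by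
  classical
  have hRAC := RAC_of_isAlgClosed k H.ack
  have hne := ae_neBot_of_isAlgClosed H.ack
  obtain ⟨x₁, hx₁, hx₁s⟩ := H.exists_indep hs
  have hsk : ¬ IsAlgebraic k s := fun h => hs.1 (hRAC s h)
  obtain ⟨G, hG⟩ := exists_frame H.fgk hsk hx₁s
  obtain ⟨θ, hθ⟩ := hG.nice H.fgk
  set F : Subfield K := adj G s with hF
  have hkF : k ≤ F := hG.le.trans (le_adj G s)
  have hsF : s ∈ F := mem_adj G s
  have hksF : adj k s ≤ F := adj_mono hG.le s
  have hfgF : FG k F := hG.fg.adj s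
  have hθk : ∀ᶠ a in ae k, ∀ W : ValuationSubring K, Over W F x₁ a → Nice W F (x₁ - a) θ :=
    ae_mono hkF hθ
  obtain ⟨a₀, ha₀, ha₀k⟩ := (hθk.and (ae_mem k)).exists
  have hxa : x₁ - a₀ ≠ 0 := fun h => hx₁.1 (by rw [sub_eq_zero.1 h]; exact ha₀k)
  set x : K := (x₁ - a₀)⁻¹ with hx
  have hx0 : x ≠ 0 := inv_ne_zero hxa
  have hx₁x : x₁ = x⁻¹ + a₀ := by rw [hx, inv_inv, sub_add_cancel]
  have hxs : ¬ IsAlgebraic (adj k s) x := by
    intro h
    apply hx₁s
    have h1 : x ∈ rac (adj k s) := mem_rac.2 h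
    have h2 : x₁ ∈ rac (adj k s) := by
      rw [hx₁x]
      exact (rac (adj k s)).add_mem ((rac (adj k s)).inv_mem h1) (le_rac _ (le_adj k s ha₀k))
    exact mem_rac.1 h2
  have hxk : x ∉ k := fun h => hxs (isAlgebraic_of_mem (le_adj k s h))
  have hsx : ¬ IsAlgebraic (adj k x) s := fun h => hxs (exchange hsk h)
  -- the exceptional parameters
  have hEx : ∀ᶠ c in ae k, ∀ b ∈ k, b - c * s ≠ 0 → ∀ W : ValuationSubring K,
      Over W F x₁ (a₀ + (b - c * s)⁻¹) → Nice W F (x₁ - (a₀ + (b - c * s)⁻¹)) θ := by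
    rw [ae_iff] at hθ ⊢
    refine (hθ.biUnion (t := fun a => {c : K | c ∈ k ∧ ∃ b ∈ k, b - c * s ≠ 0 ∧
      a₀ + (b - c * s)⁻¹ = a}) ?_).subset ?_
    · intro a _
      apply Set.Subsingleton.finite
      rintro c ⟨hc, b, hb, hbc, h1⟩ c' ⟨hc', b', hb', hbc', h1'⟩
      have h2 : b - c * s = b' - c' * s := by
        have h3 : (b - c * s)⁻¹ = (b' - c' * s)⁻¹ := by
          have h4 := h1.trans h1'.symm
          exact add_left_cancel h4
        exact inv_injective h3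
      by_contra hcc
      have hd : c - c' ≠ 0 := sub_ne_zero.2 hcc
      apply hs.1
      have h5 : s = (b - b') / (c - c') := by
        rw [eq_div_iff hd]
        linear_combination -h2
      rw [h5]
      exact k.div_mem (k.sub_mem hb hb') (k.sub_mem hc hc')
    · rintro c ⟨hc, hc1⟩
      push Not at hc1
      obtain ⟨b, hb, hbc, W, hW, hWn⟩ := hc1
      rw [Set.mem_iUnion₂]
      refine ⟨a₀ + (b - c * s)⁻¹, ⟨?_, fun h => hWn (h W hW)⟩, hc, b, hb, hbc, rfl⟩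
      exact F.add_mem (hkF ha₀k) (F.inv_mem (F.sub_mem (hkF hb) (F.mul_mem (hkF hc) hsF)))
  have hgood := H.bert x s hxk hsx
  have hgood' := spec_ae_shift hgood
  have hc0' : ∀ᶠ c in ae k, c ≠ 0 := by
    rw [ae_iff]
    refine (Set.finite_singleton (0 : K)).subset ?_
    rintro c ⟨_, hc⟩
    rw [not_not] at hc
    exact hc
  obtain ⟨c, ⟨⟨⟨⟨hc1, hc2⟩, hc3⟩, hc0⟩, hck⟩⟩ :=
    ((((hgood.and hgood').and hEx).and hc0').and (ae_mem k)).exists
  have htz : x + (c - 1) * s + s = x + c * s := by ring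
  refine ⟨x + (c - 1) * s, hc2, by rw [htz]; exact hc1, ⟨hs.1, ?_⟩, ?_⟩
  · intro h
    apply hxs
    have h1 : x + (c - 1) * s ∈ rac (adj k s) := mem_rac.2 h
    have h2 : (c - 1) * s ∈ rac (adj k s) :=
      le_rac _ ((adj k s).mul_mem (le_adj k s (k.sub_mem hck k.one_mem)) (mem_adj k s))
    have h3 := (rac (adj k s)).sub_mem h1 h2
    rw [add_sub_cancel_right] at h3
    exact mem_rac.1 h3
  rw [htz]
  intro z' hR
  set z : K := x + c * s with hz
  have hbcs : ∀ b ∈ k, b - c * s ≠ 0 := by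
    intro b hb h
    apply hs.1
    have h1 : s = b / c := by
      rw [eq_div_iff hc0]
      linear_combination -h
    rw [h1]
    exact k.div_mem hb hck
  have huF : ∀ b ∈ k, b - c * s ∈ F := fun b hb =>
    F.sub_mem (hkF hb) (F.mul_mem (hkF hck) hsF)
  have hzk : ∀ c ∈ k, cl ℓ (z - c) ∈ VS ℓ (adj k z) := fun c hc =>
    cl_mem_VS ((adj k z).sub_mem (mem_adj k z) (le_adj k z hc))
  -- finite points
  have hfin : ∀ b ∈ k,
      (∃ β ∈ l, ∃ κ : ZMod ℓ, ∀ v ∈ VS ℓ (adj k z), del ℓ k z b v = κ * del ℓ l z' β (Θ v)) ∨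
      (∀ c ∈ l, ∀ c' ∈ l, del ℓ k z b (Θ.symm (cl ℓ (z' - c) - cl ℓ (z' - c'))) = 0) := by
    intro b hb
    set u : K := b - c * s with hu
    have hu0 : u ≠ 0 := hbcs b hb
    have huF' : u ∈ F := huF b hb
    have haF : a₀ + u⁻¹ ∈ F := F.add_mem (hkF ha₀k) (F.inv_mem huF')
    obtain ⟨W, hW⟩ := exists_over hG.tt haF
    have hN := hc3 b hb hu0 W hW
    have hWF : TrivOn W F := hN.triv
    have hWk : TrivOn W k := hWF.mono hkF
    have hWs : TrivOn W (adj k s) := hWF.mono hksF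
    have hvu : W.valuation u = 1 := hWF.eq_one huF' hu0
    have hvui : W.valuation u⁻¹ = 1 := by rw [map_inv₀, hvu, inv_one]
    have hva : W.valuation (x₁ - a₀) = 1 := by
      have h1 : x₁ - a₀ = (x₁ - (a₀ + u⁻¹)) + u⁻¹ := by ring
      rw [h1, Valuation.map_add_eq_of_lt_right _ (by rw [hvui]; exact hW.lt), hvui]
    have hπ0 : x₁ - (a₀ + u⁻¹) ≠ 0 := hN.unif.ne
    have hzb : z - b = (-u * x) * (x₁ - (a₀ + u⁻¹)) := by
      rw [hz, hx, hu]
      have hu0' : b - c * s ≠ 0 := hu0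
      field_simp
      ring
    have hvux : W.valuation (-u * x) = 1 := by
      rw [map_mul, Valuation.map_neg, hvu, hx, map_inv₀, hva, inv_one, one_mul]
    have hux0 : -u * x ≠ 0 := mul_ne_zero (neg_ne_zero.2 hu0) hx0
    have hlt : W.valuation (z - b) < 1 := by
      rw [hzb, map_mul, hvux, one_mul]
      exact hW.lt
    have hfn1 : hN.unif.fn ℓ (cl ℓ (z - b)) = 1 := by
      rw [hzb, cl_mul ℓ hux0 hπ0, map_add, hN.unif.fn_unit ℓ _ hvux, hN.unif.fn_self ℓ, zero_add]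
    have hfn : ∀ v ∈ VS ℓ (adj k z), hN.unif.fn ℓ v = del ℓ k z b v := by
      intro v hv
      rw [del_of_kills H.ack hR.good hWk hb hlt (hN.unif.fn ℓ)
        (fun z hz => hN.unif.fn_unit ℓ z hz) hv, hfn1, one_mul]
    rcases H.spec_point hkF hfgF hN hs hWs hR (hzk b hb) (by rw [hfn1]; exact one_ne_zero)
      with ⟨β, hβ, κ, hκ⟩ | h1
    · left
      exact ⟨β, hβ, κ, fun v hv => by rw [← hfn v hv]; exact hκ v hv⟩
    · right
      intro d hd d' hd'
      rw [← hfn]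
      · exact h1 d hd d' hd'
      · rw [← hR.map, LinearEquiv.apply_symm_apply]
        exact Submodule.sub_mem _
          (cl_mem_VS ((adj l z').sub_mem (mem_adj l z') (le_adj l z' hd)))
          (cl_mem_VS ((adj l z').sub_mem (mem_adj l z') (le_adj l z' hd')))
  -- the pole
  obtain ⟨W, hW⟩ := exists_over hG.tt (hkF ha₀k)
  have hN := ha₀ W hW
  have hWF : TrivOn W F := hN.triv
  have hWs : TrivOn W (adj k s) := hWF.mono hksF
  have hg : ∀ b ∈ k, hN.unif.fn ℓ (cl ℓ (z - b)) = -1 := by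
    intro b hb
    have huF' : b - c * s ∈ F := huF b hb
    have hlt : W.valuation ((b - c * s) * (x₁ - a₀)) < 1 := by
      rw [map_mul]
      refine (mul_le_mul_left (hWF.le_one huF') _).trans_lt ?_
      rw [one_mul]
      exact hW.lt
    have h1 : W.valuation (1 - (b - c * s) * (x₁ - a₀)) = 1 := by
      rw [Valuation.map_one_sub_of_lt _ hlt]
    have h10 : 1 - (b - c * s) * (x₁ - a₀) ≠ 0 := by
      intro h0
      rw [h0, map_zero] at h1
      exact zero_ne_one h1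
    have hzb : z - b = (1 - (b - c * s) * (x₁ - a₀)) / (x₁ - a₀) := by
      rw [hz, hx]
      field_simp
      ring
    rw [hzb, cl_div ℓ h10 hxa, map_sub, hN.unif.fn_unit ℓ _ h1, hN.unif.fn_self ℓ, zero_sub]
  have hinf := H.spec_point hkF hfgF hN hs hWs hR (hzk 0 k.zero_mem)
    (by rw [hg 0 k.zero_mem]; exact neg_ne_zero.2 one_ne_zero)
  by_cases hex : ∃ b ∈ k, ∃ β ∈ l, ∃ e : ZMod ℓ, e ≠ 0 ∧ Cor k l Θ z z' e b β
  · obtain ⟨b₀, hb₀, β₀, hβ₀, e₀, he₀, hC₀⟩ := hex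
    refine ⟨e₀, fun b hb β hβ e he hC => ?_⟩
    exact H.spec_compare hR hfin hg hinf hb hb₀ hβ hβ₀ he he₀ hC hC₀
  · refine ⟨0, fun b hb β hβ e he hC => ?_⟩
    exact absurd ⟨b, hb, β, hβ, e, he, hC⟩ hex

end Vale.Agent.P019P
end
end

section

section

/-!
# Geometry of the ultrapower of an algebraically closed field
-/

namespace Vale.Agent.P019P

open Vale.Agent.P019

set_option linter.style.haveILetI false
set_option linter.unusedSectionVars false

open Polynomial Filter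

variable {Ω : Type*} [Field Ω] {I : Type*} {U : Ultrafilter I}

/-- linear disjointness in the ultrapower. -/
theorem e4g_lin {R P Q : Subfield Ω} (hR : IsAlgClosed R) (hQ : IsAlgClosed Q) (hRP : R ≤ P)
    (hRQ : R ≤ Q) (h : Fre R P Q) {ι : Type*} [Fintype ι] {q : ι → Gm U Ω}
    (hq : ∀ j, q j ∈ uSub U (fun _ => P))
    (hind : LinearIndependent (uSub U (fun _ => R)) q) :
    LinearIndependent (uSub U (fun _ => Q)) q := by
  classical
  have hq' : ∀ j, ∃ f : I → Ω, gm U f = q j ∧ ∀ i, f i ∈ P := hq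
  choose a ha haP using hq'
  rw [Fintype.linearIndependent_iff] at hind ⊢
  intro g hg j₀
  by_contra hgj
  have hc : ∀ j, ∃ f : I → Ω, gm U f = ((g j : uSub U (fun _ => Q)) : Gm U Ω) ∧ ∀ i, f i ∈ Q :=
    fun j => (g j).2
  choose c hc hcQ using hc
  have h1 : ∀ᶠ i in U, ∑ j, c j i * a j i = 0 := by
    rw [← gm_eq_zero, gm_sum Finset.univ (fun j i => c j i * a j i), ← hg]
    refine Finset.sum_congr rfl fun j _ => ?_
    rw [gm_mul, hc, ha]
    rfl
  have h2 : ∀ᶠ i in U, c j₀ i ≠ 0 := by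
    rw [Ultrafilter.eventually_not, ← gm_eq_zero, hc]
    exact fun h0 => hgj (Subtype.ext h0)
  have h3 : ∀ i, ∃ d : ι → Ω, (∀ j, d j ∈ R) ∧ ∑ j, d j * a j i = 0 ∧
      (∑ j, c j i * a j i = 0 → c j₀ i ≠ 0 → ∃ j, d j ≠ 0) := by
    intro i
    by_cases hi : ∑ j, c j i * a j i = 0 ∧ c j₀ i ≠ 0
    · have h4 : ¬ LinearIndependent R (fun j => a j i) := by
        intro h5
        have h6 := Fre.indep hR hQ hRP hRQ h (fun j => haP j i) h5
        rw [Fintype.linearIndependent_iff] at h6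
        have h7 := h6 (fun j => ⟨c j i, hcQ j i⟩) hi.1 j₀
        exact hi.2 (congrArg Subtype.val h7)
      rw [Fintype.not_linearIndependent_iff] at h4
      obtain ⟨d, hd, j, hj⟩ := h4
      exact ⟨fun j => (d j : Ω), fun j => (d j).2, hd,
        fun _ _ => ⟨j, fun h0 => hj (Subtype.ext h0)⟩⟩
    · exact ⟨0, fun _ => R.zero_mem, by simp, fun h5 h6 => absurd ⟨h5, h6⟩ hi⟩
  choose d hdR hd0 hdne using h3
  have h4 : ∃ j, ∀ᶠ i in U, d i j ≠ 0 := by
    by_contra hcon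
    have h5 : ∀ j, ∀ᶠ i in U, d i j = 0 := fun j => by
      by_contra h6
      exact hcon ⟨j, Ultrafilter.eventually_not.2 h6⟩
    have h6 : ∀ᶠ i in U, ∀ j, d i j = 0 := Filter.eventually_all.2 h5
    obtain ⟨i, hi1, hi2, hi3⟩ := (h1.and (h2.and h6)).exists
    obtain ⟨j, hj⟩ := hdne i hi1 hi2
    exact hj (hi3 j)
  obtain ⟨j, hj⟩ := h4
  have h5 := hind (fun j => ⟨gm U (fun i => d i j), _, rfl, fun i => hdR i j⟩) (by
    have h6 : ∑ j, gm U (fun i => d i j) * gm U (a j) = 0 := by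
      have h7 : gm U (fun i => ∑ j, d i j * a j i) = 0 := by
        rw [gm_eq_zero]
        exact Eventually.of_forall hd0
      rw [gm_sum Finset.univ (fun j i => d i j * a j i)] at h7
      rw [← h7]
      exact Finset.sum_congr rfl fun j _ => (gm_mul (fun i => d i j) (a j)).symm
    rw [← h6]
    refine Finset.sum_congr rfl fun j _ => ?_
    rw [ha]
    rfl) j
  have h6 : gm U (fun i => d i j) = 0 := congrArg Subtype.val h5
  rw [gm_eq_zero] at h6
  obtain ⟨i, hi1, hi2⟩ := (h6.and hj).exists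
  exact hi2 hi1

/-- algebraic independence through linear independence of monomials. -/
theorem e4g_alg {K : Type*} [Field K] {F : Subfield K} {r : ℕ} {p : Fin r → K} :
    AlgebraicIndependent F p ↔ ∀ s : Finset (Fin r →₀ ℕ),
      LinearIndependent F (fun m : s => (m : Fin r →₀ ℕ).prod fun i k => p i ^ k) := by
  classical
  constructor
  · intro h s
    have h1 := (MvPolynomial.basisMonomials (Fin r) F).linearIndependent.map'
      (MvPolynomial.aeval p).toLinearMap (LinearMap.ker_eq_bot.2 h)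
    have h2 := h1.comp (fun m : s => (m : Fin r →₀ ℕ)) Subtype.val_injective
    have h3 : ((MvPolynomial.aeval p : MvPolynomial (Fin r) F →ₐ[F] K).toLinearMap ∘
        (MvPolynomial.basisMonomials (Fin r) F)) ∘ (fun m : s => (m : Fin r →₀ ℕ)) =
        fun m : s => (m : Fin r →₀ ℕ).prod fun i k => p i ^ k := by
      funext m
      simp [MvPolynomial.aeval_monomial]
    rwa [h3] at h2
  · intro h
    rw [algebraicIndependent_iff]
    intro f hf
    have h1 := Fintype.linearIndependent_iff.1 (h f.support) (fun m => f.coeff m) (by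
      rw [← hf]
      have h2 : ∑ m : f.support, f.coeff (m : Fin r →₀ ℕ) •
          ((m : Fin r →₀ ℕ).prod fun i k => p i ^ k) =
          ∑ m ∈ f.support, f.coeff m • (m.prod fun i k => p i ^ k) :=
        Finset.sum_coe_sort f.support fun m => f.coeff m • (m.prod fun i k => p i ^ k)
      rw [h2]
      conv_rhs => rw [f.as_sum, map_sum]
      refine Finset.sum_congr rfl fun m _ => ?_
      rw [MvPolynomial.aeval_monomial]
      rfl)
    ext m
    by_cases hm : m ∈ f.support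
    · rw [h1 ⟨m, hm⟩]
      rfl
    · rw [MvPolynomial.notMem_support_iff.1 hm]
      rfl

/-- freeness in the ultrapower. -/
theorem gm_fre [IsAlgClosed Ω] {R P Q : Subfield Ω} (hR : IsAlgClosed R) (hQ : IsAlgClosed Q)
    (hRP : R ≤ P) (hRQ : R ≤ Q) (h : Fre R P Q) {r : ℕ} {p : Fin r → Gm U Ω}
    (hp : ∀ i, p i ∈ uSub U (fun _ => P))
    (hind : AlgebraicIndependent (uSub U (fun _ => R)) p) :
    AlgebraicIndependent (uSub U (fun _ => Q)) p := by
  rw [e4g_alg] at hind ⊢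
  intro s
  refine e4g_lin hR hQ hRP hRQ h (fun m => ?_) (hind s)
  exact prod_mem fun i _ => pow_mem (hp i) _

theorem e4g_mono {E F : Subfield Ω} (h : E ≤ F) :
    uSub U (fun _ => E) ≤ uSub U (fun _ => F) := by
  rintro _ ⟨f, rfl, hf⟩
  exact ⟨f, rfl, fun i => h (hf i)⟩

theorem e4g_snoc {K : Type*} [Field K] {r : ℕ} {N : Subfield K} {y : Fin r → K} {z : K}
    (hy : AlgebraicIndependent N (Fin.snoc y z : Fin (r + 1) → K)) : z ∉ clx N y := by
  rw [algebraicIndependent_equiv' finSuccEquivLast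
    (f := fun o : Option (Fin r) => o.elim z y)
    (g := (Fin.snoc y z : Fin (r + 1) → K)) (by
      funext i
      refine Fin.lastCases ?_ (fun j => ?_) i
      · simp
      · simp), AlgebraicIndependent.option_iff] at hy
  intro hz
  exact hy.2 ((isAlgebraic_adjoin_iff' N (Set.range y) z).2 (mem_rac.1 hz))

/-- finite sets have transcendence bases. -/
theorem e4g_basis {K : Type*} [Field K] {R N : Subfield K} (S : Finset K)
    (hS : ∀ c ∈ S, c ∈ N) : ∃ (r : ℕ) (y : Fin r → K), (∀ i, y i ∈ N) ∧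
      AlgebraicIndependent R y ∧ ∀ c ∈ S, c ∈ clx R y := by
  classical
  induction S using Finset.induction_on with
  | empty =>
    refine ⟨0, Fin.elim0, fun i => i.elim0, algebraicIndependent_empty_type, fun c hc => ?_⟩
    exact absurd hc (Finset.notMem_empty c)
  | insert b S _ ih =>
    obtain ⟨r, y, hyN, hy, hyS⟩ := ih fun c hc => hS c (Finset.mem_insert_of_mem hc)
    by_cases hb : b ∈ clx R y
    · refine ⟨r, y, hyN, hy, fun c hc => ?_⟩
      rcases Finset.mem_insert.1 hc with rfl | hc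
      · exact hb
      · exact hyS c hc
    · refine ⟨r + 1, Fin.snoc y b, fun i => ?_, indep_snoc hy hb, fun c hc => ?_⟩
      · refine Fin.lastCases ?_ (fun j => ?_) i
        · rw [Fin.snoc_last]
          exact hS b (Finset.mem_insert_self b S)
        · rw [Fin.snoc_castSucc]
          exact hyN j
      · have h1 : clx R y ≤ clx R (Fin.snoc y b : Fin (r + 1) → K) := by
          refine clx_le (RAC_rac _) (le_clx _ _) fun j => ?_
          have h2 := mem_clx R (Fin.snoc y b : Fin (r + 1) → K) j.castSucc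
          rwa [Fin.snoc_castSucc] at h2
        rcases Finset.mem_insert.1 hc with rfl | hc
        · have h2 := mem_clx R (Fin.snoc y c : Fin (r + 1) → K) (Fin.last r)
          rwa [Fin.snoc_last] at h2
        · exact h1 (hyS c hc)

/-- freeness of the ultrapowers. -/
theorem e4g_fre [IsAlgClosed Ω] {R P Q : Subfield Ω} (hR : IsAlgClosed R) (hQ : IsAlgClosed Q)
    (hRP : R ≤ P) (hRQ : R ≤ Q) (h : Fre R P Q) :
    Fre (uSub U (fun _ => R)) (uSub U (fun _ => Q)) (uSub U (fun _ => P)) := by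
  intro N hN hRN hNP a ha halg
  by_contra haN
  obtain ⟨C, hC, hCN⟩ := isAlgebraic_sup_finite (k := N)
    (L := (uSub U (fun _ => Q) : Set (Gm U Ω))) (z := a) (by
    rw [Subfield.closure_eq, sup_comm]
    exact halg)
  obtain ⟨r, y, hyN, hy, hyS⟩ := e4g_basis (R := uSub U (fun _ => R)) (N := N) C
    fun c hc => hC hc
  have h1 : IsAlgebraic (clx (uSub U (fun _ => R)) y ⊔ uSub U (fun _ => Q) :
      Subfield (Gm U Ω)) a := by
    have h2 := hCN (clx (uSub U (fun _ => R)) y) fun c hc => hyS c hc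
    rwa [Subfield.closure_eq] at h2
  have h2 : a ∉ clx (uSub U (fun _ => R)) y := fun h3 => haN (clx_le hN hRN hyN h3)
  have h3 : AlgebraicIndependent (uSub U (fun _ => Q))
      (Fin.snoc y a : Fin (r + 1) → Gm U Ω) := by
    refine gm_fre hR hQ hRP hRQ h (fun i => ?_) (indep_snoc hy h2)
    refine Fin.lastCases ?_ (fun j => ?_) i
    · rw [Fin.snoc_last]
      exact ha
    · rw [Fin.snoc_castSucc]
      exact hNP (hyN j)
  refine e4g_snoc h3 ?_
  have h4 : clx (uSub U (fun _ => R)) y ⊔ uSub U (fun _ => Q) ≤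
      clx (uSub U (fun _ => Q)) y := by
    refine sup_le (clx_le (RAC_rac _) ((e4g_mono hRQ).trans (le_clx _ _)) fun i => ?_)
      (le_clx _ _)
    exact mem_clx _ _ i
  exact RAC_rac _ a (isAlgebraic_mono h4 h1)

/-- one step. -/
theorem e4g_step {K : Type*} [Field K] [DecidableEq K] {R P Q : Subfield K} (hP : RAC P)
    (hRP : R ≤ P) (hRQ : R ≤ Q) (h : Fre R Q P) {T : Finset K} (hT : ∀ c ∈ T, c ∈ Q) {v : K}
    (hv : v ∈ P) {x : K} (hxT : x ∈ rcl P T) (hxv : IsAlgebraic (adj Q v) x) :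
    x ∈ rcl R (insert v T) := by
  classical
  obtain ⟨S, hSP, hSN⟩ := isAlgebraic_sup_finite (mem_rac.1 hxT)
  set C := rcl R (insert v T) with hC
  have hCR : RAC C := rcl_RAC _ _
  have h0 : x ∈ rcl C S := by
    refine mem_rac.2 (isAlgebraic_mono ?_ (hSN (Subfield.closure (S : Set K))
      Subfield.subset_closure))
    refine sup_le le_sup_right (le_sup_of_le_left (Subfield.closure_le.2 fun c hc => ?_))
    exact mem_rcl (Finset.mem_insert_of_mem hc)
  refine chain_down (B := P) hCR (fun N => x ∈ N) ?_ S (fun c hc => hSP hc) h0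
  intro S' hS' b hb hbN hx
  by_contra hxS
  have h1 : IsAlgebraic (adj (rcl C S') x) b :=
    exchange (fun h => hxS (rcl_RAC _ _ x h)) (mem_rac.1 hx)
  -- the common field
  set N := rcl R (insert v S') with hNdef
  have hNP : N ≤ P := by
    refine rcl_le hP hRP fun c hc => ?_
    rcases Finset.mem_insert.1 hc with rfl | hc
    · exact hv
    · exact hS' c hc
  have hle : Q ⊔ N ≤ rac (Q ⊔ N) := le_rac _
  have h2 : rcl C S' ≤ rac (Q ⊔ N) := by
    refine rcl_le (RAC_rac _) (rcl_le (RAC_rac _) (hRQ.trans (le_sup_left.trans hle)) ?_) ?_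
    · intro c hc
      rcases Finset.mem_insert.1 hc with rfl | hc
      · exact hle ((le_sup_right : N ≤ Q ⊔ N) (mem_rcl (Finset.mem_insert_self _ _)))
      · exact hle ((le_sup_left : Q ≤ Q ⊔ N) (hT c hc))
    · intro c hc
      exact hle ((le_sup_right : N ≤ Q ⊔ N) (mem_rcl (Finset.mem_insert_of_mem hc)))
  have h3 : x ∈ rac (Q ⊔ N) := by
    have h4 : adj Q v ≤ rac (Q ⊔ N) := by
      refine (le_rac _).trans (RAC_adj_le (RAC_rac _) (le_sup_left.trans hle) ?_)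
      exact hle ((le_sup_right : N ≤ Q ⊔ N) (mem_rcl (Finset.mem_insert_self _ _)))
    exact RAC_rac _ x (isAlgebraic_mono h4 hxv)
  have h5 : IsAlgebraic (Q ⊔ N : Subfield K) b := by
    refine mem_rac.1 (RAC_rac _ b (isAlgebraic_mono ?_ h1))
    exact (le_rac _).trans (RAC_adj_le (RAC_rac _) h2 h3)
  have h6 : b ∈ N := h N (rcl_RAC _ _) (le_rcl _ _) hNP b hb h5
  apply hbN
  refine (rcl_le (rcl_RAC _ _) ?_ ?_ : N ≤ rcl C S') h6
  · exact (le_rcl R (insert v T)).trans (le_rcl C S')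
  · intro c hc
    rcases Finset.mem_insert.1 hc with rfl | hc
    · exact le_rcl C S' (mem_rcl (Finset.mem_insert_self _ _))
    · exact mem_rcl hc

theorem e4g_rcl_mono {K : Type*} [Field K] {l : Subfield K} {S T : Finset K} (h : S ⊆ T) :
    rcl l S ≤ rcl l T :=
  rcl_le (rcl_RAC _ _) (le_rcl _ _) fun _ hc => mem_rcl (h hc)

theorem e4g_closed [IsAlgClosed Ω] {E : Subfield Ω} (hE : RAC E) : IsAlgClosed E := by
  have h1 : IsAlgClosed (⊤ : Subfield Ω) :=
    IsAlgClosed.of_ringEquiv Ω (⊤ : Subfield Ω) Subfield.topEquiv.symm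
  exact isAlgClosed_of_RAC h1 hE le_top

/-- the induction. -/
theorem e4g_ind [IsAlgClosed Ω] [DecidableEq Ω] [DecidableEq (Gm U Ω)] {k : Subfield Ω}
    (hk : IsAlgClosed k) {B : Finset Ω}
    (hB : Indp k B) {σ : Ω → Gm U Ω}
    (hσ : ∀ v ∈ B, ∃ f : I → Ω, gm U f = σ v ∧ ∀ i, rcl k {f i} = rcl k {v}) {x : Gm U Ω}
    (hx0 : x ∈ uSub U (fun _ => rcl k B))
    (hx : ∀ v ∈ B, IsAlgebraic (adj (uSub U (fun _ => rcl k (B.erase v))) (σ v)) x)
    (T : Finset Ω) (hT : T ⊆ B) : x ∈ rcl (uSub U (fun _ => rcl k (B \ T))) (T.image σ) := by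
  classical
  have hmem : ∀ v ∈ B, ∀ S : Finset Ω, v ∈ S → σ v ∈ uSub U (fun _ => rcl k S) := by
    intro v hv S hvS
    obtain ⟨f, hf, hfv⟩ := hσ v hv
    refine ⟨f, hf, fun i => ?_⟩
    have h1 : rcl k {v} ≤ rcl k S := e4g_rcl_mono (Finset.singleton_subset_iff.2 hvS)
    refine h1 ?_
    rw [← hfv i]
    exact mem_rcl (Finset.mem_singleton_self _)
  induction T using Finset.induction_on with
  | empty =>
    refine le_rcl _ _ ?_
    rwa [Finset.sdiff_empty]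
  | insert v T hvT ih =>
    have hTB : T ⊆ B := fun c hc => hT (Finset.mem_insert_of_mem hc)
    have hvB : v ∈ B := hT (Finset.mem_insert_self v T)
    have e1 : (B \ T) ∩ (B.erase v) = B \ (insert v T) := by
      ext c
      simp only [Finset.mem_inter, Finset.mem_sdiff, Finset.mem_erase, Finset.mem_insert]
      tauto
    have hfre := rcl_fre hk hB (S := B \ T) (T := B.erase v) Finset.sdiff_subset
      (Finset.erase_subset v B)
    rw [e1] at hfre
    have hRP : rcl k (B \ insert v T) ≤ rcl k (B \ T) :=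
      e4g_rcl_mono (by rw [← e1]; exact Finset.inter_subset_left)
    have hRQ : rcl k (B \ insert v T) ≤ rcl k (B.erase v) :=
      e4g_rcl_mono (by rw [← e1]; exact Finset.inter_subset_right)
    have hPc : RAC (uSub U (fun _ => rcl k (B \ T))) :=
      RAC_of_isAlgClosed _ (isAlgClosed_uSub fun _ => e4g_closed (rcl_RAC _ _))
    rw [Finset.image_insert]
    refine e4g_step hPc (e4g_mono hRP) (e4g_mono hRQ)
      (e4g_fre (e4g_closed (rcl_RAC _ _)) (e4g_closed (rcl_RAC _ _)) hRP hRQ hfre) ?_ ?_ (ih hTB)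
      (hx v hvB)
    · intro c hc
      obtain ⟨w, hw, rfl⟩ := Finset.mem_image.1 hc
      refine hmem w (hTB hw) _ (Finset.mem_erase.2 ⟨?_, hTB hw⟩)
      rintro rfl
      exact hvT hw
    · exact hmem v hvB _ (Finset.mem_sdiff.2 ⟨hvB, hvT⟩)

/-- the main geometric lemma. -/
theorem geo [IsAlgClosed Ω] [DecidableEq Ω] {k : Subfield Ω} (hk : IsAlgClosed k) {B : Finset Ω}
    (hB : Indp k B) {σ : Ω → Gm U Ω}
    (hσ : ∀ v ∈ B, ∃ f : I → Ω, gm U f = σ v ∧ ∀ i, rcl k {f i} = rcl k {v}) {x : Gm U Ω}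
    (hx0 : x ∈ uSub U (fun _ => rcl k B))
    (hx : ∀ v ∈ B, IsAlgebraic (adj (uSub U (fun _ => rcl k (B.erase v))) (σ v)) x) :
    ∃ T : Finset (Gm U Ω), (∀ y ∈ T, ∃ v ∈ B, y = σ v) ∧
      IsAlgebraic (gsp (uSub U (fun _ => k)) T) x := by
  classical
  refine ⟨B.image σ, fun y hy => ?_, ?_⟩
  · obtain ⟨v, hv, rfl⟩ := Finset.mem_image.1 hy
    exact ⟨v, hv, rfl⟩
  · have h1 := e4g_ind hk hB hσ hx0 hx B (Finset.Subset.refl B)
    rw [Finset.sdiff_self, rcl_empty (RAC_of_isAlgClosed k hk)] at h1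
    exact isAlgebraic_mono (le_pf _) (mem_rac.1 h1)

end Vale.Agent.P019P
end
end

section

section

/-!
# Normalized coordinates (perfect version)

`IsoOn` and its lemmas `IsoOn.zero`, `neg`, `sub`, `ne_zero`, `inj` are those of the old file.
-/

namespace Vale.Agent.P019P

open Vale.Agent.P019

set_option linter.style.haveILetI false
set_option linter.unusedSectionVars false

open Polynomial Filter

variable {K L : Type*} [Field K] [Field L]
  {ℓ : ℕ} {k : Subfield K} {l : Subfield L} {Θ : V ℓ K ≃ₗ[ZMod ℓ] V ℓ L}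

/-- `s'` is a coordinate for which the correspondence is `σ`, with variable coefficients. -/
structure Nv (k : Subfield K) (l : Subfield L) (Θ : V ℓ K ≃ₗ[ZMod ℓ] V ℓ L) (σ : K → L)
    (e : K → ZMod ℓ) (s : K) (s' : L) : Prop where
  rt : Rt k l Θ s s'
  cor : ∀ᶠ b in ae k, e b ≠ 0 ∧ Cor k l Θ s s' (e b) b (σ b)

/-- `s'` is the normalized coordinate corresponding to `s`. -/
structure Nm (k : Subfield K) (l : Subfield L) (Θ : V ℓ K ≃ₗ[ZMod ℓ] V ℓ L) (σ : K → L)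
    (e : ZMod ℓ) (s : K) (s' : L) : Prop where
  rt : Rt k l Θ s s'
  cor : ∀ᶠ b in ae k, Cor k l Θ s s' e b (σ b)

variable [PerfectField K] [PerfectField L] [Fact ℓ.Prime] [NeZero (ℓ : K)] [NeZero (ℓ : L)]

theorem Nv.psi {σ : K → L} (hσ : IsoOn k l σ) {e : K → ZMod ℓ} {s : K} {s' : L}
    (hk : IsAlgClosed k) (h : Nv k l Θ σ e s s') : Psi k l Θ s s' σ e := by
  refine ⟨?_, ?_⟩
  · filter_upwards [h.cor, ae_mem k] with b hb hbk
    exact ⟨hσ.mem b hbk, hb.1, hb.2⟩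
  · have h1 := ae_iff.1 h.cor
    rw [ae_iff]
    refine (h1.image σ).subset ?_
    rintro β ⟨hβ, hne⟩
    obtain ⟨b, hb, rfl⟩ := hσ.surj β hβ
    exact ⟨b, ⟨hb, fun hc => hne ⟨b, hb, rfl, hc.1, hc.2⟩⟩, rfl⟩

theorem Nm.psi {σ : K → L} (hσ : IsoOn k l σ) {e : ZMod ℓ} (he : e ≠ 0) {s : K} {s' : L}
    (h : Nm k l Θ σ e s s') : Psi k l Θ s s' σ (fun _ => e) := by
  refine ⟨?_, ?_⟩
  · filter_upwards [h.cor, ae_mem k] with b hb hbk
    exact ⟨hσ.mem b hbk, he, hb⟩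
  · have h1 := ae_iff.1 h.cor
    rw [ae_iff]
    refine (h1.image σ).subset ?_
    rintro β ⟨hβ, hne⟩
    obtain ⟨b, hb, rfl⟩ := hσ.surj β hβ
    exact ⟨b, ⟨hb, fun hc => hne ⟨b, hb, rfl, he, hc⟩⟩, rfl⟩

/-- a functional with the values of `del` on the generators agrees with `del`. -/
theorem sigA_del_congr (hl : IsAlgClosed l) {t : L} (ht : Good l t) {x : L} (hx : x ∈ l)
    (f : V ℓ L →ₗ[ZMod ℓ] ZMod ℓ) (h1 : f (cl ℓ (t - x)) = 1)
    (h0 : ∀ x' ∈ l, x' ≠ x → f (cl ℓ (t - x')) = 0) {v : V ℓ L} (hv : v ∈ VS ℓ (adj l t)) :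
    f v = del ℓ l t x v := by
  obtain ⟨T, n, hT, rfl⟩ := adj_factor hl ht.1 hv
  rw [map_sum, map_sum]
  refine Finset.sum_congr rfl ?_
  intro c hc
  rw [map_smul, map_smul]
  congr 1
  by_cases hcx : c = x
  · subst hcx
    rw [h1, del_self hl ht hx]
  · rw [h0 c (hT c hc) hcx, del_ne hl ht hx (hT c hc) hcx]

theorem sigAP_sub_ne {L : Type*} [Field L] {l : Subfield L} {t : L} (ht : t ∉ l) {c : L}
    (hc : c ∈ l) : t - c ≠ 0 := by
  intro h
  rw [sub_eq_zero] at h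
  exact ht (h ▸ hc)

/-- scaling by a constant does not change the class. -/
theorem sigAP_cl_const_mul {L : Type*} [Field L] {l : Subfield L} {ℓ : ℕ} [Fact ℓ.Prime]
    (hl : IsAlgClosed l) {a z : L} (ha : a ∈ l) (ha0 : a ≠ 0)
    (hz : z ≠ 0) : cl ℓ (a * z) = cl ℓ z := by
  rw [cl_mul ℓ ha0 hz, line_cl_const hl ha, zero_add]

/-- Moebius change of the coordinate. -/
theorem exists_Nv_of_mob (hk : IsAlgClosed k) (hl : IsAlgClosed l) {σ : K → L}
    (hσ : IsoOn k l σ) {e : K → ZMod ℓ} {s : K} {s' : L} (hR : Rt k l Θ s s')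
    {A B C D : L} (hA : A ∈ l) (hB : B ∈ l) (hC : C ∈ l) (hD : D ∈ l) (hdet : A * D - B * C ≠ 0)
    {ψ : K → L} (hψ : ∀ᶠ b in ae k, ψ b ∈ l ∧ e b ≠ 0 ∧ Cor k l Θ s s' (e b) b (ψ b))
    (hm : ∀ᶠ b in ae k, ψ b * (C * σ b + D) = A * σ b + B) : ∃ s₁', Nv k l Θ σ e s s₁' := by
  have hs' : s' ∉ l := hR.good'.1
  have hden : A - C * s' ≠ 0 := by
    intro h
    by_cases hC0 : C = 0
    · rw [hC0, zero_mul, sub_zero] at h
      rw [h, hC0] at hdet
      simp at hdet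
    · apply hs'
      have : s' = A / C := by
        rw [eq_div_iff hC0, mul_comm]
        exact (sub_eq_zero.1 h).symm
      rw [this]
      exact l.div_mem hA hC
  set t := (D * s' - B) / (A - C * s') with ht
  have htden : C * t + D ≠ 0 := by
    have : C * t + D = (A * D - B * C) / (A - C * s') := by
      rw [ht]
      field_simp
      ring
    rw [this]
    exact div_ne_zero hdet hden
  have htm : t * (A - C * s') = D * s' - B := div_mul_cancel₀ _ hden
  have hs't : s' = (A * t + B) / (C * t + D) := by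
    rw [eq_div_iff htden]
    linear_combination (-1) * htm
  have hmem : t ∈ adj l s' := by
    have h1 : s' ∈ adj l s' := mem_adj l s'
    have h2 := le_adj l s'
    exact (adj l s').div_mem ((adj l s').sub_mem ((adj l s').mul_mem (h2 hD) h1) (h2 hB))
      ((adj l s').sub_mem (h2 hA) ((adj l s').mul_mem (h2 hC) h1))
  have hmem' : s' ∈ adj l t := by
    have h1 : t ∈ adj l t := mem_adj l t
    have h2 := le_adj l t
    rw [hs't]
    exact (adj l t).div_mem ((adj l t).add_mem ((adj l t).mul_mem (h2 hA) h1) (h2 hB))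
      ((adj l t).add_mem ((adj l t).mul_mem (h2 hC) h1) (h2 hD))
  have hadj : adj l t = adj l s' := le_antisymm (adj_le (le_adj l s') hmem)
    (adj_le (le_adj l t) hmem')
  have htl : t ∉ l := by
    intro h
    apply hs'
    rw [hs't]
    exact l.div_mem (l.add_mem (l.mul_mem hA h) hB) (l.add_mem (l.mul_mem hC h) hD)
  have hgt : Good l t := ⟨htl, by rw [hadj]; exact hR.good'.2⟩
  have hRt : Rt k l Θ s t := ⟨hR.good, hgt, fun v => by rw [hadj]; exact hR.map v⟩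
  refine ⟨t, hRt, ?_⟩
  filter_upwards [hψ, hm, ae_mem k] with b hb hmob hbk
  obtain ⟨hy, he0, hcor⟩ := hb
  refine ⟨he0, ?_⟩
  intro v hv
  rw [hcor v hv]
  congr 1
  have hΘ : Θ v ∈ VS ℓ (adj l t) := (hRt.map v).2 hv
  have hx := hσ.mem b hbk
  have hyAC : C ≠ 0 → A / C ≠ ψ b := by
    intro hC0 h
    apply hdet
    rw [← h] at hmob
    have : A / C * (C * σ b + D) = A * σ b + A * D / C := by
      field_simp
    rw [this] at hmob
    have h3 : A * D / C = B := add_left_cancel hmob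
    rw [div_eq_iff hC0] at h3
    rw [h3, sub_self]
  have hxden : C * σ b + D ≠ 0 := by
    intro h
    rw [h, mul_zero] at hmob
    apply hdet
    linear_combination A * h + C * hmob
  have hfd : del ℓ l s' (ψ b) (cl ℓ (A - C * s')) = 0 := by
    by_cases hC0 : C = 0
    · rw [hC0, zero_mul, sub_zero, line_cl_const hl hA, map_zero]
    · have h1 : A - C * s' = (-C) * (s' - A / C) := by
        field_simp
        ring
      rw [h1, sigAP_cl_const_mul hl (l.neg_mem hC) (neg_ne_zero.2 hC0)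
        (sigAP_sub_ne hs' (l.div_mem hA hC))]
      exact del_ne hl hR.good' hy (l.div_mem hA hC) (hyAC hC0)
  have hgen : ∀ x' ∈ l, ∀ hx' : C * x' + D ≠ 0,
      cl ℓ (t - x') = cl ℓ (s' - (A * x' + B) / (C * x' + D)) - cl ℓ (A - C * s') := by
    intro x' hx'l hx'
    have hy'l : (A * x' + B) / (C * x' + D) ∈ l :=
      l.div_mem (l.add_mem (l.mul_mem hA hx'l) hB) (l.add_mem (l.mul_mem hC hx'l) hD)
    have hy' : (A * x' + B) / (C * x' + D) * (C * x' + D) = A * x' + B := div_mul_cancel₀ _ hx'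
    have h1 : t - x' = (C * x' + D) * (s' - (A * x' + B) / (C * x' + D)) / (A - C * s') := by
      rw [eq_div_iff hden]
      linear_combination htm + hy'
    have h2 := sigAP_sub_ne hs' hy'l
    rw [h1, cl_div ℓ (mul_ne_zero hx' h2) hden,
      sigAP_cl_const_mul hl (l.add_mem (l.mul_mem hC hx'l) hD) hx' h2]
  have hyeq : ψ b = (A * σ b + B) / (C * σ b + D) := by
    rw [eq_div_iff hxden]
    exact hmob
  refine sigA_del_congr hl hgt hx _ ?_ ?_ hΘ
  · rw [hgen _ hx hxden, map_sub, hfd, sub_zero, ← hyeq]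
    exact del_self hl hR.good' hy
  · intro x' hx'l hx'ne
    by_cases hx' : C * x' + D = 0
    · have h1 : A * x' + B ≠ 0 := by
        intro h
        apply hdet
        linear_combination A * hx' - C * h
      have h2 : t - x' = (-(A * x' + B)) / (A - C * s') := by
        rw [ht]
        rw [eq_div_iff hden, sub_mul, div_mul_cancel₀ _ hden]
        linear_combination s' * hx'
      rw [h2, cl_div ℓ (neg_ne_zero.2 h1) hden,
        line_cl_const hl (l.neg_mem (l.add_mem (l.mul_mem hA hx'l) hB)), zero_sub, map_neg, hfd,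
        neg_zero]
    · rw [hgen _ hx'l hx', map_sub, hfd, sub_zero]
      refine del_ne hl hR.good' hy
        (l.div_mem (l.add_mem (l.mul_mem hA hx'l) hB) (l.add_mem (l.mul_mem hC hx'l) hD)) ?_
      intro h
      apply hx'ne
      rw [hyeq, div_eq_div_iff hx' hxden] at h
      have h3 : (A * D - B * C) * (x' - σ b) = 0 := by linear_combination h
      rcases mul_eq_zero.1 h3 with h4 | h4
      · exact absurd h4 hdet
      · exact sub_eq_zero.1 h4

/-- twisted Moebius change of the coordinate. -/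
theorem exists_Nv_of_twist (hk : IsAlgClosed k) (hl : IsAlgClosed l) {σ : K → L}
    (hσ : IsoOn k l σ) {e : K → ZMod ℓ} {s : K} {s' : L} (hR : Rt k l Θ s s')
    {A B C D : L} (hA : A ∈ l) (hB : B ∈ l) (hC : C ∈ l) (hD : D ∈ l) (hdet : A * D - B * C ≠ 0)
    {ψ : K → L} (hψ : ∀ᶠ b in ae k, ψ b ∈ l ∧ e b ≠ 0 ∧ Cor k l Θ s s' (e b) b (ψ b))
    (i j : ℕ) (hm : ∀ᶠ b in ae k, ψ b ^ (ringExpChar L) ^ i * (C * σ b ^ (ringExpChar L) ^ j + D) =
      A * σ b ^ (ringExpChar L) ^ j + B) : ∃ s₁' e', Nv k l Θ σ e' s s₁' := by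
  classical
  haveI : PerfectField l := by
    haveI := hl
    infer_instance
  obtain ⟨A', hA', rfl⟩ := exists_root_q l hA j
  obtain ⟨B', hB', rfl⟩ := exists_root_q l hB j
  obtain ⟨C', hC', rfl⟩ := exists_root_q l hC j
  obtain ⟨D', hD', rfl⟩ := exists_root_q l hD j
  have hdet' : A' * D' - B' * C' ≠ 0 := by
    intro h
    apply hdet
    rw [← mul_pow, ← mul_pow, ← sub_pow_q, h, zero_pow (qn_ne_zero L j)]
  obtain ⟨y, hy⟩ := exists_root (s' ^ (ringExpChar L) ^ i) j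
  have hg : ∀ b : K, ∃ γ : L, γ ^ (ringExpChar L) ^ j = ψ b ^ (ringExpChar L) ^ i :=
    fun b => exists_root _ j
  choose γ hγ using hg
  have hR1 : Rt k l Θ s (s' ^ (ringExpChar L) ^ i) := hR.pow hl i
  have hR2 : Rt k l Θ s y := hR1.root hl hy
  have hγl : ∀ b, ψ b ∈ l → γ b ∈ l := by
    intro b hb
    apply mem_of_pow_q (n := j)
    rw [hγ b]
    exact l.pow_mem hb _
  set e' : K → ZMod ℓ := fun b => e b * (((ringExpChar L) ^ i : ℕ) : ZMod ℓ) *
    (((ringExpChar L) ^ j : ℕ) : ZMod ℓ)⁻¹ with he'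
  obtain ⟨s₁', h⟩ := exists_Nv_of_mob (e := e') hk hl hσ hR2 hA' hB' hC' hD' hdet' (ψ := γ)
    (by
      filter_upwards [hψ] with b hb
      refine ⟨hγl b hb.1, ?_, ?_⟩
      · exact mul_ne_zero (mul_ne_zero hb.2.1 (q_pow_ne_zero ℓ L i))
          (inv_ne_zero (q_pow_ne_zero ℓ L j))
      · exact Cor.root hk hl hR1 hy (hγl b hb.1) (hγ b) (Cor.pow hk hl hR i hb.1 hb.2.2))
    (by
      filter_upwards [hm] with b hb
      apply pow_q_inj (n := j)
      rw [mul_pow, add_pow_q, add_pow_q, mul_pow, mul_pow, hγ b]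
      exact hb)
  exact ⟨s₁', e', h⟩

theorem sigAP_VS_infinite (hl : IsAlgClosed l) {t : L} (ht : Good l t) :
    ¬ ((VS ℓ (adj l t) : Submodule (ZMod ℓ) (V ℓ L)) : Set (V ℓ L)).Finite := by
  intro hfin
  have hli := cl_sub_independent (ℓ := ℓ) hl ht
  have hinj := hli.injective
  haveI : Infinite l := by
    haveI := hl
    infer_instance
  refine Set.infinite_of_injective_forall_mem
    (f := fun c : l => cl ℓ (t - (c : L))) hinj (fun c => ?_) hfin
  exact cl_mem_VS (sub_mem (mem_adj l t) (le_adj l t c.2))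

theorem Nm.unique (hk : IsAlgClosed k) (hl : IsAlgClosed l) (hfg : FG l (⊤ : Subfield L))
    {σ : K → L} (hσ : IsoOn k l σ)
    {e : ZMod ℓ} (he : e ≠ 0) {s : K} {s' s'' : L} (h : Nm k l Θ σ e s s')
    (h' : Nm k l Θ σ e s s'') : s' = s'' := by
  classical
  haveI : PerfectField l := by
    haveI := hl
    infer_instance
  have hg' := h.rt.good'
  have hg'' := h'.rt.good'
  have hVS : VS ℓ (adj l s') = VS ℓ (adj l s'') := by
    ext w
    have h1 := h.rt.map (Θ.symm w)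
    have h2 := h'.rt.map (Θ.symm w)
    rw [LinearEquiv.apply_symm_apply] at h1 h2
    exact h1.trans h2.symm
  have halg : IsAlgebraic (adj l s') s'' := by
    by_contra hna
    have h1 := int_top ℓ hl hfg (le_adj l s') (le_adj l s'') (mem_adj l s'') hna
      (fun z hz => isAlgebraic_of_mem hz)
    rw [← hVS, inf_idem] at h1
    exact sigAP_VS_infinite hl hg' h1
  have hmem : s'' ∈ adj l s' := hg'.2 _ halg
  obtain ⟨n, y, hy, hymem⟩ := mem_adj_root.1 hmem
  obtain ⟨p, q, hpq⟩ := line_mem hymem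
  have hgy : Good l y := by
    rw [← hy, good_pow] at hg'
    exact hg'
  have hq : q ≠ 0 := by
    rintro rfl
    rw [map_zero, div_zero] at hpq
    exact hg''.1 (hpq ▸ l.zero_mem)
  have hq0 := line_aeval_ne hl hgy.1 hq
  set Q : ℕ := (ringExpChar L) ^ n with hQ
  have hroot : ∀ b ∈ k, ∃ β : l, (β : L) ^ Q = σ b := by
    intro b hb
    obtain ⟨β, hβ, h1⟩ := exists_root_q l (hσ.mem b hb) n
    exact ⟨⟨β, hβ⟩, h1⟩
  have hfin_of : ∀ F : l[X], F ≠ 0 →
      {b : K | b ∈ k ∧ ∃ β : l, (β : L) ^ Q = σ b ∧ F.IsRoot β}.Finite := by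
    intro F hF
    have hr : {β : l | F.IsRoot β}.Finite := Polynomial.finite_setOfPred_isRoot hF
    refine Set.Finite.of_finite_image (f := σ) ((hr.image (fun β : l => (β : L) ^ Q)).subset ?_) ?_
    · rintro _ ⟨b, ⟨hb, β, hβ, hr⟩, rfl⟩
      exact ⟨β, hr, hβ⟩
    · rintro a ⟨ha, -⟩ b ⟨hb, -⟩ hab
      exact hσ.inj ha hb hab
  have key : ∀ᶠ b in ae k, ∃ β : l, (β : L) ^ Q = σ b ∧ (p - X ^ Q * q).IsRoot β := by
    have hcq : ∀ᶠ b in ae k, ∀ β : l, (β : L) ^ Q = σ b → q.eval β ≠ 0 := by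
      rw [ae_iff]
      refine (hfin_of q hq).subset ?_
      rintro b ⟨hb, hne⟩
      push Not at hne
      obtain ⟨β, hβ, hβ'⟩ := hne
      exact ⟨hb, β, hβ, hβ'⟩
    filter_upwards [h.cor, h'.cor, ae_mem k, hcq] with b hb hb' hbk hqb
    have hβl := hσ.mem b hbk
    obtain ⟨β, hβ⟩ := hroot b hbk
    refine ⟨β, hβ, ?_⟩
    have hqβ := hqb β hβ
    have hw : cl ℓ (s'' - σ b) ∈ VS ℓ (adj l s') := by
      rw [hVS]
      exact cl_mem_VS (sub_mem (mem_adj l s'') (le_adj l s'' hβl))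
    have hv : Θ.symm (cl ℓ (s'' - σ b)) ∈ VS ℓ (adj k s) := by
      rw [← h.rt.map, LinearEquiv.apply_symm_apply]
      exact hw
    have hby := Cor.root hk hl h.rt hy β.2 hβ hb
    have h1 := hby _ hv
    have h2 := hb' _ hv
    rw [LinearEquiv.apply_symm_apply] at h1 h2
    have h3 : del ℓ l y (β : L) (cl ℓ (s'' - σ b)) ≠ 0 := by
      intro h4
      rw [h4, mul_zero] at h1
      rw [h1, del_self hl hg'' hβl, mul_one] at h2
      exact he h2.symm
    by_contra hroot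
    have hF0 : p - C (β ^ Q) * q ≠ 0 := by
      intro h5
      have h6 : s'' = σ b := by
        rw [hpq, div_eq_iff hq0]
        have h7 := congrArg (aeval y) h5
        rw [map_sub, map_mul, aeval_C, map_zero, sub_eq_zero] at h7
        rw [h7, ← hβ]
        rfl
      exact hg''.1 (h6 ▸ hβl)
    have h5 : s'' - σ b = aeval y (p - C (β ^ Q) * q) / aeval y q := by
      rw [hpq, map_sub, map_mul, aeval_C, sub_div, mul_div_assoc, div_self hq0, mul_one, ← hβ]
      rfl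
    have hF0' := line_aeval_ne hl hgy.1 hF0
    apply h3
    rw [h5, cl_div ℓ hF0' hq0, map_sub, del_aeval hl hgy hF0, del_aeval hl hgy hq]
    have h6 : q.rootMultiplicity β = 0 := rootMultiplicity_eq_zero hqβ
    have h7 : (p - C (β ^ Q) * q).rootMultiplicity β = 0 := by
      apply rootMultiplicity_eq_zero
      intro h8
      apply hroot
      rw [IsRoot.def, eval_sub, eval_mul, eval_C] at h8
      rw [IsRoot.def, eval_sub, eval_mul, eval_pow, eval_X]
      exact h8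
    rw [h6, h7]
    simp
  have hzero : p - X ^ Q * q = 0 := by
    by_contra hne
    have h1 := hfin_of _ hne
    have h2 : ∀ᶠ b in ae k, ¬ ∃ β : l, (β : L) ^ Q = σ b ∧ (p - X ^ Q * q).IsRoot β := by
      rw [ae_iff]
      simpa using h1
    have := ae_neBot_of_isAlgClosed hk
    obtain ⟨b, hb1, hb2⟩ := (key.and h2).exists
    exact hb2 hb1
  rw [hpq, sub_eq_zero.1 hzero, map_mul, map_pow, aeval_X, mul_div_assoc, div_self hq0, mul_one,
    hQ, hy]

/-- affine changes of the coordinate. -/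
theorem sigAP_adj_affine {L : Type*} [Field L] [PerfectField L] {l : Subfield L} {t a c : L}
    (ha : a ∈ l) (ha0 : a ≠ 0) (hc : c ∈ l) :
    adj l (a * t + c) = adj l t := by
  apply le_antisymm
  · refine adj_le (le_adj l t) ?_
    exact (adj l t).add_mem ((adj l t).mul_mem (le_adj l t ha) (mem_adj l t)) (le_adj l t hc)
  · refine adj_le (le_adj l _) ?_
    have h1 : t = ((a * t + c) - c) / a := by
      rw [add_sub_cancel_right, mul_div_cancel_left₀ _ ha0]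
    have h2 : ((a * t + c) - c) / a ∈ adj l (a * t + c) :=
      (adj l (a * t + c)).div_mem ((adj l (a * t + c)).sub_mem (mem_adj l _) (le_adj l _ hc))
        (le_adj l _ ha)
    rwa [← h1] at h2

theorem sigAP_good_affine {L : Type*} [Field L] [PerfectField L] {l : Subfield L} {t a c : L}
    (ht : Good l t) (ha : a ∈ l) (ha0 : a ≠ 0) (hc : c ∈ l) :
    Good l (a * t + c) := by
  refine ⟨?_, ?_⟩
  · intro h
    apply ht.1
    have h1 : t = ((a * t + c) - c) / a := by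
      rw [add_sub_cancel_right, mul_div_cancel_left₀ _ ha0]
    rw [h1]
    exact l.div_mem (l.sub_mem h hc) ha
  · rw [sigAP_adj_affine ha ha0 hc]
    exact ht.2

theorem sigAP_del_affine {L : Type*} [Field L] [PerfectField L] {l : Subfield L} {ℓ : ℕ}
    [Fact ℓ.Prime] [NeZero (ℓ : L)] (hl : IsAlgClosed l) {t a c : L} (ht : Good l t) (ha : a ∈ l)
    (ha0 : a ≠ 0) (hc : c ∈ l) {x : L} (hx : x ∈ l) {v : V ℓ L} (hv : v ∈ VS ℓ (adj l t)) :
    del ℓ l (a * t + c) (a * x + c) v = del ℓ l t x v := by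
  have hg := sigAP_good_affine ht ha ha0 hc
  have hcl : ∀ x' ∈ l, cl ℓ (t - x') = cl ℓ ((a * t + c) - (a * x' + c)) := by
    intro x' hx'
    have h1 : (a * t + c) - (a * x' + c) = a * (t - x') := by ring
    rw [h1, sigAP_cl_const_mul hl ha ha0 (sigAP_sub_ne ht.1 hx')]
  have hmem : ∀ x' ∈ l, a * x' + c ∈ l := fun x' hx' => l.add_mem (l.mul_mem ha hx') hc
  refine sigA_del_congr hl ht hx _ ?_ ?_ hv
  · rw [hcl x hx]
    exact del_self hl hg (hmem x hx)
  · intro x' hx' hne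
    rw [hcl x' hx']
    refine del_ne hl hg (hmem x hx) (hmem x' hx') ?_
    intro h
    exact hne (mul_left_cancel₀ ha0 (add_right_cancel h))

theorem Nm.affine (hk : IsAlgClosed k) (hl : IsAlgClosed l) {σ : K → L} (hσ : IsoOn k l σ)
    {e : ZMod ℓ} {s : K} {s' : L} (h : Nm k l Θ σ e s s') {a c : K} (ha : a ∈ k)
    (ha0 : a ≠ 0) (hc : c ∈ k) : Nm k l Θ σ e (a * s + c) (σ a * s' + σ c) := by
  have hσa := hσ.mem a ha
  have hσc := hσ.mem c hc
  have hσa0 := hσ.ne_zero ha ha0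
  refine ⟨⟨sigAP_good_affine h.rt.good ha ha0 hc,
    sigAP_good_affine h.rt.good' hσa hσa0 hσc, ?_⟩, ?_⟩
  · intro v
    rw [sigAP_adj_affine ha ha0 hc, sigAP_adj_affine hσa hσa0 hσc]
    exact h.rt.map v
  · have h1 := ae_iff.1 h.cor
    rw [ae_iff]
    refine (h1.image (fun b => a * b + c)).subset ?_
    rintro b ⟨hb, hne⟩
    have hb' : (b - c) / a ∈ k := k.div_mem (k.sub_mem hb hc) ha
    have hbb : a * ((b - c) / a) + c = b := by
      rw [mul_div_cancel₀ _ ha0, sub_add_cancel]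
    refine ⟨(b - c) / a, ⟨hb', fun hcor => hne ?_⟩, hbb⟩
    have hσb : σ b = σ a * σ ((b - c) / a) + σ c := by
      rw [← hσ.mul a ha _ hb', ← hσ.add _ (k.mul_mem ha hb') c hc, hbb]
    intro v hv
    rw [sigAP_adj_affine ha ha0 hc] at hv
    have h2 := hcor v hv
    have h3 : Θ v ∈ VS ℓ (adj l s') := (h.rt.map v).2 hv
    have h4 := sigAP_del_affine hk h.rt.good ha ha0 hc hb' hv
    have h5 := sigAP_del_affine hl h.rt.good' hσa hσa0 hσc (hσ.mem _ hb') h3
    rw [hbb] at h4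
    rw [← hσb] at h5
    rw [h4, h5]
    exact h2

theorem Nm.add_const (hk : IsAlgClosed k) (hl : IsAlgClosed l) {σ : K → L} (hσ : IsoOn k l σ)
    {e : ZMod ℓ} (he : e ≠ 0) {s : K} {s' : L} (h : Nm k l Θ σ e s s') {c : K} (hc : c ∈ k) :
    Nm k l Θ σ e (s + c) (s' + σ c) := by
  have h1 := h.affine hk hl hσ k.one_mem one_ne_zero hc
  rw [one_mul, hσ.one, one_mul] at h1
  exact h1

theorem Nm.mul_const (hk : IsAlgClosed k) (hl : IsAlgClosed l) {σ : K → L} (hσ : IsoOn k l σ)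
    {e : ZMod ℓ} (he : e ≠ 0) {s : K} {s' : L} (h : Nm k l Θ σ e s s') {c : K} (hc : c ∈ k)
    (hc0 : c ≠ 0) : Nm k l Θ σ e (c * s) (σ c * s') := by
  have h1 := h.affine hk hl hσ hc hc0 k.zero_mem
  rw [add_zero, hσ.zero, add_zero] at h1
  exact h1

end Vale.Agent.P019P
end
end

section

section

/-!
# From exact Moebius relations to an isomorphism of fields (no uncountability)
-/

namespace Vale.Agent.P019P

open Vale.Agent.P019

set_option linter.style.haveILetI false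
set_option linter.unusedSectionVars false

open Filter

open Sg in
theorem affine_exact {k l : Type*} [Field k] [Field l] [IsAlgClosed k] (φ : k → l) (S : Set k)
    (hS : S.Finite) (hinj : Set.InjOn φ Sᶜ)
    (hadd : ∀ c, ∃ α β : l, α ≠ 0 ∧ ∀ b, b ∉ S → b + c ∉ S → φ (b + c) = α * φ b + β)
    (hmul : ∀ c, c ≠ 0 → ∃ α β : l, α ≠ 0 ∧ ∀ᶠ b in cofinite, φ (c * b) = α * φ b + β) :
    ∃ (σ : k →+* l) (p q : l), p ≠ 0 ∧ ∀ᶠ b in cofinite, φ b = p * σ b + q := by
  classical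
  -- uniqueness of the affine map
  have huniq : ∀ (α β α' β' : l), (∀ᶠ b in cofinite, α * φ b + β = α' * φ b + β') →
      α = α' ∧ β = β' := by
    intro α β α' β' h
    obtain ⟨b₁, b₂, b₃, p1, p2, p3, n12, n13, n32⟩ := three_pts ⟨S, hS, hinj⟩ h
    have h1 : (α - α') * (φ b₁ - φ b₂) = 0 := by linear_combination p1 - p2
    have h2 : α = α' := by
      rcases mul_eq_zero.1 h1 with h | h
      · exact sub_eq_zero.1 h
      · exact absurd (sub_eq_zero.1 h) n12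
    refine ⟨h2, ?_⟩
    rw [h2] at p1
    linear_combination p1
  have hSae : ∀ᶠ b in cofinite, b ∈ Sᶜ := hS.compl_mem_cofinite
  choose al be hal0 habx using hadd
  have hab : ∀ c, ∀ᶠ b in cofinite, φ (b + c) = al c * φ b + be c := by
    intro c
    filter_upwards [hSae, ae_add c hSae] with b h1 h2
    exact habx c b h1 h2
  have hmul' : ∀ c, ∃ α β : l, c ≠ 0 → (α ≠ 0 ∧ ∀ᶠ b in cofinite, φ (c * b) = α * φ b + β) := by
    intro c
    by_cases hc : c = 0
    · exact ⟨0, 0, fun h => absurd hc h⟩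
    · obtain ⟨α, β, h⟩ := hmul c hc
      exact ⟨α, β, fun _ => h⟩
  choose m n hmn using hmul'
  -- composition of translations
  have hcomp : ∀ c c', al (c + c') = al c' * al c ∧ be (c + c') = al c' * be c + be c' := by
    intro c c'
    apply huniq
    filter_upwards [hab (c + c'), hab c, ae_add c (hab c')] with b h1 h2 h3
    rw [← h1, ← add_assoc, h3, h2]
    ring
  -- conjugation by dilations
  have hconj0 : ∀ lam c, lam ≠ 0 → al (lam * c) = al c ∧
      al (lam * c) * n lam + be (lam * c) = m lam * be c + n lam := by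
    intro lam c hlam
    have h1 := (hmn lam hlam).2
    have h2 : al (lam * c) * m lam = m lam * al c ∧
        al (lam * c) * n lam + be (lam * c) = m lam * be c + n lam := by
      apply huniq
      filter_upwards [h1, ae_mul hlam (hab (lam * c)), hab c, ae_add c h1] with b e1 e2 e3 e4
      rw [e1] at e2
      rw [mul_add, e2, e3] at e4
      linear_combination e4
    refine ⟨?_, h2.2⟩
    apply mul_right_cancel₀ (hmn lam hlam).1
    rw [h2.1, mul_comm]
  have hal : ∀ d, al d = 1 := by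
    have h01 : ∀ d, d ≠ 0 → al d = al 1 := by
      intro d hd
      have := (hconj0 d 1 hd).1
      rwa [mul_one] at this
    have h1 : al 1 = 1 := by
      obtain ⟨c', hc'⟩ : ∃ c' : k, c' ∉ ({0, -1} : Finset k) := Infinite.exists_notMem_finset _
      simp only [Finset.mem_insert, Finset.mem_singleton, not_or] at hc'
      have h5 := (hcomp 1 c').1
      have hne : (1 : k) + c' ≠ 0 := by
        intro h
        exact hc'.2 (eq_neg_of_add_eq_zero_right h)
      rw [h01 _ hne, h01 _ hc'.1] at h5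
      have h6 : al 1 * al 1 = 1 * al 1 := by rw [← h5, one_mul]
      exact mul_right_cancel₀ (hal0 1) h6
    intro d
    by_cases hd : d = 0
    · subst hd
      have h5 := (hcomp 0 0).1
      rw [add_zero] at h5
      have h6 : al 0 * al 0 = 1 * al 0 := by rw [← h5, one_mul]
      exact mul_right_cancel₀ (hal0 0) h6
    · rw [h01 d hd, h1]
  have hconj : ∀ lam c, lam ≠ 0 → al (lam * c) = al c ∧ be (lam * c) = m lam * be c := by
    intro lam c hlam
    obtain ⟨h1, h2⟩ := hconj0 lam c hlam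
    refine ⟨h1, ?_⟩
    rw [hal (lam * c)] at h2
    linear_combination h2
  have hbe_add : ∀ c c', be (c + c') = be c + be c' := by
    intro c c'
    rw [(hcomp c c').2, hal, one_mul]
  have htr : ∀ c, ∀ᶠ b in cofinite, φ (b + c) = φ b + be c := by
    intro c
    filter_upwards [hab c] with b hb
    rw [hb, hal, one_mul]
  have hbe_ne : ∀ c, c ≠ 0 → be c ≠ 0 := by
    intro c hc h0
    obtain ⟨b, h2, h3, h4⟩ := ((htr c).and (hSae.and (ae_add c hSae))).exists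
    rw [h0, add_zero] at h2
    have := hinj h4 h3 h2
    exact hc (by simpa using this)
  have hbe1 : be 1 ≠ 0 := hbe_ne 1 one_ne_zero
  have hm : ∀ lam, lam ≠ 0 → m lam = be lam / be 1 := by
    intro lam hlam
    have := (hconj lam 1 hlam).2
    rw [mul_one] at this
    rw [this]
    field_simp
  have hbe0 : be 0 = 0 := by
    have := hbe_add 0 0
    simpa using this
  let σ : k →+* l :=
    { toFun := fun c => be c / be 1
      map_one' := div_self hbe1
      map_mul' := by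
        intro x y
        by_cases hx : x = 0
        · simp [hx, hbe0]
        · rw [(hconj x y hx).2, hm x hx]
          ring
      map_zero' := by simp [hbe0]
      map_add' := by
        intro x y
        rw [hbe_add]
        ring }
  have hσ : ∀ c, be c = be 1 * σ c := by
    intro c
    change be c = be 1 * (be c / be 1)
    field_simp
  obtain ⟨a₀, ha₀⟩ := hSae.exists
  refine ⟨σ, be 1, φ a₀ - be 1 * σ a₀, hbe1, ?_⟩
  filter_upwards [hSae] with b hb
  have h1 := habx (b - a₀) a₀ ha₀ (by rw [add_sub_cancel]; exact hb)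
  rw [add_sub_cancel, hal, one_mul, hσ (b - a₀), map_sub] at h1
  rw [h1]
  ring

open Sg in
/-- as `sigma_exists`, with exact additive relations. -/
theorem sigma_exact {k l : Type*} [Field k] [Field l]
    [IsAlgClosed k] [IsAlgClosed l] (ψ₁ ψ₂ ψ₃ : k → l)
    (hinj₁ : ∃ S : Set k, S.Finite ∧ Set.InjOn ψ₁ Sᶜ) (hsurj₁ : (Set.range ψ₁)ᶜ.Finite)
    (hadd : ∀ᶠ a in cofinite, ∃ (i j : ℕ) (A B C D : l), A * D - B * C ≠ 0 ∧
      ∀ᶠ b in cofinite, MobRel A B C D (ψ₁ b ^ (ringExpChar l) ^ j)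
        (ψ₂ (a + b) ^ (ringExpChar l) ^ i))
    (hmul : ∀ᶠ a in cofinite, ∃ (i j : ℕ) (A B C D : l), A * D - B * C ≠ 0 ∧
      ∀ᶠ b in cofinite, MobRel A B C D (ψ₁ b ^ (ringExpChar l) ^ j)
        (ψ₃ (a * b) ^ (ringExpChar l) ^ i))
    (hex : ∃ S : Set k, S.Finite ∧ ∀ c : k, ∃ A B C D : l, A * D - B * C ≠ 0 ∧
      ∀ b, b ∉ S → b + c ∉ S → MobRel A B C D (ψ₁ b) (ψ₁ (b + c))) :
    ∃ (σ : k ≃+* l) (A B C D : l), A * D - B * C ≠ 0 ∧
      ∀ᶠ b in cofinite, MobRel A B C D (σ b) (ψ₁ b) := by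
  obtain ⟨S₀, hS₀, hex⟩ := hex
  have hgx : ∀ c, ∃ g : (l × l) ≃ₗ[l] (l × l),
      ∀ b, b ∉ S₀ → b + c ∉ S₀ → Act g (ψ₁ b) (ψ₁ (b + c)) := by
    intro c
    obtain ⟨A, B, C, D, h0, h1⟩ := hex c
    obtain ⟨g, hg⟩ := exists_of_matrix h0
    exact ⟨g, fun b hb hbc => hg _ _ (h1 b hb hbc)⟩
  choose g hgx using hgx
  have hS₀ae : ∀ᶠ b in cofinite, b ∈ S₀ᶜ := hS₀.compl_mem_cofinite
  have hg : ∀ c, ∀ᶠ b in cofinite, Act (g c) (ψ₁ b) (ψ₁ (b + c)) := by
    intro c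
    filter_upwards [hS₀ae, ae_add c hS₀ae] with b h1 h2
    exact hgx c b h1 h2
  have hh : ∀ c, ∃ g : (l × l) ≃ₗ[l] (l × l),
      c ≠ 0 → ∀ᶠ b in cofinite, Act g (ψ₁ b) (ψ₁ (c * b)) := by
    intro c
    by_cases hc : c = 0
    · exact ⟨LinearEquiv.refl _ _, fun h => absurd hc h⟩
    obtain ⟨A, B, C, D, h0, h1⟩ := untwist_mul ψ₁ ψ₃ hinj₁ hsurj₁ hmul c hc
    obtain ⟨g, hg⟩ := exists_of_matrix h0
    exact ⟨g, fun _ => h1.mono fun b hb => hg _ _ hb⟩
  choose h hh using hh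
  obtain ⟨v, hv0, hgv, hhv⟩ := exists_common ψ₁ hinj₁ g h hg hh
  obtain ⟨M, s, hs, hM⟩ := exists_move hv0
  have hM' : M.symm (1, 0) = s⁻¹ • v := by
    rw [LinearEquiv.symm_apply_eq, map_smul, hM, smul_smul, inv_mul_cancel₀ hs, one_smul]
  -- the moved function
  let φ : k → l := fun b => (M (ψ₁ b, 1)).1 / (M (ψ₁ b, 1)).2
  have hMφ : ∀ᶠ b in cofinite, Act M (ψ₁ b) (φ b) := by
    obtain ⟨S, hS, hinj⟩ := hinj₁
    have h1 : ∀ᶠ b in cofinite, b ∈ Sᶜ := hS.compl_mem_cofinite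
    have h2 : {b | b ∈ Sᶜ ∧ (M (ψ₁ b, 1)).2 = 0}.Subsingleton := by
      rintro b ⟨hb, hb0⟩ b' ⟨hb', hb0'⟩
      apply hinj hb hb'
      have e : ∀ x : l, (M (x, 1)).2 = 0 → ((x, 1) : l × l) = ((M (x, 1)).1 * s⁻¹) • v := by
        intro x hx
        rw [mul_smul, ← hM', ← map_smul, ← LinearEquiv.symm_apply_eq, LinearEquiv.symm_symm]
        ext
        · simp
        · simp [hx]
      have e1 := e _ hb0
      have e2 := e _ hb0'
      have f1 := congrArg Prod.snd e1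
      have f2 := congrArg Prod.snd e2
      have g1 := congrArg Prod.fst e1
      have g2 := congrArg Prod.fst e2
      simp only [Prod.smul_snd, Prod.smul_fst, smul_eq_mul] at f1 f2 g1 g2
      have hv2 : v.2 ≠ 0 := by
        intro h0
        rw [h0, mul_zero] at f1
        exact one_ne_zero f1
      have k1 : (M (ψ₁ b, 1)).1 * s⁻¹ = (M (ψ₁ b', 1)).1 * s⁻¹ := by
        apply mul_right_cancel₀ hv2
        rw [← f1, ← f2]
      rw [g1, g2, k1]
    have h3 : ∀ᶠ b in cofinite, ¬ (b ∈ Sᶜ ∧ (M (ψ₁ b, 1)).2 = 0) := by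
      exact h2.finite.compl_mem_cofinite
    filter_upwards [h1, h3] with b hb1 hb3
    have hb : (M (ψ₁ b, 1)).2 ≠ 0 := fun h0 => hb3 ⟨hb1, h0⟩
    refine ⟨(M (ψ₁ b, 1)).2, hb, ?_⟩
    ext
    · simp only [φ, Prod.smul_fst, smul_eq_mul]
      field_simp
    · simp
  obtain ⟨S₁, hS₁, hinjS⟩ := hinj₁
  have hTfin : (S₀ ∪ (S₁ ∪ {b | ¬ Act M (ψ₁ b) (φ b)})).Finite := hS₀.union (hS₁.union hMφ)
  have hφinj : Set.InjOn φ (S₀ ∪ (S₁ ∪ {b | ¬ Act M (ψ₁ b) (φ b)}))ᶜ := by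
    intro b hb b' hb' hbb
    simp only [Set.mem_compl_iff, Set.mem_union, Set.mem_ofPred_eq, not_or, not_not] at hb hb'
    apply hinjS hb.2.1 hb'.2.1
    have := hb'.2.2
    rw [← hbb] at this
    exact hb.2.2.eq_left this
  obtain ⟨σ, p, q, hp, hσ⟩ := affine_exact φ _ hTfin hφinj
    (by
      intro c
      obtain ⟨t, ht⟩ := hgv c
      obtain ⟨α, β, hα, hαβ⟩ := affine_of_fix (g := (M.symm.trans (g c)).trans M) (s := t) (by
        rw [LinearEquiv.trans_apply, LinearEquiv.trans_apply, hM', map_smul, ht, map_smul,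
          map_smul, hM, smul_smul, smul_smul, mul_right_comm, inv_mul_cancel₀ hs, one_mul])
      refine ⟨α, β, hα, ?_⟩
      intro b hb hbc
      simp only [Set.mem_union, Set.mem_ofPred_eq, not_or, not_not] at hb hbc
      exact hαβ _ _ ((hb.2.2.symm.comp (hgx c b hb.1 hbc.1)).comp hbc.2.2))
    (by
      intro c hc
      obtain ⟨t, ht⟩ := hhv c hc
      obtain ⟨α, β, hα, hαβ⟩ := affine_of_fix (g := (M.symm.trans (h c)).trans M) (s := t) (by
        rw [LinearEquiv.trans_apply, LinearEquiv.trans_apply, hM', map_smul, ht, map_smul,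
          map_smul, hM, smul_smul, smul_smul, mul_right_comm, inv_mul_cancel₀ hs, one_mul])
      refine ⟨α, β, hα, ?_⟩
      filter_upwards [hMφ, ae_mul hc hMφ, hh c hc] with b e1 e2 e3
      exact hαβ _ _ ((e1.symm.comp e3).comp e2))
  -- the composite Moebius transformation
  obtain ⟨N, hN⟩ := exists_of_matrix (A := p) (B := q) (C := 0) (D := 1) (l := l)
    (by simpa using hp)
  let K : (l × l) ≃ₗ[l] (l × l) := N.trans M.symm
  have hK : ∀ᶠ b in cofinite, Act K (σ b) (ψ₁ b) := by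
    filter_upwards [hMφ, hσ] with b e1 e2
    have : Act N (σ b) (φ b) := hN _ _ (by unfold MobRel; rw [e2]; ring)
    exact this.comp e1.symm
  -- surjectivity
  have hrange : (Set.range σ)ᶜ.Finite := by
    have hF : {b | ¬ Act K (σ b) (ψ₁ b)}.Finite := hK
    have hbad : ((Set.range ψ₁)ᶜ ∪ ψ₁ '' {b | ¬ Act K (σ b) (ψ₁ b)}).Finite :=
      hsurj₁.union (hF.image _)
    refine ((hbad.image (fun y => (K.symm (y, 1)).1 / (K.symm (y, 1)).2)).union
      (Set.finite_singleton ((K.symm (1, 0)).1 / (K.symm (1, 0)).2))).subset ?_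
    intro w hw
    by_cases hT : (K (w, 1)).2 = 0
    · right
      have e : ((w, 1) : l × l) = (K (w, 1)).1 • K.symm (1, 0) := by
        rw [← map_smul, ← LinearEquiv.symm_apply_eq, LinearEquiv.symm_symm]
        ext
        · simp
        · simp [hT]
      have e1 := congrArg Prod.fst e
      have e2 := congrArg Prod.snd e
      simp only [Prod.smul_fst, Prod.smul_snd, smul_eq_mul] at e1 e2
      have hne : (K.symm (1, 0)).2 ≠ 0 := by
        intro h0
        rw [h0, mul_zero] at e2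
        exact one_ne_zero e2
      rw [Set.mem_singleton_iff, eq_div_iff hne, e1]
      linear_combination -(K.symm (1, 0)).1 * e2
    · left
      have hact : Act K w ((K (w, 1)).1 / (K (w, 1)).2) := by
        refine ⟨(K (w, 1)).2, hT, ?_⟩
        ext
        · simp only [Prod.smul_fst, smul_eq_mul]
          field_simp
        · simp
      refine ⟨(K (w, 1)).1 / (K (w, 1)).2, ?_, ?_⟩
      · by_contra hnb
        simp only [Set.mem_union, Set.mem_compl_iff, Set.mem_image, not_or, not_not,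
          Set.mem_ofPred_eq, Set.mem_range] at hnb
        obtain ⟨⟨b, hb⟩, h2⟩ := hnb
        have hb' : Act K (σ b) (ψ₁ b) := by
          by_contra hcon
          exact h2 ⟨b, hcon, hb⟩
        rw [hb] at hb'
        exact hw ⟨b, hb'.eq_left hact⟩
      · obtain ⟨t, ht, e⟩ := hact.symm
        have e1 := congrArg Prod.fst e
        have e2 := congrArg Prod.snd e
        simp only [Prod.smul_fst, Prod.smul_snd, smul_eq_mul, mul_one] at e1 e2
        simp only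
        rw [e1, e2]
        field_simp
  have hsurj : Function.Surjective σ := by
    intro y
    by_contra hy
    have h1 : (Set.range (fun z : k => y + σ z)).Infinite :=
      Set.infinite_range_of_injective (fun a b hab => σ.injective (add_left_cancel hab))
    apply h1
    refine hrange.subset ?_
    rintro _ ⟨z, rfl⟩ ⟨w, hw⟩
    apply hy
    refine ⟨w - z, ?_⟩
    rw [map_sub, hw]
    simp
  obtain ⟨A, B, C, D, hdet, hmat⟩ := exists_matrix K
  refine ⟨RingEquiv.ofBijective σ ⟨σ.injective, hsurj⟩, A, B, C, D, hdet, ?_⟩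
  filter_upwards [hK] with b hb
  exact hmat _ _ hb

end Vale.Agent.P019P
end
end

section

section

/-!
# The isomorphism of the constants (perfect version)

`ae_iff_sub`, `ae_shift`, `ae_scale`, `ae_ne`, `rst`, `rst_eq` are those of the old file.
-/

namespace Vale.Agent.P019P

open Vale.Agent.P019

set_option linter.style.haveILetI false
set_option linter.unusedSectionVars false

open Polynomial Filter

variable {K L : Type*} [Field K] [Field L] [PerfectField K] [PerfectField L] {ℓ : ℕ}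
  [Fact ℓ.Prime] [NeZero (ℓ : K)] [NeZero (ℓ : L)]
  {k : Subfield K} {l : Subfield L} {Θ : V ℓ K ≃ₗ[ZMod ℓ] V ℓ L}

theorem sigb_coeff {i j : ℕ} (hij : (ringExpChar L) ^ i = (ringExpChar L) ^ j) {x y : ZMod ℓ}
    (h : (((ringExpChar L) ^ i : ℕ) : ZMod ℓ) * x = (((ringExpChar L) ^ j : ℕ) : ZMod ℓ) * y) :
    x = y := by
  rw [hij] at h
  exact mul_left_cancel₀ (q_pow_ne_zero ℓ L j) h

/-- first construction of `σ`. -/
theorem Hyp.exists_sigma₁ (H : Hyp ℓ k l Θ) : ∃ (t s : K), Good k t ∧ Good k s ∧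
    Good k (t + s) ∧ Ind k s t ∧ ∃ (σ : K → L) (e : K → ZMod ℓ) (s' : L),
      IsoOn k l σ ∧ Nv k l Θ σ e s s' := by
  classical
  obtain ⟨t, ht0⟩ := exists_gen_add H.ack H.fgk H.trk {0} ∅ (by simp)
  have ht : Good k t := by
    have := (ht0 0 (Finset.mem_singleton_self 0)).1
    rwa [zero_add] at this
  obtain ⟨s, hs, hts, hst, -, hist, -⟩ := exists_gen_mul H.ack H.fgk H.trk t t ht
  rw [mul_comm] at hst
  refine ⟨t, s, ht, hs, hts, hist, ?_⟩
  obtain ⟨t', rt⟩ := H.rt_all ht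
  obtain ⟨s', rs⟩ := H.rt_all hs
  obtain ⟨z', rz⟩ := H.rt_all hts
  obtain ⟨w', rw'⟩ := H.rt_all hst
  obtain ⟨ψt, et, pt⟩ := H.exists_psi rt
  obtain ⟨ψs, es, ps⟩ := H.exists_psi rs
  obtain ⟨ψz, ez, pz⟩ := H.exists_psi rz
  obtain ⟨ψw, ew, pw⟩ := H.exists_psi rw'
  obtain ⟨_, -, h1⟩ := H.rel hist.2 rt rs rz (shift_add H.ack hs.1 t) pt ps pz
  obtain ⟨_, -, h2⟩ := H.rel hist.2 rt rs rw' (shift_mul H.ack hs.1 t) pt ps pw
  have : IsAlgClosed k := H.ack
  have : IsAlgClosed l := H.acl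
  have hql : ringExpChar l = ringExpChar L := ringExpChar.eq l (ringExpChar L)
  -- the isomorphism
  obtain ⟨σ, A, B, C, D, hdet, hσ⟩ := sigma_exact (rst k l ψs) (rst k l ψz) (rst k l ψw)
    (by
      refine ⟨{b : k | ¬ (ψs b ∈ l ∧ es b ≠ 0 ∧ Cor k l Θ s s' (es b) b (ψs b))}, ?_, ?_⟩
      · exact ae_iff_sub.1 ps.cor
      · intro b hb b' hb' hbb
        simp only [Set.mem_compl_iff, Set.mem_ofPred_eq, not_not] at hb hb'
        have h4 := congrArg (Subtype.val : l → L) hbb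
        rw [sigb_rst_eq hb.1, sigb_rst_eq hb'.1] at h4
        have h5 := hb'.2.2
        rw [← h4] at h5
        exact Subtype.ext (Cor.inj H.ack H.acl rs hb.2.1 hb'.2.1 b.2 b'.2 hb.1 hb.2.2 h5))
    (by
      have h4 := ae_iff_sub.1 ps.surj
      rw [eventually_cofinite] at h4
      refine h4.subset ?_
      intro β hβ hex
      obtain ⟨b, hb, hb1, -⟩ := hex
      refine hβ ⟨⟨b, hb⟩, Subtype.ext ?_⟩
      rw [sigb_rst_eq (by rw [hb1]; exact β.2), hb1])
    (by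
      filter_upwards [ae_iff_sub.1 h1] with a ha
      obtain ⟨i, j, A, hA, B, hB, C, hC, D, hD, hdet, h1, -⟩ := ha
      refine ⟨i, j, ⟨A, hA⟩, ⟨B, hB⟩, ⟨C, hC⟩, ⟨D, hD⟩, fun h0 => hdet ?_, ?_⟩
      · exact congrArg (Subtype.val : l → L) h0
      · filter_upwards [ae_iff_sub.1 h1, ae_iff_sub.1 ps.cor,
          ae_iff_sub.1 (ae_shift a.2 pz.cor)] with b hb1 hb2 hb3
        refine Subtype.ext ?_
        change (rst k l ψz (a + b) : L) ^ (ringExpChar l) ^ i *
          (C * (rst k l ψs b : L) ^ (ringExpChar l) ^ j + D) =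
          A * (rst k l ψs b : L) ^ (ringExpChar l) ^ j + B
        rw [sigb_rst_eq hb2.1, sigb_rst_eq (b := a + b) hb3.1, hql]
        exact hb1.1)
    (by
      have h0 : ∀ᶠ a : k in cofinite, (a : K) ≠ 0 := ae_iff_sub.1 (ae_ne 0)
      filter_upwards [ae_iff_sub.1 h2, h0] with a ha ha0
      obtain ⟨i, j, A, hA, B, hB, C, hC, D, hD, hdet, h1, -⟩ := ha
      refine ⟨i, j, ⟨A, hA⟩, ⟨B, hB⟩, ⟨C, hC⟩, ⟨D, hD⟩, fun h0 => hdet ?_, ?_⟩
      · exact congrArg (Subtype.val : l → L) h0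
      · filter_upwards [ae_iff_sub.1 h1, ae_iff_sub.1 ps.cor,
          ae_iff_sub.1 (ae_scale a.2 ha0 pw.cor)] with b hb1 hb2 hb3
        refine Subtype.ext ?_
        change (rst k l ψw (a * b) : L) ^ (ringExpChar l) ^ i *
          (C * (rst k l ψs b : L) ^ (ringExpChar l) ^ j + D) =
          A * (rst k l ψs b : L) ^ (ringExpChar l) ^ j + B
        rw [sigb_rst_eq hb2.1, sigb_rst_eq (b := a * b) hb3.1, hql]
        exact hb1.1)
    (by
      obtain ⟨S, hS, hex⟩ := H.exact_add hist rt rs rz ps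
      refine ⟨Subtype.val ⁻¹' S, hS.preimage Subtype.val_injective.injOn, fun c => ?_⟩
      obtain ⟨A, hA, B, hB, C, hC, D, hD, hdet, h3⟩ := hex c c.2
      refine ⟨⟨A, hA⟩, ⟨B, hB⟩, ⟨C, hC⟩, ⟨D, hD⟩, fun h0 => hdet ?_, ?_⟩
      · exact congrArg (Subtype.val : l → L) h0
      · intro b hb hbc
        obtain ⟨e1, e3⟩ := h3 b b.2 hb hbc
        have e2 : ψs (b + c) ∈ l := by
          obtain ⟨_, _, _, _, _, _, _, _, _, h4⟩ := hex 0 (zero_mem k)
          exact (h4 (b + c) (add_mem b.2 c.2) hbc (by rw [add_zero]; exact hbc)).1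
        refine Subtype.ext ?_
        change (rst k l ψs (b + c) : L) * (C * (rst k l ψs b : L) + D) =
          A * (rst k l ψs b : L) + B
        rw [sigb_rst_eq e1, sigb_rst_eq (b := b + c) e2]
        exact e3)
  let τ : K → L := fun b => if h : b ∈ k then (σ ⟨b, h⟩ : L) else 0
  have hτ : ∀ b (h : b ∈ k), τ b = σ ⟨b, h⟩ := fun b h => dif_pos h
  have hτo : IsoOn k l τ := by
    refine ⟨?_, ?_, ?_, ?_, ?_⟩
    · intro a ha
      rw [hτ a ha]
      exact (σ ⟨a, ha⟩).2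
    · intro a ha b hb
      rw [hτ a ha, hτ b hb, hτ _ (add_mem ha hb)]
      exact congrArg (Subtype.val : l → L) (map_add σ ⟨a, ha⟩ ⟨b, hb⟩)
    · intro a ha b hb
      rw [hτ a ha, hτ b hb, hτ _ (mul_mem ha hb)]
      exact congrArg (Subtype.val : l → L) (map_mul σ ⟨a, ha⟩ ⟨b, hb⟩)
    · rw [hτ 1 (one_mem k)]
      exact congrArg (Subtype.val : l → L) (map_one σ)
    · intro β hβ
      refine ⟨σ.symm ⟨β, hβ⟩, (σ.symm ⟨β, hβ⟩).2, ?_⟩
      rw [hτ _ (σ.symm ⟨β, hβ⟩).2]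
      exact congrArg (Subtype.val : l → L) (σ.apply_symm_apply ⟨β, hβ⟩)
  obtain ⟨s₁', hs₁'⟩ := exists_Nv_of_mob H.ack H.acl hτo rs A.2 B.2 C.2 D.2
    (fun h0 => hdet (Subtype.ext h0)) (ψ := ψs) (e := es) ps.cor (by
      rw [ae_iff_sub]
      filter_upwards [hσ, ae_iff_sub.1 ps.cor] with b hb1 hb2
      have h5 := congrArg (Subtype.val : l → L) hb1
      rw [hτ b b.2, ← sigb_rst_eq hb2.1]
      exact h5)
  exact ⟨τ, es, s₁', hτo, hs₁'⟩

/-- the coordinate of the sum. -/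
theorem Hyp.nv_add (H : Hyp ℓ k l Θ) {σ : K → L} (hσ : IsoOn k l σ) {e : K → ZMod ℓ}
    {t s : K} {s' : L} (hst : Ind k s t) (ht : Good k t) (hts : Good k (t + s))
    (h : Nv k l Θ σ e s s') : ∃ z' ez, Nv k l Θ σ ez (t + s) z' ∧
      ∀ᶠ a in ae k, ∀ᶠ b in ae k, ez (a + b) = e b := by
  have := ae_neBot_of_isAlgClosed H.ack
  obtain ⟨t', rt⟩ := H.rt_all ht
  obtain ⟨z₀', rz⟩ := H.rt_all hts
  obtain ⟨ψt, et, pt⟩ := H.exists_psi rt
  obtain ⟨ψz, ez, pz⟩ := H.exists_psi rz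
  have ps := h.psi hσ H.ack
  obtain ⟨_, -, h1⟩ := H.rel hst.2 rt h.rt rz (shift_add H.ack h.rt.good.1 t) pt ps pz
  obtain ⟨a, ⟨i, j, A, hA, B, hB, C, hC, D, hD, hdet, h1, -⟩, ha⟩ :=
    (h1.and (ae_mem k)).exists
  have hsa : ∀ n : ℕ, σ a ^ (ringExpChar L) ^ n ∈ l := fun n => pow_mem (hσ.mem a ha) _
  obtain ⟨z', ez', hz⟩ := exists_Nv_of_twist H.ack H.acl hσ rz (A := A)
    (B := B - A * σ a ^ (ringExpChar L) ^ j) (C := C)
    (D := D - C * σ a ^ (ringExpChar L) ^ j) hA (sub_mem hB (mul_mem hA (hsa j))) hC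
    (sub_mem hD (mul_mem hC (hsa j))) (by
      intro h0
      apply hdet
      linear_combination h0) pz.cor i j (by
      filter_upwards [ae_shift (neg_mem ha) h1, ae_mem k] with b hb1 hb
      have e1 : σ (-a + b) = σ b - σ a := by
        rw [show -a + b = b - a by ring, hσ.sub hb ha]
      rw [show a + (-a + b) = b by ring, e1, sub_pow_q] at hb1
      linear_combination hb1.1)
  refine ⟨z', ez', hz, ?_⟩
  obtain ⟨_, -, h2⟩ := H.rel hst.2 rt h.rt hz.rt (shift_add H.ack h.rt.good.1 t) pt ps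
    (hz.psi hσ H.ack)
  filter_upwards [h2, ae_mem k] with a ha hak
  obtain ⟨i, j, A, hA, B, hB, C, hC, D, hD, hdet, h3, -⟩ := ha
  have h4 : ∀ᶠ b in ae k, (1 * σ b ^ (ringExpChar L) ^ i + σ a ^ (ringExpChar L) ^ i) *
      (C * σ b ^ (ringExpChar L) ^ j + D) = A * σ b ^ (ringExpChar L) ^ j + B := by
    filter_upwards [h3, ae_mem k] with b hb1 hb
    rw [hσ.add a hak b hb, add_pow_q] at hb1
    linear_combination hb1.1
  have h5 := (twist_mob one_ne_zero hdet (sigb_infinite H.ack hσ h4)).1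
  filter_upwards [h3] with b hb
  exact sigb_coeff h5 hb.2

/-- the coordinate of a summand. -/
theorem Hyp.nv_sub (H : Hyp ℓ k l Θ) {σ : K → L} (hσ : IsoOn k l σ) {ez : K → ZMod ℓ}
    {t s : K} {z' : L} (hst : Ind k s t) (ht : Good k t) (hs : Good k s)
    (h : Nv k l Θ σ ez (t + s) z') : ∃ t' et, Nv k l Θ σ et t t' ∧
      ∀ᶠ b in ae k, ∀ᶠ a in ae k, ez (a + b) = et a := by
  have := ae_neBot_of_isAlgClosed H.ack
  have hts : Ind k t s := hst.symm H.ack
  obtain ⟨t₀', rt⟩ := H.rt_all ht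
  obtain ⟨s', rs⟩ := H.rt_all hs
  obtain ⟨ψt, et, pt⟩ := H.exists_psi rt
  obtain ⟨ψs, es, ps⟩ := H.exists_psi rs
  have pz := h.psi hσ H.ack
  have hsh : Shift ℓ k s t (t + s) (fun a b => a + b) := by
    rw [add_comm t s]
    exact shift_add H.ack ht.1 s
  obtain ⟨_, -, h1⟩ := H.rel hts.2 rs rt h.rt hsh ps pt pz
  obtain ⟨a, ⟨i, j, A, hA, B, hB, C, hC, D, hD, hdet, h1, -⟩, ha⟩ :=
    (h1.and (ae_mem k)).exists
  have hsa : ∀ n : ℕ, σ a ^ (ringExpChar L) ^ n ∈ l := fun n => pow_mem (hσ.mem a ha) _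
  obtain ⟨t', et', ht'⟩ := exists_Nv_of_twist H.ack H.acl hσ rt (A := D)
    (B := D * σ a ^ (ringExpChar L) ^ i - B) (C := -C)
    (D := A - C * σ a ^ (ringExpChar L) ^ i) hD (sub_mem (mul_mem hD (hsa i)) hB)
    (neg_mem hC) (sub_mem hA (mul_mem hC (hsa i))) (by
      intro h0
      apply hdet
      linear_combination h0) pt.cor j i (by
      filter_upwards [h1, ae_mem k] with b hb1 hb
      rw [hσ.add a ha b hb, add_pow_q] at hb1
      linear_combination -hb1.1)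
  refine ⟨t', et', ht', ?_⟩
  obtain ⟨_, -, h2⟩ := H.rel hts.2 rs ht'.rt h.rt hsh ps (ht'.psi hσ H.ack) pz
  filter_upwards [h2, ae_mem k] with a ha hak
  obtain ⟨i, j, A, hA, B, hB, C, hC, D, hD, hdet, h3, -⟩ := ha
  have h4 : ∀ᶠ b in ae k, (1 * σ b ^ (ringExpChar L) ^ i + σ a ^ (ringExpChar L) ^ i) *
      (C * σ b ^ (ringExpChar L) ^ j + D) = A * σ b ^ (ringExpChar L) ^ j + B := by
    filter_upwards [h3, ae_mem k] with b hb1 hb
    rw [hσ.add a hak b hb, add_pow_q] at hb1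
    linear_combination hb1.1
  have h5 := (twist_mob one_ne_zero hdet (sigb_infinite H.ack hσ h4)).1
  filter_upwards [h3] with b hb
  rw [add_comm]
  exact sigb_coeff h5 hb.2

theorem Hyp.exists_sigma₀ (H : Hyp ℓ k l Θ) : ∃ (σ : K → L) (e : ZMod ℓ) (s : K) (s' : L),
    IsoOn k l σ ∧ e ≠ 0 ∧ Nm k l Θ σ e s s' := by
  have := ae_neBot_of_isAlgClosed H.ack
  obtain ⟨_, s, _, hs, _, _, σ, es, s', hσ, hs'⟩ := H.exists_sigma₁
  obtain ⟨t, ht, hts, hst, hsp⟩ := H.exists_special hs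
  obtain ⟨z', ez, hz, h1⟩ := H.nv_add hσ hst ht hts hs'
  obtain ⟨e, he0⟩ := hsp z' hz.rt
  have h2 : ∀ᶠ c in ae k, ez c = e := by
    filter_upwards [hz.cor, ae_mem k] with c hc hck
    exact he0 c hck (σ c) (hσ.mem c hck) (ez c) hc.1 hc.2
  obtain ⟨a, h1, ha⟩ := (h1.and (ae_mem k)).exists
  have he : ∀ᶠ b in ae k, es b = e := by
    filter_upwards [h1, ae_shift ha h2] with b hb1 hb2
    rw [← hb1, hb2]
  refine ⟨σ, e, s, s', hσ, ?_, hs'.rt, ?_⟩
  · obtain ⟨b, hb1, hb2⟩ := (he.and hs'.cor).exists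
    rw [← hb1]
    exact hb2.1
  · filter_upwards [he, hs'.cor] with b hb1 hb2
    rw [← hb1]
    exact hb2.2

/-- `σ` works for all independent good elements. -/
theorem Hyp.exists_Nm_of_ind (H : Hyp ℓ k l Θ) {σ : K → L} (hσ : IsoOn k l σ) {e : ZMod ℓ}
    (he : e ≠ 0) {s : K} {s' : L} (h : Nm k l Θ σ e s s') {t : K} (ht : Good k t)
    (hts : Ind k s t) : ∃ t', Nm k l Θ σ e t t' := by
  have := ae_neBot_of_isAlgClosed H.ack
  have hst : Ind k t s := hts.symm H.ack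
  obtain ⟨c, hgood, hc0, hc⟩ := ((H.bert t s hst.1 hst.2).and
    ((ae_ne 0).and (ae_mem k))).exists
  have hu : Nm k l Θ σ e (c * s) (σ c * s') := h.mul_const H.ack H.acl hσ he hc hc0
  have hle : adj k (c * s) ≤ adj k s :=
    adj_le (le_adj k s) (mul_mem (le_adj k s hc) (mem_adj k s))
  have hut : ¬ IsAlgebraic (adj k (c * s)) t := fun h => hts.2 (isAlgebraic_mono hle h)
  have hind : Ind k (c * s) t := ⟨hu.rt.good.1, hut⟩
  have hnv : Nv k l Θ σ (fun _ => e) (c * s) (σ c * s') :=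
    ⟨hu.rt, hu.cor.mono fun b hb => ⟨he, hb⟩⟩
  obtain ⟨z', ez, hz, h1⟩ := H.nv_add hσ hind ht hgood hnv
  obtain ⟨t', et, ht', h2⟩ := H.nv_sub hσ hind ht hu.rt.good hz
  obtain ⟨a, h1, ha⟩ := (h1.and (ae_mem k)).exists
  obtain ⟨b, h2, hb⟩ := (h2.and (ae_mem k)).exists
  have h3 : ∀ᶠ x in ae k, ez x = e := by
    filter_upwards [ae_shift (neg_mem ha) h1] with x hx
    rwa [show a + (-a + x) = x by ring] at hx
  refine ⟨t', ht'.rt, ?_⟩
  filter_upwards [h2, ae_shift hb h3, ht'.cor] with x hx1 hx2 hx3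
  rw [add_comm, hx1] at hx2
  rw [← hx2]
  exact hx3.2

/-- the isomorphism of the fields of constants. -/
theorem Hyp.exists_sigma (H : Hyp ℓ k l Θ) : ∃ (σ : K → L) (e : ZMod ℓ),
    IsoOn k l σ ∧ e ≠ 0 ∧ ∀ s, Good k s → ∃ s', Nm k l Θ σ e s s' := by
  classical
  obtain ⟨σ, e, s, s', hσ, he, h⟩ := H.exists_sigma₀
  refine ⟨σ, e, hσ, he, fun s₁ hs₁ => ?_⟩
  obtain ⟨t, ht0⟩ := exists_gen_add H.ack H.fgk H.trk {0} {s, s₁} (by
    intro b hb
    rw [Finset.mem_insert, Finset.mem_singleton] at hb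
    rcases hb with rfl | rfl
    · exact h.rt.good
    · exact hs₁)
  obtain ⟨ht, hi⟩ := ht0 0 (Finset.mem_singleton_self 0)
  rw [zero_add] at ht hi
  have hi1 := hi s (by simp)
  have hi2 := hi s₁ (by simp)
  obtain ⟨t', ht'⟩ := H.exists_Nm_of_ind hσ he h ht (hi1.symm H.ack)
  exact H.exists_Nm_of_ind hσ he ht' hs₁ hi2

end Vale.Agent.P019P
end
end
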