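import Vale.Agent.P019.MathlibFull
import Vale.Agent.P019.MathlibFull2
import Vale.Agent.P019.MathlibUsed
import Vale.Agent.P019.Bd4.B1
import Vale.Agent.P019.Bd4.B3
import Vale.Agent.P019.Bd4.B6
import Vale.Agent.P019.Bd4.B4
import Vale.Agent.P019.Bd4.B2
import Vale.Agent.P019.Bd4.B5

set_option linter.all false

namespace AFastfcd647x12a
@[reducible] noncomputable def a0.{u1} {x1 : ℕ} {x2 : Type u1} [x3 : Field x2] : AddCommMonoid (Vale.Agent.P019.V x1 x2) := inferInstance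
@[reducible] noncomputable def a1.{u1} {x1 : ℕ} {x2 : Type u1} [x3 : Field x2] : SMulZeroClass (ZMod x1) (Vale.Agent.P019.V x1 x2) := inferInstance
@[reducible] noncomputable def a2.{u1} {x1 : ℕ} {x2 : Type u1} [x3 : Field x2] : SMul (ZMod x1) (Vale.Agent.P019.V x1 x2) := inferInstance
end AFastfcd647x12a
attribute [local instance] AFastfcd647x12a.a0 AFastfcd647x12a.a1 AFastfcd647x12a.a2
namespace AFastfcd647x12b
theorem a0.{u1, u2} {x1 : Type u1} {x2 : Type u2} [x3 : CommRing x1] [x4 : Field x2] : AddMonoidHomClass (x1 →+* x2) x1 x2 := inferInstance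
theorem a1.{u1, u2} {x1 : Type u1} {x2 : Type u2} [x3 : CommRing x1] [x4 : Field x2] : AddHomClass (x1 →+* x2) x1 x2 := inferInstance
theorem a2.{u1} {x1 : Type u1} [x2 : Field x1] {x3 : Subfield x1} [x4 : IsAlgClosed ↥x3] : PerfectField ↥x3 := inferInstance
end AFastfcd647x12b
attribute [local instance] AFastfcd647x12b.a0 AFastfcd647x12b.a1 AFastfcd647x12b.a2
attribute [local instance] O19.fr O19.tf O19.pj O19.fl

section

section

/-!
# Linear disjointness and specialization of constants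
-/

namespace Vale.Agent.P019

set_option linter.style.haveILetI false

open Polynomial

open scoped TensorProduct

section helpers

variable {K Ω : Type*} [Field K] [Field Ω]

theorem Pl.U_of_pow (P : Pl K Ω) {x : K} {n : ℕ} (hn : n ≠ 0) (h : P.U (x ^ n)) : P.U x := by
  rw [P.U_iff] at h ⊢
  rw [map_pow] at h
  rcases lt_trichotomy (P.O.valuation x) 1 with h1 | h1 | h1
  · exact absurd h (pow_lt_one₀ zero_le h1 hn).ne
  · exact h1
  · exact absurd h (one_lt_pow₀ h1 hn).ne'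

end helpers

namespace Mdl

variable {K : Type*} [Field K] [CharZero K] (M : Mdl K)

end Mdl

section orth

variable {ℓ : ℕ} {E : Type*} [Field E]

end orth

namespace Mdl

variable {K : Type*} [Field K] [CharZero K] (M : Mdl K)

/-- data of a specialization to smaller constants. -/
structure SpD (N : Subfield K) (P : Pl K K) : Prop where
  hN : M.Sub N
  id : ∀ x ∈ M.F N, x ∈ P.O ∧ P.ev x = x
  res : ∀ c ∈ M.k, c ∈ P.O → P.ev c ∈ N
  mem : ∀ x ∈ P.O, P.ev x ∈ M.F N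

namespace SpD

variable {M} {N : Subfield K} {P : Pl K K} (D : M.SpD N P)

include D

variable (ℓ : ℕ)

end SpD

variable (ℓ : ℕ) [Fact ℓ.Prime]

end Mdl

end Vale.Agent.P019
end
end

section

section

/-!
# Assembly 1: maximality, the transferred valuations and their triviality
-/

namespace Vale.Agent.P019

set_option linter.style.haveILetI false

open Polynomial

section consts

variable {K : Type*} [Field K]

theorem asm_pow_eq {k : Subfield K} (hk : IsAlgClosed k) {ℓ : ℕ} (hℓ : 0 < ℓ) {c : K}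
    (hc : c ∈ k) : ∃ d ∈ k, d ^ ℓ = c := by
  obtain ⟨d, hd⟩ := IsAlgClosed.exists_pow_nat_eq (⟨c, hc⟩ : k) hℓ
  exact ⟨d, d.2, congrArg Subtype.val hd⟩

theorem cl_const {k : Subfield K} (hk : IsAlgClosed k) {ℓ : ℕ} (hℓ : 0 < ℓ) {c : K}
    (hc : c ∈ k) : cl ℓ c = 0 := by
  obtain ⟨d, -, rfl⟩ := asm_pow_eq hk hℓ hc
  exact cl_pow_self ℓ d

/-- all nonconstant elements of an algebraic closure of a line generate it. -/
theorem line_swap {k : Subfield K} (hk : RAC k) {x p q : K} (hp : IsAlgebraic (adj k x) p)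
    (hpk : p ∉ k) (hq : IsAlgebraic (adj k x) q) : IsAlgebraic (adj k p) q := by
  have h1 : IsAlgebraic (adj k p) x := exchange (fun h => hpk (hk _ h)) hp
  have h2 : adj k x ≤ rac (adj k p) :=
    adj_le ((le_adj k p).trans (le_rac _)) (mem_rac.2 h1)
  exact isAlgebraic_rac (isAlgebraic_mono h2 hq)

end consts

namespace Mdl

variable {K : Type*} [Field K] [CharZero K] (M : Mdl K)

variable (ℓ : ℕ) [Fact ℓ.Prime]

end Mdl

section WD

variable {K L : Type*} [Field K] [Field L] [CharZero K] [CharZero L] {ℓ : ℕ} [Fact ℓ.Prime]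

variable {M : Mdl K} {M' : Mdl L} {Θ : V ℓ K ≃ₗ[ZMod ℓ] V ℓ L} {N : Subfield K} {N' : Subfield L}
  {t a : K}

end WD

end Vale.Agent.P019
end
end

section

section

/-!
# Linear disjointness and specialization of constants
-/

namespace Vale.Agent.P019P

open Vale.Agent.P019

set_option linter.style.haveILetI false

open Polynomial

open scoped TensorProduct

section helpers

variable {K Ω : Type*} [Field K] [Field Ω]

end helpers

namespace Mdl

variable {K : Type*} [Field K] [PerfectField K] (M : Mdl K)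

end Mdl

section orth

variable {ℓ : ℕ} {E : Type*} [Field E]

end orth

namespace Mdl

variable {K : Type*} [Field K] [PerfectField K] (M : Mdl K)

/-- data of a specialization to smaller constants. -/
structure SpD (N : Subfield K) (P : Pl K K) : Prop where
  hN : M.Sub N
  id : ∀ x ∈ M.F N, x ∈ P.O ∧ P.ev x = x
  res : ∀ c ∈ M.k, c ∈ P.O → P.ev c ∈ N
  mem : ∀ x ∈ P.O, P.ev x ∈ M.F N

namespace SpD

variable {M} {N : Subfield K} {P : Pl K K} (D : M.SpD N P)

include D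

theorem exists_b {z : K} (hz : z ≠ 0) : ∃ b ∈ M.k, b ≠ 0 ∧ P.U (b * z) := by
  obtain ⟨b, hb, hb0, hbU, -⟩ := P.gauss (l := N) (A := M.F N) (B := M.k)
    (Sub.le_F N) D.hN.le (fun a ha => (D.id a ha).1) (by
      intro b hb hbO
      refine ⟨P.ev b, D.res b hb hbO, ?_⟩
      rw [(D.id _ (Sub.le_F N (D.res b hb hbO))).2]) (z := z) (by
      have h : M.F N ⊔ M.k = ⊤ := by
        rw [eq_top_iff, ← M.sup]
        exact sup_le_sup_right (K0_le N) _
      rw [h]; exact Subfield.mem_top z) hz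
  exact ⟨b, hb, hb0, hbU⟩

omit D in
theorem exists_root (ℓ : ℕ) (hℓ : 0 < ℓ) {b : K} (hb : b ∈ M.k) : ∃ β ∈ M.k, β ^ ℓ = b := by
  haveI := M.ack
  obtain ⟨β, hβ⟩ := IsAlgClosed.exists_pow_nat_eq (⟨b, hb⟩ : M.k) hℓ
  exact ⟨β, β.2, congrArg Subtype.val hβ⟩

variable (ℓ : ℕ)

/-- classes of residues do not depend on choices. -/
theorem cl_ev_eq (hℓ : ℓ ≠ 0) {z z' c w : K} (hU : P.U z) (hU' : P.U z') (hc : c ∈ M.k)
    (h : z = z' * c * w ^ ℓ) :
    cl ℓ (⟨P.ev z, D.mem z hU.1⟩ : M.F N) = cl ℓ (⟨P.ev z', D.mem z' hU'.1⟩ : M.F N) := by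
  obtain ⟨β, hβ, rfl⟩ := exists_root ℓ (Nat.pos_of_ne_zero hℓ) hc
  have h1 : (β * w) ^ ℓ = z / z' := by
    rw [h, mul_pow]
    have := hU'.ne_zero
    field_simp
  have h2 : P.U (β * w) := P.U_of_pow hℓ (by rw [h1]; exact hU.div hU')
  have h3 : z = z' * (β * w) ^ ℓ := by rw [h]; ring
  have h4 : P.ev z = P.ev z' * P.ev (β * w) ^ ℓ := by
    conv_lhs => rw [h3]
    rw [P.ev_mul hU'.1 (pow_mem h2.1 ℓ), P.ev_pow h2.1]
  rw [cl_eq_iff ℓ (by intro h; exact hU.2 (congrArg Subtype.val h))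
    (by intro h; exact hU'.2 (congrArg Subtype.val h))]
  refine ⟨⟨P.ev (β * w), D.mem _ h2.1⟩, fun h => h2.2 (congrArg Subtype.val h), ?_⟩
  exact Subtype.ext h4

/-- the specialization map on units. -/
noncomputable def spU (hℓ : ℓ ≠ 0) : Kˣ →* Multiplicative (V ℓ (M.F N)) where
  toFun z := Multiplicative.ofAdd (cl ℓ (⟨P.ev ((D.exists_b z.ne_zero).choose * z),
    D.mem _ (D.exists_b z.ne_zero).choose_spec.2.2.1⟩ : M.F N))
  map_one' := by
    have h := (D.exists_b (1 : Kˣ).ne_zero).choose_spec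
    have hU1 : P.U 1 := P.U_one
    have h1 := D.cl_ev_eq ℓ hℓ h.2.2 hU1 h.1 (w := 1) (by simp)
    rw [h1]
    have h2 : (⟨P.ev 1, D.mem 1 hU1.1⟩ : M.F N) = 1 := Subtype.ext P.ev_one
    rw [h2, cl_one]
    rfl
  map_mul' x y := by
    have hx := (D.exists_b x.ne_zero).choose_spec
    have hy := (D.exists_b y.ne_zero).choose_spec
    have hxy := (D.exists_b (x * y).ne_zero).choose_spec
    set bx := (D.exists_b x.ne_zero).choose
    set b_y := (D.exists_b y.ne_zero).choose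
    set bxy := (D.exists_b (x * y).ne_zero).choose
    have hU := hx.2.2.mul hy.2.2
    have h1 := D.cl_ev_eq ℓ hℓ hxy.2.2 hU
      (M.k.mul_mem hxy.1 (M.k.mul_mem (M.k.inv_mem hx.1) (M.k.inv_mem hy.1))) (w := 1) (by
        have h3 := hx.2.1
        have h4 := hy.2.1
        rw [one_pow, Units.val_mul]
        field_simp)
    rw [h1, ← ofAdd_add]
    have h2 : (⟨P.ev (bx * x * (b_y * y)), D.mem _ hU.1⟩ : M.F N) =
        ⟨P.ev (bx * x), D.mem _ hx.2.2.1⟩ * ⟨P.ev (b_y * y), D.mem _ hy.2.2.1⟩ :=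
      Subtype.ext (P.ev_mul hx.2.2.1 hy.2.2.1)
    rw [h2, cl_mul ℓ (fun h => hx.2.2.2 (congrArg Subtype.val h))
      (fun h => hy.2.2.2 (congrArg Subtype.val h))]

end SpD

variable (ℓ : ℕ) [Fact ℓ.Prime] [NeZero (ℓ : K)]

end Mdl

end Vale.Agent.P019P
end
end

section

section

/-!
# Assembly 1: maximality, the transferred valuations and their triviality
-/

namespace Vale.Agent.P019P

open Vale.Agent.P019

set_option linter.style.haveILetI false

open Polynomial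

section consts

variable {K : Type*} [Field K]

/-- all nonconstant elements of an algebraic closure of a line generate it. -/
theorem line_swap {k : Subfield K} (hk : RAC k) {x p q : K} (hp : IsAlgebraic (adj k x) p)
    (hpk : p ∉ k) (hq : IsAlgebraic (adj k x) q) : IsAlgebraic (adj k p) q :=
  isAlgebraic_adj.2 (Vale.Agent.P019.line_swap hk (isAlgebraic_adj.1 hp) hpk
    (isAlgebraic_adj.1 hq))

end consts

namespace Mdl

variable {K : Type*} [Field K] [PerfectField K] (M : Mdl K)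

variable (ℓ : ℕ) [Fact ℓ.Prime] [NeZero (ℓ : K)]

end Mdl

section WD

variable {K L : Type*} [Field K] [Field L] [PerfectField K] [PerfectField L] {ℓ : ℕ} [Fact ℓ.Prime]
  [NeZero (ℓ : K)] [NeZero (ℓ : L)]

variable {M : Mdl K} {M' : Mdl L} {Θ : V ℓ K ≃ₗ[ZMod ℓ] V ℓ L} {N : Subfield K} {N' : Subfield L}
  {t a : K}

end WD

end Vale.Agent.P019P
end
end

section

section

/-!
# Assembly 3: the local field attached to a closed pair
-/

namespace Vale.Agent.P019P

open Vale.Agent.P019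

set_option linter.style.haveILetI false

open Polynomial

section localfield

variable {K L : Type*} [Field K] [Field L] [PerfectField K] [PerfectField L] {ℓ : ℕ} [Fact ℓ.Prime]
  [NeZero (ℓ : K)] [NeZero (ℓ : L)]

variable {M : Mdl K} {M' : Mdl L} {Θ : V ℓ K ≃ₗ[ZMod ℓ] V ℓ L} {N : Subfield K} {N' : Subfield L}

/-- the subfield of elements of `A` with residue in `B`. -/
noncomputable def resPre {Ω : Type*} [Field Ω] (P : Pl L Ω) (A : Subfield L) (hA : ∀ x ∈ A, x ∈ P.O)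
    (B : Subfield Ω) : Subfield L := (B.comap (P.resHom A hA)).map A.subtype

theorem mem_resPre {Ω : Type*} [Field Ω] {P : Pl L Ω} {A : Subfield L} {hA : ∀ x ∈ A, x ∈ P.O}
    {B : Subfield Ω} {x : L} : x ∈ resPre P A hA B ↔ x ∈ A ∧ P.ev x ∈ B := by
  unfold resPre
  rw [Subfield.mem_map]
  constructor
  · rintro ⟨y, hy, rfl⟩
    refine ⟨y.2, ?_⟩
    rw [Subfield.mem_comap, P.resHom_apply] at hy
    exact hy
  · rintro ⟨hx, hx'⟩
    refine ⟨⟨x, hx⟩, ?_, rfl⟩
    rw [Subfield.mem_comap, P.resHom_apply]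
    exact hx'

end localfield

end Vale.Agent.P019P
end
end

section

section

/-!
# Killed classes come from a common element
-/

namespace Vale.Agent.P019P

open Vale.Agent.P019

set_option linter.style.haveILetI false
set_option linter.unusedSectionVars false

open Polynomial

section kill

variable {Ω : Type*} [Field Ω] [PerfectField Ω]

theorem FG.sup_right {E L B : Subfield Ω} [PerfectField B] (h : FG E L) (hEB : E ≤ B) :
    FG B (L ⊔ B : Subfield Ω) := by
  haveI := h.perfect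
  obtain ⟨S, hS⟩ := h
  refine ⟨S, le_antisymm ?_ ?_⟩
  · refine sup_le ?_ (le_sup_left.trans (le_pf _))
    rw [hS]
    exact pf_mono (sup_le_sup_right hEB _)
  · refine pf_le (sup_le le_sup_right ?_)
    refine le_trans ?_ (le_sup_left : L ≤ L ⊔ B)
    rw [hS]
    exact le_sup_right.trans (le_pf _)

theorem mem_of_pow_mem {l A B : Subfield Ω} (hl : RAC l) (hlA : l ≤ A) (hlB : l ≤ B)
    (hB : IsAlgClosed B) (hfree : Fre l A B) {ℓ : ℕ} (hℓ : 0 < ℓ) {w : Ω} (hw : w ∈ A ⊔ B)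
    (h : w ^ ℓ ∈ A) : w ∈ A :=
  rac_sup_gen hl hlA hlB hB hfree hw (IsAlgebraic.of_pow hℓ (isAlgebraic_of_mem h))

theorem kill [IsAlgClosed Ω] (ℓ : ℕ) [Fact ℓ.Prime] [NeZero (ℓ : Ω)] {l L Bs : Subfield Ω}
    (hl : IsAlgClosed l) (hfg : FG l L) (hlB : l ≤ Bs) (hBs : IsAlgClosed Bs) {y1 y2 : Ω}
    (hy1 : y1 ∈ L) (hy2 : y2 ∈ L) (hL : ∀ a ∈ L, IsAlgebraic (adj (adj l y1) y2) a)
    (h1 : ¬ IsAlgebraic Bs y1) (h2 : ¬ IsAlgebraic (adj l y1) y2)
    (h3 : IsAlgebraic (adj Bs y1) y2) (X : Set Ω) (hX : ∀ x ∈ X, x ∈ L ∧ x ≠ 0)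
    (hinf : ∀ n : ℕ, ∃ x : Fin n → Ω, (∀ i, x i ∈ X) ∧
      ∀ i j, i ≠ j → ¬ ∃ w ∈ L, x i = x j * w ^ ℓ)
    (hpow : ∀ x ∈ X, ∃ r ∈ L ⊔ Bs, r ^ ℓ = x) : ∃ h ∈ L, h ∈ Bs ∧ h ∉ l := by
  classical
  have hℓ : 0 < ℓ := (Fact.out : ℓ.Prime).pos
  have hlR : RAC l := RAC_of_isAlgClosed l hl
  have hBR : RAC Bs := RAC_of_isAlgClosed Bs hBs
  have hlL : l ≤ L := hfg.le
  haveI : PerfectField L := hfg.perfect
  haveI : PerfectField Bs := perfect_of_RAC hBR
  haveI : PerfectField l := perfect_of_RAC hlR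
  -- finitely many parameters
  obtain ⟨T, hT, hTy⟩ : ∃ T : Finset Ω, (∀ c ∈ T, c ∈ Bs) ∧
      IsAlgebraic (adj (rcl l T) y1) y2 := by
    have h4 : IsAlgebraic (Bs ⊔ Subfield.closure {y1} : Subfield Ω) y2 := isAlgebraic_adj.1 h3
    obtain ⟨C, hC, hCN⟩ := isAlgebraic_sup_finite h4
    refine ⟨C, fun c hc => hC hc, ?_⟩
    exact isAlgebraic_adj.2 (hCN (rcl l C) (fun c hc => mem_rcl hc))
  -- the critical step
  obtain ⟨T₀, hT₀, b, hb, hbC, hbalg, hCalg⟩ : ∃ T₀ : Finset Ω, (∀ c ∈ T₀, c ∈ Bs) ∧ ∃ b ∈ Bs,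
      b ∉ rcl l T₀ ∧ IsAlgebraic (adj (rac (adj (rcl l T₀) b)) y1) y2 ∧
      ¬ IsAlgebraic (adj (rcl l T₀) y1) y2 := by
    by_contra hcon
    push Not at hcon
    exact h2 (chain_down (B := Bs) hlR (fun N => IsAlgebraic (adj N y1) y2)
      (fun T' hT' b hb hbN h => hcon T' hT' b hb hbN h) T hT hTy)
  set C := rcl l T₀ with hCdef
  have hCR : RAC C := rcl_RAC l T₀
  have hlC : l ≤ C := le_rcl l T₀
  have hCB : C ≤ Bs := rcl_le hBR hlB hT₀
  have hCac : IsAlgClosed C := isAlgClosed_of_RAC hBs hCR hCB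
  haveI : PerfectField C := perfect_of_RAC hCR
  set B := rac (adj C b) with hBdef
  have hBBs : B ≤ Bs := RAC_adj_le hBR hCB hb
  have hCB' : C ≤ B := (le_adj _ _).trans (le_rac _)
  have hBac : IsAlgClosed B := isAlgClosed_of_RAC hBs (RAC_rac _) hBBs
  haveI : PerfectField B := perfect_of_RAC (RAC_rac _)
  have hC1 : ¬ IsAlgebraic C y1 := fun h => h1 (isAlgebraic_mono hCB h)
  have hB1 : ¬ IsAlgebraic B y1 := fun h => h1 (isAlgebraic_mono hBBs h)
  -- `b` is algebraic over `L C`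
  have hbLC : IsAlgebraic (L ⊔ C : Subfield Ω) b := by
    have h4 : IsAlgebraic (adj (adj C b) y1) y2 := by
      have h5 : adj B y1 ≤ rac (adj (adj C b) y1) := by
        have h6 : Vale.Agent.P019.adj B y1 ≤ rac (adj (adj C b) y1) :=
          Vale.Agent.P019.adj_le (rac_mono (le_adj _ _)) (le_rac _ (mem_adj _ _))
        have h7 : rac (adj B y1) ≤ rac (adj (adj C b) y1) := by
          rw [rac_adj B]
          exact (RAC_rac _).le h6
        exact (le_rac _).trans h7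
      exact mem_rac.1 (RAC_rac _ _ (isAlgebraic_mono h5 hbalg))
    have h5 := exchange hCalg (adj_comm_alg h4)
    have h6 : adj (adj C y1) y2 ≤ L ⊔ C :=
      adj_le (adj_le le_sup_right ((le_sup_left : L ≤ L ⊔ C) hy1))
        ((le_sup_left : L ≤ L ⊔ C) hy2)
    exact isAlgebraic_mono h6 h5
  have hfreeLC : Fre l L C := Fre.of_two hL hC1 hCalg
  have hLalgB : ∀ a ∈ L, IsAlgebraic (adj B y1) a := by
    intro a ha
    have h5 : adj (adj l y1) y2 ≤ rac (adj B y1) := by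
      have h6 : Vale.Agent.P019.adj (adj l y1) y2 ≤ rac (adj B y1) := by
        refine Vale.Agent.P019.adj_le ?_ (mem_rac.2 hbalg)
        exact (adj_mono (hlC.trans hCB') y1).trans (le_rac _)
      have h7 : rac (adj (adj l y1) y2) ≤ rac (adj B y1) := by
        rw [rac_adj (adj l y1)]
        exact (RAC_rac _).le h6
      exact (le_rac _).trans h7
    exact mem_rac.1 (RAC_rac _ _ (isAlgebraic_mono h5 (hL a ha)))
  have hfreeB : Fre B (L ⊔ B) Bs := by
    refine Fre.of_one (y := y1) ?_ h1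
    intro a ha
    have h5 : L ⊔ B ≤ rac (adj B y1) :=
      sup_le (fun c hc => mem_rac.2 (hLalgB c hc)) ((le_adj _ _).trans (le_rac _))
    exact mem_rac.1 (h5 ha)
  obtain ⟨-, hE⟩ := gal ℓ hCac (FG.sup_right hfg hlC) hbLC hbC X
    (fun x hx => ⟨(le_sup_left : L ≤ L ⊔ C) (hX x hx).1, (hX x hx).2⟩) (by
      intro n
      obtain ⟨x, hxX, hx⟩ := hinf n
      refine ⟨x, hxX, fun i j hij hcon => hx i j hij ?_⟩
      obtain ⟨w, hw, hwe⟩ := hcon
      refine ⟨w, ?_, hwe⟩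
      refine mem_of_pow_mem hlR hlL hlC hCac hfreeLC hℓ hw ?_
      have h5 : w ^ ℓ = x i / x j := by
        rw [hwe]
        field_simp [(hX _ (hxX j)).2]
      rw [h5]
      exact L.div_mem (hX _ (hxX i)).1 (hX _ (hxX j)).1) (by
      intro x hx
      obtain ⟨r, hr, hrx⟩ := hpow x hx
      refine ⟨r, ?_, hrx⟩
      have h5 : r ∈ (L ⊔ B) ⊔ Bs := (sup_le_sup_right le_sup_left Bs : L ⊔ Bs ≤ _) hr
      have h6 : r ∈ L ⊔ B := by
        refine mem_of_pow_mem (RAC_rac _) le_sup_right hBBs hBs hfreeB hℓ h5 ?_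
        rw [hrx]
        exact (le_sup_left : L ≤ L ⊔ B) (hX x hx).1
      exact (sup_le_sup_right le_sup_left B : L ⊔ B ≤ (L ⊔ C) ⊔ B) h6)
  -- specialization
  obtain ⟨E, hlE, hEL, htd, hXE⟩ : ∃ E : Subfield Ω, l ≤ E ∧ E ≤ L ⊔ l ∧ Td1 l E ∧
      ∀ x ∈ X, ∃ e ∈ E, ∃ w ∈ L ⊔ l, x = e * w ^ ℓ := by
    refine chain_down (B := C) hlR (fun N => ∃ E : Subfield Ω, N ≤ E ∧ E ≤ L ⊔ N ∧ Td1 N E ∧
      ∀ x ∈ X, ∃ e ∈ E, ∃ w ∈ L ⊔ N, x = e * w ^ ℓ) ?_ T₀ (fun c hc => mem_rcl hc) ?_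
    · rintro T' hT' c hc hcN ⟨E, hE1, hE2, hE3, hE4⟩
      have hNC : rcl l T' ≤ C := rcl_le hCR hlC hT'
      exact spec_step (A := L) (N := rcl l T') (isAlgClosed_of_RAC hBs (rcl_RAC _ _)
        (hNC.trans hCB)) (fun h => hcN (hfreeLC _ (rcl_RAC _ _) (le_rcl _ _) hNC c hc h)) hX
        hE1 hE2 hE3 hE4
    · refine ⟨B ⊓ (L ⊔ C), le_inf hCB' le_sup_right, inf_le_right, ?_, hE⟩
      intro u hu v hv
      by_cases huC : u ∈ C
      · exact Or.inl huC
      · right
        exact line_swap hCR (mem_rac.1 (Subfield.mem_inf.1 hu).1) huC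
          (mem_rac.1 (Subfield.mem_inf.1 hv).1)
  rw [sup_eq_left.2 hlL] at hEL hXE
  by_contra hcon
  push Not at hcon
  -- a nonconstant element of `E`
  obtain ⟨y0, hy0, hy0l⟩ : ∃ y0 ∈ E, y0 ∉ l := by
    by_contra hno
    push Not at hno
    obtain ⟨x, hxX, hx⟩ := hinf 2
    obtain ⟨e, he, w, hw, hew⟩ := hXE _ (hxX 0)
    obtain ⟨e', he', w', hw', hew'⟩ := hXE _ (hxX 1)
    have he0 : e ≠ 0 := by
      rintro rfl
      rw [zero_mul] at hew
      exact (hX _ (hxX 0)).2 hew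
    have he'0 : e' ≠ 0 := by
      rintro rfl
      rw [zero_mul] at hew'
      exact (hX _ (hxX 1)).2 hew'
    have hw'0 : w' ≠ 0 := by
      rintro rfl
      rw [zero_pow hℓ.ne', mul_zero] at hew'
      exact (hX _ (hxX 1)).2 hew'
    obtain ⟨d, hd, hd'⟩ := asm_pow_eq hl hℓ (l.div_mem (hno e he) (hno e' he'))
    refine hx 0 1 (by decide) ⟨d * w / w', L.div_mem (L.mul_mem (hlL hd) hw) hw', ?_⟩
    rw [hew, hew', div_pow, mul_pow, hd']
    field_simp
  have hy0B : ¬ IsAlgebraic Bs y0 := fun h => hy0l (hcon y0 (hEL hy0) (hBR y0 h))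
  have hEalg : ∀ a ∈ E, IsAlgebraic (adj l y0) a := fun a ha =>
    (htd y0 hy0 a ha).resolve_left hy0l
  have hfreeE : Fre l E Bs := Fre.of_one hEalg hy0B
  obtain ⟨ζ, hζl, hζ⟩ := finK_prim hl ℓ
  have hfgB : FG Bs (L ⊔ Bs : Subfield Ω) := FG.sup_right hfg hlB
  have hfgE : FG (E ⊔ Bs : Subfield Ω) (L ⊔ Bs : Subfield Ω) :=
    hfgB.mono le_sup_right (sup_le_sup_right hEL Bs)
  obtain ⟨N, hN⟩ := fk ℓ hfgE ((le_sup_left : E ≤ E ⊔ Bs) (hlE hζl)) hζ
  obtain ⟨x, hxX, hx⟩ := hinf (N + 1)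
  choose e he w hw hew using fun i => hXE _ (hxX i)
  choose r hr hrx using fun i => hpow _ (hxX i)
  have hx0 : ∀ i, x i ≠ 0 := fun i => (hX _ (hxX i)).2
  have he0 : ∀ i, e i ≠ 0 := by
    intro i h0
    have := hew i
    rw [h0, zero_mul] at this
    exact hx0 i this
  have hw0 : ∀ i, w i ≠ 0 := by
    intro i h0
    have := hew i
    rw [h0, zero_pow hℓ.ne', mul_zero] at this
    exact hx0 i this
  obtain ⟨i, j, hij, y, hy, hy0', hyij⟩ := hN e (fun i => ⟨(le_sup_left : E ≤ E ⊔ Bs) (he i),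
    he0 i, r i / w i, Subfield.div_mem _ (hr i) ((le_sup_left : L ≤ L ⊔ Bs) (hw i)), by
      rw [div_pow, hrx, hew]
      field_simp [hw0 i]⟩)
  have hyE : y ∈ E := by
    refine mem_of_pow_mem hlR hlE hlB hBs hfreeE hℓ hy ?_
    have h5 : y ^ ℓ = e i / e j := by
      rw [hyij]
      field_simp [he0 j]
    rw [h5]
    exact E.div_mem (he i) (he j)
  refine hx i j hij ⟨y * w i / w j, L.div_mem (L.mul_mem (hEL hyE) (hw i)) (hw j), ?_⟩
  rw [hew i, hew j, hyij, div_pow, mul_pow]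
  have h6 := pow_ne_zero ℓ (hw0 j)
  field_simp

end kill

end Vale.Agent.P019P
end
end

section

section

/-!
# Killed classes, finite extensions
-/

namespace Vale.Agent.P019P

open Vale.Agent.P019

set_option linter.style.haveILetI false
set_option linter.unusedSectionVars false

open Polynomial

variable {Ω : Type*} [Field Ω] [PerfectField Ω]

/-- infinitely many classes of `L` die in a function field `κ` over `Bs`. -/
theorem ft_sub [IsAlgClosed Ω] (ℓ : ℕ) [Fact ℓ.Prime] [NeZero (ℓ : Ω)] {l L Bs κ : Subfield Ω}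
    (hl : IsAlgClosed l) (hfg : FG l L) (hlB : l ≤ Bs) (hBs : IsAlgClosed Bs) {y1 y2 : Ω}
    (hy1 : y1 ∈ L) (hy2 : y2 ∈ L) (hL : ∀ a ∈ L, IsAlgebraic (adj (adj l y1) y2) a)
    (h1 : ¬ IsAlgebraic Bs y1) (h2 : ¬ IsAlgebraic (adj l y1) y2)
    (h3 : IsAlgebraic (adj Bs y1) y2) (hκ : FG Bs κ) (hLκ : L ≤ κ)
    (X : Set Ω) (hX : ∀ x ∈ X, x ∈ L ∧ x ≠ 0)
    (hinf : ∀ n : ℕ, ∃ x : Fin n → Ω, (∀ i, x i ∈ X) ∧
      ∀ i j, i ≠ j → ¬ ∃ w ∈ L, x i = x j * w ^ ℓ)
    (hpow : ∀ x ∈ X, ∃ r ∈ κ, r ^ ℓ = x) : ∃ h ∈ L, h ∈ Bs ∧ h ∉ l := by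
  classical
  have hℓ : 0 < ℓ := (Fact.out : ℓ.Prime).pos
  obtain ⟨ζ, hζl, hζ⟩ := finK_prim hl ℓ
  have hfgE : FG (L ⊔ Bs : Subfield Ω) κ := hκ.mono le_sup_right (sup_le hLκ hκ.le)
  obtain ⟨N, hN⟩ := fk ℓ hfgE ((le_sup_right : Bs ≤ L ⊔ Bs) (hlB hζl)) hζ
  let X₀ : Set Ω := {u | (∃ x ∈ X, ∃ x' ∈ X, u = x / x') ∧ ∃ r ∈ L ⊔ Bs, r ^ ℓ = u}
  refine kill ℓ hl hfg hlB hBs hy1 hy2 hL h1 h2 h3 X₀ ?_ ?_ ?_
  · rintro _ ⟨⟨x, hx, x', hx', rfl⟩, -⟩
    exact ⟨L.div_mem (hX x hx).1 (hX x' hx').1, div_ne_zero (hX x hx).2 (hX x' hx').2⟩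
  · by_contra hcon
    push Not at hcon
    obtain ⟨n, hn⟩ := hcon
    have hn0 : n ≠ 0 := by
      rintro rfl
      obtain ⟨i, -⟩ := hn (fun i => i.elim0) (fun i => i.elim0)
      exact i.elim0
    obtain ⟨m, rfl⟩ := Nat.exists_eq_succ_of_ne_zero hn0
    refine pigeon (fun x => x ∈ X) (fun x y => ∃ w ∈ L ⊔ Bs, x = y * w ^ ℓ)
      (fun x y => ∃ w ∈ L, x = y * w ^ ℓ) ?_ ?_ ?_ N m ?_ ?_ hinf
    · rintro x y hx hy ⟨w, hw, h⟩
      have hw0 : w ≠ 0 := by
        rintro rfl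
        rw [zero_pow hℓ.ne', mul_zero] at h
        exact (hX x hx).2 h
      refine ⟨w⁻¹, Subfield.inv_mem _ hw, ?_⟩
      rw [h, inv_pow, mul_inv_cancel_right₀ (pow_ne_zero _ hw0)]
    · rintro x y z - - - ⟨w, hw, h⟩ ⟨w', hw', h'⟩
      refine ⟨w' * w, Subfield.mul_mem _ hw' hw, ?_⟩
      rw [h, h', mul_pow, mul_assoc]
    · intro x _
      exact ⟨1, Subfield.one_mem _, by rw [one_pow, mul_one]⟩
    · intro x hx
      obtain ⟨i, j, hij, y, hy, -, hxy⟩ := hN x (fun i =>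
        ⟨(le_sup_left : L ≤ L ⊔ Bs) (hX _ (hx i)).1, (hX _ (hx i)).2, by
          obtain ⟨r, hr, hrx⟩ := hpow _ (hx i)
          exact ⟨r, hr, hrx⟩⟩)
      exact ⟨i, j, hij, y, hy, hxy⟩
    · intro x hx hR
      have hx0 : ∀ i, x i ≠ 0 := fun i => (hX _ (hx i)).2
      obtain ⟨i, j, hij, w, hw, hxw⟩ := hn (fun i => x i / x 0) (fun i => by
        refine ⟨⟨x i, hx i, x 0, hx 0, rfl⟩, ?_⟩
        obtain ⟨w, hw, h⟩ := hR i 0
        refine ⟨w, hw, ?_⟩
        rw [h]
        field_simp [hx0 0])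
      refine ⟨i, j, hij, w, hw, ?_⟩
      have h0 := hx0 0
      have h5 : x i / x 0 = x j / x 0 * w ^ ℓ := hxw
      field_simp at h5
      exact h5
  · rintro _ ⟨-, h⟩
    exact h

end Vale.Agent.P019P
end
end

section

section

/-!
# Rational function fields in an ultrapower and freeness
-/

namespace Vale.Agent.P019P

open Vale.Agent.P019

set_option linter.style.haveILetI false
set_option linter.unusedSectionVars false

open Polynomial Filter

variable {K : Type*} [Field K] [PerfectField K]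

theorem hyper_of_ae {F : Subfield K} {S : Set K} (hSF : ∀ a ∈ S, a ∈ F) [Infinite S]
    {p : K → Prop} (h : ∀ᶠ a in ae F, p a) : ∀ᶠ i : S in (hyperfilter S : Filter S), p i.1 := by
  apply hyperfilter_le_cofinite
  rw [ae_iff] at h
  change {i : S | p i.1} ∈ cofinite
  rw [mem_cofinite]
  refine (h.preimage Subtype.val_injective.injOn).subset ?_
  intro i hi
  exact ⟨hSF _ i.2, hi⟩

variable {I : Type*} {U : Ultrafilter I}

instance perfect_uSub (k : Subfield K) [PerfectField k] : PerfectField (uSub U (fun _ => k)) := by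
  refine perfect_of_root ?_
  rintro _ ⟨f, rfl, hf⟩
  have h : ∀ i, ∃ y ∈ k, y ^ ringExpChar K = f i := by
    intro i
    obtain ⟨y, hy, hyz⟩ := exists_root_q k (hf i) 1
    exact ⟨y, hy, by rwa [pow_one] at hyz⟩
  choose y hy hyf using h
  refine ⟨gm U y, ⟨y, rfl, hy⟩, ?_⟩
  rw [ringExpChar_gm, ← gm_pow]
  exact congrArg _ (funext hyf)

theorem uSub_mono {E F : Subfield K} (h : E ≤ F) : uSub U (fun _ => E) ≤ uSub U (fun _ => F) := by
  rintro _ ⟨f, rfl, hf⟩
  exact ⟨f, rfl, fun i => h (hf i)⟩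

/-- `F` and the constants of the ultrapower generate a relatively algebraically closed subfield. -/
theorem RatF.rac_gm {k F : Subfield K} [PerfectField k] (hF : RatF k F) :
    ∀ z ∈ uSub U (fun _ => F), IsAlgebraic (F.map (gc U) ⊔ uSub U (fun _ => k) :
      Subfield (Gm U K)) z → z ∈ F.map (gc U) ⊔ uSub U (fun _ => k) := by
  induction hF with
  | base => exact fun z hz _ => (le_sup_right : uSub U (fun _ => k) ≤ _) hz
  | @step G y hG hy ih =>
    intro z hz halg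
    haveI : PerfectField G := hG.perfect
    have hy' : ∀ᶠ i : I in U, ¬ IsAlgebraic G y := Eventually.of_forall fun _ => hy
    set MG : Subfield (Gm U K) := G.map (gc U) ⊔ uSub U (fun _ => k) with hMG
    have hMGle : MG ≤ uSub U (fun _ => G) := sup_le (map_gc_le G) (uSub_mono hG.le)
    have hle : (adj G y).map (gc U) ⊔ uSub U (fun _ => k) ≤ adj MG (gc U y) := by
      refine sup_le ((map_adj_le (gc U) G y).trans (adj_mono le_sup_left _)) ?_
      exact (le_sup_right : uSub U (fun _ => k) ≤ MG).trans (le_adj _ _)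
    have h1 : z ∈ adj (uSub U (fun _ => G)) (gc U y) := by
      refine rat_gm (E := fun _ => G) (g := fun _ => y) hy' hz ?_
      exact isAlgebraic_mono (hle.trans (adj_mono hMGle _)) halg
    have h2 : z ∈ adj MG (gc U y) := by
      refine var_rac hMGle ih (gm_transc (E := fun _ => G) (g := fun _ => y) hy') h1 ?_
      exact isAlgebraic_mono hle halg
    haveI i1 : PerfectField ((adj G y).map (gc U)) := perfect_map _ _
    haveI i2 : PerfectField ((adj G y).map (gc U) ⊔ uSub U (fun _ => k) : Subfield (Gm U K)) :=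
      perfect_sup
    have h30 : G.map (gc U) ≤ (adj G y).map (gc U) := sub_map_mono _ (le_adj G y)
    have h3 : MG ≤ (adj G y).map (gc U) ⊔ uSub U (fun _ => k) :=
      sup_le (h30.trans le_sup_left) le_sup_right
    have h4' : gc U y ∈ (adj G y).map (gc U) := Subfield.mem_map.2 ⟨y, mem_adj G y, rfl⟩
    have h4'' : (adj G y).map (gc U) ≤ (adj G y).map (gc U) ⊔ uSub U (fun _ => k) := le_sup_left
    have h4 : gc U y ∈ (adj G y).map (gc U) ⊔ uSub U (fun _ => k) := h4'' h4'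
    have h5 : adj MG (gc U y) ≤ (adj G y).map (gc U) ⊔ uSub U (fun _ => k) := adj_le h3 h4
    exact h5 h2

variable {O : I → ValuationSubring K}

/-- the residue images of the generators are transcendental. -/
theorem ulj_transc (h : Ulu U O) {F G : Subfield K} (hGF : G ≤ F)
    (hFO : ∀ x ∈ uSub U (fun _ => F), x ∈ (ulP U O).O) {y : K} (hyF : y ∈ F)
    (hy : ¬ IsAlgebraic G y) :
    ¬ IsAlgebraic ((ulP U O).im (uSub U (fun _ => G)) fun x hx => hFO x (uSub_mono hGF hx))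
      (h.j y) := by
  intro h1
  have h2 := Pl.isAlgebraic_of_im (ulP U O) hFO (uSub_mono hGF) (gc_mem_uSub hyF) h1
  exact gm_transc (E := fun _ => G) (g := fun _ => y) (Eventually.of_forall fun _ => hy) h2

/-- freeness of the constants of the ultrapower. -/
theorem RatF.free_gm {k F : Subfield K} [PerfectField k] (h : Ulu U O)
    (hFO : ∀ x ∈ uSub U (fun _ => F), x ∈ (ulP U O).O) (hkF : k ≤ F)
    {N : Subfield (AlgebraicClosure (IsLocalRing.ResidueField (uVal U O)))}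
    (hN : RAC N) (hkN : k.map h.j ≤ N)
    (hNB : N ≤ (ulP U O).im (uSub U (fun _ => k)) fun x hx => hFO x (uSub_mono hkF hx))
    {a : AlgebraicClosure (IsLocalRing.ResidueField (uVal U O))}
    (ha : a ∈ (ulP U O).im (uSub U (fun _ => k)) fun x hx => hFO x (uSub_mono hkF hx))
    {F' : Subfield K} (hF' : RatF k F') (hle : F' ≤ F)
    (halg : IsAlgebraic (N ⊔ F'.map h.j : Subfield _) a) : a ∈ N := by
  induction hF' with
  | base => exact hN a (by rwa [sup_eq_left.2 hkN] at halg)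
  | @step G y hG hy ih =>
    have hGF : G ≤ F := (le_adj G y).trans hle
    haveI : PerfectField G := hG.perfect
    refine ih hGF ?_
    by_contra hcon
    have h1 : N ⊔ (adj G y).map h.j ≤ adj (N ⊔ G.map h.j) (h.j y) := by
      refine sup_le (le_sup_left.trans (le_adj _ _)) ?_
      exact (map_adj_le h.j G y).trans (adj_mono le_sup_right _)
    have h2 := exchange hcon (isAlgebraic_mono h1 halg)
    refine ulj_transc h hGF hFO (hle (mem_adj G y)) hy (isAlgebraic_mono ?_ h2)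
    have h3 : (ulP U O).im (uSub U (fun _ => k)) (fun x hx => hFO x (uSub_mono hkF hx)) ≤
        (ulP U O).im (uSub U (fun _ => G)) (fun x hx => hFO x (uSub_mono hGF hx)) := by
      intro z hz
      obtain ⟨x, hx, rfl⟩ := Pl.mem_im _ |>.1 hz
      exact Pl.ev_mem_im _ _ (uSub_mono hG.le hx)
    refine adj_le (sup_le (hNB.trans h3) ?_) (h3 ha)
    rintro _ ⟨x, hx, rfl⟩
    exact Pl.ev_mem_im _ _ (gc_mem_uSub hx)

end Vale.Agent.P019P
end
end

section

section

/-!
# Bounded representation of residues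
-/

namespace Vale.Agent.P019P

open Vale.Agent.P019

set_option linter.style.haveILetI false
set_option linter.unusedSectionVars false

open Polynomial Filter

/-- elements of a simple algebraic extension as polynomials of small degree. -/
theorem repr_lt {κ : Type*} [Field κ] {E : Subfield κ} {θ : κ} {n : ℕ} {p : E[X]} (hp : p ≠ 0)
    (hpn : p.natDegree ≤ n) (hθ : aeval θ p = 0) {x : κ}
    (hx : ∃ P Q : E[X], x = aeval θ P / aeval θ Q) :
    ∃ c : ℕ → κ, (∀ j, c j ∈ E) ∧ x = ∑ j ∈ Finset.range n, c j * θ ^ j := by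
  have hint : IsIntegral E θ := IsAlgebraic.isIntegral ⟨p, hp, hθ⟩
  obtain ⟨P, Q, rfl⟩ := hx
  have hmem : aeval θ P / aeval θ Q ∈ IntermediateField.adjoin E {θ} := by
    rw [IntermediateField.mem_adjoin_simple_iff]
    exact ⟨P, Q, rfl⟩
  have h1 : aeval θ P / aeval θ Q ∈ Algebra.adjoin E {θ} := by
    rw [← IntermediateField.adjoin_simple_toSubalgebra_of_isAlgebraic hint.isAlgebraic]
    exact hmem
  rw [Algebra.adjoin_singleton_eq_range_aeval] at h1
  obtain ⟨R, hR⟩ := h1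
  have hR' : aeval θ R = aeval θ P / aeval θ Q := hR
  set R' := R %ₘ minpoly E θ with hR'def
  have h2 : aeval θ R' = aeval θ P / aeval θ Q := by
    rw [← hR', hR'def]
    conv_rhs => rw [← modByMonic_add_div R (minpoly E θ)]
    rw [map_add, map_mul, minpoly.aeval, zero_mul, add_zero]
  have hdeg : (minpoly E θ).natDegree ≤ n :=
    (natDegree_le_of_dvd (minpoly.dvd E θ hθ) hp).trans hpn
  have h3 : R'.degree < n := by
    refine (degree_modByMonic_lt R (minpoly.monic hint)).trans_le ?_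
    rw [degree_eq_natDegree (minpoly.ne_zero hint)]
    exact_mod_cast hdeg
  refine ⟨fun j => ((R'.coeff j : E) : κ), fun j => (R'.coeff j).2, ?_⟩
  rw [← h2]
  by_cases hn : n = 0
  · subst hn
    have h4 : R' = 0 := by
      rw [Nat.cast_zero] at h3
      exact degree_eq_bot.1 (Nat.WithBot.lt_zero_iff.1 h3)
    rw [h4, map_zero, Finset.range_zero, Finset.sum_empty]
  have h4 : R'.natDegree < n := by
    by_cases h0 : R' = 0
    · rw [h0, natDegree_zero]; exact Nat.pos_of_ne_zero hn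
    · rwa [degree_eq_natDegree h0, Nat.cast_lt] at h3
  rw [aeval_eq_sum_range' h4]
  refine Finset.sum_congr rfl fun j _ => ?_
  rw [Algebra.smul_def]
  rfl

variable {K : Type*} [Field K] [PerfectField K]

/-- a polynomial relation over the base for almost all points. -/
theorem ae_relation {F : Subfield K} {e θ : K} (he : ¬ IsAlgebraic F e)
    (hθ : IsAlgebraic (Vale.Agent.P019.adj F e) θ) :
    ∃ n : ℕ, ∀ᶠ a in ae F, ∀ W : ValuationSubring K, Over W F e a → θ ∈ W →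
      ∃ p : F[X], p ≠ 0 ∧ p.natDegree ≤ n ∧ W.valuation (aeval θ p) < 1 := by
  classical
  obtain ⟨Q, hQ0, hQ⟩ := hθ
  set n := Q.natDegree with hn
  obtain ⟨D, hD0, hDA⟩ := common_den he (fun i => ((Q.coeff i : Vale.Agent.P019.adj F e) : K))
    (Finset.range (n + 1)) (fun i _ => (Q.coeff i).2)
  choose! A hA using hDA
  have hDe : aeval e D ≠ 0 := aeval_ne_of_transc he hD0
  have hsum : ∑ i ∈ Finset.range (n + 1), aeval e (A i) * θ ^ i = 0 := by
    have h1 : ∑ i ∈ Finset.range (n + 1), aeval e (A i) * θ ^ i =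
        aeval e D * ∑ i ∈ Finset.range (n + 1),
          ((Q.coeff i : Vale.Agent.P019.adj F e) : K) * θ ^ i := by
      rw [Finset.mul_sum]
      refine Finset.sum_congr rfl fun i hi => ?_
      rw [hA i hi]; ring
    rw [h1, ← aeval_eq_sum_le le_rfl θ, hQ, mul_zero]
  have hAn : A n ≠ 0 := by
    intro h0
    have h1 := hA n (Finset.mem_range.2 (Nat.lt_succ_self n))
    rw [h0, map_zero] at h1
    have h2 : ((Q.coeff n : Vale.Agent.P019.adj F e) : K) ≠ 0 := by
      intro h3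
      rw [hn, coeff_natDegree] at h3
      exact hQ0 (leadingCoeff_eq_zero.1 (Subtype.ext h3))
    exact mul_ne_zero hDe h2 h1.symm
  refine ⟨n, ?_⟩
  rw [ae_iff]
  refine Set.Finite.subset (((A n).rootSet_finite K)) ?_
  rintro a ⟨haF, ha⟩
  by_contra hroot
  apply ha
  intro W hW hθW
  have hne : (A n).eval (⟨a, haF⟩ : F) ≠ 0 := by
    intro h0
    apply hroot
    rw [mem_rootSet]
    refine ⟨hAn, ?_⟩
    have h1 : aeval a (A n) = algebraMap F K ((A n).eval (⟨a, haF⟩ : F)) := by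
      rw [← aeval_algebraMap_apply_eq_algebraMap_eval]
      rfl
    rw [h1, h0, map_zero]
  refine ⟨∑ i ∈ Finset.range (n + 1), C ((A i).eval (⟨a, haF⟩ : F)) * X ^ i, ?_, ?_, ?_⟩
  · intro h0
    have h1 := congrArg (fun p => p.coeff n) h0
    simp only [finsetSum_coeff, coeff_C_mul, coeff_X_pow, mul_ite, mul_one, mul_zero,
      coeff_zero] at h1
    rw [Finset.sum_ite_eq, if_pos (Finset.mem_range.2 (Nat.lt_succ_self n))] at h1
    exact hne h1
  · refine natDegree_sum_le_of_forall_le _ _ fun i hi => ?_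
    exact (natDegree_C_mul_X_pow_le _ _).trans (Nat.lt_succ_iff.1 (Finset.mem_range.1 hi))
  · have h1 : aeval θ (∑ i ∈ Finset.range (n + 1), C ((A i).eval (⟨a, haF⟩ : F)) * X ^ i) =
        ∑ i ∈ Finset.range (n + 1), (aeval a (A i) - aeval e (A i)) * θ ^ i := by
      have h2 : ∑ i ∈ Finset.range (n + 1), (aeval a (A i) - aeval e (A i)) * θ ^ i =
          ∑ i ∈ Finset.range (n + 1), aeval a (A i) * θ ^ i := by
        simp only [sub_mul, Finset.sum_sub_distrib, hsum, sub_zero]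
      rw [h2, map_sum]
      refine Finset.sum_congr rfl fun i _ => ?_
      rw [map_mul, map_pow, aeval_X, aeval_C]
      congr 1
      rw [← aeval_algebraMap_apply_eq_algebraMap_eval]
      rfl
    rw [h1]
    have hlt : ∀ B : F[X], W.valuation (aeval a B - aeval e B) < 1 := by
      intro B
      have heW : e ∈ W := hW.mem haF
      have haW : a ∈ W := hW.triv a haF
      have h3 : (X - C (⟨a, haF⟩ : F)) ∣ (B - C (B.eval ⟨a, haF⟩)) := by
        rw [dvd_iff_isRoot]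
        simp
      obtain ⟨S, hS⟩ := h3
      have h4 := congrArg (aeval e) hS
      rw [map_sub, map_mul, map_sub, aeval_X, aeval_C, aeval_C] at h4
      have h5 : aeval a B = algebraMap F K (B.eval ⟨a, haF⟩) := by
        rw [← aeval_algebraMap_apply_eq_algebraMap_eval]
        rfl
      have h6 : aeval a B - aeval e B = -((e - a) * aeval e S) := by
        rw [h5]
        have h7 : algebraMap F K (⟨a, haF⟩ : F) = a := rfl
        rw [h7] at h4
        rw [← h4]; ring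
      rw [h6, Valuation.map_neg, map_mul]
      refine mul_lt_one_of_lt_of_le hW.lt ?_
      have h8 : aeval e S ∈ W := by
        rw [aeval_eq_sum_le le_rfl e]
        refine sum_mem fun i _ => mul_mem (hW.triv _ (S.coeff i).2) (pow_mem heW i)
      exact (W.valuation_le_one_iff _).2 h8
    refine Valuation.map_sum_lt _ one_ne_zero fun i _ => ?_
    rw [map_mul, map_pow]
    exact mul_lt_one_of_lt_of_le (hlt (A i))
      (pow_le_one₀ zero_le ((W.valuation_le_one_iff _).2 hθW))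

/-- bounded representation of residues. -/
theorem Frame.repr {k G : Subfield K} {e s : K} (h : Frame k G e s)
    (hfg : FG k (⊤ : Subfield K)) :
    ∃ (θ : K) (n : ℕ), ∀ᶠ a in ae (adj G s), ∀ W : ValuationSubring K,
      Over W (adj G s) e a → θ ∈ W ∧ ∀ z ∈ W, ∃ c : ℕ → K, (∀ j, c j ∈ adj G s) ∧
        W.valuation (z - ∑ j ∈ Finset.range n, c j * θ ^ j) < 1 := by
  obtain ⟨θ, hθ⟩ := h.nice hfg
  obtain ⟨n, hn⟩ := ae_relation h.tt (isAlgebraic_adj.1 (h.alg θ))
  refine ⟨θ, n, ?_⟩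
  filter_upwards [hθ, hn] with a h1 h2 W hW
  have hN := h1 W hW
  refine ⟨hN.mem, fun z hz => ?_⟩
  obtain ⟨p, hp0, hpn, hpv⟩ := h2 W hW hN.mem
  obtain ⟨P, Q, hQ, hPQ⟩ := hN.rs_eq_div (rs W z)
  -- the image of the base field
  have e1 := rs_aeval hN.triv hN.mem
  obtain ⟨c, hc, hcz⟩ := repr_lt (κ := IsLocalRing.ResidueField W) (E := bar hN.triv)
    (θ := rs W θ) (n := n) (p := p.map (barEquiv hN.triv).toRingHom) (by
      rw [Ne, Polynomial.map_eq_zero]
      exact hp0) (natDegree_map_le.trans hpn) (by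
      rw [← e1 p, rs_eq_zero]
      · exact hpv
      · exact (W.valuation_le_one_iff _).1 hpv.le) (x := rs W z) (by
      refine ⟨P.map (barEquiv hN.triv).toRingHom,
        Q.map (barEquiv hN.triv).toRingHom, ?_⟩
      rw [hPQ, e1 P, e1 Q])
  choose c' hc' hcc using fun j => (mem_bar hN.triv).1 (hc j)
  refine ⟨c', hc', ?_⟩
  have hmem : ∀ j, c' j ∈ W := fun j => hN.triv _ (hc' j)
  have hmem2 : ∀ j, c' j * θ ^ j ∈ W := fun j => mul_mem (hmem j) (pow_mem hN.mem j)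
  have hsum : ∀ T : Finset ℕ, rs W (∑ j ∈ T, c' j * θ ^ j) =
      ∑ j ∈ T, rs W (c' j) * rs W θ ^ j := by
    classical
    intro T
    induction T using Finset.induction_on with
    | empty => rw [Finset.sum_empty, Finset.sum_empty, rs_zero]
    | insert a T ha ih =>
      rw [Finset.sum_insert ha, Finset.sum_insert ha, rs_add (hmem2 a)
        (sum_mem fun j _ => hmem2 j), ih, rs_mul (hmem a) (pow_mem hN.mem a), rs_pow hN.mem]
  rw [← rs_eq_zero (sub_mem hz (sum_mem fun j _ => hmem2 j)),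
    rs_sub hz (sum_mem fun j _ => hmem2 j), hsum, hcz, sub_eq_zero]
  refine Finset.sum_congr rfl fun j _ => ?_
  rw [hcc]

end Vale.Agent.P019P
end
end

section

section

/-!
# Residues over infinitely many points
-/

namespace Vale.Agent.P019P

open Vale.Agent.P019

set_option linter.style.haveILetI false
set_option linter.unusedSectionVars false

open Polynomial Filter

variable {K : Type*} [Field K] [PerfectField K] {ℓ : ℕ} [Fact ℓ.Prime] [NeZero (ℓ : K)]

section residues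

variable {I : Type*} {U : Ultrafilter I} {W : I → ValuationSubring K}

/-- residues of members of the ultraproduct are generated by `F*` and the field. -/
theorem ulr_mem (hu : Ulu U W) {F : Subfield K}
    (hFO : ∀ x ∈ uSub U (fun _ => F), x ∈ (ulP U W).O) {θ : K} {n : ℕ} {w : I → K}
    (hw : ∀ᶠ i in U, w i ∈ W i)
    (h : ∀ᶠ i in U, θ ∈ W i ∧ ∃ c : ℕ → K, (∀ j, c j ∈ F) ∧
      (W i).valuation (w i - ∑ j ∈ Finset.range n, c j * θ ^ j) < 1) :
    (ulP U W).ev (gm U w) ∈ (ulP U W).im (uSub U (fun _ => F)) hFO ⊔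
      (⊤ : Subfield K).map hu.j := by
  have h2 : ∀ i, ∃ c : ℕ → K, (∀ j, c j ∈ F) ∧ ((∃ c : ℕ → K, (∀ j, c j ∈ F) ∧
      (W i).valuation (w i - ∑ j ∈ Finset.range n, c j * θ ^ j) < 1) →
      (W i).valuation (w i - ∑ j ∈ Finset.range n, c j * θ ^ j) < 1) := by
    intro i
    by_cases hc : ∃ c : ℕ → K, (∀ j, c j ∈ F) ∧
      (W i).valuation (w i - ∑ j ∈ Finset.range n, c j * θ ^ j) < 1
    · obtain ⟨c, hc1, hc2⟩ := hc
      exact ⟨c, hc1, fun _ => hc2⟩
    · exact ⟨fun _ => 0, fun _ => F.zero_mem, fun h' => absurd h' hc⟩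
  choose c hcF hc using h2
  have hcO : ∀ j, gm U (fun i => c i j) ∈ (ulP U W).O := fun j =>
    hFO _ ⟨fun i => c i j, rfl, fun i => hcF i j⟩
  have hθO := hu.gc_mem θ
  have hmem : ∀ j, gm U (fun i => c i j) * gc U θ ^ j ∈ (ulP U W).O := fun j =>
    mul_mem (hcO j) (pow_mem hθO j)
  have hsum : gm U (fun i => ∑ j ∈ Finset.range n, c i j * θ ^ j) =
      ∑ j ∈ Finset.range n, gm U (fun i => c i j) * gc U θ ^ j := by
    rw [gm_sum]
    refine Finset.sum_congr rfl fun j _ => ?_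
    rw [gm_mul, gc_apply, ← gm_pow]
  have hsO : ∀ᶠ i in U, ∑ j ∈ Finset.range n, c i j * θ ^ j ∈ W i := by
    rw [← gm_mem_uVal, hsum]
    exact sum_mem fun j _ => hmem j
  have e1 : (ulP U W).ev (gm U w) =
      (ulP U W).ev (gm U (fun i => ∑ j ∈ Finset.range n, c i j * θ ^ j)) := by
    rw [ulP_ev_eq hw hsO]
    exact h.mono fun i hi => hc i hi.2
  rw [e1, hsum, Pl.ev_sum _ _ _ (fun j _ => hmem j)]
  refine sum_mem fun j _ => ?_
  rw [Pl.ev_mul _ (hcO j) (pow_mem hθO j), Pl.ev_pow _ hθO]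
  refine mul_mem ?_ (pow_mem ?_ j)
  · refine (le_sup_left : (ulP U W).im (uSub U (fun _ => F)) hFO ≤ _) ?_
    exact Pl.ev_mem_im _ _ ⟨fun i => c i j, rfl, fun i => hcF i j⟩
  · exact (le_sup_right : (⊤ : Subfield K).map hu.j ≤ _) ⟨θ, Subfield.mem_top _, rfl⟩

theorem im_sup_le {Γ Ω : Type*} [Field Γ] [PerfectField Γ] [Field Ω] (P : Pl Γ Ω) {A B M : Subfield Γ} {E : Subfield Ω}
    (hM : ∀ x ∈ M, x ∈ P.O) (hA : A ≤ M) (hB : B ≤ M) (hAE : ∀ x ∈ A, P.ev x ∈ E)
    (hBE : ∀ x ∈ B, P.ev x ∈ E) (hMAB : M ≤ A ⊔ B) : ∀ x ∈ M, P.ev x ∈ E := by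
  intro x hx
  have h1 : A ⊔ B ≤ resPre P M hM E :=
    sup_le (fun y hy => mem_resPre.2 ⟨hA hy, hAE y hy⟩) (fun y hy => mem_resPre.2 ⟨hB hy, hBE y hy⟩)
  exact (mem_resPre.1 (h1 (hMAB hx))).2

end residues

theorem k1_step {k G : Subfield K} (hk : IsAlgClosed k) (hfg : FG k (⊤ : Subfield K))
    (hG : RatF k G) {s e : K} (hfr : Frame k G e s) {z : K} (hz : z ≠ 0)
    (hinf : {β : K | β ∈ k ∧ ∃ W : ValuationSubring K, Over W (adj G s) e β ∧
      cl ℓ z ∈ U1 ℓ W}.Infinite) :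
    cl ℓ z ∈ VS ℓ (rac (adj k e)) := by
  classical
  have hℓ : 0 < ℓ := (Fact.out : ℓ.Prime).pos
  haveI : PerfectField k := perfect_of_RAC (RAC_of_isAlgClosed k hk)
  have hF : RatF k (adj G s) := hG.step hfr.ss
  set F := adj G s with hFdef
  have hkF : k ≤ F := hF.le
  set S := {β : K | β ∈ k ∧ ∃ W : ValuationSubring K, Over W F e β ∧ cl ℓ z ∈ U1 ℓ W} with hS
  haveI : Infinite S := hinf.to_subtype
  set U : Ultrafilter S := hyperfilter S with hU
  choose W hW hWU using fun i : S => i.2.2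
  have hSF : ∀ a ∈ S, a ∈ F := fun a ha => hkF ha.1
  have hu : Ulu U W := fun x hx => (hyper_of_ae hSF (hfr.unit hx)).mono fun i h => h (W i) (hW i)
  have hFO : ∀ x ∈ uSub U (fun _ => F), x ∈ (ulP U W).O :=
    ulP_triv (Eventually.of_forall fun i => (hW i).triv)
  have hkO : ∀ x ∈ uSub U (fun _ => k), x ∈ (ulP U W).O := fun x hx => hFO x (uSub_mono hkF hx)
  set P := ulP U W with hP
  set Ω := AlgebraicClosure (IsLocalRing.ResidueField (uVal U W)) with hΩ
  set j : K →+* Ω := hu.j with hj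
  haveI : NeZero (ℓ : Ω) := ⟨by
    rw [← map_natCast j, Ne, map_eq_zero]
    exact NeZero.ne (ℓ : K)⟩
  set R := P.im (uSub U (fun _ => F)) hFO with hR
  set Bs := P.im (uSub U (fun _ => k)) hkO with hBs
  have hBsac : IsAlgClosed Bs := P.isAlgClosed_im hkO (isAlgClosed_uSub fun _ => hk)
  have hBsR : RAC Bs := RAC_of_isAlgClosed Bs hBsac
  haveI : PerfectField Bs := perfect_of_RAC hBsR
  haveI : PerfectField F := hF.perfect
  -- `e` becomes a constant
  have heB : j e ∈ Bs := by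
    have h1 : j e = P.ev (gm U (fun i : S => (i : K))) := by
      have h2 : P.ev (gm U (fun _ : S => e)) = P.ev (gm U (fun i : S => (i : K))) := by
        rw [ulP_ev_eq (Eventually.of_forall fun i => (hW i).mem (hSF i i.2))
          (Eventually.of_forall fun i => (hW i).triv _ (hSF i i.2))]
        exact Eventually.of_forall fun i => (hW i).lt
      exact h2
    rw [h1]
    exact P.ev_mem_im hkO ⟨_, rfl, fun i => i.2.1⟩
  have hkB : k.map j ≤ Bs := by
    rintro _ ⟨x, hx, rfl⟩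
    exact P.ev_mem_im hkO (gc_mem_uSub hx)
  -- the root
  have hzu := hu z hz
  obtain ⟨w, hwO, hwr⟩ := exists_root_of_U1 (U := U) (O := W) hz hzu
    (Eventually.of_forall hWU)
  set r := P.ev (gm U w) with hr
  have hrz : r ^ ℓ = j z := hwr
  obtain ⟨θ, n, hθ⟩ := hfr.repr hfg
  have hr1 : r ∈ R ⊔ (⊤ : Subfield K).map j := by
    refine ulr_mem hu hFO (θ := θ) (n := n) hwO ?_
    filter_upwards [hyper_of_ae hSF hθ, hwO] with i h1 h2
    exact ⟨(h1 (W i) (hW i)).1, (h1 (W i) (hW i)).2 _ h2⟩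
  -- step 2
  set L1 := (⊤ : Subfield K).map j with hL1
  set Fb := F.map j with hFb
  haveI : PerfectField Fb := perfect_map j F
  haveI : PerfectField L1 := perfect_map j _
  have hFbL : Fb ≤ L1 := sub_map_mono j le_top
  have hr2 : r ∈ L1 ⊔ Bs := by
    refine alg_sup (E := Fb ⊔ Bs) (R := R) (B := L1 ⊔ Bs) ?_ (sup_le_sup_right hFbL _) ?_ ?_
      ((sup_le_sup_left le_sup_left R : R ⊔ L1 ≤ R ⊔ (L1 ⊔ Bs)) hr1) ?_
    · refine sup_le ?_ ?_
      · rintro _ ⟨x, hx, rfl⟩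
        exact P.ev_mem_im hFO (gc_mem_uSub hx)
      · intro x hx
        obtain ⟨y, hy, rfl⟩ := P.mem_im.1 hx
        exact P.ev_mem_im hFO (uSub_mono hkF hy)
    · intro x hx halg
      obtain ⟨y, hy, rfl⟩ := P.mem_im.1 hx
      set M' : Subfield (Gm U K) := F.map (gc U) ⊔ uSub U (fun _ => k) with hM'
      have hM'le : M' ≤ uSub U (fun _ => F) := sup_le (map_gc_le F) (uSub_mono hkF)
      have hM'O : ∀ x ∈ M', x ∈ P.O := fun x hx => hFO x (hM'le hx)
      have hle : Fb ⊔ Bs ≤ P.im M' hM'O := by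
        refine sup_le ?_ ?_
        · rintro _ ⟨x, hx, rfl⟩
          exact P.ev_mem_im hM'O ((le_sup_left : F.map (gc U) ≤ M')
            (Subfield.mem_map.2 ⟨x, hx, rfl⟩))
        · intro x hx
          obtain ⟨y, hy, rfl⟩ := P.mem_im.1 hx
          exact P.ev_mem_im hM'O ((le_sup_right : uSub U (fun _ => k) ≤ M') hy)
      have h1 := Pl.isAlgebraic_of_im P hFO hM'le hy (isAlgebraic_mono hle halg)
      have h2 : y ∈ M' := hF.rac_gm y hy h1
      refine im_sup_le P hM'O (A := F.map (gc U)) (B := uSub U (fun _ => k)) le_sup_left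
        le_sup_right ?_ ?_ le_rfl y h2
      · intro x hx
        obtain ⟨y, hy, rfl⟩ := Subfield.mem_map.1 hx
        exact (le_sup_left : Fb ≤ Fb ⊔ Bs) ⟨y, hy, rfl⟩
      · intro x hx
        exact (le_sup_right : Bs ≤ Fb ⊔ Bs) (P.ev_mem_im hkO hx)
    · have hle : adj Fb (j e) ≤ Fb ⊔ Bs := adj_le le_sup_left ((le_sup_right : Bs ≤ Fb ⊔ Bs) heB)
      have hL : L1 ⊔ Bs ≤ rac (Fb ⊔ Bs) := by
        refine sup_le ?_ (le_sup_right.trans (le_rac _))
        rintro _ ⟨x, -, rfl⟩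
        refine mem_rac.2 (isAlgebraic_mono ?_ (isAlgebraic_map j (hfr.alg x)))
        exact (map_adj_le j _ _).trans hle
      exact fun b hb => mem_rac.1 (hL hb)
    · have hle : adj Fb (j e) ≤ Fb ⊔ Bs := adj_le le_sup_left ((le_sup_right : Bs ≤ Fb ⊔ Bs) heB)
      refine IsAlgebraic.of_pow hℓ ?_
      rw [hrz]
      exact isAlgebraic_mono ((map_adj_le j _ _).trans hle) (isAlgebraic_map j (hfr.alg z))
  -- step 3
  set l1 := k.map j with hl1
  set T := rac (adj l1 (j e)) with hT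
  have hTB : T ≤ Bs := RAC_adj_le hBsR hkB heB
  have hlT : l1 ≤ T := (le_adj _ _).trans (le_rac _)
  have heT : j e ∈ T := le_rac _ (mem_adj _ _)
  have hfree : Fre T (L1 ⊔ T) Bs := by
    intro N hN hTN hNB a ha halg
    refine RatF.free_gm hu hFO hkF hN (hlT.trans hTN) hNB ha hF le_rfl ?_
    have h1 : (L1 ⊔ T) ⊔ N ≤ rac (N ⊔ F.map hu.j) := by
      refine sup_le (sup_le ?_ (hTN.trans (le_sup_left.trans (le_rac _))))
        (le_sup_left.trans (le_rac _))
      rintro _ ⟨x, -, rfl⟩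
      refine mem_rac.2 (isAlgebraic_mono ?_ (isAlgebraic_map j (hfr.alg x)))
      refine (map_adj_le j _ _).trans ?_
      haveI : PerfectField N := perfect_of_RAC hN
      exact adj_le le_sup_right ((le_sup_left : N ≤ N ⊔ F.map j) (hTN heT))
    exact mem_rac.1 (RAC_rac _ _ (isAlgebraic_mono h1 halg))
  have hr3 : r ∈ L1 ⊔ T := by
    refine rac_sup_gen (RAC_rac _) le_sup_right hTB hBsac hfree
      ((sup_le_sup_right le_sup_left Bs : L1 ⊔ Bs ≤ (L1 ⊔ T) ⊔ Bs) hr2) ?_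
    refine IsAlgebraic.of_pow hℓ (isAlgebraic_of_mem ?_)
    rw [hrz]
    exact (le_sup_left : L1 ≤ L1 ⊔ T) ⟨z, Subfield.mem_top z, rfl⟩
  -- step 4
  obtain ⟨ζ, hζk, hζ⟩ := finK_prim hk ℓ
  have hζ' : IsPrimitiveRoot (j ζ) ℓ := hζ.map_of_injective j.injective
  have hadjE : adj l1 (j e) ≤ L1 ⊓ T := by
    refine le_inf ?_ (le_rac _)
    exact adj_le (sub_map_mono j le_top) ⟨e, Subfield.mem_top e, rfl⟩
  obtain ⟨a, ha, b, hb, hab⟩ := kummer_descent ℓ (L1 ⊓ T) L1 T inf_le_left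
    (fun x hx halg => Subfield.mem_inf.2 ⟨hx, RAC_rac _ x (isAlgebraic_mono inf_le_right halg)⟩)
    (fun b hb => isAlgebraic_mono hadjE (mem_rac.1 hb)) (j ζ)
    (hadjE (le_adj _ _ ⟨ζ, hζk, rfl⟩)) hζ' (h := j z) (r := r) ⟨z, Subfield.mem_top z, rfl⟩
    (by rw [Ne, map_eq_zero]; exact hz) hr3 hrz
  obtain ⟨haL, haT⟩ := Subfield.mem_inf.1 ha
  obtain ⟨a₀, -, rfl⟩ := haL
  obtain ⟨b₀, -, rfl⟩ := hb
  have hzab : z = a₀ * b₀ ^ ℓ := by
    apply j.injective
    rw [map_mul, map_pow]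
    exact hab
  have haE : a₀ ∈ rac (adj k e) := by
    rw [mem_rac]
    apply isAlgebraic_of_map j
    exact isAlgebraic_mono (adj_map_le j k e) (mem_rac.1 haT)
  have ha0 : a₀ ≠ 0 := by
    rintro rfl
    rw [zero_mul] at hzab
    exact hz hzab
  have hb0 : b₀ ≠ 0 := by
    rintro rfl
    rw [zero_pow hℓ.ne', mul_zero] at hzab
    exact hz hzab
  rw [cl_ne_zero_mem_VS hz]
  exact ⟨a₀, haE, ha0, b₀, hb0, hzab⟩

/-- K1: a class which is trivial in the residue fields over infinitely many points of `e` comes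
from the relatively algebraically closed field generated by `e`. -/
theorem k1 {k : Subfield K} (hk : IsAlgClosed k) (hfg : FG k (⊤ : Subfield K)) {F : Subfield K}
    (hF : RatF k F) {e : K} (he : ¬ IsAlgebraic F e) (halg : ∀ z : K, IsAlgebraic (adj F e) z)
    {v : V ℓ K}
    (hinf : {β : K | β ∈ k ∧ ∃ W : ValuationSubring K, Over W F e β ∧ v ∈ U1 ℓ W}.Infinite) :
    v ∈ VS ℓ (rac (adj k e)) := by
  obtain ⟨z, hz, rfl⟩ := cl_surj ℓ v
  cases hF with
  | base =>
    have h1 : rac (adj k e) = ⊤ := by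
      rw [eq_top_iff]
      exact fun z _ => mem_rac.2 (halg z)
    rw [h1]
    exact cl_mem_VS (Subfield.mem_top z)
  | @step G s hG hs =>
    haveI : PerfectField k := perfect_of_RAC (RAC_of_isAlgClosed k hk)
    exact k1_step hk hfg hG ⟨hG.le, hG.fg, he, hs, halg⟩ hz hinf

end Vale.Agent.P019P
end
end

section

section

/-!
# Killed classes, arbitrary transcendence degree
-/

namespace Vale.Agent.P019P

open Vale.Agent.P019

set_option linter.style.haveILetI false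
set_option linter.unusedSectionVars false

open Polynomial

section kill

variable {Ω : Type*} [Field Ω]

theorem Fre.mono_right {l A B B' : Subfield Ω} (h : Fre l A B) (hB : B' ≤ B) : Fre l A B' :=
  fun N hN hlN hNB a ha halg => h N hN hlN (hNB.trans hB) a (hB ha) halg

/-- freeness of `l(Y, y)` from freeness of `l(Y)`. -/
theorem Fre.step {l F A C : Subfield Ω} {y : Ω} (hF : Fre l F C)
    (hA : ∀ a ∈ A, IsAlgebraic (adj F y) a) (hy : ¬ IsAlgebraic (F ⊔ C : Subfield Ω) y) :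
    Fre l A C := by
  intro N hN hlN hNC a ha halg
  refine hF N hN hlN hNC a ha ?_
  by_contra hcon
  have h1 : IsAlgebraic (adj (F ⊔ N) y) a :=
    isAlgebraic_sup_of_adj (fun a ha => isAlgebraic_mono (adj_mono le_sup_left y) (hA a ha))
      ((le_sup_right : N ≤ F ⊔ N).trans (le_adj _ _)) halg
  have h2 := exchange hcon h1
  apply hy
  have h3 : adj (F ⊔ N) a ≤ rac (F ⊔ C) := by
    have h4 : Vale.Agent.P019.adj (F ⊔ N) a ≤ F ⊔ C :=
      Vale.Agent.P019.adj_le (sup_le_sup_left hNC F) ((le_sup_right : C ≤ F ⊔ C) ha)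
    have h5 : rac (adj (F ⊔ N) a) ≤ rac (F ⊔ C) := by
      rw [rac_adj]
      exact rac_mono h4
    exact (le_rac _).trans h5
  exact mem_rac.1 (RAC_rac _ y (isAlgebraic_mono h3 h2))

/-- change of the base. -/
theorem Fre.base {l F A B C : Subfield Ω} (hF : Fre l F C) (hlB : l ≤ B) (_hBC : B ≤ C)
    (hA : ∀ a ∈ A, IsAlgebraic (F ⊔ B : Subfield Ω) a) : Fre B A C := by
  intro N hN hBN hNC a ha halg
  refine hF N hN (hlB.trans hBN) hNC a ha ?_
  exact isAlgebraic_sup_of_adj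
    (fun a ha => isAlgebraic_mono (sup_le_sup_left hBN F) (hA a ha)) le_sup_right halg

variable [PerfectField Ω]

theorem kill' [IsAlgClosed Ω] (ℓ : ℕ) [Fact ℓ.Prime] [NeZero (ℓ : Ω)] {l L Bs F : Subfield Ω}
    (hl : IsAlgClosed l) (hfg : FG l L) (hlB : l ≤ Bs) (hBs : IsAlgClosed Bs) {y : Ω}
    (hlF : l ≤ F) (hFL : F ≤ L) (hy : y ∈ L) (hL : ∀ a ∈ L, IsAlgebraic (adj F y) a)
    (h1 : Fre l F Bs) (h2 : ¬ IsAlgebraic F y)
    (h3 : IsAlgebraic (F ⊔ Bs : Subfield Ω) y) (X : Set Ω) (hX : ∀ x ∈ X, x ∈ L ∧ x ≠ 0)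
    (hinf : ∀ n : ℕ, ∃ x : Fin n → Ω, (∀ i, x i ∈ X) ∧
      ∀ i j, i ≠ j → ¬ ∃ w ∈ L, x i = x j * w ^ ℓ)
    (hpow : ∀ x ∈ X, ∃ r ∈ L ⊔ Bs, r ^ ℓ = x) : ∃ h ∈ L, h ∈ Bs ∧ h ∉ l := by
  classical
  have hℓ : 0 < ℓ := (Fact.out : ℓ.Prime).pos
  have hlR : RAC l := RAC_of_isAlgClosed l hl
  have hBR : RAC Bs := RAC_of_isAlgClosed Bs hBs
  have hlL : l ≤ L := hfg.le
  haveI : PerfectField L := hfg.perfect
  haveI : PerfectField Bs := perfect_of_RAC hBR
  haveI : PerfectField l := perfect_of_RAC hlR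
  -- finitely many parameters
  obtain ⟨T, hT, hTy⟩ : ∃ T : Finset Ω, (∀ c ∈ T, c ∈ Bs) ∧
      IsAlgebraic (F ⊔ rcl l T : Subfield Ω) y := by
    have h4 : IsAlgebraic (Bs ⊔ Subfield.closure (F : Set Ω) : Subfield Ω) y := by
      rw [Subfield.closure_eq, sup_comm]
      exact h3
    obtain ⟨C, hC, hCN⟩ := isAlgebraic_sup_finite h4
    refine ⟨C, fun c hc => hC hc, ?_⟩
    have h5 := hCN (rcl l C) (fun c hc => mem_rcl hc)
    rw [Subfield.closure_eq, sup_comm] at h5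
    exact h5
  -- the critical step
  obtain ⟨T₀, hT₀, b, hb, hbC, hbalg, hCalg⟩ : ∃ T₀ : Finset Ω, (∀ c ∈ T₀, c ∈ Bs) ∧ ∃ b ∈ Bs,
      b ∉ rcl l T₀ ∧ IsAlgebraic (F ⊔ rac (adj (rcl l T₀) b) : Subfield Ω) y ∧
      ¬ IsAlgebraic (F ⊔ rcl l T₀ : Subfield Ω) y := by
    by_contra hcon
    push Not at hcon
    have h4 := chain_down (B := Bs) hlR (fun N => IsAlgebraic (F ⊔ N : Subfield Ω) y)
      (fun T' hT' b hb hbN h => hcon T' hT' b hb hbN h) T hT hTy
    rw [sup_eq_left.2 hlF] at h4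
    exact h2 h4
  set C := rcl l T₀ with hCdef
  have hCR : RAC C := rcl_RAC l T₀
  have hlC : l ≤ C := le_rcl l T₀
  have hCB : C ≤ Bs := rcl_le hBR hlB hT₀
  have hCac : IsAlgClosed C := isAlgClosed_of_RAC hBs hCR hCB
  haveI : PerfectField C := perfect_of_RAC hCR
  set B := rac (adj C b) with hBdef
  have hBBs : B ≤ Bs := RAC_adj_le hBR hCB hb
  have hCB' : C ≤ B := (le_adj _ _).trans (le_rac _)
  have hBac : IsAlgClosed B := isAlgClosed_of_RAC hBs (RAC_rac _) hBBs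
  haveI : PerfectField B := perfect_of_RAC (RAC_rac _)
  -- `b` is algebraic over `L C`
  have hbLC : IsAlgebraic (L ⊔ C : Subfield Ω) b := by
    have h4 : IsAlgebraic (adj (F ⊔ C) b) y := by
      have h5 : F ⊔ B ≤ rac (adj (F ⊔ C) b) := by
        refine sup_le ((le_sup_left : F ≤ F ⊔ C).trans ((le_adj _ _).trans (le_rac _))) ?_
        exact rac_mono (adj_mono le_sup_right b)
      exact mem_rac.1 (RAC_rac _ _ (isAlgebraic_mono h5 hbalg))
    have h5 := exchange hCalg h4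
    have h6 : adj (F ⊔ C) y ≤ L ⊔ C :=
      adj_le (sup_le_sup_right hFL C) ((le_sup_left : L ≤ L ⊔ C) hy)
    exact isAlgebraic_mono h6 h5
  have hfreeLC : Fre l L C := (h1.mono_right hCB).step hL hCalg
  have hLalgB : ∀ a ∈ L, IsAlgebraic (F ⊔ B : Subfield Ω) a := by
    intro a ha
    have h5 : adj F y ≤ rac (F ⊔ B) := by
      have h6 : Vale.Agent.P019.adj F y ≤ rac (F ⊔ B) :=
        Vale.Agent.P019.adj_le ((le_sup_left : F ≤ F ⊔ B).trans (le_rac _)) (mem_rac.2 hbalg)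
      have h7 : rac (adj F y) ≤ rac (F ⊔ B) := by
        rw [rac_adj F]
        exact (RAC_rac _).le h6
      exact (le_rac _).trans h7
    exact mem_rac.1 (RAC_rac _ _ (isAlgebraic_mono h5 (hL a ha)))
  have hfreeB : Fre B (L ⊔ B) Bs := by
    refine h1.base (hlC.trans hCB') hBBs ?_
    intro a ha
    have h5 : L ⊔ B ≤ rac (F ⊔ B) :=
      sup_le (fun c hc => mem_rac.2 (hLalgB c hc)) (le_sup_right.trans (le_rac _))
    exact mem_rac.1 (h5 ha)
  obtain ⟨-, hE⟩ := gal ℓ hCac (FG.sup_right hfg hlC) hbLC hbC X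
    (fun x hx => ⟨(le_sup_left : L ≤ L ⊔ C) (hX x hx).1, (hX x hx).2⟩) (by
      intro n
      obtain ⟨x, hxX, hx⟩ := hinf n
      refine ⟨x, hxX, fun i j hij hcon => hx i j hij ?_⟩
      obtain ⟨w, hw, hwe⟩ := hcon
      refine ⟨w, ?_, hwe⟩
      refine mem_of_pow_mem hlR hlL hlC hCac hfreeLC hℓ hw ?_
      have h5 : w ^ ℓ = x i / x j := by
        rw [hwe]
        field_simp [(hX _ (hxX j)).2]
      rw [h5]
      exact L.div_mem (hX _ (hxX i)).1 (hX _ (hxX j)).1) (by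
      intro x hx
      obtain ⟨r, hr, hrx⟩ := hpow x hx
      refine ⟨r, ?_, hrx⟩
      have h5 : r ∈ (L ⊔ B) ⊔ Bs := (sup_le_sup_right le_sup_left Bs : L ⊔ Bs ≤ _) hr
      have h6 : r ∈ L ⊔ B := by
        refine mem_of_pow_mem (RAC_rac _) le_sup_right hBBs hBs hfreeB hℓ h5 ?_
        rw [hrx]
        exact (le_sup_left : L ≤ L ⊔ B) (hX x hx).1
      exact (sup_le_sup_right le_sup_left B : L ⊔ B ≤ (L ⊔ C) ⊔ B) h6)
  -- specialization
  obtain ⟨E, hlE, hEL, htd, hXE⟩ : ∃ E : Subfield Ω, l ≤ E ∧ E ≤ L ⊔ l ∧ Td1 l E ∧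
      ∀ x ∈ X, ∃ e ∈ E, ∃ w ∈ L ⊔ l, x = e * w ^ ℓ := by
    refine chain_down (B := C) hlR (fun N => ∃ E : Subfield Ω, N ≤ E ∧ E ≤ L ⊔ N ∧ Td1 N E ∧
      ∀ x ∈ X, ∃ e ∈ E, ∃ w ∈ L ⊔ N, x = e * w ^ ℓ) ?_ T₀ (fun c hc => mem_rcl hc) ?_
    · rintro T' hT' c hc hcN ⟨E, hE1, hE2, hE3, hE4⟩
      have hNC : rcl l T' ≤ C := rcl_le hCR hlC hT'
      exact spec_step (A := L) (N := rcl l T') (isAlgClosed_of_RAC hBs (rcl_RAC _ _)
        (hNC.trans hCB)) (fun h => hcN (hfreeLC _ (rcl_RAC _ _) (le_rcl _ _) hNC c hc h)) hX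
        hE1 hE2 hE3 hE4
    · refine ⟨B ⊓ (L ⊔ C), le_inf hCB' le_sup_right, inf_le_right, ?_, hE⟩
      intro u hu v hv
      by_cases huC : u ∈ C
      · exact Or.inl huC
      · right
        exact line_swap hCR (mem_rac.1 (Subfield.mem_inf.1 hu).1) huC
          (mem_rac.1 (Subfield.mem_inf.1 hv).1)
  rw [sup_eq_left.2 hlL] at hEL hXE
  by_contra hcon
  push Not at hcon
  -- a nonconstant element of `E`
  obtain ⟨y0, hy0, hy0l⟩ : ∃ y0 ∈ E, y0 ∉ l := by
    by_contra hno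
    push Not at hno
    obtain ⟨x, hxX, hx⟩ := hinf 2
    obtain ⟨e, he, w, hw, hew⟩ := hXE _ (hxX 0)
    obtain ⟨e', he', w', hw', hew'⟩ := hXE _ (hxX 1)
    have he0 : e ≠ 0 := by
      rintro rfl
      rw [zero_mul] at hew
      exact (hX _ (hxX 0)).2 hew
    have he'0 : e' ≠ 0 := by
      rintro rfl
      rw [zero_mul] at hew'
      exact (hX _ (hxX 1)).2 hew'
    have hw'0 : w' ≠ 0 := by
      rintro rfl
      rw [zero_pow hℓ.ne', mul_zero] at hew'
      exact (hX _ (hxX 1)).2 hew'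
    obtain ⟨d, hd, hd'⟩ := asm_pow_eq hl hℓ (l.div_mem (hno e he) (hno e' he'))
    refine hx 0 1 (by decide) ⟨d * w / w', L.div_mem (L.mul_mem (hlL hd) hw) hw', ?_⟩
    rw [hew, hew', div_pow, mul_pow, hd']
    field_simp
  have hy0B : ¬ IsAlgebraic Bs y0 := fun h => hy0l (hcon y0 (hEL hy0) (hBR y0 h))
  have hEalg : ∀ a ∈ E, IsAlgebraic (adj l y0) a := fun a ha =>
    (htd y0 hy0 a ha).resolve_left hy0l
  have hfreeE : Fre l E Bs := Fre.of_one hEalg hy0B
  obtain ⟨ζ, hζl, hζ⟩ := finK_prim hl ℓ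
  have hfgB : FG Bs (L ⊔ Bs : Subfield Ω) := FG.sup_right hfg hlB
  have hfgE : FG (E ⊔ Bs : Subfield Ω) (L ⊔ Bs : Subfield Ω) :=
    hfgB.mono le_sup_right (sup_le_sup_right hEL Bs)
  obtain ⟨N, hN⟩ := fk ℓ hfgE ((le_sup_left : E ≤ E ⊔ Bs) (hlE hζl)) hζ
  obtain ⟨x, hxX, hx⟩ := hinf (N + 1)
  choose e he w hw hew using fun i => hXE _ (hxX i)
  choose r hr hrx using fun i => hpow _ (hxX i)
  have hx0 : ∀ i, x i ≠ 0 := fun i => (hX _ (hxX i)).2
  have he0 : ∀ i, e i ≠ 0 := by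
    intro i h0
    have := hew i
    rw [h0, zero_mul] at this
    exact hx0 i this
  have hw0 : ∀ i, w i ≠ 0 := by
    intro i h0
    have := hew i
    rw [h0, zero_pow hℓ.ne', mul_zero] at this
    exact hx0 i this
  obtain ⟨i, j, hij, y, hy, hy0', hyij⟩ := hN e (fun i => ⟨(le_sup_left : E ≤ E ⊔ Bs) (he i),
    he0 i, r i / w i, Subfield.div_mem _ (hr i) ((le_sup_left : L ≤ L ⊔ Bs) (hw i)), by
      rw [div_pow, hrx, hew]
      field_simp [hw0 i]⟩)
  have hyE : y ∈ E := by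
    refine mem_of_pow_mem hlR hlE hlB hBs hfreeE hℓ hy ?_
    have h5 : y ^ ℓ = e i / e j := by
      rw [hyij]
      field_simp [he0 j]
    rw [h5]
    exact E.div_mem (he i) (he j)
  refine hx i j hij ⟨y * w i / w j, L.div_mem (L.mul_mem (hEL hyE) (hw i)) (hw j), ?_⟩
  rw [hew i, hew j, hyij, div_pow, mul_pow]
  have h6 := pow_ne_zero ℓ (hw0 j)
  field_simp

/-- infinitely many classes of `L` die in a function field `κ` over `Bs`. -/
theorem ft_sub' [IsAlgClosed Ω] (ℓ : ℕ) [Fact ℓ.Prime] [NeZero (ℓ : Ω)]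
    {l L Bs κ F : Subfield Ω}
    (hl : IsAlgClosed l) (hfg : FG l L) (hlB : l ≤ Bs) (hBs : IsAlgClosed Bs) {y : Ω}
    (hlF : l ≤ F) (hFL : F ≤ L) (hy : y ∈ L) (hL : ∀ a ∈ L, IsAlgebraic (adj F y) a)
    (h1 : Fre l F Bs) (h2 : ¬ IsAlgebraic F y)
    (h3 : IsAlgebraic (F ⊔ Bs : Subfield Ω) y) (hκ : FG Bs κ) (hLκ : L ≤ κ)
    (X : Set Ω) (hX : ∀ x ∈ X, x ∈ L ∧ x ≠ 0)
    (hinf : ∀ n : ℕ, ∃ x : Fin n → Ω, (∀ i, x i ∈ X) ∧
      ∀ i j, i ≠ j → ¬ ∃ w ∈ L, x i = x j * w ^ ℓ)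
    (hpow : ∀ x ∈ X, ∃ r ∈ κ, r ^ ℓ = x) : ∃ h ∈ L, h ∈ Bs ∧ h ∉ l := by
  classical
  have hℓ : 0 < ℓ := (Fact.out : ℓ.Prime).pos
  obtain ⟨ζ, hζl, hζ⟩ := finK_prim hl ℓ
  have hfgE : FG (L ⊔ Bs : Subfield Ω) κ := hκ.mono le_sup_right (sup_le hLκ hκ.le)
  obtain ⟨N, hN⟩ := fk ℓ hfgE ((le_sup_right : Bs ≤ L ⊔ Bs) (hlB hζl)) hζ
  let X₀ : Set Ω := {u | (∃ x ∈ X, ∃ x' ∈ X, u = x / x') ∧ ∃ r ∈ L ⊔ Bs, r ^ ℓ = u}
  refine kill' ℓ hl hfg hlB hBs hlF hFL hy hL h1 h2 h3 X₀ ?_ ?_ ?_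
  · rintro _ ⟨⟨x, hx, x', hx', rfl⟩, -⟩
    exact ⟨L.div_mem (hX x hx).1 (hX x' hx').1, div_ne_zero (hX x hx).2 (hX x' hx').2⟩
  · by_contra hcon
    push Not at hcon
    obtain ⟨n, hn⟩ := hcon
    have hn0 : n ≠ 0 := by
      rintro rfl
      obtain ⟨i, -⟩ := hn (fun i => i.elim0) (fun i => i.elim0)
      exact i.elim0
    obtain ⟨m, rfl⟩ := Nat.exists_eq_succ_of_ne_zero hn0
    refine pigeon (fun x => x ∈ X) (fun x y => ∃ w ∈ L ⊔ Bs, x = y * w ^ ℓ)
      (fun x y => ∃ w ∈ L, x = y * w ^ ℓ) ?_ ?_ ?_ N m ?_ ?_ hinf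
    · rintro x y hx hy ⟨w, hw, h⟩
      have hw0 : w ≠ 0 := by
        rintro rfl
        rw [zero_pow hℓ.ne', mul_zero] at h
        exact (hX x hx).2 h
      refine ⟨w⁻¹, Subfield.inv_mem _ hw, ?_⟩
      rw [h, inv_pow, mul_inv_cancel_right₀ (pow_ne_zero _ hw0)]
    · rintro x y z - - - ⟨w, hw, h⟩ ⟨w', hw', h'⟩
      refine ⟨w' * w, Subfield.mul_mem _ hw' hw, ?_⟩
      rw [h, h', mul_pow, mul_assoc]
    · intro x _
      exact ⟨1, Subfield.one_mem _, by rw [one_pow, mul_one]⟩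
    · intro x hx
      obtain ⟨i, j, hij, y, hy, -, hxy⟩ := hN x (fun i =>
        ⟨(le_sup_left : L ≤ L ⊔ Bs) (hX _ (hx i)).1, (hX _ (hx i)).2, by
          obtain ⟨r, hr, hrx⟩ := hpow _ (hx i)
          exact ⟨r, hr, hrx⟩⟩)
      exact ⟨i, j, hij, y, hy, hxy⟩
    · intro x hx hR
      have hx0 : ∀ i, x i ≠ 0 := fun i => (hX _ (hx i)).2
      obtain ⟨i, j, hij, w, hw, hxw⟩ := hn (fun i => x i / x 0) (fun i => by
        refine ⟨⟨x i, hx i, x 0, hx 0, rfl⟩, ?_⟩
        obtain ⟨w, hw, h⟩ := hR i 0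
        refine ⟨w, hw, ?_⟩
        rw [h]
        field_simp [hx0 0])
      refine ⟨i, j, hij, w, hw, ?_⟩
      have h0 := hx0 0
      have h5 : x i / x 0 = x j / x 0 * w ^ ℓ := hxw
      field_simp at h5
      exact h5
  · rintro _ ⟨-, h⟩
    exact h

end kill

end Vale.Agent.P019P
end
end

section

section

/-!
# Elements of bounded degree in the ultrapower
-/

namespace Vale.Agent.P019P

open Vale.Agent.P019

set_option linter.style.haveILetI false
set_option linter.unusedSectionVars false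

open Polynomial Filter

variable {Ω : Type*} [Field Ω] {I : Type*} {U : Ultrafilter I}

section e4r

variable [PerfectField Ω] {k : Subfield Ω}

/-- perfectness of ultraproducts. -/
theorem e4r_perfect {R : I → Subfield Ω} (hR : ∀ i, PerfectField (R i)) :
    PerfectField (uSub U R) := by
  refine perfect_of_root ?_
  rintro _ ⟨f, rfl, hf⟩
  have h : ∀ i, ∃ y ∈ R i, y ^ ringExpChar Ω = f i := by
    intro i
    haveI := hR i
    obtain ⟨y, hy, hyz⟩ := exists_root_q (R i) (hf i) 1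
    exact ⟨y, hy, by rwa [pow_one] at hyz⟩
  choose y hy hyf using h
  refine ⟨gm U y, ⟨y, rfl, hy⟩, ?_⟩
  rw [ringExpChar_gm, ← gm_pow]
  exact congrArg _ (funext hyf)

/-- the twist of a member. -/
theorem e4r_mem {B' : Finset Ω} {v w : Ω} (hv : v ∈ gsp k B') {a b : ℕ}
    (h : w ^ (ringExpChar Ω) ^ a = v ^ (ringExpChar Ω) ^ b) : w ∈ gsp k B' := by
  haveI := gsp_perfect k B'
  refine mem_of_pow_q (n := a) ?_
  rw [h]
  exact pow_mem hv _

theorem e4r_uSub {B' : Finset Ω} {v : Ω} (hv : v ∈ B') {y : Gm U Ω}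
    (hy : ∃ f : I → Ω, gm U f = y ∧
      ∀ i, ∃ a b : ℕ, (f i) ^ (ringExpChar Ω) ^ a = v ^ (ringExpChar Ω) ^ b) :
    y ∈ uSub U (fun _ => gsp k B') := by
  obtain ⟨f, hf, h⟩ := hy
  refine ⟨f, hf, fun i => ?_⟩
  obtain ⟨a, b, hab⟩ := h i
  exact e4r_mem (mem_gsp hv) hab

theorem e4r_gsp_le {B' : Finset Ω} {σ : Ω → Gm U Ω}
    (hσ : ∀ v ∈ B', ∃ f : I → Ω, gm U f = σ v ∧
      ∀ i, ∃ a b : ℕ, (f i) ^ (ringExpChar Ω) ^ a = v ^ (ringExpChar Ω) ^ b)
    {T : Finset (Gm U Ω)} (hT : ∀ y ∈ T, ∃ v ∈ B', y = σ v) :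
    gsp (uSub U (fun _ => k)) T ≤ uSub U (fun _ => gsp k B') := by
  haveI := gsp_perfect k B'
  refine gsp_le (uSub_mono (le_gsp k B')) fun y hy => ?_
  obtain ⟨v, hv, rfl⟩ := hT y hy
  exact e4r_uSub hv (hσ v hv)

theorem e4r_transc {B B' : Finset Ω} (hB : Indp k B) (hB' : B' ⊆ B) {v : Ω} (hv : v ∈ B)
    (hvB' : v ∉ B') {y : Gm U Ω} (hy : ∃ f : I → Ω, gm U f = y ∧
      ∀ i, ∃ a b : ℕ, (f i) ^ (ringExpChar Ω) ^ a = v ^ (ringExpChar Ω) ^ b) :
    ¬ IsAlgebraic (uSub U (fun _ => gsp k B')) y := by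
  obtain ⟨f, rfl, h⟩ := hy
  refine gm_transc (E := fun _ => gsp k B') (Eventually.of_forall fun i hi => ?_)
  obtain ⟨a, b, hab⟩ := h i
  have h1 : IsAlgebraic (gsp k B') (v ^ (ringExpChar Ω) ^ b) := by
    rw [← hab]
    exact isAlgebraic_pow_iff.2 hi
  exact hB B' hB' v hv hvB' (isAlgebraic_pow_iff.1 h1)

theorem e4r_adj (G : Subfield Ω) {v w : Ω} {a b : ℕ}
    (h : w ^ (ringExpChar Ω) ^ a = v ^ (ringExpChar Ω) ^ b) : adj G v ≤ adj G w := by
  refine adj_le (le_adj G w) ?_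
  refine mem_of_pow_q (n := b) ?_
  rw [← h]
  exact pow_mem (mem_adj G w) _

end e4r

/-- the twisted elements are independent. -/
theorem gm_indp [PerfectField Ω] {k : Subfield Ω} [PerfectField k] {B : Finset Ω}
    (hB : Indp k B) {σ : Ω → Gm U Ω}
    (hσ : ∀ v ∈ B, ∃ f : I → Ω, gm U f = σ v ∧
      ∀ i, ∃ a b : ℕ, (f i) ^ (ringExpChar Ω) ^ a = v ^ (ringExpChar Ω) ^ b) :
    ∃ S : Finset (Gm U Ω), (∀ y, y ∈ S ↔ ∃ v ∈ B, y = σ v) ∧ S.card = B.card ∧
      Indp (uSub U (fun _ => k)) S := by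
  classical
  refine ⟨B.image σ, fun y => ?_, ?_, ?_⟩
  · rw [Finset.mem_image]
    exact ⟨fun ⟨v, hv, h⟩ => ⟨v, hv, h.symm⟩, fun ⟨v, hv, h⟩ => ⟨v, hv, h.symm⟩⟩
  · refine Finset.card_image_of_injOn ?_
    intro v hv w hw hvw
    by_contra hne
    refine e4r_transc hB (B' := {w}) (Finset.singleton_subset_iff.2 hw) hv
      (fun h => hne (Finset.mem_singleton.1 h)) (hσ v hv) ?_
    refine isAlgebraic_of_mem ?_
    rw [show σ v = σ w from hvw]
    exact e4r_uSub (Finset.mem_singleton_self w) (hσ w hw)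
  · intro T hT y hy hyT halg
    obtain ⟨v, hv, rfl⟩ := Finset.mem_image.1 hy
    have hsub : B.filter (fun w => σ w ∈ T) ⊆ B := Finset.filter_subset _ _
    refine e4r_transc hB hsub hv (fun h => hyT (Finset.mem_filter.1 h).2) (hσ v hv) ?_
    refine isAlgebraic_mono (e4r_gsp_le (fun w hw => hσ w (hsub hw)) fun z hz => ?_) halg
    obtain ⟨w, hw, rfl⟩ := Finset.mem_image.1 (hT hz)
    exact ⟨w, Finset.mem_filter.2 ⟨hw, hz⟩, rfl⟩

/-- the elements of the ultraproduct of `k(B)` which are algebraic over `Λ(σ)`. -/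
theorem gsp_rac_gm [PerfectField Ω] {k : Subfield Ω} [PerfectField k]
    {B : Finset Ω} (hB : Indp k B) {σ : Ω → Gm U Ω}
    (hσ : ∀ v ∈ B, ∃ f : I → Ω, gm U f = σ v ∧
      ∀ i, ∃ a b : ℕ, (f i) ^ (ringExpChar Ω) ^ a = v ^ (ringExpChar Ω) ^ b)
    {S : Finset (Gm U Ω)} (hS : ∀ y, y ∈ S ↔ ∃ v ∈ B, y = σ v) {x : Gm U Ω}
    (hx : x ∈ uSub U (fun _ => gsp k B))
    (halg : IsAlgebraic (gsp (uSub U (fun _ => k)) S) x) :
    x ∈ gsp (uSub U (fun _ => k)) S := by
  classical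
  have key : ∀ B' : Finset Ω, B' ⊆ B → ∀ z ∈ uSub U (fun _ => gsp k B'),
      IsAlgebraic (gsp (uSub U (fun _ => k)) (B'.image σ)) z →
      z ∈ gsp (uSub U (fun _ => k)) (B'.image σ) := by
    intro B'
    induction B' using Finset.induction_on with
    | empty =>
      intro _ z hz _
      rw [gsp_empty] at hz
      exact le_gsp _ _ hz
    | insert v B' hvB' ih =>
      intro hsub z hz hzalg
      have hsub' : B' ⊆ B := (Finset.subset_insert v B').trans hsub
      have hv : v ∈ B := hsub (Finset.mem_insert_self v B')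
      have ih' := ih hsub'
      obtain ⟨f, hf, hfv⟩ := hσ v hv
      haveI i1 : PerfectField (gsp k B') := gsp_perfect k B'
      haveI i2 : PerfectField (gsp (uSub U (fun _ => k)) (B'.image σ)) := gsp_perfect _ _
      have hAB : gsp (uSub U (fun _ => k)) (B'.image σ) ≤ uSub U (fun _ => gsp k B') := by
        refine e4r_gsp_le (fun w hw => hσ w (hsub' hw)) fun y hy => ?_
        obtain ⟨w, hw, rfl⟩ := Finset.mem_image.1 hy
        exact ⟨w, hw, rfl⟩
      have htr : ∀ᶠ i : I in U, ¬ IsAlgebraic (gsp k B') (f i) := by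
        refine Eventually.of_forall fun i hi => ?_
        obtain ⟨a, b, hab⟩ := hfv i
        have h1 : IsAlgebraic (gsp k B') (v ^ (ringExpChar Ω) ^ b) := by
          rw [← hab]
          exact isAlgebraic_pow_iff.2 hi
        exact hB B' hsub' v hv hvB' (isAlgebraic_pow_iff.1 h1)
      have hz1 : z ∈ uSub U (fun i => adj (gsp k B') (f i)) := by
        obtain ⟨g, hg, hgm⟩ := hz
        refine ⟨g, hg, fun i => ?_⟩
        obtain ⟨a, b, hab⟩ := hfv i
        have h2 := hgm i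
        rw [gsp_insert] at h2
        exact e4r_adj (gsp k B') hab h2
      rw [Finset.image_insert, gsp_insert, ← hf] at hzalg ⊢
      have hz2 : z ∈ adj (uSub U (fun _ => gsp k B')) (gm U f) :=
        rat_gm (E := fun _ => gsp k B') (g := f) htr hz1 (isAlgebraic_mono (adj_mono hAB _) hzalg)
      exact var_rac hAB ih' (gm_transc (E := fun _ => gsp k B') (g := f) htr) hz2 hzalg
  have hSB : S = B.image σ := by
    ext y
    rw [hS, Finset.mem_image]
    exact ⟨fun ⟨v, hv, h⟩ => ⟨v, hv, h.symm⟩, fun ⟨v, hv, h⟩ => ⟨v, hv, h.symm⟩⟩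
  rw [hSB] at halg ⊢
  exact key B subset_rfl x hx halg

/-- a common bound of the degrees over the ultraproduct. -/
theorem e4r_deg {G : Subfield Ω} {R : I → Subfield Ω} {d : ℕ}
    (hd : ∀ i, ∀ c ∈ R i, ∃ p : G[X], p.Monic ∧ p.natDegree ≤ d ∧ aeval c p = 0)
    {x : Gm U Ω} (hx : x ∈ uSub U R) :
    ∃ P : (uSub U (fun _ => G))[X], P.Monic ∧ P.natDegree ≤ d ∧ aeval x P = 0 := by
  obtain ⟨f, rfl, hf⟩ := hx
  have h1 : ∀ i, ∃ c : ℕ → G, (f i) ^ d + ∑ j ∈ Finset.range d, (c j : Ω) * (f i) ^ j = 0 := by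
    intro i
    obtain ⟨p, hp, hpd, hp0⟩ := hd i (f i) (hf i)
    set q : G[X] := p * X ^ (d - p.natDegree) with hq
    have hqm : q.Monic := hp.mul (monic_X_pow _)
    have hqd : q.natDegree = d := by
      rw [hq, hp.natDegree_mul (monic_X_pow _), natDegree_X_pow]
      omega
    refine ⟨q.coeff, ?_⟩
    have h2 : aeval (f i) q = 0 := by rw [hq, map_mul, hp0, zero_mul]
    conv_lhs at h2 => rw [hqm.as_sum, hqd]
    rw [map_add, map_pow, aeval_X, map_sum] at h2
    rw [← h2]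
    congr 1
    refine Finset.sum_congr rfl fun j _ => ?_
    rw [map_mul, aeval_C, map_pow, aeval_X]
    rfl
  choose c hc using h1
  obtain ⟨b, hb⟩ : ∃ b : ℕ → uSub U (fun _ => G), ∀ j, ((b j : uSub U (fun _ => G)) : Gm U Ω) =
      gm U (fun i => (c i j : Ω)) :=
    ⟨fun j => ⟨gm U (fun i => (c i j : Ω)), gm_mem_uSub.2 (Eventually.of_forall fun i =>
      (c i j).2)⟩, fun j => rfl⟩
  let P : (uSub U (fun _ => G))[X] := X ^ d + ∑ j ∈ Finset.range d, C (b j) * X ^ j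
  have hlt : (∑ j ∈ Finset.range d, C (b j) * X ^ j).degree < (d : WithBot ℕ) := by
    refine (degree_sum_le _ _).trans_lt ?_
    rw [Finset.sup_lt_iff (by exact_mod_cast WithBot.bot_lt_coe d)]
    intro j hj
    refine (degree_C_mul_X_pow_le _ _).trans_lt ?_
    exact_mod_cast Finset.mem_range.1 hj
  refine ⟨P, monic_X_pow_add hlt, ?_, ?_⟩
  · exact natDegree_le_of_degree_le
      ((degree_add_le _ _).trans (max_le (degree_X_pow_le d) hlt.le))
  · have h2 : aeval (gm U f) P = gm U (fun i => (f i) ^ d +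
        ∑ j ∈ Finset.range d, (c i j : Ω) * (f i) ^ j) := by
      rw [gm_add, gm_pow, gm_sum, map_add, map_pow, aeval_X, map_sum]
      congr 1
      refine Finset.sum_congr rfl fun j _ => ?_
      rw [map_mul, map_pow, aeval_X, aeval_C, gm_mul, gm_pow, ← hb]
      rfl
    rw [h2]
    refine (congrArg (gm U) (funext hc)).trans ?_
    exact map_zero (gm U)

/-- the degree over a relatively algebraically closed subfield. -/
theorem e4r_minpoly {K : Type*} [Field K] {A B : Subfield K} (hAB : A ≤ B)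
    (hrac : ∀ z ∈ B, IsAlgebraic A z → z ∈ A) {x : K} (hx : IsAlgebraic A x) {d : ℕ}
    {P : B[X]} (hP : P.Monic) (hPd : P.natDegree ≤ d) (hP0 : aeval x P = 0) :
    (minpoly A x).natDegree ≤ d := by
  have hxB : IsAlgebraic B x := isAlgebraic_mono hAB hx
  set m := minpoly B x with hm
  have hmm : m.Monic := minpoly.monic hxB.isIntegral
  have hmd : m.natDegree ≤ d :=
    (natDegree_le_of_dvd (minpoly.dvd B x hP0) hP.ne_zero).trans hPd
  set Q := minpoly A x with hQ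
  have hQm : Q.Monic := minpoly.monic hx.isIntegral
  have hdvd : m ∣ Q.map (Subfield.inclusion hAB) := by
    refine minpoly.dvd B x ?_
    rw [uvar_aeval_map]
    exact minpoly.aeval A x
  have hdvd2 : m.map B.subtype ∣ Q.map (algebraMap A K) := by
    have h1 := map_dvd (mapRingHom B.subtype) hdvd
    have h2 : (Q.map (Subfield.inclusion hAB)).map B.subtype = Q.map (algebraMap A K) := by
      rw [Polynomial.map_map]
      rfl
    rw [← h2]
    exact h1
  have hint : ∀ i, ((m.coeff i : B) : K) ∈ A := by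
    intro i
    apply hrac _ (m.coeff i).2
    have h1 := isIntegral_coeff_of_dvd Q (m.map B.subtype) hQm (hmm.map _) hdvd2 i
    rw [coeff_map] at h1
    exact h1.isAlgebraic
  obtain ⟨q, hq⟩ : ∃ q : A[X], q.map (Subfield.inclusion hAB) = m := by
    have h1 : m ∈ lifts (Subfield.inclusion hAB) := by
      rw [lifts_iff_coeff_lifts]
      intro i
      exact ⟨⟨_, hint i⟩, Subtype.ext rfl⟩
    exact h1
  have hq0 : aeval x q = 0 := by
    rw [← uvar_aeval_map hAB, hq]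
    exact minpoly.aeval B x
  have hqd : q.natDegree = m.natDegree := by
    rw [← hq, natDegree_map]
  have hqne : q ≠ 0 := by
    rintro rfl
    rw [Polynomial.map_zero] at hq
    exact hmm.ne_zero hq.symm
  calc Q.natDegree ≤ q.natDegree := natDegree_le_of_dvd (minpoly.dvd A x hq0) hqne
    _ = m.natDegree := hqd
    _ ≤ d := hmd

/-- the elements of bounded degree. -/
theorem gm_fin [PerfectField Ω] {k : Subfield Ω} [PerfectField k]
    {B : Finset Ω} (hB : Indp k B) {σ : Ω → Gm U Ω}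
    (hσ : ∀ v ∈ B, ∃ f : I → Ω, gm U f = σ v ∧
      ∀ i, ∃ a b : ℕ, (f i) ^ (ringExpChar Ω) ^ a = v ^ (ringExpChar Ω) ^ b)
    {S : Finset (Gm U Ω)} (hS : ∀ y, y ∈ S ↔ ∃ v ∈ B, y = σ v) {R : I → Subfield Ω}
    (hR : ∀ i, gsp k B ≤ R i) (hRp : ∀ i, PerfectField (R i)) {d : ℕ}
    (hd : ∀ i, ∀ c ∈ R i, ∃ p : (gsp k B)[X], p.Monic ∧ p.natDegree ≤ d ∧ aeval c p = 0) :
    FG (uSub U (fun _ => k)) (uSub U R ⊓ rac (gsp (uSub U (fun _ => k)) S) : Subfield (Gm U Ω)) := by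
  set P : Subfield (Gm U Ω) := gsp (uSub U (fun _ => k)) S with hPdef
  haveI i1 : PerfectField P := gsp_perfect _ _
  haveI i2 : PerfectField (uSub U R) := e4r_perfect hRp
  haveI i3 : PerfectField (rac P) := perfect_of_RAC (RAC_rac P)
  haveI i4 : PerfectField (uSub U R ⊓ rac P : Subfield (Gm U Ω)) := perfect_inf
  have hPF : P ≤ uSub U (fun _ => gsp k B) :=
    e4r_gsp_le hσ fun y hy => (hS y).1 hy
  have hFR : uSub U (fun _ => gsp k B) ≤ uSub U R := by
    rintro _ ⟨f, rfl, hf⟩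
    exact ⟨f, rfl, fun i => hR i (hf i)⟩
  have hPκ : P ≤ uSub U R ⊓ rac P := le_inf (hPF.trans hFR) (le_rac P)
  have hrac : ∀ z ∈ uSub U (fun _ => gsp k B), IsAlgebraic P z → z ∈ P :=
    fun z hz hz' => gsp_rac_gm hB hσ hS hz hz'
  obtain ⟨γ, hγ, hγκ⟩ := bd_prim (d := d) hPκ (fun r hr => mem_rac.1 (Subfield.mem_inf.1 hr).2)
    (fun r hr => by
      obtain ⟨p, hp, hpd, hp0⟩ := e4r_deg hd (Subfield.mem_inf.1 hr).1
      exact e4r_minpoly hPF hrac (mem_rac.1 (Subfield.mem_inf.1 hr).2) hp hpd hp0)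
  have heq : (uSub U R ⊓ rac P : Subfield (Gm U Ω)) = adj P γ :=
    le_antisymm (hγκ.trans (le_pf _)) (adj_le hPκ hγ)
  rw [heq]
  exact (gsp_fg _ S).adj_right γ

end Vale.Agent.P019P
end
end

section

section

/-!
# The field theoretic lemma in any transcendence degree
-/

namespace Vale.Agent.P019P

open Vale.Agent.P019

set_option linter.style.haveILetI false
set_option linter.unusedSectionVars false

open Polynomial Filter

section e4b

universe u

variable {K Ω : Type u} [Field K] [Field Ω] (j : K →+* Ω)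

theorem e4b_closed_map {l : Subfield K} (hl : IsAlgClosed l) : IsAlgClosed (l.map j) := by
  let e0 : l →+* l.map j := (j.comp l.subtype).codRestrict (l.map j) fun x => ⟨x, x.2, rfl⟩
  let e : l ≃+* l.map j := RingEquiv.ofBijective e0 ⟨e0.injective, by
    rintro ⟨_, ⟨x, hx, rfl⟩⟩
    exact ⟨⟨x, hx⟩, rfl⟩⟩
  exact IsAlgClosed.of_ringEquiv _ _ e

theorem e4b_fg_map [PerfectField K] [PerfectField Ω] {l L : Subfield K}
    (h : FG l L) : FG (l.map j) (L.map j) := by
  classical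
  haveI : PerfectField L := h.perfect
  have hlL := h.le
  obtain ⟨S, hS⟩ := h
  have hSL : ∀ x ∈ S, x ∈ L := by
    intro x hx
    rw [hS]
    exact (le_sup_right.trans (le_pf _) : Subfield.closure (S : Set K) ≤ _)
      (Subfield.subset_closure hx)
  refine ⟨S.image j, le_antisymm ?_ ?_⟩
  · conv_lhs => rw [hS]
    refine (map_pf_le j _).trans (pf_mono ?_)
    rw [Subfield.map_le_iff_le_comap]
    refine sup_le ?_ ?_
    · rw [← Subfield.map_le_iff_le_comap]
      exact le_sup_left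
    · rw [Subfield.closure_le]
      intro x hx
      exact (le_sup_right : Subfield.closure ((S.image j : Finset Ω) : Set Ω) ≤ _)
        (Subfield.subset_closure (by simpa using ⟨x, hx, rfl⟩))
  · haveI : PerfectField (L.map j) := perfect_map j _
    refine pf_le (sup_le (sub_map_mono j hlL) ?_)
    rw [Subfield.closure_le]
    intro x hx
    obtain ⟨y, hy, rfl⟩ := by simpa using hx
    exact ⟨y, hSL y hy, rfl⟩

/-- freeness and embeddings. -/
theorem e4b_fre_map {l A B : Subfield K} (h : Fre l A B) :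
    Fre (l.map j) (A.map j) (B.map j) := by
  intro N hN hlN hNB a ha halg
  obtain ⟨a0, ha0, rfl⟩ := ha
  have hNe : N = (N.comap j).map j := by
    apply le_antisymm
    · intro z hz
      obtain ⟨z0, -, rfl⟩ := hNB hz
      exact ⟨z0, hz, rfl⟩
    · rintro _ ⟨z, hz, rfl⟩
      exact hz
  refine h (N.comap j) ?_ ?_ ?_ a0 ha0 ?_
  · intro z hz
    refine hN (j z) ?_
    rw [hNe]
    exact isAlgebraic_map j hz
  · intro z hz
    exact hlN ⟨z, hz, rfl⟩
  · intro z hz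
    obtain ⟨z0, hz0, hzz⟩ := hNB hz
    rwa [← j.injective hzz]
  · apply isAlgebraic_of_map j
    rw [Subfield.map_sup, ← hNe]
    exact halg

end e4b

section e4b2

variable {K : Type*} [Field K] [PerfectField K]

/-- independent elements generate a free subfield. -/
theorem e4b_fre_gsp {l Λ : Subfield K} [PerfectField l] [PerfectField Λ] (hlΛ : l ≤ Λ)
    {B : Finset K} (hB : Indp Λ B) (S : Finset K) (hS : S ⊆ B) : Fre l (gsp l S) Λ := by
  classical
  induction S using Finset.induction_on with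
  | empty =>
    intro N hN hlN _ a _ halg
    rw [gsp_empty, sup_eq_right.2 hlN] at halg
    exact hN a halg
  | insert v S hvS ih =>
    have hSB : S ⊆ B := (Finset.subset_insert v S).trans hS
    refine (ih hSB).step (y := v) ?_ ?_
    · intro a ha
      rw [gsp_insert] at ha
      exact isAlgebraic_of_mem ha
    · intro halg
      refine hB S hSB v (hS (Finset.mem_insert_self v S)) hvS (isAlgebraic_mono ?_ halg)
      haveI := gsp_perfect Λ S
      exact sup_le (gsp_le (hlΛ.trans (le_gsp Λ S)) fun x hx => mem_gsp hx) (le_gsp Λ S)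

/-- a maximal part of `B` independent over `Λ`. -/
theorem e4b_max (Λ : Subfield K) (B : Finset K) :
    ∃ B1 ⊆ B, Indp Λ B1 ∧ ∀ b ∈ B, IsAlgebraic (gsp Λ B1) b := by
  classical
  have hne : (B.powerset.filter fun S => Indp Λ S).Nonempty :=
    ⟨∅, Finset.mem_filter.2 ⟨Finset.empty_mem_powerset B, fun S _ v hv =>
      absurd hv (Finset.notMem_empty v)⟩⟩
  obtain ⟨B1, hB1, hmax⟩ := Finset.exists_max_image _ Finset.card hne
  obtain ⟨h1, h2⟩ := Finset.mem_filter.1 hB1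
  refine ⟨B1, Finset.mem_powerset.1 h1, h2, fun b hb => ?_⟩
  by_contra hcon
  have hbB : b ∉ B1 := fun h => hcon (isAlgebraic_of_mem (mem_gsp h))
  have h3 := hmax (insert b B1) (Finset.mem_filter.2 ⟨Finset.mem_powerset.2
    (Finset.insert_subset hb (Finset.mem_powerset.1 h1)), h2.insert hcon⟩)
  rw [Finset.card_insert_of_notMem hbB] at h3
  omega

end e4b2

/-- the general form of `ft`: `L` of transcendence degree `m + 1` over `l`, `κ` algebraic over
`Λ L` and of transcendence degree `m` over `Λ`. -/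
theorem ftn {κ : Type*} [Field κ] [PerfectField κ] (ℓ : ℕ) [Fact ℓ.Prime] [NeZero (ℓ : κ)]
    {Λ : Subfield κ} (hΛ : IsAlgClosed Λ) (hfgκ : FG Λ (⊤ : Subfield κ)) {l L : Subfield κ}
    (hl : IsAlgClosed l) (hlΛ : l ≤ Λ) (hfg : FG l L) {m : ℕ} (htd : Td Λ m) {B : Finset κ}
    (hB : Indp l B) (hBc : B.card = m + 1) (hBL : ∀ x ∈ B, x ∈ L)
    (hLB : ∀ z ∈ L, IsAlgebraic (gsp l B) z)
    (halg : ∀ z : κ, IsAlgebraic (Λ ⊔ L : Subfield κ) z)
    (hinf : ∀ N : ℕ, ∃ x : Fin N → κ, (∀ i, x i ∈ L ∧ x i ≠ 0 ∧ ∃ h : κ, h ^ ℓ = x i) ∧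
      ∀ i j, i ≠ j → ¬ ∃ w ∈ L, x i = x j * w ^ ℓ) : ∃ e ∈ L, e ∈ Λ ∧ e ∉ l := by
  classical
  haveI : PerfectField Λ := perfect_of_RAC (RAC_of_isAlgClosed Λ hΛ)
  haveI : PerfectField l := perfect_of_RAC (RAC_of_isAlgClosed l hl)
  haveI : PerfectField L := hfg.perfect
  obtain ⟨B1, hB1B, hB1, hmax⟩ := e4b_max Λ B
  have hB1t : ∀ z : κ, IsAlgebraic (gsp Λ B1) z := by
    intro z
    have h1 : gsp l B ≤ rac (gsp Λ B1) :=
      gsp_le (hlΛ.trans ((le_gsp Λ B1).trans (le_rac _))) fun x hx => mem_rac.2 (hmax x hx)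
    have h2 : Λ ⊔ L ≤ rac (gsp Λ B1) := sup_le ((le_gsp Λ B1).trans (le_rac _)) fun x hx =>
      mem_rac.2 (isAlgebraic_rac (isAlgebraic_mono h1 (hLB x hx)))
    exact isAlgebraic_rac (isAlgebraic_mono h2 (halg z))
  have hcard : B1.card = m := Td.unique ⟨B1, rfl, hB1, hB1t⟩ htd
  obtain ⟨y, hyB, hyB1⟩ : ∃ y ∈ B, y ∉ B1 :=
    Finset.exists_mem_notMem_of_card_lt_card (by omega)
  have hins : insert y B1 = B := by
    refine Finset.eq_of_subset_of_card_le (Finset.insert_subset hyB hB1B) ?_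
    rw [Finset.card_insert_of_notMem hyB1]
    omega
  haveI := gsp_perfect l B1
  have hyF : ¬ IsAlgebraic (gsp l B1) y := hB B1 hB1B y hyB hyB1
  have hFL : gsp l B1 ≤ L := gsp_le hfg.le fun x hx => hBL x (hB1B hx)
  have hyΛ : IsAlgebraic (gsp l B1 ⊔ Λ : Subfield κ) y := by
    refine isAlgebraic_mono ?_ (hB1t y)
    exact gsp_le le_sup_right fun x hx =>
      (le_sup_left : gsp l B1 ≤ gsp l B1 ⊔ Λ) (mem_gsp hx)
  let j : κ →+* AlgebraicClosure κ := algebraMap κ (AlgebraicClosure κ)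
  haveI : NeZero (ℓ : AlgebraicClosure κ) := ⟨by
    rw [← map_natCast j, Ne, map_eq_zero]
    exact NeZero.ne (ℓ : κ)⟩
  obtain ⟨_, ⟨e, heL, rfl⟩, heΛ, hel⟩ := ft_sub' ℓ (l := l.map j) (L := L.map j)
    (Bs := Λ.map j) (κ := (⊤ : Subfield κ).map j) (F := (gsp l B1).map j) (y := j y)
    (e4b_closed_map j hl) (e4b_fg_map j hfg) (sub_map_mono j hlΛ) (e4b_closed_map j hΛ)
    (sub_map_mono j (le_gsp l B1)) (sub_map_mono j hFL) ⟨y, hBL y hyB, rfl⟩ (by
      rintro _ ⟨z, hz, rfl⟩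
      have h1 := hLB z hz
      rw [← hins, gsp_insert] at h1
      exact isAlgebraic_mono (map_adj_le j _ _) (isAlgebraic_map j h1))
    (e4b_fre_map j (e4b_fre_gsp hlΛ hB1 B1 (Finset.Subset.refl _)))
    (fun h => hyF (isAlgebraic_of_map j h)) (by
      rw [← Subfield.map_sup]
      exact isAlgebraic_map j hyΛ)
    (e4b_fg_map j hfgκ) (sub_map_mono j le_top)
    (j '' {x | x ∈ L ∧ x ≠ 0 ∧ ∃ h : κ, h ^ ℓ = x}) (by
      rintro _ ⟨x, ⟨hx, hx0, -⟩, rfl⟩
      exact ⟨⟨x, hx, rfl⟩, by rw [Ne, map_eq_zero]; exact hx0⟩) (by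
      intro n
      obtain ⟨x, hxX, hx⟩ := hinf n
      refine ⟨fun i => j (x i), fun i => ⟨x i, hxX i, rfl⟩, ?_⟩
      rintro a b hab ⟨_, ⟨w, hw, rfl⟩, hweq⟩
      refine hx a b hab ⟨w, hw, ?_⟩
      rw [← map_pow, ← map_mul] at hweq
      exact j.injective hweq) (by
      rintro _ ⟨x, ⟨-, -, h, hh⟩, rfl⟩
      exact ⟨j h, ⟨h, Subfield.mem_top h, rfl⟩, by rw [← map_pow, hh]⟩)
  refine ⟨e, heL, ?_, fun h => hel ⟨e, h, rfl⟩⟩
  obtain ⟨e', he', hee⟩ := heΛ
  rwa [← j.injective hee]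

end Vale.Agent.P019P
end
end

section

section

/-!
# Intersections of line subspaces
-/

namespace Vale.Agent.P019P

open Vale.Agent.P019

set_option linter.style.haveILetI false
set_option linter.unusedSectionVars false

open Filter Polynomial

section meet

variable {K : Type*} [Field K] [PerfectField K]

/-- a valuation trivial on `k(t)` is trivial on `k(x)` if `x` is congruent to `α + β t`. -/
theorem triv_of_congr {k : Subfield K} (hk : RAC k) {t : K} (ht : t ∉ k)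
    {W : ValuationSubring K} (hW : TrivOn W (adj k t)) {x α β : K} (hα : α ∈ k) (hβ : β ∈ k)
    (hβ0 : β ≠ 0) (hx : W.valuation (x - (α + β * t)) < 1) : TrivOn W (adj k x) := by
  set P := plOf W with hP
  have hA : ∀ y ∈ adj k t, y ∈ P.O := hW
  have hkk : ∀ y ∈ k, y ∈ P.O := fun y hy => hA y (le_adj k t hy)
  have hmem : α + β * t ∈ adj k t :=
    Subfield.add_mem _ (le_adj k t hα) (Subfield.mul_mem _ (le_adj k t hβ) (mem_adj k t))
  have hxO : x ∈ P.O := by
    have e : x = (x - (α + β * t)) + (α + β * t) := by ring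
    rw [e]
    exact P.O.add_mem _ _ (P.mem_of_lt hx) (hA _ hmem)
  have hev : P.ev x = P.ev (α + β * t) := by
    have h1 : P.ev (x - (α + β * t)) = 0 := P.ev_of_lt hx
    rwa [P.ev_sub hxO (hA _ hmem), sub_eq_zero] at h1
  refine Pl.mem_adj_of_transcendental P k hkk hxO ?_
  rw [hev]
  intro h
  have h1 := P.isAlgebraic_of_im hA (le_adj k t) hmem h
  have h2 := hk _ h1
  apply ht
  have e : t = ((α + β * t) - α) / β := by field_simp; ring
  rw [e]
  exact k.div_mem (k.sub_mem h2 hα) hβ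

/-- lines in a pencil meet trivially. -/
theorem meet_ae {ℓ : ℕ} [Fact ℓ.Prime] [NeZero (ℓ : K)] {k : Subfield K} (hk : IsAlgClosed k)
    (hfg : FG k (⊤ : Subfield K)) {h t : K} (hh : h ∉ k) (ht : ¬ IsAlgebraic (adj k h) t) :
    ∀ᶠ c in ae k, VS ℓ (adj k (h + c * t)) ⊓ (VS ℓ (adj k h) ⊔ VS ℓ (adj k t)) = ⊥ := by
  classical
  have hℓ : ℓ.Prime := Fact.out
  have hrac := RAC_of_isAlgClosed k hk
  have htk : t ∉ k := fun h' => ht (isAlgebraic_of_mem (le_adj _ _ h'))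
  have hht : ¬ IsAlgebraic (adj k t) h := by
    intro h'
    exact ht (exchange (fun h1 => hh (hrac _ h1)) h')
  rw [ae_iff]
  by_contra hinf
  have hinf' : ({a : K | a ∈ k ∧ ¬ VS ℓ (adj k (h + a * t)) ⊓ (VS ℓ (adj k h) ⊔ VS ℓ (adj k t)) = ⊥}
      \ {0}).Infinite := Set.Infinite.sdiff hinf (Set.finite_singleton 0)
  let c : ℕ → K := fun n => (hinf'.natEmbedding _ n : K)
  have hcinj : Function.Injective c := fun i j hij =>
    (hinf'.natEmbedding _).injective (Subtype.ext hij)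
  have hck : ∀ n, c n ∈ k := fun n => (hinf'.natEmbedding _ n).2.1.1
  have hc0 : ∀ n, c n ≠ 0 := fun n => (hinf'.natEmbedding _ n).2.2
  have hxk : ∀ n, h + c n * t ∉ k := by
    intro n hn
    apply hht
    have e : h = (h + c n * t) - c n * t := by ring
    rw [e]
    exact isAlgebraic_of_mem (Subfield.sub_mem _ (le_adj _ _ hn)
      (Subfield.mul_mem _ (le_adj _ _ (hck n)) (mem_adj _ _)))
  have hdata : ∀ n, ∃ (s : Finset K) (m : K → ZMod ℓ) (g g' : K), (∀ e ∈ s, e ∈ k) ∧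
      (∃ e ∈ s, m e ≠ 0) ∧ g ∈ adj k h ∧ g ≠ 0 ∧ g' ∈ adj k t ∧ g' ≠ 0 ∧
      cl ℓ (g * g') = ∑ e ∈ s, m e • cl ℓ (h + c n * t - e) := by
    intro n
    have h1 := (hinf'.natEmbedding _ n).2.1.2
    rw [Submodule.eq_bot_iff] at h1
    push Not at h1
    obtain ⟨v, ⟨hv1, hv2⟩, hv0⟩ := h1
    obtain ⟨s, m, hs, hv⟩ := adj_factor hk (hxk n) hv1
    obtain ⟨u, ⟨g, hg, hg0, rfl⟩, u', ⟨g', hg', hg'0, rfl⟩, huv⟩ := Submodule.mem_sup.1 hv2
    refine ⟨s, m, g, g', hs, ?_, hg, hg0, hg', hg'0, ?_⟩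
    · by_contra hcon
      push Not at hcon
      apply hv0
      rw [hv]
      exact Finset.sum_eq_zero (fun e he => by rw [hcon e he, zero_smul])
    · rw [cl_mul ℓ hg0 hg'0, huv, hv]
  choose s m g g' hs hm hg hg0 hg' hg'0 hcl using hdata
  -- representatives
  let f : ℕ → K := fun n => ∏ e ∈ s n, (h + c n * t - e) ^ (m n e).val
  have hfac0 : ∀ n, ∀ e ∈ s n, h + c n * t - e ≠ 0 := by
    intro n e he h0
    rw [sub_eq_zero] at h0
    exact hxk n (h0 ▸ hs n e he)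
  have hf0 : ∀ n, f n ≠ 0 := fun n =>
    Finset.prod_ne_zero_iff.2 (fun e he => pow_ne_zero _ (hfac0 n e he))
  have hclf : ∀ n, cl ℓ (f n) = ∑ e ∈ s n, m n e • cl ℓ (h + c n * t - e) := by
    intro n
    have key : ∀ T : Finset K, T ⊆ s n →
        cl ℓ (∏ e ∈ T, (h + c n * t - e) ^ (m n e).val) =
          ∑ e ∈ T, m n e • cl ℓ (h + c n * t - e) := by
      intro T
      induction T using Finset.induction_on with
      | empty => intro _; simp [cl_one]
      | insert a T ha ih =>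
        intro hT
        rw [Finset.prod_insert ha, Finset.sum_insert ha, cl_mul ℓ
          (pow_ne_zero _ (hfac0 n a (hT (Finset.mem_insert_self a T))))
          (Finset.prod_ne_zero_iff.2 (fun e he => pow_ne_zero _
            (hfac0 n e (hT (Finset.mem_insert_of_mem he))))),
          ih (fun e he => hT (Finset.mem_insert_of_mem he)), cl_pow]
        congr 1
        rw [← Nat.cast_smul_eq_nsmul (ZMod ℓ), ZMod.natCast_zmod_val]
    exact key (s n) (Finset.Subset.refl _)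
  set F : Subfield K := adj (adj k h) t with hF
  have htF : t ∈ F := mem_adj _ _
  have hhF : h ∈ F := le_adj _ _ (mem_adj _ _)
  have hkF : k ≤ F := (le_adj k h).trans (le_adj _ t)
  have hkhF : adj k h ≤ F := le_adj _ _
  have hktF : adj k t ≤ F := adj_le hkF htF
  have hxF : ∀ n, h + c n * t ∈ F := fun n =>
    Subfield.add_mem _ hhF (Subfield.mul_mem _ (hkF (hck n)) htF)
  have hfF : ∀ n, f n ∈ F := by
    intro n
    refine Subfield.prod_mem _ (fun e he => ?_)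
    exact Subfield.pow_mem _ (Subfield.sub_mem _ (hxF n) (hkF (hs n e he))) _
  obtain ⟨ζ, hζk, hζ'⟩ := finK_prim hk ℓ
  have hFG : FG F (⊤ : Subfield K) := hfg.mono hkF le_top
  obtain ⟨n₀, hn₀⟩ := fk ℓ hFG (hkF hζk) hζ'
  obtain ⟨i, j, hij, y, hy, hy0, hxy⟩ := hn₀ (fun i => f i / (g i * g' i)) (by
    intro i
    refine ⟨Subfield.div_mem _ (hfF i) (Subfield.mul_mem _ (hkhF (hg i)) (hktF (hg' i))), ?_, ?_⟩
    · exact div_ne_zero (hf0 i) (mul_ne_zero (hg0 i) (hg'0 i))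
    · have h1 : cl ℓ (f i / (g i * g' i)) = 0 := by
        rw [cl_div ℓ (hf0 i) (mul_ne_zero (hg0 i) (hg'0 i)), hcl, hclf, sub_self]
      obtain ⟨w, -, hw⟩ := (cl_eq_zero_iff ℓ
        (div_ne_zero (hf0 i) (mul_ne_zero (hg0 i) (hg'0 i)))).1 h1
      exact ⟨w, trivial, hw⟩)
  -- the valuation
  obtain ⟨e, he, hme⟩ := hm i
  set π : K := h + c i * t - e with hπdef
  have hπt : Transcendental (adj k t) π := by
    intro h'
    apply hht
    have h1 : h ∈ rac (adj k t) := by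
      have e1 : h = (h + c i * t - e) + (e - c i * t) := by ring
      rw [e1]
      refine Subfield.add_mem _ (mem_rac.2 h') (le_rac _ ?_)
      exact Subfield.sub_mem _ (le_adj _ _ (hs i e he))
        (Subfield.mul_mem _ (le_adj _ _ (hck i)) (mem_adj _ _))
    exact mem_rac.1 h1
  obtain ⟨W, hW, hWπ⟩ := exists_triv (adj k t) π hπt
  have hπ0 : π ≠ 0 := hfac0 i e he
  have hWπ0 : W.valuation π ≠ 0 := (Valuation.ne_zero_iff _).2 hπ0
  have hek : e ∈ k := hs i e he
  have hcij : c j - c i ≠ 0 := sub_ne_zero.2 (fun h' => hij (Fin.ext (hcinj h').symm))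
  have hWj : TrivOn W (adj k (h + c j * t)) := by
    refine triv_of_congr hrac htk hW hek (k.sub_mem (hck j) (hck i)) hcij ?_
    have e1 : h + c j * t - (e + (c j - c i) * t) = π := by rw [hπdef]; ring
    rw [e1]; exact hWπ
  have hWh : TrivOn W (adj k h) := by
    refine triv_of_congr hrac htk hW hek (k.neg_mem (hck i)) (neg_ne_zero.2 (hc0 i)) ?_
    have e1 : h - (e + (-c i) * t) = π := by rw [hπdef]; ring
    rw [e1]; exact hWπ
  have hfj : f j ∈ adj k (h + c j * t) := by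
    refine Subfield.prod_mem _ (fun e he => ?_)
    exact Subfield.pow_mem _ (Subfield.sub_mem _ (mem_adj _ _) (le_adj _ _ (hs j e he))) _
  have hvj : W.valuation (f j) = 1 := hWj.eq_one hfj (hf0 j)
  have hvg : ∀ n, W.valuation (g n * g' n) = 1 := by
    intro n
    rw [map_mul, hWh.eq_one (hg n) (hg0 n), hW.eq_one (hg' n) (hg'0 n), one_mul]
  have hvf : W.valuation (f i) = W.valuation π ^ (m i e).val := by
    change W.valuation (∏ e' ∈ s i, (h + c i * t - e') ^ (m i e').val) = _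
    rw [map_prod, Finset.prod_eq_single e]
    · rw [map_pow]
    · intro e' he' hne
      have h1 : W.valuation (e - e') = 1 :=
        hW.eq_one (le_adj _ _ (k.sub_mem hek (hs i e' he'))) (sub_ne_zero.2 hne.symm)
      have h2 : W.valuation (h + c i * t - e') = 1 := by
        have e1 : h + c i * t - e' = (e - e') + π := by rw [hπdef]; ring
        rw [e1, Valuation.map_add_eq_of_lt_left, h1]
        rw [h1]; exact hWπ
      rw [map_pow, h2, one_pow]
    · intro h'; exact absurd he h'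
  have hvy : W.valuation π ^ (m i e).val = W.valuation y ^ ℓ := by
    have h1 : f i = (f j / (g j * g' j)) * y ^ ℓ * (g i * g' i) := by
      rw [← hxy, div_mul_cancel₀ _ (mul_ne_zero (hg0 i) (hg'0 i))]
    rw [← hvf, h1, map_mul, map_mul, map_div₀, hvj, hvg, hvg, map_pow, div_one, one_mul, mul_one]
  obtain ⟨N, hyπ⟩ : ∃ N : ℕ, y ^ ringExpChar K ^ N ∈ IntermediateField.adjoin (adj k t) {π} := by
    have h1 : F ≤ pf (IntermediateField.adjoin (adj k t) {π}).toSubfield := by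
      have hb : ∀ z ∈ adj k t, z ∈ pf (IntermediateField.adjoin (adj k t) {π}).toSubfield := by
        intro z hz
        exact le_pf _ ((IntermediateField.adjoin (adj k t) {π}).algebraMap_mem ⟨z, hz⟩)
      refine adj_le (adj_le ?_ ?_) (hb t (mem_adj _ _))
      · intro z hz
        exact hb z (le_adj _ _ hz)
      · have e1 : h = (h + c i * t - e) + (e - c i * t) := by ring
        rw [e1]
        refine Subfield.add_mem _ (le_pf _ (IntermediateField.mem_adjoin_simple_self _ π))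
          (hb _ ?_)
        exact Subfield.sub_mem _ (le_adj _ _ hek)
          (Subfield.mul_mem _ (le_adj _ _ (hck i)) (mem_adj _ _))
    obtain ⟨N, hN⟩ := mem_pf.1 (h1 hy)
    exact ⟨N, hN⟩
  obtain ⟨n, c', hc', hc'0, hval⟩ := exists_residue hW hWπ hπ0 hyπ (pow_ne_zero _ hy0)
  have hvu : W.valuation (y ^ ringExpChar K ^ N * π ^ n) = 1 :=
    val_of_sub (hW.eq_one hc' hc'0) hval
  have hyv : W.valuation y ^ ringExpChar K ^ N = W.valuation π ^ (-n) := by
    rw [map_mul, map_zpow₀, map_pow] at hvu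
    rw [zpow_neg]
    exact eq_inv_of_mul_eq_one_left hvu
  have hvy' : W.valuation π ^ ((m i e).val * ringExpChar K ^ N) =
      (W.valuation π ^ (-n)) ^ ℓ := by
    rw [pow_mul, hvy, ← pow_mul, mul_comm ℓ, pow_mul, hyv]
  have h1 : W.valuation π ^ ((((m i e).val * ringExpChar K ^ N : ℕ) : ℤ) + n * ℓ) = 1 := by
    rw [zpow_add₀ hWπ0, zpow_natCast, hvy', ← zpow_natCast, ← zpow_mul, ← zpow_add₀ hWπ0]
    have : -n * (ℓ : ℤ) + n * ℓ = 0 := by ring
    rw [this, zpow_zero]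
  have h2 : (((m i e).val * ringExpChar K ^ N : ℕ) : ℤ) + n * ℓ = 0 := by
    have hunif : ∀ r : ℤ, W.valuation π ^ r = 1 → r = 0 := by
      intro r hr
      by_contra hr0
      rcases lt_or_gt_of_ne hr0 with h3 | h3
      · have h4 : W.valuation π ^ (-r) = 1 := by rw [zpow_neg, hr, inv_one]
        obtain ⟨q, hq⟩ := Int.eq_ofNat_of_zero_le (a := -r) (by omega)
        rw [hq, zpow_natCast] at h4
        exact (pow_lt_one₀ zero_le hWπ (by omega)).ne h4
      · obtain ⟨q, hq⟩ := Int.eq_ofNat_of_zero_le (a := r) (by omega)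
        rw [hq, zpow_natCast] at hr
        exact (pow_lt_one₀ zero_le hWπ (by omega)).ne hr
    exact hunif _ h1
  have h3' : (ℓ : ℤ) ∣ ((m i e).val * ringExpChar K ^ N : ℕ) := ⟨-n, by linear_combination h2⟩
  have h3'' : ℓ ∣ (m i e).val * ringExpChar K ^ N := Int.natCast_dvd_natCast.1 h3'
  have h3 : (ℓ : ℤ) ∣ (m i e).val := by
    rcases hℓ.dvd_mul.1 h3'' with h3 | h3
    · exact Int.natCast_dvd_natCast.2 h3
    · exact absurd ((ZMod.natCast_eq_zero_iff _ _).2 h3) (q_pow_ne_zero ℓ K N)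
  have h4 : ℓ ∣ (m i e).val := Int.natCast_dvd_natCast.1 h3
  haveI : NeZero ℓ := ⟨hℓ.ne_zero⟩
  have h5 : (m i e).val = 0 := Nat.eq_zero_of_dvd_of_lt h4 (ZMod.val_lt _)
  exact hme ((ZMod.val_eq_zero _).1 h5)

end meet

end Vale.Agent.P019P
end
end

section

section

/-!
# The endgame: the isomorphism is induced by a homomorphism of fields
-/

namespace Vale.Agent.P019P

open Vale.Agent.P019

set_option linter.style.haveILetI false
set_option linter.unusedSectionVars false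

open Filter

/-- a homomorphism of fields matching the correspondence of points. -/
structure EndHyp (ℓ : ℕ) {K L : Type*} [Field K] [Field L] (k : Subfield K) (l : Subfield L)
    (Θ : V ℓ K ≃ₗ[ZMod ℓ] V ℓ L) (A : K →+* L) (e : ZMod ℓ) : Prop where
  e0 : e ≠ 0
  hA : ∀ c ∈ k, A c ∈ l
  hA' : ∀ β ∈ l, ∃ b ∈ k, A b = β
  rt : ∀ s, Good k s → Rt k l Θ s (A s)
  cor : ∀ s, Good k s → ∀ᶠ b in ae k, Cor k l Θ s (A s) e b (A b)
  rel : ∀ t s, Good k t → Good k s → Good k (t + s) → ¬ IsAlgebraic (adj k s) t →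
    ∃ F' : Subfield L, RatF l F' ∧ ¬ IsAlgebraic F' (A t) ∧
      (∀ z : L, IsAlgebraic (adj F' (A t)) z) ∧ adj l (A s) ≤ F' ∧
      ∀ᶠ a in ae k, ∃ u : ValuationSubring L, TrivOn u F' ∧ u.valuation (A t - A a) < 1 ∧
        ∀ b ∈ k, Θ (cl ℓ (s - b) - cl ℓ (t + s - a - b)) ∈ U1 ℓ u

section endgame

variable {K L : Type*} [Field K] [Field L] {ℓ : ℕ} {k : Subfield K} {l : Subfield L}
  {A : K →+* L}

theorem end_comap [PerfectField L] {E : Subfield L} [PerfectField E] {x : K} {n : ℕ}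
    (h : x ^ ringExpChar K ^ n ∈ E.comap A) : x ∈ E.comap A := by
  rw [Subfield.mem_comap, map_pow, ringExpChar_eq_of_hom A] at h
  exact Subfield.mem_comap.2 (mem_of_pow_q h)

theorem end_adj [PerfectField K] [PerfectField L] (hA : ∀ c ∈ k, A c ∈ l) {s x : K}
    (hx : x ∈ adj k s) : A x ∈ adj l (A s) := by
  haveI : PerfectField ((adj l (A s)).comap A) := by
    refine perfect_of_pf_le ?_
    intro z hz
    obtain ⟨n, hn⟩ := mem_pf.1 hz
    exact end_comap hn
  have h : adj k s ≤ (adj l (A s)).comap A :=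
    adj_le (fun c hc => le_adj _ _ (hA c hc)) (mem_adj _ _)
  exact h hx

theorem end_alg [PerfectField K] [PerfectField L] (hA' : ∀ β ∈ l, ∃ b ∈ k, A b = β) {s y : K}
    (h : IsAlgebraic (adj l (A s)) (A y)) : IsAlgebraic (adj k s) y := by
  have h1 : adj l (A s) ≤ (adj k s).map A := by
    haveI : PerfectField ((adj k s).map A) := perfect_map A (adj k s)
    refine adj_le (fun β hβ => ?_) ⟨s, mem_adj _ _, rfl⟩
    obtain ⟨b, hb, rfl⟩ := hA' β hβ
    exact ⟨b, le_adj _ _ hb, rfl⟩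
  have h2 := isAlgebraic_mono h1 h
  let f : adj k s →+* (adj k s).map A :=
    (A.comp (adj k s).subtype).codRestrict ((adj k s).map A) (fun x => ⟨x, x.2, rfl⟩)
  refine IsAlgebraic.of_ringHom_of_comp_eq f A h2 ?_ A.injective rfl
  rintro ⟨_, x, hx, rfl⟩
  exact ⟨⟨x, hx⟩, rfl⟩

theorem end_avoid {C : Set K} (hk : (k : Set K).Infinite) (hC : C.Finite) :
    ∃ a ∈ k, a ∉ C := by
  by_contra h
  push Not at h
  exact hk (hC.subset fun a ha => h a ha)

theorem comb_end {W : Type*} [AddCommGroup W] (N : AddSubgroup W) (hk : (k : Set K).Infinite)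
    {C : Set K} (hC : C.Finite) {f g : K → W}
    (h : ∀ a ∈ k, a ∉ C → ∀ b ∈ k, f b - g (a + b) ∈ N) {b c : K} (hb : b ∈ k) (hc : c ∈ k) :
    f b - g c ∈ N := by
  have key : ∀ b ∈ k, ∀ c ∈ k, c - b ∉ C → f b - g c ∈ N := by
    intro b hb c hc hbc
    have h1 := h (c - b) (k.sub_mem hc hb) hbc b hb
    rwa [sub_add_cancel] at h1
  obtain ⟨b₁, hb₁, hb₁C⟩ := end_avoid hk (hC.image fun x => c - x)
  have h1 : c - b₁ ∉ C := fun h' => hb₁C ⟨c - b₁, h', by ring⟩
  obtain ⟨c₁, hc₁, hc₁C⟩ := end_avoid hk ((hC.image fun x => x + b).union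
    (hC.image fun x => x + b₁))
  have h2 : c₁ - b ∉ C := fun h' => hc₁C (Or.inl ⟨c₁ - b, h', by ring⟩)
  have h3 : c₁ - b₁ ∉ C := fun h' => hc₁C (Or.inr ⟨c₁ - b₁, h', by ring⟩)
  have h4 : f b - g c = (f b - g c₁) - (f b₁ - g c₁) + (f b₁ - g c) := by abel
  rw [h4]
  exact N.add_mem (N.sub_mem (key b hb c₁ hc₁ h2) (key b₁ hb₁ c₁ hc₁ h3)) (key b₁ hb₁ c hc h1)

variable [PerfectField K] [PerfectField L] [Fact ℓ.Prime] [NeZero (ℓ : K)] [NeZero (ℓ : L)]

theorem del_Vmap (hk : IsAlgClosed k) (hl : IsAlgClosed l) (hA : ∀ c ∈ k, A c ∈ l) {s : K}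
    (hs : Good k s) (hs' : Good l (A s)) {b : K} (hb : b ∈ k) {v : V ℓ K}
    (hv : v ∈ VS ℓ (adj k s)) : del ℓ l (A s) (A b) (Vmap ℓ A v) = del ℓ k s b v := by
  classical
  obtain ⟨T, n, hT, rfl⟩ := adj_factor hk hs.1 hv
  rw [del_eval hk hs T hT n hb, map_sum, map_sum]
  have h1 : ∀ c ∈ T, del ℓ l (A s) (A b) (Vmap ℓ A (n c • cl ℓ (s - c))) =
      if b = c then n c else 0 := by
    intro c hc
    rw [map_smul, Vmap_cl, map_sub, map_smul]
    by_cases h : b = c
    · subst h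
      rw [del_self hl hs' (hA b hb), if_pos rfl, smul_eq_mul, mul_one]
    · rw [del_ne hl hs' (hA b hb) (hA c (hT c hc)) (fun h' => h (A.injective h').symm),
        if_neg h, smul_zero]
  rw [Finset.sum_congr rfl h1, Finset.sum_ite_eq]

/-- the difference of the two maps. -/
noncomputable def EndD (Θ : V ℓ K ≃ₗ[ZMod ℓ] V ℓ L) (A : K →+* L) (e : ZMod ℓ) :
    V ℓ K →ₗ[ZMod ℓ] V ℓ L :=
  Θ.toLinearMap - e⁻¹ • Vmap ℓ A

variable {Θ : V ℓ K ≃ₗ[ZMod ℓ] V ℓ L} {e : ZMod ℓ}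

theorem EndD_apply (v : V ℓ K) : EndD Θ A e v = Θ v - e⁻¹ • Vmap ℓ A v := rfl

theorem EndHyp.D_mem (E : EndHyp ℓ k l Θ A e) {s : K} (hs : Good k s) {v : V ℓ K}
    (hv : v ∈ VS ℓ (adj k s)) : EndD Θ A e v ∈ VS ℓ (adj l (A s)) := by
  rw [EndD_apply]
  refine Submodule.sub_mem _ (((E.rt s hs).map v).2 hv) (Submodule.smul_mem _ _ ?_)
  obtain ⟨x, hx, -, rfl⟩ := hv
  rw [Vmap_cl]
  exact cl_mem_VS (end_adj E.hA hx)

theorem EndHyp.D_finite (H : Hyp ℓ k l Θ) (E : EndHyp ℓ k l Θ A e) {s : K} (hs : Good k s) :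
    ∃ X : Set (V ℓ L), X.Finite ∧ ∀ v ∈ VS ℓ (adj k s), EndD Θ A e v ∈ X := by
  classical
  have hS := ae_iff.1 (E.cor s hs)
  set T : Finset L := hS.toFinset.image A with hT
  have hTl : ∀ β ∈ T, β ∈ l := by
    intro β hβ
    obtain ⟨b, hb, rfl⟩ := Finset.mem_image.1 hβ
    exact E.hA b ((hS.mem_toFinset).1 hb).1
  refine ⟨_, del_finite (ℓ := ℓ) H.acl (E.rt s hs).good' T hTl, ?_⟩
  intro v hv
  refine ⟨E.D_mem hs hv, ?_⟩
  intro β hβ hβT
  obtain ⟨b, hb, rfl⟩ := E.hA' β hβ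
  have hbC : Cor k l Θ s (A s) e b (A b) := by
    by_contra h
    exact hβT (Finset.mem_image.2 ⟨b, hS.mem_toFinset.2 ⟨hb, h⟩, rfl⟩)
  rw [EndD_apply, map_sub, map_smul, del_Vmap H.ack H.acl E.hA hs (E.rt s hs).good' hb hv,
    hbC v hv, smul_eq_mul, ← mul_assoc, inv_mul_cancel₀ E.e0, one_mul, sub_self]

theorem EndHyp.D_U1 {F' : Subfield L} {u : ValuationSubring L} (hu : TrivOn u F')
    (hA : ∀ c ∈ k, A c ∈ l) {t s a b : K} (hs : s ∉ k) (hF : adj l (A s) ≤ F')
    (ha : u.valuation (A t - A a) < 1) (hb : b ∈ k)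
    (hΘ : Θ (cl ℓ (s - b) - cl ℓ (t + s - a - b)) ∈ U1 ℓ u) :
    EndD Θ A e (cl ℓ (s - b)) - EndD Θ A e (cl ℓ (t + s - (a + b))) ∈ U1 ℓ u := by
  rw [← map_sub, EndD_apply, ← sub_sub (t + s)]
  refine Submodule.sub_mem _ hΘ (Submodule.smul_mem _ _ ?_)
  rw [map_sub, Vmap_cl, Vmap_cl, ← neg_sub]
  refine Submodule.neg_mem _ (cl_sub_cl_mem_U1 ?_ ?_)
  · refine hu.eq_one (hF ?_) ?_
    · rw [map_sub]
      exact Subfield.sub_mem _ (mem_adj _ _) (le_adj _ _ (hA b hb))
    · rw [Ne, map_eq_zero, sub_eq_zero]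
      rintro rfl
      exact hs hb
  · have h1 : A (t + s - a - b) - A (s - b) = A t - A a := by
      simp only [map_sub, map_add]
      ring
    rw [h1]
    exact ha

theorem EndHyp.D_rel (H : Hyp ℓ k l Θ) (E : EndHyp ℓ k l Θ A e) {t s : K} (ht : Good k t)
    (hs : Good k s) (hts : Good k (t + s)) (hst : ¬ IsAlgebraic (adj k s) t) {b c : K}
    (hb : b ∈ k) (hc : c ∈ k) :
    EndD Θ A e (cl ℓ (s - b)) - EndD Θ A e (cl ℓ (t + s - c)) ∈ VS ℓ (adj l (A t)) := by
  classical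
  obtain ⟨F', hRF, htt, halg, hF, hu⟩ := E.rel t s ht hs hts hst
  obtain ⟨X, hX, hXs⟩ := E.D_finite H hs
  obtain ⟨Y, hY, hYs⟩ := E.D_finite H hts
  set N : Submodule (ZMod ℓ) (V ℓ L) := VS ℓ (adj l (A t)) with hN
  set C : V ℓ L → Set L := fun w => {β : L | β ∈ l ∧ w ∉ N ∧
    ∃ W : ValuationSubring L, Over W F' (A t) β ∧ w ∈ U1 ℓ W} with hCdef
  have hC : ∀ w, (C w).Finite := by
    intro w
    by_contra hinf
    have hinf' : (C w).Infinite := hinf
    obtain ⟨β, -, hwN, -⟩ := hinf'.nonempty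
    apply hwN
    have h1 : w ∈ VS ℓ (rac (adj l (A t))) :=
      k1 H.acl H.fgl hRF htt halg (hinf'.mono fun β hβ => ⟨hβ.1, hβ.2.2⟩)
    exact VS_mono ((E.rt t ht).good'.2.le le_rfl) h1
  set Z : Set (V ℓ L) := (fun p : V ℓ L × V ℓ L => p.1 - p.2) '' (X ×ˢ Y) with hZ
  have hZf : Z.Finite := (hX.prod hY).image _
  set B : Set K := {a : K | a ∈ k ∧ ¬ ∃ u : ValuationSubring L, TrivOn u F' ∧
    u.valuation (A t - A a) < 1 ∧
      ∀ b ∈ k, Θ (cl ℓ (s - b) - cl ℓ (t + s - a - b)) ∈ U1 ℓ u} ∪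
    ⋃ w ∈ Z, A ⁻¹' (C w) with hB
  have hBc : B.Finite :=
    (ae_iff.1 hu).union (hZf.biUnion fun w _ => (hC w).preimage A.injective.injOn)
  refine comb_end N.toAddSubgroup (infinite_of_isAlgClosed H.ack) hBc
    (f := fun b => EndD Θ A e (cl ℓ (s - b))) (g := fun c => EndD Θ A e (cl ℓ (t + s - c)))
    ?_ hb hc
  intro a ha haB b hb
  have h1 : ∃ u : ValuationSubring L, TrivOn u F' ∧ u.valuation (A t - A a) < 1 ∧
      ∀ b ∈ k, Θ (cl ℓ (s - b) - cl ℓ (t + s - a - b)) ∈ U1 ℓ u := by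
    by_contra h
    exact haB (Or.inl ⟨ha, h⟩)
  obtain ⟨u, huF, huA, huΘ⟩ := h1
  set w : V ℓ L := EndD Θ A e (cl ℓ (s - b)) - EndD Θ A e (cl ℓ (t + s - (a + b))) with hw
  have hwU : w ∈ U1 ℓ u := EndHyp.D_U1 huF E.hA hs.1 hF huA hb (huΘ b hb)
  have hab : a + b ∈ k := k.add_mem ha hb
  have hwZ : w ∈ Z := ⟨(_, _), ⟨hXs _ (cl_mem_VS (Subfield.sub_mem _ (mem_adj _ _)
    (le_adj _ _ hb))), hYs _ (cl_mem_VS (Subfield.sub_mem _ (mem_adj _ _)
    (le_adj _ _ hab)))⟩, rfl⟩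
  have haC : A a ∉ C w := fun h => haB (Or.inr (Set.mem_biUnion hwZ h))
  change w ∈ N
  by_contra hwN
  exact haC ⟨E.hA a ha, hwN, u, ⟨huF, huA⟩, hwU⟩

theorem ae_of_image (hA : ∀ c ∈ k, A c ∈ l) {P : L → Prop} (h : ∀ᶠ c in ae l, P c) :
    ∀ᶠ c in ae k, P (A c) := by
  rw [ae_iff] at h ⊢
  refine (h.preimage A.injective.injOn).subset ?_
  rintro a ⟨ha, hP⟩
  exact ⟨hA a ha, hP⟩

theorem exists_ae (hk : (k : Set K).Infinite) {P : K → Prop} (h : ∀ᶠ c in ae k, P c) :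
    ∃ c ∈ k, P c := by
  obtain ⟨a, ha, haC⟩ := end_avoid hk (ae_iff.1 h)
  refine ⟨a, ha, ?_⟩
  by_contra h'
  exact haC ⟨ha, h'⟩

theorem endg_shift {P : K → Prop} (h : ∀ᶠ c in ae k, P c) {d : K} (hd : d ∈ k) :
    ∀ᶠ c in ae k, P (c + d) := by
  rw [ae_iff] at h ⊢
  refine (h.preimage (add_left_injective d).injOn).subset ?_
  rintro a ⟨ha, hP⟩
  exact ⟨k.add_mem ha hd, hP⟩

theorem exists_free (hk : RAC k) (htr : ∃ x y : K, x ∉ k ∧ ¬ IsAlgebraic (adj k x) y) {s : K}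
    (hs : s ∉ k) : ∃ h : K, ¬ IsAlgebraic (adj k s) h := by
  obtain ⟨x, y, hx, hy⟩ := htr
  by_contra hcon
  push Not at hcon
  have h1 : IsAlgebraic (adj k x) s := exchange (fun h' => hx (hk x h')) (hcon x)
  have h2 : adj k s ≤ rac (adj k x) :=
    adj_le ((le_adj k x).trans (le_rac _)) (mem_rac.2 h1)
  exact hy (isAlgebraic_rac (isAlgebraic_mono h2 (hcon y)))

theorem EndHyp.exists_t (H : Hyp ℓ k l Θ) (E : EndHyp ℓ k l Θ A e) {s : K} (hs : Good k s) :
    ∃ t, Good k t ∧ Good k (t + s) ∧ ¬ IsAlgebraic (adj k s) t ∧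
      VS ℓ (adj l (A t)) ⊓ VS ℓ (adj l (A s)) = ⊥ := by
  have hrk := RAC_of_isAlgClosed k H.ack
  obtain ⟨h, hh⟩ := exists_free hrk H.trk hs.1
  have hhk : h ∉ k := fun h' => hh (isAlgebraic_of_mem (le_adj _ _ h'))
  have hsk : ¬ IsAlgebraic k s := fun h' => hs.1 (hrk s h')
  have hhs : ¬ IsAlgebraic (adj k h) s := fun h' => hh (exchange hsk h')
  have h1 := H.bert h s hhk hhs
  have h2 := endg_shift h1 k.one_mem
  have hAh : A h ∉ l := by
    intro h'
    obtain ⟨b, hb, hb'⟩ := E.hA' _ h'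
    exact hhk (A.injective hb' ▸ hb)
  have h3 := ae_of_image E.hA (meet_ae (ℓ := ℓ) H.acl H.fgl hAh
    (fun h' => hhs (end_alg E.hA' h')))
  obtain ⟨c, hc, hc1, hc2, hc3⟩ := exists_ae (infinite_of_isAlgClosed H.ack) (h1.and (h2.and h3))
  refine ⟨h + c * s, hc1, ?_, ?_, ?_⟩
  · have h4 : h + c * s + s = h + (c + 1) * s := by ring
    rw [h4]
    exact hc2
  · intro h'
    apply hh
    have h4 := (rac (adj k s)).sub_mem (mem_rac.2 h')
      ((rac (adj k s)).mul_mem (le_rac _ (le_adj k s hc)) (le_rac _ (mem_adj k s)))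
    rw [add_sub_cancel_right] at h4
    exact mem_rac.1 h4
  · rw [map_add, map_mul, eq_bot_iff, ← hc3]
    exact inf_le_inf_left _ le_sup_right

theorem EndHyp.D_good (H : Hyp ℓ k l Θ) (E : EndHyp ℓ k l Θ A e) {s : K} (hs : Good k s) :
    EndD Θ A e (cl ℓ s) = 0 := by
  obtain ⟨t, ht, hts, hst, hinf⟩ := E.exists_t H hs
  have hrk := RAC_of_isAlgClosed k H.ack
  have hm : cl ℓ s ∈ VS ℓ (adj k s) := cl_mem_VS (mem_adj _ _)
  have hAs : A s ∉ l := (E.rt s hs).good'.1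
  have h1 := H.bert s t hs.1 hst
  have h2 := ae_of_image E.hA (meet_ae (ℓ := ℓ) H.acl H.fgl hAs
    (fun h' => hst (end_alg E.hA' h')))
  have h3 : ∀ᶠ c in ae k, c ≠ 0 := by
    rw [ae_iff]
    exact (Set.finite_singleton (0 : K)).subset (fun c hc => by
      by_contra h
      exact hc.2 h)
  obtain ⟨c, hc, hc1, hc2, hc0⟩ := exists_ae (infinite_of_isAlgClosed H.ack) (h1.and (h2.and h3))
  have hadj : adj k (c * t) = adj k t := by
    apply le_antisymm
    · exact adj_le (le_adj _ _) (Subfield.mul_mem _ (le_adj _ _ hc) (mem_adj _ _))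
    · refine adj_le (le_adj _ _) ?_
      have h4 := Subfield.mul_mem _ (le_adj k (c * t) (k.inv_mem hc)) (mem_adj k (c * t))
      rwa [inv_mul_cancel_left₀ hc0] at h4
  have hct : Good k (c * t) := by
    refine ⟨fun h' => ht.1 ?_, by rw [hadj]; exact ht.2⟩
    have h4 := k.mul_mem (k.inv_mem hc) h'
    rwa [inv_mul_cancel_left₀ hc0] at h4
  have hct' : ¬ IsAlgebraic (adj k s) (c * t) := by
    intro h'
    apply hst
    have h4 := (rac (adj k s)).mul_mem (le_rac _ (le_adj k s (k.inv_mem hc))) (mem_rac.2 h')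
    rw [inv_mul_cancel_left₀ hc0] at h4
    exact mem_rac.1 h4
  have hcts : Good k (c * t + s) := by rw [add_comm]; exact hc1
  have h4 := E.D_rel H hct hs hcts hct' k.zero_mem k.zero_mem
  rw [sub_zero, sub_zero] at h4
  have h5 : VS ℓ (adj l (A (c * t))) ≤ VS ℓ (adj l (A t)) := by
    refine VS_mono (adj_le (le_adj _ _) ?_)
    rw [map_mul]
    exact Subfield.mul_mem _ (le_adj _ _ (E.hA c hc)) (mem_adj _ _)
  have h6 := h5 h4
  have h7 : EndD Θ A e (cl ℓ (c * t + s)) ∈ VS ℓ (adj l (A s + A c * A t)) := by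
    have h8 := E.D_mem hcts (cl_mem_VS (mem_adj k (c * t + s)))
    rwa [map_add, map_mul, add_comm] at h8
  have h8 : EndD Θ A e (cl ℓ (c * t + s)) ∈
      VS ℓ (adj l (A s + A c * A t)) ⊓ (VS ℓ (adj l (A s)) ⊔ VS ℓ (adj l (A t))) := by
    refine ⟨h7, ?_⟩
    have h9 : EndD Θ A e (cl ℓ (c * t + s)) = EndD Θ A e (cl ℓ s) -
        (EndD Θ A e (cl ℓ s) - EndD Θ A e (cl ℓ (c * t + s))) := by abel
    rw [h9]
    exact Submodule.sub_mem _ (Submodule.mem_sup_left (E.D_mem hs hm))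
      (Submodule.mem_sup_right h6)
  rw [hc2, Submodule.mem_bot] at h8
  rw [h8, sub_zero] at h6
  have h9 : EndD Θ A e (cl ℓ s) ∈ VS ℓ (adj l (A t)) ⊓ VS ℓ (adj l (A s)) :=
    ⟨h6, E.D_mem hs hm⟩
  rwa [hinf, Submodule.mem_bot] at h9

theorem EndHyp.D_zero (H : Hyp ℓ k l Θ) (E : EndHyp ℓ k l Θ A e) (x : K) :
    EndD Θ A e (cl ℓ x) = 0 := by
  have hrk := RAC_of_isAlgClosed k H.ack
  by_cases hx : x ∈ k
  · rw [line_cl_const H.ack hx, map_zero]
  have hx0 : x ≠ 0 := fun h => hx (h ▸ k.zero_mem)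
  obtain ⟨z, hz⟩ := exists_free hrk H.trk hx
  have h1 := H.bert x z hx hz
  have hxx : x * x ∉ k := fun h' => hx (hrk x (by
    refine IsAlgebraic.of_pow (n := 2) (by norm_num) ?_
    rw [pow_two]
    exact isAlgebraic_of_mem h'))
  have hle : adj k (x * x) ≤ adj k x :=
    adj_le (le_adj _ _) (Subfield.mul_mem _ (mem_adj _ _) (mem_adj _ _))
  have h2 := H.bert (x * x) (x * z) hxx (fun h' => hz (by
    have h3 := (rac (adj k x)).mul_mem (le_rac _ (Subfield.inv_mem _ (mem_adj k x)))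
      (mem_rac.2 (isAlgebraic_mono hle h'))
    rw [inv_mul_cancel_left₀ hx0] at h3
    exact mem_rac.1 h3))
  obtain ⟨c, hc, hc1, hc2⟩ := exists_ae (infinite_of_isAlgClosed H.ack) (h1.and h2)
  have h3 : x * x + c * (x * z) = x * (x + c * z) := by ring
  rw [h3] at hc2
  have h4 : x + c * z ≠ 0 := fun h => hc1.1 (h ▸ k.zero_mem)
  have h5 := E.D_good H hc2
  rw [cl_mul ℓ hx0 h4, map_add, E.D_good H hc1, add_zero] at h5
  exact h5

/-- the isomorphism is a multiple of the map induced by the homomorphism. -/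
theorem EndHyp.eq (H : Hyp ℓ k l Θ) (E : EndHyp ℓ k l Θ A e) (x : K) :
    Θ (cl ℓ x) = e⁻¹ • cl ℓ (A x) := by
  have h := E.D_zero H x
  rw [EndD_apply, sub_eq_zero, Vmap_cl] at h
  exact h

/-- every element is a quotient of two good elements. -/
theorem exists_quot (hk : IsAlgClosed k)
    (htr : ∃ x y : K, x ∉ k ∧ ¬ IsAlgebraic (adj k x) y)
    (bert : ∀ x y : K, x ∉ k → ¬ IsAlgebraic (adj k x) y → ∀ᶠ c in ae k, Good k (x + c * y))
    {x : K} (hx : x ∉ k) : ∃ g, Good k g ∧ Good k (x * g) := by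
  have hrk := RAC_of_isAlgClosed k hk
  have hx0 : x ≠ 0 := fun h => hx (h ▸ k.zero_mem)
  obtain ⟨z, hz⟩ := exists_free hrk htr hx
  have h1 := bert x z hx hz
  have hxx : x * x ∉ k := fun h' => hx (hrk x (by
    refine IsAlgebraic.of_pow (n := 2) (by norm_num) ?_
    rw [pow_two]
    exact isAlgebraic_of_mem h'))
  have hle : adj k (x * x) ≤ adj k x :=
    adj_le (le_adj _ _) (Subfield.mul_mem _ (mem_adj _ _) (mem_adj _ _))
  have h2 := bert (x * x) (x * z) hxx (fun h' => hz (by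
    have h3 := (rac (adj k x)).mul_mem (le_rac _ (Subfield.inv_mem _ (mem_adj k x)))
      (mem_rac.2 (isAlgebraic_mono hle h'))
    rw [inv_mul_cancel_left₀ hx0] at h3
    exact mem_rac.1 h3))
  obtain ⟨c, hc, hc1, hc2⟩ := exists_ae (infinite_of_isAlgClosed hk) (h1.and h2)
  have h3 : x * x + c * (x * z) = x * (x + c * z) := by ring
  rw [h3] at hc2
  exact ⟨_, hc1, hc2⟩

theorem adj_eq_of_VS (hl : IsAlgClosed l) (hfg : FG l (⊤ : Subfield L)) {x y : L} (hx : Good l x)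
    (hy : Good l y) (h : VS ℓ (adj l y) ≤ VS ℓ (adj l x)) : y ∈ adj l x := by
  by_contra hxy
  have h1 : ¬ IsAlgebraic (adj l x) y := fun h' => hxy (hx.2 y h')
  have h2 := int_top (ℓ := ℓ) hl hfg (le_adj l x) (le_adj l y) (mem_adj l y) h1
    (fun z hz => isAlgebraic_of_mem hz)
  rw [inf_eq_right.2 h] at h2
  exact VS_infinite hl hfg (le_adj l y) (fun h' => hy.1 (h' (mem_adj l y))) h2

/-- the homomorphism is surjective. -/
theorem EndHyp.surj (H : Hyp ℓ k l Θ) (E : EndHyp ℓ k l Θ A e)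
    (hR : ∀ y, Good l y → ∃ x, Rt l k Θ.symm y x) : Function.Surjective A := by
  have h1 : ∀ y, Good l y → ∃ x, A x = y := by
    intro y hy
    obtain ⟨x, hx⟩ := hR y hy
    have h2 := E.rt x hx.good'
    have h3 : VS ℓ (adj l y) ≤ VS ℓ (adj l (A x)) := by
      intro w hw
      have h4 := (hx.map w).2 hw
      have h5 := (h2.map (Θ.symm w)).2 h4
      rwa [Θ.apply_symm_apply] at h5
    have h4 : adj l (A x) ≤ A.fieldRange := by
      refine adj_le ?_ ⟨x, rfl⟩
      intro β hβ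
      obtain ⟨b, _, rfl⟩ := E.hA' β hβ
      exact ⟨b, rfl⟩
    exact h4 (adj_eq_of_VS H.acl H.fgl h2.good' hy h3)
  intro y
  by_cases hy : y ∈ l
  · obtain ⟨b, _, hb⟩ := E.hA' y hy
    exact ⟨b, hb⟩
  obtain ⟨g, hg1, hg2⟩ := exists_quot H.acl H.trl H.bert' hy
  obtain ⟨a, ha⟩ := h1 g hg1
  obtain ⟨b, hb⟩ := h1 _ hg2
  have hg0 : g ≠ 0 := fun h => hg1.1 (h ▸ l.zero_mem)
  refine ⟨b / a, ?_⟩
  rw [map_div₀, ha, hb, mul_div_cancel_right₀ _ hg0]

/-- the isomorphism comes from an isomorphism of fields. -/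
theorem EndHyp.final (H : Hyp ℓ k l Θ) (E : EndHyp ℓ k l Θ A e)
    (hR : ∀ y, Good l y → ∃ x, Rt l k Θ.symm y x) :
    ∃ (c : (ZMod ℓ)ˣ) (α : K ≃+* L), (∀ x, x ∈ k ↔ α x ∈ l) ∧
      ∀ x : K, Θ (cl ℓ x) = (c : ZMod ℓ) • cl ℓ (α x) := by
  refine ⟨(Units.mk0 e E.e0)⁻¹, RingEquiv.ofBijective A ⟨A.injective, E.surj H hR⟩, ?_, ?_⟩
  · intro x
    refine ⟨fun h => E.hA x h, fun h => ?_⟩
    obtain ⟨b, hb, hbx⟩ := E.hA' _ h
    exact A.injective hbx ▸ hb
  · intro x
    rw [E.eq H x, Units.val_inv_eq_inv_val]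
    rfl

end endgame

end Vale.Agent.P019P
end
end

section

section

/-!
# Bounded data for rings which are not models
-/

namespace Vale.Agent.P019P

open Polynomial IntermediateField TensorProduct

/-- a linear map into a smaller space has a kernel. -/
theorem h4FrE_ker {K V F : Type*} [Field K] [AddCommGroup V] [Module K V] [AddCommGroup F]
    [Module K F] [FiniteDimensional K V] (W : Submodule K F) [FiniteDimensional K W]
    (f : V →ₗ[K] F) (hf : ∀ v, f v ∈ W) (h : Module.finrank K W < Module.finrank K V) :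
    ∃ v, v ≠ 0 ∧ f v = 0 := by
  have h1 : LinearMap.ker (f.codRestrict W hf) ≠ ⊥ := LinearMap.ker_ne_bot_of_finrank_lt h
  obtain ⟨v, hv, hv0⟩ := Submodule.exists_mem_ne_zero_of_ne_bot h1
  refine ⟨v, hv0, ?_⟩
  exact congrArg Subtype.val (LinearMap.mem_ker.1 hv)

section

variable {K R F : Type*} [Field K] [CommRing R] [Algebra K R] [Field F]
    [Algebra R F] [Algebra K F] [IsScalarTower K R F]

theorem h4FrE_smul (c : K) (x : R) : algebraMap R F (c • x) = c • algebraMap R F x :=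
  (IsScalarTower.toAlgHom K R F).toLinearMap.map_smul c x

/-- the coefficients of the monic equation. -/
noncomputable def h4FrE_co (g J : ℕ) (lam : ℕ → K) (ρ : R) (t : ℕ) : R :=
  if t < g - J then 0 else if t = g - J then -((lam J)⁻¹ • ρ) else
        ((lam J)⁻¹ * lam (t - (g - J) - 1)) • (1 : R)

/-- the monic equation. -/
theorem h4FrE_monic {g J : ℕ} (hJ : J ≤ g) (lam : ℕ → K)
    (hlam : lam J ≠ 0) (z : F) (ρ : R)
    (h : ∑ j ∈ Finset.range (J + 1), lam j • z ^ (j + 1) = algebraMap R F ρ) :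
    z ^ (g + 1) + ∑ t ∈ Finset.range (g + 1), algebraMap R F (h4FrE_co g J lam ρ t) * z ^ t
      = 0 := by
  obtain ⟨e, rfl⟩ := Nat.exists_eq_add_of_le' hJ
  rw [show e + J + 1 = e + (J + 1) by ring, Finset.sum_range_add, Finset.sum_range_succ' _ J]
  have h1 : ∑ t ∈ Finset.range e, algebraMap R F (h4FrE_co (e + J) J lam ρ t) * z ^ t = 0 := by
    refine Finset.sum_eq_zero fun t ht => ?_
    rw [h4FrE_co, Nat.add_sub_cancel, if_pos (Finset.mem_range.1 ht), map_zero, zero_mul]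
  have h2 : ∑ k ∈ Finset.range J,
      algebraMap R F (h4FrE_co (e + J) J lam ρ (e + (k + 1))) * z ^ (e + (k + 1)) =
      ((lam J)⁻¹ • ∑ k ∈ Finset.range J, lam k • z ^ (k + 1)) * z ^ e := by
    rw [Finset.smul_sum, Finset.sum_mul]
    refine Finset.sum_congr rfl fun k _ => ?_
    rw [h4FrE_co, Nat.add_sub_cancel, if_neg (by omega), if_neg (by omega),
      show e + (k + 1) - e - 1 = k by omega, h4FrE_smul, map_one, smul_mul_assoc, one_mul,
      smul_smul, smul_mul_assoc, ← pow_add, add_comm e]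
  have h3 : algebraMap R F (h4FrE_co (e + J) J lam ρ (e + 0)) * z ^ (e + 0) =
      -((lam J)⁻¹ • algebraMap R F ρ) * z ^ e := by
    rw [h4FrE_co, Nat.add_sub_cancel, if_neg (by omega), if_pos (by omega), map_neg, h4FrE_smul,
      Nat.add_zero]
  have h4 : (lam J)⁻¹ • (∑ k ∈ Finset.range J, lam k • z ^ (k + 1) + lam J • z ^ (J + 1)) =
      (lam J)⁻¹ • ∑ k ∈ Finset.range J, lam k • z ^ (k + 1) + z ^ (J + 1) := by
    rw [smul_add, smul_smul, inv_mul_cancel₀ hlam, one_smul]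
  rw [h1, h2, h3, ← h, Finset.sum_range_succ, h4]
  ring

theorem h4FrE_co_mem {S : Set ℕ} {b : Module.Basis S K R} {N : ℕ} (h1 : (1 : R) ∈ fil b N)
    (g J : ℕ) (lam : ℕ → K) {ρ : R} (hρ : ρ ∈ fil b N) (t : ℕ) :
    h4FrE_co g J lam ρ t ∈ fil b N := by
  rw [h4FrE_co]
  split_ifs
  · exact zero_mem _
  · exact neg_mem (Submodule.smul_mem _ _ hρ)
  · exact Submodule.smul_mem _ _ h1

end

variable {K R F : Type*} [Field K] [IsAlgClosed K] [CommRing R] [Algebra K R] [Field F]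
  [Algebra R F] [IsFractionRing R F] [Algebra K F] [IsScalarTower K R F] {S : Set ℕ} {g : ℕ}
  {b : Module.Basis S K R} [CFF K F] {P₀ : Plk K F}

/-- the filtration is the one of the pole orders. -/
theorem h4FrE_mem_LP (h : IsDB b) (hS : Sgp g S)
    (hP₀ : ∀ z : R, z ≠ 0 → ord P₀ (algebraMap R F z) = -(dgr b z : ℤ)) {n : ℕ} {z : R}
    (hz : z ∈ fil b n) : algebraMap R F z ∈ LP P₀ n := by
  refine mem_LP.2 ⟨h4_RO h hS hP₀ z, ?_⟩
  by_cases h0 : z = 0
  · left; rw [h0, map_zero]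
  · right
    rw [hP₀ z h0]
    have := mem_fil_iff.1 hz
    omega

/-- a missing function of smallest degree. -/
theorem h4FrE_missing (h : IsDB b) (hS : Sgp g S)
    (hP₀ : ∀ z : R, z ≠ 0 → ord P₀ (algebraMap R F z) = -(dgr b z : ℤ))
    (hn : ¬ ∀ w : F, w ∈ RO P₀ → ∃ z : R, algebraMap R F z = w) :
    1 ≤ g ∧ ∃ w : F, w ∈ LP P₀ (2 * g - 1) ∧ ∀ z : R, algebraMap R F z ≠ w := by
  classical
  have hex : ∃ n : ℕ, ∃ w : F, w ∈ LP P₀ n ∧ ∀ z : R, algebraMap R F z ≠ w := by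
    push Not at hn
    obtain ⟨w, hw, hw2⟩ := hn
    obtain ⟨n, hn⟩ := exists_mem_LP hw
    exact ⟨n, w, hn, hw2⟩
  obtain ⟨w, hw, hw2⟩ := Nat.find_spec hex
  have hmin := fun m (hm : m < Nat.find hex) => Nat.find_min hex hm
  set d := Nat.find hex with hd
  have hd0 : d ≠ 0 := by
    intro h0
    rw [h0] at hw
    obtain ⟨h1, h2⟩ := mem_LP.1 hw
    have h3 : 0 ≤ ord P₀ w := by
      rcases h2 with h2 | h2
      · rw [h2, ord_zero]
      · simpa using h2
    obtain ⟨c, hc⟩ := h4_const h1 h3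
    refine hw2 (algebraMap K R c) ?_
    rw [hc, ← IsScalarTower.algebraMap_apply]
  have hdS : d ∉ S := by
    intro hdS
    have hb0 : b ⟨d, hdS⟩ ≠ 0 := b.ne_zero _
    have hb1 : algebraMap R F (b ⟨d, hdS⟩) ≠ 0 := by
      intro h0
      exact hb0 ((injective_iff_map_eq_zero _).1 (IsFractionRing.injective R F) _ h0)
    have hb2 : ord P₀ (algebraMap R F (b ⟨d, hdS⟩)) = -(d : ℤ) := by
      rw [hP₀ _ hb0, dgr_basis]
    obtain ⟨h1, h2⟩ := mem_LP.1 hw
    obtain ⟨c, hc⟩ := exists_sub_mem hb1 hb2 (mem_Mge.2 h2)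
    have h3 : w - c • algebraMap R F (b ⟨d, hdS⟩) ∈ LP P₀ (d - 1) := by
      refine mem_LP.2 ⟨sub_mem h1 (Subalgebra.smul_mem _ (h4_RO h hS hP₀ _) c), ?_⟩
      rcases mem_Mge.1 hc with h4 | h4
      · exact Or.inl h4
      · right
        have : ((d - 1 : ℕ) : ℤ) = (d : ℤ) - 1 := by
          have := Nat.pos_of_ne_zero hd0
          omega
        omega
    refine hmin (d - 1) (by omega) ⟨_, h3, fun z hz => ?_⟩
    refine hw2 (z + c • b ⟨d, hdS⟩) ?_
    rw [map_add, hz, h4FrE_smul, sub_add_cancel]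
  have hlt : d < 2 * g := by
    by_contra hc
    exact hdS (hS.large d (not_lt.1 hc))
  exact ⟨by omega, w, LP_mono P₀ (by omega) hw, hw2⟩

/-- if some function with poles only at infinity is missing, there is one with bounded data. -/
theorem h4_notFull (h : IsDB b) (hS : Sgp g S)
    (hP₀ : ∀ z : R, z ≠ 0 → ord P₀ (algebraMap R F z) = -(dgr b z : ℤ))
    (hn : ¬ ∀ w : F, w ∈ RO P₀ → ∃ z : R, algebraMap R F z = w) :
    ∃ (a q : R) (ρ : Fin (g + 1) → R), a ∈ fil b (4 * g) ∧ q ∈ fil b (2 * g) ∧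
      (∀ t, ρ t ∈ fil b (2 * g * (g + 1))) ∧
      a ^ (g + 1) + ∑ t, ρ t * a ^ (t : ℕ) * q ^ (g + 1 - (t : ℕ)) = 0 ∧
      ∀ w : R, a ≠ q * w := by
  obtain ⟨hg, z, hz, hz2⟩ := h4FrE_missing h hS hP₀ hn
  have hinj : Function.Injective (algebraMap R F) := IsFractionRing.injective R F
  have := fil_finite b (2 * g)
  have := fil_finite b (4 * g - 1)
  have := fil_finite b (2 * g * (g + 1))
  let Φ : R →ₗ[K] F := (IsScalarTower.toAlgHom K R F).toLinearMap
  have hΦ : ∀ x, Φ x = algebraMap R F x := fun x => rfl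
  -- the denominator
  obtain ⟨⟨⟨q, hq⟩, ⟨a, ha⟩⟩, hne, hqa⟩ := h4FrE_ker (LP P₀ (4 * g - 1))
    (((LinearMap.mulRight K z).comp (Φ.comp (fil b (2 * g)).subtype)).coprod
      (-(Φ.comp (fil b (4 * g - 1)).subtype))) (by
        rintro ⟨⟨q, hq⟩, ⟨a, ha⟩⟩
        have h1 := LP_mul (h4FrE_mem_LP h hS hP₀ hq) hz
        have h2 := h4FrE_mem_LP h hS hP₀ ha
        rw [show 2 * g + (2 * g - 1) = 4 * g - 1 by omega] at h1
        exact add_mem h1 (neg_mem h2)) (by
        have h1 := l_LP_le P₀ (4 * g - 1)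
        have h2 := finrank_fil b hS (n := 2 * g) le_rfl
        have h3 := finrank_fil b hS (n := 4 * g - 1) (by omega)
        rw [Module.finrank_prod]
        omega)
  have hqa : algebraMap R F q * z + -algebraMap R F a = 0 := hqa
  have hqa : algebraMap R F q * z = algebraMap R F a := by
    rw [← sub_eq_add_neg] at hqa
    exact sub_eq_zero.1 hqa
  have hq0 : q ≠ 0 := by
    rintro rfl
    rw [map_zero, zero_mul] at hqa
    have h0 : a = 0 := hinj (by rw [← hqa, map_zero])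
    subst h0
    exact hne rfl
  -- the equation
  have hN : ∀ j : Fin (g + 1), z ^ ((j : ℕ) + 1) ∈ LP P₀ (2 * g * (g + 1)) := by
    intro j
    refine LP_mono P₀ ?_ (LP_pow hz ((j : ℕ) + 1))
    rw [mul_comm (2 * g) (g + 1)]
    exact Nat.mul_le_mul (by omega) (by omega)
  obtain ⟨⟨lam, ⟨ρ, hρ⟩⟩, hne2, hlr⟩ := h4FrE_ker (LP P₀ (2 * g * (g + 1)))
    ((Fintype.linearCombination K (fun j : Fin (g + 1) => z ^ ((j : ℕ) + 1))).coprod
      (-(Φ.comp (fil b (2 * g * (g + 1))).subtype))) (by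
        rintro ⟨lam, ⟨ρ, hρ⟩⟩
        have h2 := h4FrE_mem_LP h hS hP₀ hρ
        have h1 : Fintype.linearCombination K (fun j : Fin (g + 1) => z ^ ((j : ℕ) + 1)) lam ∈
            LP P₀ (2 * g * (g + 1)) := by
          rw [Fintype.linearCombination_apply]
          exact Submodule.sum_mem _ fun j _ => Submodule.smul_mem _ _ (hN j)
        exact add_mem h1 (neg_mem h2)) (by
        have h1 := l_LP_le P₀ (2 * g * (g + 1))
        have h3 := finrank_fil b hS (n := 2 * g * (g + 1)) (Nat.le_mul_of_pos_right _ (by omega))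
        rw [Module.finrank_prod, Module.finrank_fin_fun]
        omega)
  have hlr : ∑ j : Fin (g + 1), lam j • z ^ ((j : ℕ) + 1) + -algebraMap R F ρ = 0 := hlr
  have hlr : ∑ j : Fin (g + 1), lam j • z ^ ((j : ℕ) + 1) = algebraMap R F ρ := by
    rw [← sub_eq_add_neg] at hlr
    exact sub_eq_zero.1 hlr
  have hlam : ∃ j, lam j ≠ 0 := by
    by_contra hc
    push Not at hc
    have h1 : lam = 0 := funext hc
    have h2 : ρ = 0 := by
      apply hinj
      rw [← hlr, map_zero]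
      exact Finset.sum_eq_zero fun j _ => by rw [hc, zero_smul]
    subst h2
    subst h1
    exact hne2 rfl
  classical
  obtain ⟨J, hJ, hJmax⟩ := Finset.exists_max_image (Finset.univ.filter fun j => lam j ≠ 0)
    (fun j : Fin (g + 1) => (j : ℕ)) (by
      obtain ⟨j, hj⟩ := hlam
      exact ⟨j, by simpa using hj⟩)
  have hJ : lam J ≠ 0 := by simpa using hJ
  let mu : ℕ → K := fun j => if hj : j < g + 1 then lam ⟨j, hj⟩ else 0
  have hmu : ∀ j : Fin (g + 1), mu j = lam j := fun j => dif_pos j.2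
  have hmuJ : mu J ≠ 0 := by rw [hmu]; exact hJ
  have hmu0 : ∀ j, (J : ℕ) < j → mu j = 0 := by
    intro j hj
    by_cases hj2 : j < g + 1
    · have h1 : mu j = lam ⟨j, hj2⟩ := hmu ⟨j, hj2⟩
      rw [h1]
      by_contra hc
      have h2 := hJmax ⟨j, hj2⟩ (by simpa using hc)
      simp only at h2
      omega
    · exact dif_neg hj2
  have hJg : (J : ℕ) ≤ g := Nat.lt_succ_iff.1 J.2
  have hsum : ∑ j ∈ Finset.range ((J : ℕ) + 1), mu j • z ^ (j + 1) = algebraMap R F ρ := by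
    rw [← hlr]
    have h1 : ∑ j : Fin (g + 1), lam j • z ^ ((j : ℕ) + 1) =
        ∑ j ∈ Finset.range (g + 1), mu j • z ^ (j + 1) := by
      rw [← Fin.sum_univ_eq_sum_range (fun j => mu j • z ^ (j + 1)) (g + 1)]
      exact Finset.sum_congr rfl fun j _ => by rw [hmu]
    rw [h1]
    refine Finset.sum_subset (Finset.range_mono (by omega)) fun j _ hj => ?_
    rw [hmu0 j (by simpa using hj), zero_smul]
  have hmon := h4FrE_monic hJg mu hmuJ z ρ hsum
  refine ⟨a, q, fun t => h4FrE_co g J mu ρ t, fil_mono b (by omega) ha, hq, fun t =>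
    h4FrE_co_mem (fil_one h hS.zero _) g J mu hρ t, ?_, ?_⟩
  · apply hinj
    rw [map_zero, map_add, map_pow, map_sum, ← hqa]
    have h1 : ∑ t : Fin (g + 1), algebraMap R F
          (h4FrE_co g J mu ρ t * a ^ (t : ℕ) * q ^ (g + 1 - (t : ℕ))) =
        (algebraMap R F q) ^ (g + 1) * ∑ t ∈ Finset.range (g + 1),
          algebraMap R F (h4FrE_co g J mu ρ t) * z ^ t := by
      rw [← Fin.sum_univ_eq_sum_range
        (fun t => algebraMap R F (h4FrE_co g J mu ρ t) * z ^ t) (g + 1), Finset.mul_sum]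
      refine Finset.sum_congr rfl fun t _ => ?_
      have h2 : algebraMap R F q ^ (g + 1) =
          algebraMap R F q ^ (t : ℕ) * algebraMap R F q ^ (g + 1 - (t : ℕ)) := by
        rw [← pow_add]
        congr 1
        have := t.2
        omega
      rw [map_mul, map_mul, map_pow, map_pow, ← hqa, h2, mul_pow]
      ring
    rw [h1, mul_pow, ← mul_add, hmon, mul_zero]
  · rintro w rfl
    rw [map_mul] at hqa
    refine hz2 w ?_
    have h1 : algebraMap R F q ≠ 0 := by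
      intro h0
      exact hq0 ((injective_iff_map_eq_zero _).1 hinj _ h0)
    exact (mul_left_cancel₀ h1 hqa).symm

/-- no such data if all functions are there. -/
theorem h4_full_of (h : IsDB b) (hS : Sgp g S)
    (hP₀ : ∀ z : R, z ≠ 0 → ord P₀ (algebraMap R F z) = -(dgr b z : ℤ))
    (hf : ∀ w : F, w ∈ RO P₀ → ∃ z : R, algebraMap R F z = w) {a q : R}
    {ρ : Fin (g + 1) → R}
    (heq : a ^ (g + 1) + ∑ t, ρ t * a ^ (t : ℕ) * q ^ (g + 1 - (t : ℕ)) = 0) :
    ∃ w : R, a = q * w := by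
  have hinj : Function.Injective (algebraMap R F) := IsFractionRing.injective R F
  have hdom := h4_domain h hS
  by_cases hq : q = 0
  · subst hq
    refine ⟨0, ?_⟩
    have h1 : ∑ t : Fin (g + 1), ρ t * a ^ (t : ℕ) * (0 : R) ^ (g + 1 - (t : ℕ)) = 0 := by
      refine Finset.sum_eq_zero fun t _ => ?_
      rw [zero_pow (by have := t.2; omega), mul_zero]
    rw [h1, add_zero] at heq
    rw [mul_zero]
    exact eq_zero_of_pow_eq_zero heq
  have hq1 : algebraMap R F q ≠ 0 := by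
    intro h0
    exact hq ((injective_iff_map_eq_zero _).1 hinj _ h0)
  obtain ⟨z, hz⟩ : ∃ z : F, algebraMap R F q * z = algebraMap R F a :=
    ⟨(algebraMap R F q)⁻¹ * algebraMap R F a, by rw [mul_inv_cancel_left₀ hq1]⟩
  have hmon : z ^ (g + 1) + ∑ t : Fin (g + 1), algebraMap R F (ρ t) * z ^ (t : ℕ) = 0 := by
    have h0 := congrArg (algebraMap R F) heq
    rw [map_zero, map_add, map_pow, map_sum, ← hz] at h0
    have h1 : ∑ t : Fin (g + 1), algebraMap R F
          (ρ t * a ^ (t : ℕ) * q ^ (g + 1 - (t : ℕ))) =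
        (algebraMap R F q) ^ (g + 1) * ∑ t : Fin (g + 1),
          algebraMap R F (ρ t) * z ^ (t : ℕ) := by
      rw [Finset.mul_sum]
      refine Finset.sum_congr rfl fun t _ => ?_
      have h2 : algebraMap R F q ^ (g + 1) =
          algebraMap R F q ^ (t : ℕ) * algebraMap R F q ^ (g + 1 - (t : ℕ)) := by
        rw [← pow_add]
        congr 1
        have := t.2
        omega
      rw [map_mul, map_mul, map_pow, map_pow, ← hz, h2, mul_pow]
      ring
    rw [h1, mul_pow, ← mul_add] at h0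
    exact (mul_eq_zero.1 h0).resolve_left (pow_ne_zero _ hq1)
  have hRO : z ∈ RO P₀ := by
    refine mem_RO.2 fun P hP => ?_
    by_contra hc
    rw [not_or, not_le] at hc
    obtain ⟨hz0, hneg⟩ := hc
    have h1 : ∑ t : Fin (g + 1), algebraMap R F (ρ t) * z ^ (t : ℕ) ∈
        Mge P ((g : ℤ) * ord P z) := by
      refine Submodule.sum_mem _ fun t _ => ?_
      have h2 : algebraMap R F (ρ t) ∈ Mge P 0 := mem_Mge.2 (mem_RO.1 (h4_RO h hS hP₀ _) P hP)
      have h3 : z ^ (t : ℕ) ∈ Mge P ((g : ℤ) * ord P z) := by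
        right
        rw [ord_pow]
        have h4 : ((t : ℕ) : ℤ) ≤ g := by
          have := t.2
          omega
        nlinarith
      have h5 := mul_mem_Mge h2 h3
      rwa [zero_add] at h5
    have h2 : z ^ (g + 1) ∈ Mge P ((g : ℤ) * ord P z) := by
      rw [eq_neg_of_add_eq_zero_left hmon]
      exact neg_mem h1
    have h3 := (mem_Mge.1 h2).resolve_left (pow_ne_zero _ hz0)
    rw [ord_pow] at h3
    push_cast at h3
    linarith
  obtain ⟨w, hw⟩ := hf z hRO
  refine ⟨w, hinj ?_⟩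
  rw [map_mul, hw, hz]

end Vale.Agent.P019P
end
end

section

section

/-!
# The degree of the residue fields
-/

namespace Vale.Agent.P019P

open Vale.Agent.P019

set_option linter.style.haveILetI false
set_option linter.unusedSectionVars false

open Polynomial Filter

variable {K : Type*} [Field K]

/-- a monic relation from linearly dependent powers. -/
theorem e2r_poly {A R : Type*} [Field A] [Field R] [Algebra A R] (c : R) (d : ℕ)
    (h : ¬ LinearIndependent A (fun i : Fin (d + 1) => c ^ (i : ℕ))) :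
    ∃ p : A[X], p.Monic ∧ p.natDegree ≤ d ∧ aeval c p = 0 := by
  classical
  rw [Fintype.not_linearIndependent_iff] at h
  obtain ⟨g, hg, i0, hi0⟩ := h
  set p0 : A[X] := ∑ i : Fin (d + 1), C (g i) * X ^ (i : ℕ) with hp
  have hcoef : p0.coeff i0 = g i0 := by
    rw [hp, finsetSum_coeff, Finset.sum_eq_single i0]
    · simp
    · intro j _ hj
      rw [coeff_C_mul, coeff_X_pow, if_neg, mul_zero]
      exact fun h => hj (Fin.ext h.symm)
    · intro h; exact absurd (Finset.mem_univ _) h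
  have hp0 : p0 ≠ 0 := by
    intro h0
    rw [h0, coeff_zero] at hcoef
    exact hi0 hcoef.symm
  have hdeg : p0.natDegree ≤ d :=
    natDegree_sum_le_of_forall_le _ _ fun i _ =>
      (natDegree_C_mul_X_pow_le _ _).trans (Nat.lt_succ_iff.1 i.2)
  have hroot : aeval c p0 = 0 := by
    rw [hp, map_sum, ← hg]
    refine Finset.sum_congr rfl fun i _ => ?_
    rw [map_mul, aeval_C, map_pow, aeval_X, Algebra.smul_def]
  refine ⟨p0 * C p0.leadingCoeff⁻¹, monic_mul_leadingCoeff_inv hp0, ?_, ?_⟩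
  · rw [natDegree_mul_leadingCoeff_inv _ hp0]
    exact hdeg
  · rw [map_mul, hroot, zero_mul]

/-- the degree of the residue field is bounded. -/
theorem res_deg [PerfectField K] {F : Subfield K} [PerfectField F]
    (hfg : FG F (⊤ : Subfield K)) {t : K} (ht : ¬ IsAlgebraic F t)
    (halg : ∀ z : K, IsAlgebraic (adj F t) z) :
    ∃ d : ℕ, ∀ (W : ValuationSubring K) (hW : TrivOn W F) (b : K), b ∈ F →
      W.valuation (t - b) < 1 → ∀ c : IsLocalRing.ResidueField W,
      ∃ p : (bar hW)[X], p.Monic ∧ p.natDegree ≤ d ∧ aeval c p = 0 := by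
  obtain ⟨S, hS⟩ := hfg
  have halg' : ∀ z : K, IsAlgebraic (IntermediateField.adjoin F {t}) z := fun z =>
    isAlgebraic_adjoin_simple'.2 (halg z)
  set L := IntermediateField.adjoin (IntermediateField.adjoin F {t}) (S : Set K) with hLdef
  haveI : FiniteDimensional (IntermediateField.adjoin F {t}) L :=
    IntermediateField.finiteDimensional_adjoin fun x _ => (halg' x).isIntegral
  have hAL : ∀ z ∈ IntermediateField.adjoin F {t}, z ∈ L := fun z hz =>
    L.algebraMap_mem (⟨z, hz⟩ : IntermediateField.adjoin F {t})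
  have hL : F ≤ L.toSubfield := fun z hz =>
    hAL z ((IntermediateField.adjoin F {t}).algebraMap_mem (⟨z, hz⟩ : F))
  have hSL : F ⊔ Subfield.closure (S : Set K) ≤ L.toSubfield :=
    sup_le hL (Subfield.closure_le.2 fun z hz => IntermediateField.subset_adjoin _ _ hz)
  have hpow : ∀ z : K, ∃ m : ℕ, z ^ ringExpChar K ^ m ∈ L := by
    intro z
    have h1 : z ∈ pf (F ⊔ Subfield.closure (S : Set K)) := hS ▸ Subfield.mem_top z
    obtain ⟨m, hm⟩ := mem_pf.1 h1
    exact ⟨m, hSL hm⟩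
  refine ⟨Module.finrank (IntermediateField.adjoin F {t}) L, fun W hW b hb hlt c => ?_⟩
  refine e2r_poly c _ fun hli => ?_
  haveI : PerfectField (bar hW) := bar_perfect hW
  have hX0 : t - b ≠ 0 := by
    intro h
    rw [sub_eq_zero] at h
    apply ht
    rw [h]
    exact isAlgebraic_algebraMap (⟨b, hb⟩ : F)
  obtain ⟨z, hz, rfl⟩ := rs_surj c
  obtain ⟨m, hm⟩ := hpow z
  have h1 := linearIndependent_pow hli m
  rw [rs_ringExpChar hW] at h1
  have h2 : LinearIndependent (bar hW)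
      (fun i : Fin (Module.finrank (IntermediateField.adjoin F {t}) L + 1) =>
        rs W ((z ^ ringExpChar K ^ m) ^ (i : ℕ))) := by
    convert h1 using 2 with i
    rw [rs_pow (pow_mem hz _), rs_pow hz, ← pow_mul, ← pow_mul, mul_comm]
  have h3 := rsb_indep hW hX0 hlt (fun i => pow_mem (pow_mem hz _) _) h2
  rw [adjoin_sub F t ⟨b, hb⟩] at h3
  have h4 : LinearIndependent (IntermediateField.adjoin F {t})
      (fun i : Fin (Module.finrank (IntermediateField.adjoin F {t}) L + 1) =>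
        (⟨(z ^ ringExpChar K ^ m) ^ (i : ℕ), pow_mem hm _⟩ : L)) :=
    LinearIndependent.of_comp L.val.toLinearMap h3
  have h5 := h4.fintype_card_le_finrank
  rw [Fintype.card_fin] at h5
  omega

end Vale.Agent.P019P
end
end

section

section

/-!
# Classes orthogonal to infinitely many points
-/

namespace Vale.Agent.P019P

open Vale.Agent.P019

set_option linter.style.haveILetI false
set_option linter.unusedSectionVars false

open Polynomial Filter

variable {K : Type*} [Field K] [PerfectField K] {ℓ : ℕ} [Fact ℓ.Prime] [NeZero (ℓ : K)]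

/-- the induction for `exists_ratF`. -/
theorem k2_aux {k : Subfield K} {e y : K} (he : ¬ IsAlgebraic k e)
    (hy : ¬ IsAlgebraic (adj k e) y) (T : Finset K) : ∃ (G : Subfield K) (s : K), RatF k G ∧
      ¬ IsAlgebraic G s ∧ ¬ IsAlgebraic (adj G s) e ∧
      ∀ t ∈ T, IsAlgebraic (adj (adj G s) e) t := by
  classical
  induction T using Finset.induction_on with
  | empty =>
    refine ⟨k, y, RatF.base, fun h => hy (isAlgebraic_mono (le_adj k e) h),
      fun h => hy (exchange he h), ?_⟩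
    intro t ht
    exact absurd ht (Finset.notMem_empty t)
  | insert t T _ ih =>
    obtain ⟨G, s, hG, hs, he', hT⟩ := ih
    by_cases ht : IsAlgebraic (adj (adj G s) e) t
    · refine ⟨G, s, hG, hs, he', ?_⟩
      intro t' ht'
      rcases Finset.mem_insert.1 ht' with h | h
      · rw [h]
        exact ht
      · exact hT t' h
    · refine ⟨adj G s, t, RatF.step hG hs, fun h => ht (isAlgebraic_mono (le_adj _ e) h),
        fun h => ht (exchange he' h), ?_⟩
      intro t' ht'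
      rcases Finset.mem_insert.1 ht' with h | h
      · rw [h]
        exact isAlgebraic_of_mem (le_adj _ e (mem_adj _ t))
      · exact isAlgebraic_mono (adj_mono (le_adj _ t) e) (hT t' h)

/-- existence of a frame with rational `G`. -/
theorem exists_ratF {k : Subfield K} (hk : IsAlgClosed k) (hfg : FG k (⊤ : Subfield K)) {e y : K}
    (he : e ∉ k) (hy : ¬ IsAlgebraic (adj k e) y) : ∃ (G : Subfield K) (s : K), RatF k G ∧
      Frame k G e s := by
  haveI : PerfectField k := by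
    haveI := hk
    infer_instance
  obtain ⟨S, hS⟩ := hfg
  have he' : ¬ IsAlgebraic k e := fun h => he (RAC_of_isAlgClosed _ hk e h)
  obtain ⟨G, s, hG, hs, hes, hT⟩ := k2_aux he' hy S
  refine ⟨G, s, hG, hG.le, hG.fg, hes, hs, fun z => ?_⟩
  have h1 : (⊤ : Subfield K) ≤ rac (adj (adj G s) e) := by
    rw [hS]
    refine pf_le (sup_le ?_ (Subfield.closure_le.2 fun w hw => mem_rac.2 (hT w hw)))
    exact hG.le.trans ((le_adj G s).trans ((le_adj _ e).trans (le_rac _)))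
  exact mem_rac.1 (h1 (Subfield.mem_top z))

theorem k2_neg_one {K : Type*} [Field K] {k : Subfield K} (hk : IsAlgClosed k) {ℓ : ℕ}
    (hℓ : 0 < ℓ) : ∃ i : K, i ^ ℓ = -1 := by
  obtain ⟨d, hd⟩ := IsAlgClosed.exists_pow_nat_eq (-1 : k) hℓ
  exact ⟨d, congrArg Subtype.val hd⟩

/-- K2: a class orthogonal to infinitely many `e - β`. -/
theorem k2 {k : Subfield K} (hk : IsAlgClosed k) (hfg : FG k (⊤ : Subfield K)) {e y : K}
    (he : e ∉ k) (hy : ¬ IsAlgebraic (adj k e) y)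
    {v : V ℓ K} (hinf : {β : K | β ∈ k ∧ Orth v (cl ℓ (e - β))}.Infinite) :
    v ∈ VS ℓ (rac (adj k e)) := by
  have hℓ : 0 < ℓ := (Fact.out : ℓ.Prime).pos
  obtain ⟨G, s, hG, hfr⟩ := exists_ratF hk hfg he hy
  have hkF : k ≤ adj G s := hfr.le.trans (le_adj G s)
  obtain ⟨z, hz0, hz⟩ := cl_surj ℓ v
  obtain ⟨θ, hnice⟩ := hfr.nice hfg
  have hboth := hnice.and (hfr.unit hz0)
  rw [ae_iff] at hboth
  refine k1 hk hfg (RatF.step hG hfr.ss) hfr.tt hfr.alg ?_
  refine (hinf.sdiff hboth).mono ?_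
  rintro β ⟨⟨hβ, hor⟩, hbad⟩
  refine ⟨hβ, ?_⟩
  have hgood : (∀ W : ValuationSubring K, Over W (adj G s) e β → Nice W (adj G s) (e - β) θ) ∧
      ∀ W : ValuationSubring K, Over W (adj G s) e β → W.valuation z = 1 := by
    by_contra hcon
    exact hbad ⟨hkF hβ, hcon⟩
  obtain ⟨W, hW⟩ := exists_over hfr.tt (hkF hβ)
  refine ⟨W, hW, ?_⟩
  have hU := (hgood.1 W hW).unif
  have h1 := tame_orth (k2_neg_one hk hℓ) W (hU.fn ℓ) (fun z hz => hU.fn_unit ℓ z hz) hor
  rw [hU.fn_self ℓ, ← hz, hU.fn_unit ℓ z (hgood.2 W hW), one_smul, zero_smul, sub_zero, hz] at h1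
  exact h1

end Vale.Agent.P019P
end
end

section

section

/-!
# Elements of `L` are units for almost all transferred valuations
-/

namespace Vale.Agent.P019P

open Vale.Agent.P019

set_option linter.style.haveILetI false
set_option linter.unusedSectionVars false

open Polynomial Filter

section aeu

variable {L : Type*} [Field L] {Γ : Type*} [LinearOrderedCommGroupWithZero Γ]

/-- for every `p` some element is not algebraic over `l(p)`. -/
theorem aeu_indep {l : Subfield L} (hl : IsAlgClosed l)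
    (htrl : ∃ x y : L, x ∉ l ∧ ¬ IsAlgebraic (adj l x) y) (p : L) :
    ∃ g : L, ¬ IsAlgebraic (adj l p) g := by
  obtain ⟨x, y, hx, hy⟩ := htrl
  by_contra hcon
  push Not at hcon
  exact hy (line_swap (RAC_of_isAlgClosed _ hl) (hcon _) hx (hcon _))

/-- an infinite sequence of nonzero constants on which a valuation is at most one. -/
theorem aeu_seq {l : Subfield L} (hl : IsAlgClosed l) (v : Valuation L Γ) :
    ∃ e : ℕ → L, Function.Injective e ∧ (∀ n, e n ∈ l) ∧ (∀ n, v (e n) ≤ 1) ∧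
      ∀ n, e n ≠ 0 := by
  haveI := hl
  haveI : Infinite l := IsAlgClosed.instInfinite
  have hinf : {c : l | v (c : L) ≤ 1 ∧ c ≠ 0}.Infinite := by
    intro hfin
    have h1 : (Set.univ : Set l) ⊆ {c : l | v (c : L) ≤ 1 ∧ c ≠ 0} ∪
        ((fun c => c⁻¹) '' {c : l | v (c : L) ≤ 1 ∧ c ≠ 0}) ∪ {0} := by
      intro c _
      by_cases hc0 : c = 0
      · exact Or.inr hc0
      · left
        rcases le_or_gt (v (c : L)) 1 with h | h
        · exact Or.inl ⟨h, hc0⟩
        · refine Or.inr ⟨c⁻¹, ⟨?_, inv_ne_zero hc0⟩, inv_inv c⟩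
          have e : ((c⁻¹ : l) : L) = (c : L)⁻¹ := rfl
          rw [e, map_inv₀]
          exact (inv_lt_one_of_one_lt₀ h).le
    exact Set.infinite_univ (((hfin.union (hfin.image _)).union (Set.finite_singleton _)).subset h1)
  let f := hinf.natEmbedding
  refine ⟨fun n => ((f n).1 : L), ?_, fun n => (f n).1.2, fun n => (f n).2.1, fun n h => ?_⟩
  · intro n m h
    exact f.injective (Subtype.ext (Subtype.ext h))
  · exact (f n).2.2 (Subtype.ext h)

/-- elements of the maximal ideal which are generically independent. -/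
theorem aeu_small {l : Subfield L} (hl : IsAlgClosed l)
    (htrl : ∃ x y : L, x ∉ l ∧ ¬ IsAlgebraic (adj l x) y) (v : Valuation L Γ) {z : L}
    (hz0 : z ≠ 0) (hv : v z < 1) (p : L) : ∃ q : L, v q < 1 ∧ ¬ IsAlgebraic (adj l p) q := by
  by_cases h : IsAlgebraic (adj l p) z
  · obtain ⟨g, hgp⟩ := aeu_indep hl htrl p
    have hg0 : g ≠ 0 := by
      rintro rfl
      exact hgp (isAlgebraic_of_mem (Subfield.zero_mem _))
    rw [← mem_rac] at h
    rcases le_or_gt (v g) 1 with h1 | h1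
    · refine ⟨z * g, ?_, ?_⟩
      · rw [map_mul]
        exact mul_lt_one_of_lt_of_le hv h1
      · intro h2
        apply hgp
        rw [← mem_rac] at h2 ⊢
        have e : g = (z * g) / z := by field_simp
        rw [e]
        exact Subfield.div_mem _ h2 h
    · refine ⟨z / g, ?_, ?_⟩
      · rw [map_div₀]
        exact (div_lt_one₀ (lt_trans zero_lt_one h1)).2 (lt_trans hv h1)
      · intro h2
        apply hgp
        rw [← mem_rac] at h2 ⊢
        have e : g = z / (z / g) := by field_simp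
        rw [e]
        exact Subfield.div_mem _ h h2
  · exact ⟨z, hv, h⟩

variable [PerfectField L] {ℓ : ℕ} [Fact ℓ.Prime] [NeZero (ℓ : L)]

/-- the main argument: if the classes of the principal units of a valuation lie in an isotropic
subspace then the valuation is trivial. -/
theorem aeu_main {l : Subfield L} (hl : IsAlgClosed l) (hfgl : FG l (⊤ : Subfield L))
    (htrl : ∃ x y : L, x ∉ l ∧ ¬ IsAlgebraic (adj l x) y) (v : Valuation L Γ)
    (hcls : ∀ y y' : L, v y < 1 → v y' < 1 → Orth (cl ℓ (1 + y)) (cl ℓ (1 + y')))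
    {z : L} (hz0 : z ≠ 0) : ¬ v z < 1 := by
  classical
  intro hzw
  have hℓ : 0 < ℓ := (Fact.out : ℓ.Prime).pos
  have hRl := RAC_of_isAlgClosed _ hl
  obtain ⟨q₁, hwq₁, hq₁k⟩ := aeu_small hl htrl v hz0 hzw 0
  have hq₁k' : q₁ ∉ l := fun h => hq₁k (isAlgebraic_of_mem (le_adj _ _ h))
  obtain ⟨q₂, hwq₂, hq₂k⟩ := aeu_small hl htrl v hz0 hzw q₁
  have hfin := bertini hl hfgl hq₁k' hq₂k
  obtain ⟨ε, hεi, hεk, hεv, hεne⟩ := aeu_seq hl v
  have hgoodnat : ∀ S : Set L, S.Finite → ∃ n : ℕ, ε n ∉ S ∧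
      Good l (q₁ + ε n * q₂) := by
    intro S hS
    have hinf : (Set.range ε).Infinite := Set.infinite_range_of_injective hεi
    obtain ⟨_, ⟨n, rfl⟩, hn⟩ := hinf.exists_notMem_finite (hfin.union hS)
    simp only [Set.mem_union, Set.mem_ofPred_eq, not_or, not_and, not_not] at hn
    exact ⟨n, hn.2, hn.1 (hεk n)⟩
  obtain ⟨n, -, hxg⟩ := hgoodnat ∅ Set.finite_empty
  obtain ⟨m, hmn, hx'g⟩ := hgoodnat {ε n} (Set.finite_singleton _)
  set x : L := q₁ + ε n * q₂ with hx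
  set x' : L := q₁ + ε m * q₂ with hx'
  have hval : ∀ n : ℕ, v (q₁ + ε n * q₂) < 1 := fun n => by
    refine Valuation.map_add_lt _ hwq₁ ?_
    rw [map_mul]
    exact mul_lt_one_of_nonneg_of_lt_one_right (hεv _) zero_le hwq₂
  have hxx' : ¬ IsAlgebraic (adj l x) x' := by
    intro h1
    rw [← mem_rac] at h1
    have hxr : x ∈ rac (adj l x) := le_rac _ (mem_adj _ _)
    have hmn' : ε m - ε n ≠ 0 := sub_ne_zero.2 (fun h => hmn (by simpa using h))
    have h2 : q₂ ∈ rac (adj l x) := by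
      have e : q₂ = (x' - x) / (ε m - ε n) := by
        rw [hx, hx']; field_simp; ring
      rw [e]
      exact Subfield.div_mem _ (Subfield.sub_mem _ h1 hxr)
        (Subfield.sub_mem _ (le_rac _ (le_adj _ _ (hεk m))) (le_rac _ (le_adj _ _ (hεk n))))
    have h3 : q₁ ∈ rac (adj l x) := by
      have e : q₁ = x - ε n * q₂ := by rw [hx]; ring
      rw [e]
      exact Subfield.sub_mem _ hxr (Subfield.mul_mem _ (le_rac _ (le_adj _ _ (hεk n))) h2)
    exact hq₂k (line_swap hRl (mem_rac.1 h3) hq₁k' (mem_rac.1 h2))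
  -- classes
  have hcx : ∀ {w : L}, Good l w → ∀ j : ℕ, cl ℓ (1 + ε j * w) = cl ℓ (w - (-(ε j)⁻¹)) := by
    intro w hw j
    have hjk' : -(ε j)⁻¹ ∈ l := l.neg_mem (l.inv_mem (hεk j))
    have hxc : w - (-(ε j)⁻¹) ≠ 0 := by
      intro h
      apply hw.1
      rw [sub_eq_zero] at h
      rw [h]
      exact hjk'
    have hj0 := hεne j
    have e : 1 + ε j * w = ε j * (w - (-(ε j)⁻¹)) := by field_simp; ring
    rw [e, cl_mul ℓ hj0 hxc, cl_const hl hℓ (hεk j), zero_add]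
  have hinf2 : (Set.range (fun j : ℕ => (-(ε j)⁻¹))).Infinite := by
    refine Set.infinite_range_of_injective ?_
    intro i j hij
    exact hεi (inv_injective (neg_injective hij))
  have hsm : ∀ (j i : ℕ), v (ε j * (q₁ + ε i * q₂)) < 1 := fun j i => by
    rw [map_mul]
    exact mul_lt_one_of_nonneg_of_lt_one_right (hεv _) zero_le (hval i)
  have hj : ∀ j : ℕ, cl ℓ (1 + ε j * x') ∈ VS ℓ (adj l x) := by
    intro j
    have h1 : {β : L | β ∈ l ∧ Orth (cl ℓ (1 + ε j * x')) (cl ℓ (x - β))}.Infinite := by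
      refine hinf2.mono ?_
      rintro _ ⟨i, rfl⟩
      refine ⟨l.neg_mem (l.inv_mem (hεk i)), ?_⟩
      rw [← hcx hxg i]
      exact hcls _ _ (hsm j m) (hsm i n)
    have h2 := k2 hl hfgl hxg.1 hxx' h1
    exact VS_mono (hxg.2.le le_rfl) h2
  -- finiteness
  have hW := int_top ℓ (E₁ := adj l x) (E₂ := adj l x') hl hfgl (le_adj _ _)
    (le_adj _ _) (mem_adj _ _) hxx' (fun z hz => isAlgebraic_of_mem hz)
  have hfin2 : (⋃ u ∈ ((VS ℓ (adj l x) ⊓ VS ℓ (adj l x') : Submodule (ZMod ℓ) (V ℓ L)) :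
      Set (V ℓ L)), {c : L | c ∈ l ∧ cl ℓ (x' - c) = u}).Finite :=
    hW.biUnion (fun v _ => dist_top ℓ hl hfgl hx'g.1 v)
  refine hinf2 (hfin2.subset ?_)
  rintro _ ⟨j, rfl⟩
  have hjk' : -(ε j)⁻¹ ∈ l := l.neg_mem (l.inv_mem (hεk j))
  simp only [Set.mem_iUnion]
  refine ⟨cl ℓ (x' - (-(ε j)⁻¹)), ⟨?_, ?_⟩, hjk', rfl⟩
  · rw [← hcx hx'g j]; exact hj j
  · exact cl_mem_VS (Subfield.sub_mem _ (mem_adj _ _) (le_adj _ _ hjk'))

end aeu

variable {K L : Type*} [Field K] [Field L] [PerfectField K] [PerfectField L] {ℓ : ℕ}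
  [Fact ℓ.Prime] [NeZero (ℓ : K)] [NeZero (ℓ : L)] {Θ : V ℓ K ≃ₗ[ZMod ℓ] V ℓ L}

theorem ae_unit {k : Subfield K} (hk : IsAlgClosed k) (hfgk : FG k (⊤ : Subfield K))
    {l : Subfield L} (hl : IsAlgClosed l) (hfgl : FG l (⊤ : Subfield L)) (hΘ : Compatible Θ)
    (htrl : ∃ x y : L, x ∉ l ∧ ¬ IsAlgebraic (adj l x) y)
    {F : Subfield K} (hF : RatF k F) {t : K} (ht : Good k t) (htF : ¬ IsAlgebraic F t)
    (halg : ∀ z : K, IsAlgebraic (adj F t) z) {z : L} (hz : z ≠ 0) :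
    ∀ᶠ b in ae k, ∀ W : ValuationSubring K, Over W F t b →
      ∀ O : ValuationSubring L, Tr Θ W (t - b) O → O.valuation z = 1 := by
  classical
  rw [ae_iff]
  by_contra hcon
  have hcon' : {b : K | b ∈ k ∧ ¬ ∀ W : ValuationSubring K, Over W F t b →
      ∀ O : ValuationSubring L, Tr Θ W (t - b) O → O.valuation z = 1}.Infinite := hcon
  set I : Set K := {b : K | b ∈ k ∧ ¬ ∀ W : ValuationSubring K, Over W F t b →
      ∀ O : ValuationSubring L, Tr Θ W (t - b) O → O.valuation z = 1} with hI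
  have hne : ∀ i : I, ∃ (W : ValuationSubring K) (O : ValuationSubring L), Over W F t i ∧
      Tr Θ W (t - i) O ∧ O.valuation z ≠ 1 := by
    rintro ⟨b, hbk, hb⟩
    push Not at hb
    obtain ⟨W, hW, O, hO, hz⟩ := hb
    exact ⟨W, O, hW, hO, hz⟩
  choose W O hW hO hOz using hne
  haveI : Infinite I := Set.infinite_coe_iff.2 hcon'
  let U : Ultrafilter I := hyperfilter I
  let v := (uVal U O).valuation.comap (gc U : L →+* Gm U L)
  have hv : ∀ w : L, v w = (uVal U O).valuation (gm U fun _ => w) := fun w => rfl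
  have hv1 : v z ≠ 1 := by
    intro h
    rw [hv, uVal_eq_one] at h
    obtain ⟨i, hi⟩ := h.exists
    exact hOz i hi
  have hcls : ∀ y : L, v y < 1 → Θ.symm (cl ℓ (1 + y)) ∈ VS ℓ (adj k t) := by
    intro y hy
    rw [hv, uVal_lt_one] at hy
    have h1 : {i : I | (O i).valuation y < 1}.Infinite := by
      intro hfin
      exact Filter.notMem_hyperfilter_of_finite hfin hy
    have h2 : {β : K | β ∈ k ∧ ∃ W : ValuationSubring K, Over W F t β ∧
        Θ.symm (cl ℓ (1 + y)) ∈ U1 ℓ W}.Infinite := by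
      refine (h1.image (f := fun i : I => (i : K)) Subtype.val_injective.injOn).mono ?_
      rintro _ ⟨i, hi, rfl⟩
      refine ⟨i.2.1, W i, hW i, ?_⟩
      rw [← (hO i).iff, LinearEquiv.apply_symm_apply]
      exact cl_mem_U1 hi
    exact VS_mono (ht.2.le le_rfl) (k1 hk hfgk hF htF halg h2)
  have horth : ∀ y y' : L, v y < 1 → v y' < 1 → Orth (cl ℓ (1 + y)) (cl ℓ (1 + y')) := by
    intro y y' hy hy'
    have h3 := adj_isotropic (ℓ := ℓ) hk ht.1 _ (hcls y hy) _ (hcls y' hy')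
    have h4 := hΘ.orth h3
    rwa [LinearEquiv.apply_symm_apply, LinearEquiv.apply_symm_apply] at h4
  rcases lt_or_gt_of_ne hv1 with h | h
  · exact aeu_main hl hfgl htrl v horth hz h
  · refine aeu_main hl hfgl htrl v horth (inv_ne_zero hz) ?_
    rw [map_inv₀]
    exact inv_lt_one_of_one_lt₀ h

end Vale.Agent.P019P
end
end

section

section

/-!
# Step A: the data, and the case of a special element
-/

namespace Vale.Agent.P019P

open Vale.Agent.P019

set_option linter.style.haveILetI false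
set_option linter.unusedSectionVars false

open Polynomial Filter

variable {K L : Type*} [Field K] [Field L] [PerfectField K] [PerfectField L] {ℓ : ℕ}
  [Fact ℓ.Prime] [NeZero (ℓ : K)] [NeZero (ℓ : L)]

/-- infinitely many points of `t`, valuations over them and corresponding valuations. -/
structure Dat (k F : Subfield K) (t : K) (Θ : V ℓ K ≃ₗ[ZMod ℓ] V ℓ L) where
  S : Set K
  inf : Infinite S
  le : ∀ b ∈ S, b ∈ k
  W : S → ValuationSubring K
  O : S → ValuationSubring L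
  ov : ∀ i, Over (W i) F t i
  tr : ∀ i, Tr Θ (W i) (t - i) (O i)
  unif : ∀ i, IsUnif (W i) (t - i)

attribute [instance] Dat.inf

variable {Θ : V ℓ K ≃ₗ[ZMod ℓ] V ℓ L} {k F : Subfield K} {t : K} {l : Subfield L}

/-- the ultrafilter. -/
noncomputable abbrev Dat.U (D : Dat k F t Θ) : Ultrafilter D.S := hyperfilter D.S

theorem Dat.ev (D : Dat k F t Θ) {p : K → Prop} (h : ∀ᶠ a in ae k, p a) :
    ∀ᶠ i : D.S in D.U, p i.1 := hyper_of_ae D.le h

theorem Dat.mem_of_ev (D : Dat k F t Θ) (hk : IsAlgClosed k) (hfg : FG k (⊤ : Subfield K))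
    (hF : RatF k F) (ht : Good k t) (htF : ¬ IsAlgebraic F t)
    (halg : ∀ z : K, IsAlgebraic (adj F t) z) {v : V ℓ K}
    (h : ∀ᶠ i in D.U, Θ v ∈ U1 ℓ (D.O i)) : v ∈ VS ℓ (adj k t) := by
  have h1 : {i : D.S | Θ v ∈ U1 ℓ (D.O i)}.Infinite := by
    intro hfin
    exact Filter.notMem_hyperfilter_of_finite hfin h
  have h2 : {β : K | β ∈ k ∧ ∃ W : ValuationSubring K, Over W F t β ∧ v ∈ U1 ℓ W}.Infinite := by
    refine (h1.image (f := fun i : D.S => (i : K)) Subtype.val_injective.injOn).mono ?_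
    rintro _ ⟨i, hi, rfl⟩
    exact ⟨D.le _ i.2, D.W i, D.ov i, ((D.tr i).iff v).1 hi⟩
  exact VS_mono (ht.2.le le_rfl) (k1 hk hfg hF htF halg h2)

theorem Dat.ev_of_mem (D : Dat k F t Θ) (hk : IsAlgClosed k) (hkF : k ≤ F)
    (ht : t ∉ k) {v : V ℓ K} (hv : v ∈ VS ℓ (adj k t)) :
    ∀ᶠ i in D.U, Θ v ∈ U1 ℓ (D.O i) := by
  classical
  have hℓ : 0 < ℓ := (Fact.out : ℓ.Prime).pos
  obtain ⟨s, n, hs, hv⟩ := adj_factor hk ht hv
  have h1 : ∀ᶠ i : D.S in D.U, (i : K) ∉ s := by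
    refine D.ev (p := fun a => a ∉ s) ?_
    rw [ae_iff]
    refine s.finite_toSet.subset ?_
    rintro a ⟨-, ha⟩
    rw [not_not] at ha
    exact ha
  refine h1.mono fun i hi => ?_
  rw [(D.tr i).iff, hv]
  refine Submodule.sum_mem _ fun c hc => Submodule.smul_mem _ _ ?_
  have hic : (i : K) - c ∈ k := k.sub_mem (D.le _ i.2) (hs c hc)
  have hic0 : (i : K) - c ≠ 0 := by
    intro h0
    rw [sub_eq_zero] at h0
    exact hi (h0 ▸ hc)
  have h2 : (D.W i).valuation ((i : K) - c) = 1 :=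
    (D.ov i).triv.eq_one (hkF hic) hic0
  have h3 := cl_sub_cl_mem_U1 (ℓ := ℓ) (x := t - c) h2
    (by rw [show t - c - ((i : K) - c) = t - i by ring]; exact (D.ov i).lt)
  rwa [cl_const hk hℓ hic, sub_zero] at h3

theorem Dat.ulu (D : Dat k F t Θ) (hk : IsAlgClosed k) (hfgk : FG k (⊤ : Subfield K))
    (hl : IsAlgClosed l) (hfgl : FG l (⊤ : Subfield L)) (hΘ : Compatible Θ)
    (htrl : ∃ x y : L, x ∉ l ∧ ¬ IsAlgebraic (adj l x) y) (hF : RatF k F) (ht : Good k t)
    (htF : ¬ IsAlgebraic F t) (halg : ∀ z : K, IsAlgebraic (adj F t) z) : Ulu D.U D.O :=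
  fun _ hx => (D.ev (ae_unit hk hfgk hl hfgl hΘ htrl hF ht htF halg hx)).mono
    fun i h => h (D.W i) (D.ov i) (D.O i) (D.tr i)

end Vale.Agent.P019P
end
end
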