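import Vale.Agent.P019.MathlibFull
import Vale.Agent.P019.MathlibFull2
import Vale.Agent.P019.MathlibUsed
import Vale.Agent.P019.Bd4.B1
import Vale.Agent.P019.Bd4.B4
import Vale.Agent.P019.Bd4.B3
import Vale.Agent.P019.Bd4.B5
import Vale.Agent.P019.Bd4.B6
import Vale.Agent.P019.Defs
import Vale.Agent.P019.Bd4.B2

set_option linter.all false

namespace AFastc2e625x13a
theorem a0.{u1} {x1 : Type u1} [x2 : Field x1] {x3 : ValuationSubring x1} : MulHomClass (Valuation x1 x3.ValueGroup) x1 x3.ValueGroup := inferInstance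
@[reducible] noncomputable def a1.{u1} {x1 : Type u1} [x2 : Field x1] {x3 : ValuationSubring x1} : One x3.ValueGroup := inferInstance
@[reducible] def a2.{u1} {x1 : Type u1} [x2 : Field x1] {x3 : Subfield x1} : CommSemiring ↥x3 := inferInstance
theorem a3.{u1} {x1 : Type u1} [x2 : Field x1] {x3 : ValuationSubring x1} : ZeroLEOneClass x3.ValueGroup := inferInstance
@[reducible] noncomputable def a4.{u1} {x1 : Type u1} [x2 : Field x1] {x3 : ValuationSubring x1} : Preorder x3.ValueGroup := inferInstance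
@[reducible] noncomputable def a5.{u1} {x1 : Type u1} [x2 : Field x1] {x3 : ValuationSubring x1} : MulZeroClass x3.ValueGroup := inferInstance
@[reducible] noncomputable def a6.{u1} {x1 : Type u1} [x2 : Field x1] {x3 : ValuationSubring x1} : PartialOrder x3.ValueGroup := inferInstance
@[reducible] noncomputable def a7.{u1} {x1 : Type u1} [x2 : Field x1] {x3 : ValuationSubring x1} : LT x3.ValueGroup := inferInstance
@[reducible] noncomputable def a8.{u1} {x1 : Type u1} [x2 : Field x1] {x3 : ValuationSubring x1} : Mul x3.ValueGroup := inferInstance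
theorem a9.{u1} {x1 : Type u1} [x2 : Field x1] {x3 : ValuationSubring x1} : Nontrivial x3.ValueGroup := inferInstance
theorem a10.{u1} {x1 : Type u1} [x2 : Field x1] {x3 : ValuationSubring x1} : MulPosReflectLT x3.ValueGroup := inferInstance
@[reducible] def a11.{u1} {x1 : Type u1} [x2 : Field x1] {x3 : Subfield x1} : Zero ↥x3 := inferInstance
@[reducible] noncomputable def a12.{u1} {x1 : Type u1} [x2 : Field x1] {x3 : ValuationSubring x1} : MonoidWithZero x3.ValueGroup := inferInstance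
@[reducible] noncomputable def a13.{u1} {x1 : Type u1} [x2 : Field x1] {x3 : ValuationSubring x1} : Zero x3.ValueGroup := inferInstance
@[reducible] noncomputable def a14.{u1} {x1 : Type u1} [x2 : Field x1] {x3 : ValuationSubring x1} : SemilatticeInf x3.ValueGroup := inferInstance
@[reducible] noncomputable def a15.{u1} {x1 : Type u1} [x2 : Field x1] {x3 : ValuationSubring x1} : MulZeroOneClass x3.ValueGroup := inferInstance
@[reducible] noncomputable def a16.{u1} {x1 : Type u1} [x2 : Field x1] {x3 : ValuationSubring x1} : Lattice x3.ValueGroup := inferInstance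
theorem a17.{u1} {x1 : Type u1} [x2 : Field x1] {x3 : ValuationSubring x1} : MonoidHomClass (Valuation x1 x3.ValueGroup) x1 x3.ValueGroup := inferInstance
@[reducible] noncomputable def a18.{u1} {x1 : Type u1} [x2 : Field x1] {x3 : ValuationSubring x1} : MulOneClass x3.ValueGroup := inferInstance
@[reducible] def a19.{u1} {x1 : Type u1} [x2 : Field x1] {x3 : Subfield x1} : Semiring ↥x3 := inferInstance
theorem a20.{u1} {x1 : Type u1} [x2 : Field x1] {x3 : ValuationSubring x1} : MulLeftMono x3.ValueGroup := inferInstance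
theorem a21.{u1} {x1 : Type u1} [x2 : Field x1] : SubsemiringClass (Subfield x1) x1 := inferInstance
@[reducible] noncomputable def a22.{u1} {x1 : ℕ} {x2 : Type u1} [x3 : Field x2] : SMulZeroClass (ZMod x1) (Vale.Agent.P019.V x1 x2) := inferInstance
@[reducible] noncomputable def a23.{u1} {x1 : Type u1} [x2 : Field x1] {x3 : ValuationSubring x1} : MulOne x3.ValueGroup := inferInstance
@[reducible] noncomputable def a24.{u1} {x1 : Type u1} [x2 : Field x1] {x3 : ValuationSubring x1} : LE x3.ValueGroup := inferInstance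
@[reducible] noncomputable def a25.{u1} {x1 : Type u1} [x2 : Field x1] {x3 : ValuationSubring x1} : Monoid x3.ValueGroup := inferInstance
@[reducible] noncomputable def a26.{u1} {x1 : Type u1} [x2 : Field x1] {x3 : ValuationSubring x1} : Pow x3.ValueGroup ℕ := inferInstance
@[reducible] noncomputable def a27.{u1} {x1 : Type u1} [x2 : Field x1] {x3 : ValuationSubring x1} : NPow x3.ValueGroup := inferInstance
@[reducible] def a28.{u1} {x1 : Type u1} [x2 : Field x1] {x3 : Subfield x1} {x4 : IntermediateField (↥x3) x1} : Zero ↥x4 := inferInstance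
@[reducible] def a29.{u1} {x1 : Type u1} [x2 : Field x1] {x3 : Subfield x1} : Monoid ↥x3 := inferInstance
theorem a30.{u1} {x1 : Type u1} [x2 : Field x1] {x3 : ValuationSubring x1} : MulPosReflectLE x3.ValueGroup := inferInstance
@[reducible] def a31.{u1} {x1 : Type u1} [x2 : Field x1] {x3 : ValuationSubring x1} : NonAssocSemiring ↥x3 := inferInstance
@[reducible] def a32.{u1} {x1 : Type u1} [x2 : Field x1] {x3 : ValuationSubring x1} : Semiring ↥x3 := inferInstance
theorem a33.{u1} {x1 : Type u1} [x2 : Field x1] {x3 : ValuationSubring x1} : MonoidWithZeroHomClass (↥x3 →+* IsLocalRing.ResidueField ↥x3) (↥x3) (IsLocalRing.ResidueField ↥x3) := inferInstance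
theorem a34.{u1, u2} {x1 : Type u1} {x2 : Type u2} [x3 : Field x1] [x4 : Field x2] : MulHomClass (x1 →+* x2) x1 x2 := inferInstance
theorem a35.{u1} {x1 : Type u1} [x2 : Field x1] : AddSubmonoidClass (ValuationSubring x1) x1 := inferInstance
theorem a36.{u1} {x1 : Type u1} [x2 : Field x1] {x3 : Subfield x1} : AddSubmonoidClass (IntermediateField (↥x3) x1) x1 := inferInstance
@[reducible] def a37.{u1} {x1 : Type u1} [x2 : Field x1] {x3 : Subfield x1} : CommRing ↥x3 := inferInstance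
@[reducible] noncomputable def a38.{u1} {x1 : ℕ} {x2 : Type u1} [x3 : Field x2] : DistribSMul (ZMod x1) (Vale.Agent.P019.V x1 x2) := inferInstance
theorem a39.{u1} {x1 : Type u1} [x2 : Field x1] {x3 : ValuationSubring x1} : PosMulMono x3.ValueGroup := inferInstance
theorem a40.{u1} {x1 : Type u1} [x2 : Field x1] {x3 : ValuationSubring x1} : MulPosStrictMono x3.ValueGroup := inferInstance
@[reducible] def a41.{u1} {x1 : Type u1} [x2 : Field x1] {x3 : ValuationSubring x1} : Monoid ↥x3 := inferInstance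
theorem a42.{u1, u2} {x1 : Type u1} {x2 : Type u2} [x3 : Field x1] [x4 : Field x2] : MonoidHomClass (x1 →+* x2) x1 x2 := inferInstance
theorem a43.{u1} {x1 : Type u1} [x2 : Field x1] {x3 : Subfield x1} : ZeroMemClass (IntermediateField (↥x3) x1) x1 := inferInstance
theorem a44.{u1} {x1 : Type u1} [x2 : Field x1] : SubsemiringClass (ValuationSubring x1) x1 := inferInstance
theorem a45.{u1} {x1 : Type u1} [x2 : Field x1] {x3 : ValuationSubring x1} : MonoidHomClass (↥x3 →+* IsLocalRing.ResidueField ↥x3) (↥x3) (IsLocalRing.ResidueField ↥x3) := inferInstance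
@[reducible] noncomputable def a46.{u1} {x1 : Type u1} [x2 : Field x1] {x3 : ValuationSubring x1} {x4 : Subfield x1} : CommSemiring ↥(Vale.Agent.P019P.rbar x4 x3) := inferInstance
@[reducible] noncomputable def a47.{u1} {x1 : Type u1} [x2 : Field x1] {x3 : ValuationSubring x1} {x4 : Subfield x1} : CommRing ↥(Vale.Agent.P019P.rbar x4 x3) := inferInstance
theorem a48.{u1, u2} {x1 : Type u1} {x2 : Type u2} [x3 : Field x1] [x4 : Field x2] : OneHomClass (x1 →+* x2) x1 x2 := inferInstance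
theorem a49.{u1} {x1 : Type u1} [x2 : Field x1] {x3 : ValuationSubring x1} : ZeroHomClass (↥x3 →+* IsLocalRing.ResidueField ↥x3) (↥x3) (IsLocalRing.ResidueField ↥x3) := inferInstance
@[reducible] noncomputable def a50.{u1} {x1 : Type u1} [x2 : Field x1] {x3 : Subfield x1} : Algebra (↥x3) (Polynomial ↥x3) := inferInstance
@[reducible] def a51.{u1} {x1 : Type u1} [x2 : Field x1] {x3 : ValuationSubring x1} : CommSemiring ↥x3 := inferInstance
@[reducible] def a52.{u1} {x1 : Type u1} [x2 : Field x1] {x3 : ValuationSubring x1} : AddCommMonoid ↥x3 := inferInstance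
theorem a53.{u1} {x1 : Type u1} [x2 : Field x1] {x3 : ValuationSubring x1} : PosMulReflectLT x3.ValueGroup := inferInstance
@[reducible] def a54.{u1} {x1 : Type u1} [x2 : Field x1] {x3 : ValuationSubring x1} : MulOneClass ↥x3 := inferInstance
@[reducible] def a55.{u1} {x1 : Type u1} [x2 : Field x1] {x3 : ValuationSubring x1} : AddCommMonoidWithOne ↥x3 := inferInstance
theorem a56.{u1, u2} {x1 : Type u1} {x2 : Type u2} [x3 : Field x1] [x4 : Field x2] : ZeroHomClass (x1 →+* x2) x1 x2 := inferInstance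
@[reducible] def a57.{u1} {x1 : Type u1} [x2 : Field x1] {x3 : Subfield x1} {x4 : IntermediateField (↥x3) x1} : Pow ↥x4 ℕ := inferInstance
@[reducible] def a58.{u1} {x1 : Type u1} [x2 : Field x1] {x3 : ValuationSubring x1} : Zero ↥x3 := inferInstance
theorem a59.{u1, u2} {x1 : Type u1} {x2 : Type u2} [x3 : Field x1] [x4 : Field x2] : MonoidWithZeroHomClass (x1 →+* x2) x1 x2 := inferInstance
theorem a60.{u1} {x1 : Type u1} [x2 : Field x1] {x3 : Subfield x1} : SubsemiringClass (IntermediateField (↥x3) x1) x1 := inferInstance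
@[reducible] noncomputable def a61.{u1} {x1 : ℕ} {x2 : Type u1} [x3 : Field x2] : SMul (ZMod x1) (Vale.Agent.P019.V x1 x2) := inferInstance
@[reducible] def a62.{u1} {x1 : Type u1} [x2 : Field x1] {x3 : Subfield x1} : NonAssocSemiring ↥x3 := inferInstance
theorem a63.{u1} {x1 : Type u1} [x2 : Field x1] : SubmonoidClass (ValuationSubring x1) x1 := inferInstance
theorem a64.{u1} {x1 : Type u1} [x2 : Field x1] : AddSubmonoidClass (Subfield x1) x1 := inferInstance
@[reducible] def a65.{u1} {x1 : Type u1} [x2 : Field x1] {x3 : Subfield x1} : Mul ↥x3 := inferInstance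
@[reducible] noncomputable def a66.{u1} {x1 : ℕ} {x2 : Type u1} [x3 : Field x2] : AddCommMonoid (Vale.Agent.P019.V x1 x2) := inferInstance
theorem a67.{u1} {x1 : Type u1} [x2 : Field x1] {x3 : Subfield x1} {x4 : IntermediateField (↥x3) x1} : NoZeroDivisors ↥x4 := inferInstance
theorem a68.{u1} {x1 : Type u1} [x2 : Field x1] {x3 : Subfield x1} : Nontrivial ↥x3 := inferInstance
@[reducible] def a69.{u1} {x1 : Type u1} [x2 : Field x1] {x3 : Subfield x1} : SMul ↥x3 ↥x3 := inferInstance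
theorem a70.{u1, u2} {x1 : Type u1} {x2 : Type u2} [x3 : Field x1] [x4 : Field x2] : NonUnitalRingHomClass (x1 →+* x2) x1 x2 := inferInstance
theorem a71.{u1} {x1 : Type u1} [x2 : Field x1] {x3 : ValuationSubring x1} : SubsemiringClass (Subfield (IsLocalRing.ResidueField ↥x3)) (IsLocalRing.ResidueField ↥x3) := inferInstance
@[reducible] noncomputable def a72.{u1} {x1 : Type u1} [x2 : Field x1] {x3 : ValuationSubring x1} {x4 : Subfield x1} : Zero ↥(Vale.Agent.P019P.rbar x4 x3) := inferInstance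
@[reducible] noncomputable def a73.{u1} {x1 : ℕ} {x2 : Type u1} [x3 : Field x2] : Zero (Vale.Agent.P019.V x1 x2) := inferInstance
@[reducible] def a74.{u1} {x1 : Type u1} [x2 : Field x1] {x3 : Subfield x1} : Distrib ↥x3 := inferInstance
theorem a75.{u1} {x1 : Type u1} [x2 : Field x1] {x3 : ValuationSubring x1} : ZeroHomClass (Valuation x1 x3.ValueGroup) x1 x3.ValueGroup := inferInstance
theorem a76.{u1} {x1 : Type u1} [x2 : Field x1] {x3 : ValuationSubring x1} : Nontrivial (IsLocalRing.ResidueField ↥x3) := inferInstance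
@[reducible] def a77.{u1} {x1 : Type u1} [x2 : Field x1] {x3 : ValuationSubring x1} : One ↥x3 := inferInstance
@[reducible] def a78.{u1} {x1 : Type u1} [x2 : Field x1] {x3 : Subfield x1} : MulZeroClass ↥x3 := inferInstance
@[reducible] noncomputable def a79.{u1} {x1 : ℕ} {x2 : Type u1} [x3 : Field x2] [x4 : Fact (Nat.Prime x1)] : DistribMulAction (ZMod x1) (Vale.Agent.P019.V x1 x2) := inferInstance
@[reducible] def a80.{u1} {x1 : Type u1} [x2 : Field x1] {x3 : Subfield x1} : Pow ↥x3 ℕ := inferInstance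
@[reducible] def a81.{u1} {x1 : Type u1} [x2 : Field x1] {x3 : ValuationSubring x1} : Mul ↥x3 := inferInstance
@[reducible] def a82.{u1} {x1 : Type u1} [x2 : Field x1] {x3 : ValuationSubring x1} : Add ↥x3 := inferInstance
@[reducible] def a83.{u1} {x1 : Type u1} [x2 : Field x1] {x3 : ValuationSubring x1} : MulOne ↥x3 := inferInstance
@[reducible] def a84.{u1} {x1 : Type u1} [x2 : Field x1] {x3 : ValuationSubring x1} : MulZeroOneClass ↥x3 := inferInstance
end AFastc2e625x13a
attribute [local instance] AFastc2e625x13a.a0 AFastc2e625x13a.a1 AFastc2e625x13a.a2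
  AFastc2e625x13a.a3 AFastc2e625x13a.a4 AFastc2e625x13a.a5 AFastc2e625x13a.a6 AFastc2e625x13a.a7
  AFastc2e625x13a.a8 AFastc2e625x13a.a9 AFastc2e625x13a.a10 AFastc2e625x13a.a11
  AFastc2e625x13a.a12 AFastc2e625x13a.a13 AFastc2e625x13a.a14 AFastc2e625x13a.a15
  AFastc2e625x13a.a16 AFastc2e625x13a.a17 AFastc2e625x13a.a18 AFastc2e625x13a.a19
  AFastc2e625x13a.a20 AFastc2e625x13a.a21 AFastc2e625x13a.a22 AFastc2e625x13a.a23
  AFastc2e625x13a.a24 AFastc2e625x13a.a25 AFastc2e625x13a.a26 AFastc2e625x13a.a27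
  AFastc2e625x13a.a28 AFastc2e625x13a.a29 AFastc2e625x13a.a30 AFastc2e625x13a.a31
  AFastc2e625x13a.a32 AFastc2e625x13a.a33 AFastc2e625x13a.a34 AFastc2e625x13a.a35
  AFastc2e625x13a.a36 AFastc2e625x13a.a37 AFastc2e625x13a.a38 AFastc2e625x13a.a39
  AFastc2e625x13a.a40 AFastc2e625x13a.a41 AFastc2e625x13a.a42 AFastc2e625x13a.a43
  AFastc2e625x13a.a44 AFastc2e625x13a.a45 AFastc2e625x13a.a46 AFastc2e625x13a.a47
  AFastc2e625x13a.a48 AFastc2e625x13a.a49 AFastc2e625x13a.a50 AFastc2e625x13a.a51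
  AFastc2e625x13a.a52 AFastc2e625x13a.a53 AFastc2e625x13a.a54 AFastc2e625x13a.a55
  AFastc2e625x13a.a56 AFastc2e625x13a.a57 AFastc2e625x13a.a58 AFastc2e625x13a.a59
  AFastc2e625x13a.a60 AFastc2e625x13a.a61 AFastc2e625x13a.a62 AFastc2e625x13a.a63
  AFastc2e625x13a.a64 AFastc2e625x13a.a65 AFastc2e625x13a.a66 AFastc2e625x13a.a67
  AFastc2e625x13a.a68 AFastc2e625x13a.a69 AFastc2e625x13a.a70 AFastc2e625x13a.a71
  AFastc2e625x13a.a72 AFastc2e625x13a.a73 AFastc2e625x13a.a74 AFastc2e625x13a.a75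
  AFastc2e625x13a.a76 AFastc2e625x13a.a77 AFastc2e625x13a.a78 AFastc2e625x13a.a79
  AFastc2e625x13a.a80 AFastc2e625x13a.a81 AFastc2e625x13a.a82 AFastc2e625x13a.a83
  AFastc2e625x13a.a84
namespace AFastc2e625x13b
@[reducible] def a0.{u1} {x1 : Type u1} [x2 : Field x1] {x3 : Subfield x1} {x4 : IntermediateField (↥x3) x1} : Module ↥x3 ↥x4 := inferInstance
@[reducible] def a1.{u1} {x1 : Type u1} [x2 : Field x1] {x3 : Subfield x1} {x4 : IntermediateField (↥x3) x1} : Algebra ↥x3 ↥x4 := inferInstance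
theorem a2.{u1} {x1 : Type u1} [x2 : Field x1] {x3 : Subfield x1} : IsScalarTower (↥x3) (↥x3) x1 := inferInstance
@[reducible] def a3.{u1} {x1 : Type u1} [x2 : Field x1] {x3 : Subfield x1} {x4 : IntermediateField (↥x3) x1} : SMul ↥x3 ↥x4 := inferInstance
theorem a4.{u1, u2} {x1 : Type u1} {x2 : Type u2} [x3 : Field x1] [x4 : Field x2] : AddMonoidHomClass (x1 →+* x2) x1 x2 := inferInstance
theorem a5.{u1} {x1 : Type u1} [x2 : Field x1] {x3 : ValuationSubring x1} : AddMonoidHomClass (↥x3 →+* IsLocalRing.ResidueField ↥x3) (↥x3) (IsLocalRing.ResidueField ↥x3) := inferInstance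
theorem a6.{u1} {x1 : Type u1} [x2 : Field x1] {x3 : ValuationSubring x1} : AddMonoidHomClass (IsLocalRing.ResidueField ↥x3 →+* Vale.Agent.P019P.RFP x3) (IsLocalRing.ResidueField ↥x3) (Vale.Agent.P019P.RFP x3) := inferInstance
theorem a7.{u1} {x1 : Type u1} [x2 : Field x1] {x3 : ValuationSubring x1} : CovariantClass x3.ValueGroup x3.ValueGroup (Function.swap fun x1_1 x2_1 => x1_1 * x2_1) fun x1_1 x2_1 => x1_1 ≤ x2_1 := inferInstance
theorem a8.{u1, u2} {x1 : Type u1} {x2 : Type u2} [x3 : Field x1] [x4 : Field x2] : AddHomClass (x1 →+* x2) x1 x2 := inferInstance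
@[reducible] noncomputable def a9.{u1} {x1 : Type u1} [x2 : Field x1] {x3 : ValuationSubring x1} {x4 : Subfield x1} : Module (↥(Vale.Agent.P019P.rbar x4 x3)) (Polynomial ↥(Vale.Agent.P019P.rbar x4 x3)) := inferInstance
theorem a10.{u1, u2} {x1 : Type u1} {x2 : Ultrafilter x1} {x3 : x1 → Type u2} [x4 : (i : x1) → Field (x3 i)] : ZeroHomClass (Vale.Agent.P019P.DGm x2 x3 →+* Vale.Agent.P019P.DGm x2 x3) (Vale.Agent.P019P.DGm x2 x3) (Vale.Agent.P019P.DGm x2 x3) := inferInstance
theorem a11.{u1, u2} {x1 : Type u1} {x2 : Ultrafilter x1} {x3 : x1 → Type u2} [x4 : (i : x1) → Field (x3 i)] : AddMonoidHomClass (Vale.Agent.P019P.DGm x2 x3 →+* Vale.Agent.P019P.DGm x2 x3) (Vale.Agent.P019P.DGm x2 x3) (Vale.Agent.P019P.DGm x2 x3) := inferInstance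
theorem a12.{u1} {x1 : Type u1} [x2 : Field x1] {x3 : Subfield x1} {x4 : IntermediateField (↥x3) x1} : IsReduced ↥x4 := inferInstance
end AFastc2e625x13b
attribute [local instance] AFastc2e625x13b.a0 AFastc2e625x13b.a1 AFastc2e625x13b.a2
  AFastc2e625x13b.a3 AFastc2e625x13b.a4 AFastc2e625x13b.a5 AFastc2e625x13b.a6 AFastc2e625x13b.a7
  AFastc2e625x13b.a8 AFastc2e625x13b.a9 AFastc2e625x13b.a10 AFastc2e625x13b.a11
  AFastc2e625x13b.a12
attribute [local instance] O19.fr O19.tf O19.pj O19.fl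

section

section

/-!
# Two independent elements of a field of transcendence degree two
-/

namespace Vale.Agent.P019P

open Vale.Agent.P019

set_option linter.unusedSectionVars false

variable {L : Type*} [Field L] {l : Subfield L}

theorem r6c_not_alg {ι : Type*} {f : ι → L} (h : AlgebraicIndependent l f) {s : Set ι} {i : ι}
    (hi : i ∉ s) {S : Finset L} (hS : (S : Set L) = f '' s) : ¬ IsAlgebraic (gsp l S) (f i) := by
  intro h1
  refine h.transcendental_adjoin hi ?_
  rw [← hS]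
  exact (Vale.Agent.P019.isAlgebraic_adjoin_iff' l (S : Set L) (f i)).2 (isAlgebraic_pf.1 h1)

theorem r6c_indp [PerfectField L] [DecidableEq L] {x y : L} (h : AlgebraicIndependent l ![x, y]) :
    Indp l {x, y} := by
  have hx : ¬ IsAlgebraic (gsp l {y}) x :=
    r6c_not_alg h (s := {1}) (i := 0) (by decide) (by simp)
  have hy : ¬ IsAlgebraic (gsp l {x}) y :=
    r6c_not_alg h (s := {0}) (i := 1) (by decide) (by simp)
  intro S hS v hv hvS hal
  rcases Finset.mem_insert.1 hv with rfl | hv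
  · refine hx (isAlgebraic_mono (gsp_mono l fun z hz => ?_) hal)
    rcases Finset.mem_insert.1 (hS hz) with rfl | hz'
    · exact absurd hz hvS
    · exact hz'
  · rw [Finset.mem_singleton] at hv
    subst hv
    refine hy (isAlgebraic_mono (gsp_mono l fun z hz => ?_) hal)
    rcases Finset.mem_insert.1 (hS hz) with rfl | hz'
    · exact Finset.mem_singleton_self _
    · rw [Finset.mem_singleton] at hz'
      exact absurd (hz' ▸ hz) hvS

/-- two independent elements are a transcendence basis. -/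
theorem r6_alg [PerfectField L] [DecidableEq L] (hl : IsAlgClosed l) (htd : Td l 2) {x y : L}
    (h : AlgebraicIndependent l ![x, y]) (z : L) : IsAlgebraic (gsp l {x, y}) z := by
  by_contra hz
  have h1 := htd.le ((r6c_indp h).insert hz)
  have h2 : z ∉ ({x, y} : Finset L) := fun h3 => hz (isAlgebraic_of_mem (mem_gsp h3))
  have h3 : x ≠ y := fun h3 => by
    have h4 := h.injective (a₁ := (0 : Fin 2)) (a₂ := 1) h3
    exact absurd h4 (by decide)
  rw [Finset.card_insert_of_notMem h2, Finset.card_pair h3] at h1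
  omega

end Vale.Agent.P019P
end
end

section

section

/-!
# Extension of valuations without `ℓ`-ramification
-/

namespace Vale.Agent.P019R

open Finset Filter

/-! ### Nagata elements -/

section Nagata

variable {N : Type*} [Field N]

theorem ext_geom_split {R : Type*} [CommRing R] (x : R) {k : ℕ} (hk : ∑ j ∈ range k, x ^ j = 0)
    (q : ℕ) : ∑ j ∈ range (k * q + 1), x ^ j = 1 := by
  have hk1 : x ^ k = 1 := by
    have h := geom_sum_mul x k
    rw [hk, zero_mul] at h
    exact (sub_eq_zero.1 h.symm)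
  induction q with
  | zero => simp
  | succ q ih =>
    rw [show k * (q + 1) + 1 = k + (k * q + 1) by ring, Finset.sum_range_add, hk, zero_add]
    have h : ∀ j ∈ range (k * q + 1), x ^ (k + j) = x ^ j := fun j _ => by
      rw [pow_add, hk1, one_mul]
    rw [Finset.sum_congr rfl h, ih]

theorem ext_geom_lt {Γ : Type*} [LinearOrderedCommGroupWithZero Γ] (v : Valuation N Γ) {x : N}
    (hx : 1 < v x) (m : ℕ) : v (∑ j ∈ range (m + 1), x ^ j) = v x ^ m := by
  induction m with
  | zero => simp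
  | succ m ih =>
    rw [Finset.sum_range_succ, Valuation.map_add_eq_of_lt_right, map_pow]
    rw [ih, map_pow]
    exact pow_lt_pow_right₀ hx (Nat.lt_succ_self m)

/-- the exponent of a Nagata element at one valuation ring. -/
theorem ext_expo (O : ValuationSubring N) (x : N) : ∃ k : ℕ, 0 < k ∧ (x ∈ O → ∀ q : ℕ, 0 < q →
    O.valuation (∑ j ∈ range (k * q + 1), x ^ j) = 1) := by
  by_cases hx : x ∈ O
  swap
  · exact ⟨1, one_pos, fun h => absurd h hx⟩
  set y : IsLocalRing.ResidueField O := IsLocalRing.residue O ⟨x, hx⟩ with hy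
  have key : ∀ n : ℕ, ∑ j ∈ range n, y ^ j ≠ 0 → O.valuation (∑ j ∈ range n, x ^ j) = 1 := by
    intro n hn
    have h1 : IsLocalRing.residue O (∑ j ∈ range n, (⟨x, hx⟩ : O) ^ j) ≠ 0 := by
      rw [map_sum]
      simpa only [map_pow] using hn
    rw [IsLocalRing.residue_ne_zero_iff_isUnit, ValuationSubring.valuation_eq_one_iff] at h1
    have h2 : ((∑ j ∈ range n, (⟨x, hx⟩ : O) ^ j : O) : N) = ∑ j ∈ range n, x ^ j := by
      push_cast
      rfl
    rw [← h2]
    exact h1
  by_cases h : ∃ k : ℕ, 0 < k ∧ ∑ j ∈ range k, y ^ j = 0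
  · obtain ⟨k, hk, hk0⟩ := h
    refine ⟨k, hk, fun _ q _ => key _ ?_⟩
    rw [ext_geom_split y hk0]
    exact one_ne_zero
  · push Not at h
    exact ⟨1, one_pos, fun _ q _ => key _ (h _ (Nat.succ_pos _))⟩

/-- Nagata elements: for `x` and finitely many embeddings `h i`. -/
theorem ext_nagata {ι : Type*} (s : Finset ι) (O : ι → ValuationSubring N) (x : N) :
    ∃ z : N, ∀ i ∈ s, z ∈ O i ∧ (x ∈ O i → (O i).valuation z = 1) ∧
      (x ∉ O i → (O i).valuation z < 1) := by
  choose k hk0 hk using fun i => ext_expo (O i) x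
  set n := ∏ i ∈ s, k i with hn
  have hn0 : 0 < n := Finset.prod_pos fun i _ => hk0 i
  have hu : ∀ i ∈ s, x ∈ O i → (O i).valuation (∑ j ∈ range (n + 1), x ^ j)⁻¹ = 1 := by
    intro i hi hx
    obtain ⟨q, hq⟩ := Finset.dvd_prod_of_mem k hi
    have h1 : 0 < q := by
      rcases Nat.eq_zero_or_pos q with h | h
      · rw [h, mul_zero] at hq
        omega
      · exact h
    rw [map_inv₀, hn, hq, hk i hx q h1, inv_one]
  have hl : ∀ i ∈ s, x ∉ O i → (O i).valuation (∑ j ∈ range (n + 1), x ^ j)⁻¹ < 1 := by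
    intro i hi hx
    rw [← ValuationSubring.valuation_le_one_iff, not_le] at hx
    rw [map_inv₀, ext_geom_lt _ hx]
    exact inv_lt_one_of_one_lt₀ (one_lt_pow₀ hx hn0.ne')
  refine ⟨(∑ j ∈ range (n + 1), x ^ j)⁻¹, fun i hi => ⟨?_, hu i hi, hl i hi⟩⟩
  rw [← ValuationSubring.valuation_le_one_iff]
  by_cases hx : x ∈ O i
  · exact (hu i hi hx).le
  · exact (hl i hi hx).le

end Nagata

/-! ### Valuations of preimages -/

section Comap

variable {K N : Type*} [Field K] [Field N] (O : ValuationSubring N) (f : K →+* N)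

theorem ext_le_iff {x y : N} : O.valuation x ≤ O.valuation y ↔ x = 0 ∨ (y ≠ 0 ∧ x / y ∈ O) := by
  by_cases hx : x = 0
  · simp [hx]
  by_cases hy : y = 0
  · simp [hx, hy]
  have h : O.valuation y ≠ 0 := (Valuation.ne_zero_iff _).2 hy
  rw [← ValuationSubring.valuation_le_one_iff, map_div₀, div_le_one₀ (zero_lt_iff.2 h)]
  simp [hx, hy]

theorem ext_comap_le {x y : K} : (O.comap f).valuation x ≤ (O.comap f).valuation y ↔
    O.valuation (f x) ≤ O.valuation (f y) := by
  rw [ext_le_iff, ext_le_iff, ValuationSubring.mem_comap, map_div₀, map_eq_zero, Ne, Ne,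
    map_eq_zero]

theorem ext_comap_lt {x y : K} : (O.comap f).valuation x < (O.comap f).valuation y ↔
    O.valuation (f x) < O.valuation (f y) := by
  rw [lt_iff_not_ge, lt_iff_not_ge, ext_comap_le]

theorem ext_comap_eq {x y : K} : (O.comap f).valuation x = (O.comap f).valuation y ↔
    O.valuation (f x) = O.valuation (f y) := by
  rw [le_antisymm_iff, le_antisymm_iff, ext_comap_le, ext_comap_le]

theorem ext_comap_lt_one {x : K} : (O.comap f).valuation x < 1 ↔ O.valuation (f x) < 1 := by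
  have h := ext_comap_lt O f (x := x) (y := 1)
  rwa [map_one, map_one, map_one] at h

theorem ext_comap_eq_one {x : K} : (O.comap f).valuation x = 1 ↔ O.valuation (f x) = 1 := by
  have h := ext_comap_eq O f (x := x) (y := 1)
  rwa [map_one, map_one, map_one] at h

theorem ext_prod_lt_one {Γ ι : Type*} [LinearOrderedCommGroupWithZero Γ] (s : Finset ι) (w : ι → Γ)
    (h1 : ∀ i ∈ s, w i ≤ 1) (h2 : ∃ i ∈ s, w i < 1) : ∏ i ∈ s, w i < 1 := by
  classical
  obtain ⟨i, hi, hi1⟩ := h2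
  rw [← Finset.mul_prod_erase s w hi]
  refine lt_of_le_of_lt (mul_le_of_le_one_right' ?_) hi1
  exact Finset.prod_le_one' fun j hj => h1 j (Finset.mem_of_mem_erase hj)

end Comap

/-! ### Stabilizers -/

section Stab

variable (Γ : Type*) {N : Type*} [Group Γ] [Field N] [MulSemiringAction Γ N]

/-- the decomposition group. -/
def extStab (O : ValuationSubring N) : Subgroup Γ where
  carrier := {g | ∀ x : N, g • x ∈ O ↔ x ∈ O}
  one_mem' := fun x => by rw [one_smul]
  mul_mem' := fun {a b} ha hb x => by rw [mul_smul]; exact (ha (b • x)).trans (hb x)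
  inv_mem' := fun {a} ha x => by
    have h := ha (a⁻¹ • x)
    rw [smul_inv_smul] at h
    exact h.symm

variable {Γ}

theorem extStab_comap {O : ValuationSubring N} {g : Γ} (hg : g ∈ extStab Γ O) :
    O.comap (MulSemiringAction.toRingHom Γ N g) = O := by
  ext x
  exact hg x

theorem extStab_lt {O : ValuationSubring N} {g : Γ} (hg : g ∈ extStab Γ O) (x y : N) :
    O.valuation (g • x) < O.valuation (g • y) ↔ O.valuation x < O.valuation y := by
  have h := ext_comap_lt O (MulSemiringAction.toRingHom Γ N g) (x := x) (y := y)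
  rw [extStab_comap hg] at h
  exact h.symm

theorem extStab_val [Finite Γ] {O : ValuationSubring N} {g : Γ}
    (hg : g ∈ extStab Γ O) (x : N) : O.valuation (g • x) = O.valuation x := by
  have hn : 0 < orderOf g := orderOf_pos g
  obtain ⟨n, hn⟩ : ∃ n, orderOf g = n + 1 := ⟨orderOf g - 1, by omega⟩
  have h1 : (g ^ (n + 1)) • x = x := by rw [← hn, pow_orderOf_eq_one, one_smul]
  have hs : ∀ m : ℕ, (g ^ (m + 1)) • x = g • ((g ^ m) • x) := fun m => by
    rw [pow_succ', mul_smul]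
  rcases lt_trichotomy (O.valuation (g • x)) (O.valuation x) with h | h | h
  · exfalso
    have h2 : ∀ m : ℕ, O.valuation ((g ^ (m + 1)) • x) < O.valuation x := by
      intro m
      induction m with
      | zero => simpa using h
      | succ m ih =>
        rw [hs]
        exact ((extStab_lt hg _ _).2 ih).trans h
    have h3 := h2 n
    rw [h1] at h3
    exact lt_irrefl _ h3
  · exact h
  · exfalso
    have h2 : ∀ m : ℕ, O.valuation x < O.valuation ((g ^ (m + 1)) • x) := by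
      intro m
      induction m with
      | zero => simpa using h
      | succ m ih =>
        rw [hs]
        exact h.trans ((extStab_lt hg _ _).2 ih)
    have h3 := h2 n
    rw [h1] at h3
    exact lt_irrefl _ h3

theorem ext_not_stab [Finite Γ] {O : ValuationSubring N} {g : Γ}
    (hg : g ∉ extStab Γ O) : ∃ x : N, x ∈ O ∧ g • x ∉ O := by
  by_contra hcon
  push Not at hcon
  apply hg
  intro x
  refine ⟨fun hx => ?_, hcon x⟩
  have hn : 0 < orderOf g := orderOf_pos g
  obtain ⟨n, hn⟩ : ∃ n, orderOf g = n + 1 := ⟨orderOf g - 1, by omega⟩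
  have h1 : ∀ m : ℕ, ∀ y ∈ O, (g ^ m) • y ∈ O := by
    intro m
    induction m with
    | zero => exact fun y hy => by rwa [pow_zero, one_smul]
    | succ m ih =>
      intro y hy
      rw [pow_succ', mul_smul]
      exact hcon _ (ih y hy)
  have h2 : (g ^ n) • (g • x) = x := by
    rw [← mul_smul, ← pow_succ, ← hn, pow_orderOf_eq_one, one_smul]
  rw [← h2]
  exact h1 n _ hx

/-- an element which is a unit at `O` and small at the other conjugates. -/
theorem ext_sep (Γ : Type*) {N : Type*} [Group Γ] [Field N] [MulSemiringAction Γ N] [Finite Γ]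
    (O : ValuationSubring N) :
    ∃ r : N, (∀ τ ∈ extStab Γ O, τ • r = r) ∧ O.valuation r = 1 ∧
      ∀ g : Γ, g ∉ extStab Γ O → O.valuation (g • r) < 1 := by
  classical
  have _ := Fintype.ofFinite Γ
  have key : ∀ g : Γ, g ∉ extStab Γ O → ∃ z : N, O.valuation z = 1 ∧
      O.valuation (g • z) < 1 ∧ ∀ h : Γ, O.valuation (h • z) ≤ 1 := by
    intro g hg
    obtain ⟨x, hx, hgx⟩ := ext_not_stab hg
    obtain ⟨z, hz⟩ := ext_nagata (Finset.univ : Finset Γ)
      (fun h => O.comap (MulSemiringAction.toRingHom Γ N h)) x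
    refine ⟨z, ?_, ?_, fun h => ?_⟩
    · have h1 := (hz 1 (Finset.mem_univ _)).2.1 (by
        rw [ValuationSubring.mem_comap, MulSemiringAction.toRingHom_apply, one_smul]
        exact hx)
      rw [ext_comap_eq_one, MulSemiringAction.toRingHom_apply, one_smul] at h1
      exact h1
    · have h1 := (hz g (Finset.mem_univ _)).2.2 hgx
      rw [ext_comap_lt_one] at h1
      exact h1
    · have h1 := (hz h (Finset.mem_univ _)).1
      rw [ValuationSubring.mem_comap, ← ValuationSubring.valuation_le_one_iff] at h1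
      exact h1
  choose! z hz using key
  set y : N := ∏ g ∈ Finset.univ.filter (fun g : Γ => g ∉ extStab Γ O), z g with hy
  have hy1 : O.valuation y = 1 := by
    rw [hy, map_prod]
    exact Finset.prod_eq_one fun g hg => (hz g (Finset.mem_filter.1 hg).2).1
  have hy2 : ∀ h : Γ, h ∉ extStab Γ O → O.valuation (h • y) < 1 := by
    intro h hh
    rw [hy, Finset.smul_prod', map_prod]
    exact ext_prod_lt_one _ _ (fun g hg => (hz g (Finset.mem_filter.1 hg).2).2.2 h)
      ⟨h, Finset.mem_filter.2 ⟨Finset.mem_univ _, hh⟩, (hz h hh).2.1⟩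
  refine ⟨∏ τ : extStab Γ O, (τ : Γ) • y, fun τ hτ => ?_, ?_, fun h hh => ?_⟩
  · rw [Finset.smul_prod', ← Equiv.prod_comp (Equiv.mulLeft (⟨τ, hτ⟩ : extStab Γ O))
      (fun σ : extStab Γ O => (σ : Γ) • y)]
    refine Finset.prod_congr rfl fun σ _ => ?_
    rw [← mul_smul]
    rfl
  · rw [map_prod]
    exact Finset.prod_eq_one fun τ _ => by rw [extStab_val τ.2, hy1]
  · rw [Finset.smul_prod', map_prod]
    have h1 : ∀ τ : extStab Γ O, O.valuation (h • ((τ : Γ) • y)) < 1 := by
      intro τ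
      rw [← mul_smul]
      refine hy2 (h * τ) fun hcon => hh ?_
      have h2 := (extStab Γ O).mul_mem hcon ((extStab Γ O).inv_mem τ.2)
      rwa [mul_inv_cancel_right] at h2
    exact ext_prod_lt_one _ _ (fun τ _ => (h1 τ).le) ⟨1, Finset.mem_univ _, h1 1⟩

end Stab

/-! ### The Newton polygon -/

section Newton

theorem ext_prod_lt {Γ ι : Type*} [LinearOrderedCommGroupWithZero Γ] {s t : Finset ι} (w : ι → Γ)
    (hc : s.card = t.card) (hs : s.Nonempty) (h : ∀ a ∈ s, ∀ b ∈ t, w a < w b) :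
    ∏ i ∈ s, w i < ∏ i ∈ t, w i := by
  have ht : t.Nonempty := by
    rw [← Finset.card_pos, ← hc, Finset.card_pos]
    exact hs
  obtain ⟨a, ha, hamax⟩ := Finset.exists_max_image s w hs
  obtain ⟨b, hb, hbmin⟩ := Finset.exists_min_image t w ht
  calc ∏ i ∈ s, w i ≤ w a ^ s.card := Finset.prod_le_pow_card _ _ _ hamax
    _ < w b ^ s.card := pow_lt_pow_left₀ (h a ha b hb) zero_le (Finset.card_pos.2 hs).ne'
    _ = w b ^ t.card := by rw [hc]
    _ ≤ ∏ i ∈ t, w i := Finset.pow_card_le_prod _ _ _ hbmin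

theorem ext_esym {N Γ ι : Type*} [Field N] [LinearOrderedCommGroupWithZero Γ] [Fintype ι]
    [DecidableEq ι] (v : Valuation N Γ) (f : ι → N) (hf : ∀ i, f i ≠ 0) (T0 : Finset ι)
    (h : ∀ a, a ∉ T0 → ∀ b ∈ T0, v (f a) < v (f b)) :
    v (∑ T ∈ Finset.powersetCard T0.card Finset.univ, ∏ i ∈ T, f i) = ∏ i ∈ T0, v (f i) := by
  have hmem : T0 ∈ Finset.powersetCard T0.card (Finset.univ : Finset ι) :=
    Finset.mem_powersetCard.2 ⟨Finset.subset_univ _, rfl⟩
  rw [← Finset.add_sum_erase _ _ hmem, Valuation.map_add_eq_of_lt_left, map_prod]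
  refine Valuation.map_sum_lt _ ?_ fun T hT => ?_
  · rw [Valuation.ne_zero_iff, Finset.prod_ne_zero_iff]
    exact fun i _ => hf i
  · rw [Finset.mem_erase, Finset.mem_powersetCard] at hT
    obtain ⟨hne, -, hcard⟩ := hT
    rw [map_prod, map_prod, ← Finset.prod_inter_mul_prod_sdiff T T0,
      ← Finset.prod_inter_mul_prod_sdiff T0 T, Finset.inter_comm T0 T]
    have hpos : 0 < ∏ i ∈ T ∩ T0, v (f i) := by
      rw [zero_lt_iff, Finset.prod_ne_zero_iff]
      exact fun i _ => (Valuation.ne_zero_iff _).2 (hf i)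
    refine mul_lt_mul_of_pos_left ?_ hpos
    refine ext_prod_lt (fun i => v (f i)) (Finset.card_sdiff_comm hcard) ?_ fun a ha b hb => ?_
    · rw [Finset.nonempty_iff_ne_empty, Ne, Finset.sdiff_eq_empty_iff_subset]
      intro hsub
      exact hne (Finset.eq_of_subset_of_card_le hsub hcard.ge)
    · exact h a (Finset.mem_sdiff.1 ha).2 b (Finset.mem_sdiff.1 hb).1

open Polynomial in
/-- the value of an element fixed by a subgroup of the decomposition group. -/
theorem ext_newton {Γ N : Type*} [Group Γ] [Field N] [MulSemiringAction Γ N] [Finite Γ]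
    (O : ValuationSubring N) {S : Subgroup Γ} (hS : S ≤ extStab Γ O)
    {x : N} (hx : x ≠ 0) (hfix : ∀ s ∈ S, s • x = x) :
    ∃ (m : ℕ) (c : N), m * Nat.card S = Nat.card (extStab Γ O) ∧ c ≠ 0 ∧
      (∀ g : Γ, g • c = c) ∧ O.valuation x ^ m = O.valuation c := by
  classical
  obtain ⟨r, hr1, hr2, hr3⟩ := ext_sep Γ O
  have hr0 : r ≠ 0 := by
    rintro rfl
    rw [map_zero] at hr2
    exact zero_ne_one hr2
  have hg0 : ∀ (g : Γ) {y : N}, y ≠ 0 → O.valuation (g • y) ≠ 0 := fun g y hy =>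
    (Valuation.ne_zero_iff _).2 ((smul_ne_zero_iff_ne g).2 hy)
  -- the exponent
  obtain ⟨n, hn⟩ : ∃ n : ℕ, ∀ g : Γ, g ∉ extStab Γ O →
      O.valuation (g • (r ^ n * x)) ≠ O.valuation x := by
    have hfin : (⋃ g : Γ, {n : ℕ | g ∉ extStab Γ O ∧
        O.valuation (g • (r ^ n * x)) = O.valuation x}).Finite := by
      refine Set.finite_iUnion fun g => Set.Subsingleton.finite ?_
      rintro n ⟨hg, h1⟩ m ⟨-, h2⟩
      rw [← h2, smul_mul', smul_mul', smul_pow', smul_pow', map_mul, map_mul, map_pow,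
        map_pow] at h1
      have h3 := mul_right_cancel₀ (hg0 g hx) h1
      rcases lt_trichotomy n m with h | h | h
      · exact absurd h3 (pow_lt_pow_right_of_lt_one₀ (zero_lt_iff.2 (hg0 g hr0))
          (hr3 g hg) h).ne'
      · exact h
      · exact absurd h3 (pow_lt_pow_right_of_lt_one₀ (zero_lt_iff.2 (hg0 g hr0))
          (hr3 g hg) h).ne
    obtain ⟨n, hn⟩ := hfin.exists_notMem
    refine ⟨n, fun g hg h => hn (Set.mem_iUnion.2 ⟨g, hg, h⟩)⟩
  set b : N := r ^ n * x with hb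
  have hb0 : b ≠ 0 := mul_ne_zero (pow_ne_zero _ hr0) hx
  have hbv : O.valuation b = O.valuation x := by rw [hb, map_mul, map_pow, hr2, one_pow, one_mul]
  have hbS : ∀ s ∈ S, s • b = b := fun s hs => by
    rw [hb, smul_mul', smul_pow', hr1 s (hS hs), hfix s hs]
  have hbZ : ∀ g : Γ, O.valuation (g • b) = O.valuation x ↔ g ∈ extStab Γ O := by
    intro g
    constructor
    · intro h
      by_contra hg
      exact hn g hg h
    · intro hg
      rw [extStab_val hg, hbv]
  -- the conjugates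
  let _ : Fintype (Γ ⧸ S) := Fintype.ofFinite _
  set f : Γ ⧸ S → N := fun q => q.out • b with hf
  have hfmk : ∀ g : Γ, f (QuotientGroup.mk g) = g • b := by
    intro g
    obtain ⟨h, hh⟩ := QuotientGroup.mk_out_eq_mul S g
    show (QuotientGroup.mk g : Γ ⧸ S).out • b = g • b
    rw [hh, mul_smul, hbS h.1 h.2]
  have hfg : ∀ (g : Γ) (q : Γ ⧸ S), f (g • q) = g • (f q) := by
    intro g q
    obtain ⟨h, rfl⟩ := QuotientGroup.mk_surjective q
    rw [MulAction.Quotient.smul_mk, hfmk, hfmk, smul_eq_mul, mul_smul]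
  have hf0 : ∀ q, f q ≠ 0 := fun q => (smul_ne_zero_iff_ne q.out).2 hb0
  -- the polynomial
  set P : N[X] := ∏ q : Γ ⧸ S, (X + C (f q)) with hP
  have hcoeff : ∀ T0 : Finset (Γ ⧸ S), (∀ a, a ∉ T0 → ∀ b ∈ T0,
      O.valuation (f a) < O.valuation (f b)) →
      ∃ c : N, (∀ g : Γ, g • c = c) ∧ O.valuation c = ∏ q ∈ T0, O.valuation (f q) := by
    intro T0 hT0
    refine ⟨P.coeff (Fintype.card (Γ ⧸ S) - T0.card), fun g => ?_, ?_⟩
    · have h2 : P.map (MulSemiringAction.toRingHom Γ N g) = P := by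
        rw [hP, Polynomial.map_prod]
        rw [← Equiv.prod_comp (MulAction.toPerm g)
          (fun q : Γ ⧸ S => (X + C (f q) : N[X]))]
        refine Finset.prod_congr rfl fun q _ => ?_
        rw [MulAction.toPerm_apply, hfg, Polynomial.map_add, Polynomial.map_X, Polynomial.map_C]
        rfl
      have h3 := congrArg (fun R : N[X] => R.coeff (Fintype.card (Γ ⧸ S) - T0.card)) h2
      simp only [Polynomial.coeff_map] at h3
      exact h3
    · have h4 := Finset.prod_X_add_C_coeff (Finset.univ : Finset (Γ ⧸ S)) f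
        (k := Fintype.card (Γ ⧸ S) - T0.card) (by rw [Finset.card_univ]; omega)
      have h5 : (Finset.univ : Finset (Γ ⧸ S)).card -
          (Fintype.card (Γ ⧸ S) - T0.card) = T0.card := by
        have := T0.card_le_univ
        rw [Finset.card_univ]
        omega
      rw [h5] at h4
      rw [hP, h4, ext_esym O.valuation f hf0 T0 hT0]
  set A : Finset (Γ ⧸ S) :=
    Finset.univ.filter fun q => O.valuation x < O.valuation (f q) with hA
  set M : Finset (Γ ⧸ S) :=
    Finset.univ.filter fun q => O.valuation (f q) = O.valuation x with hM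
  have hdisj : Disjoint A M := by
    rw [Finset.disjoint_left]
    intro q hq hq'
    exact (Finset.mem_filter.1 hq).2.ne' (Finset.mem_filter.1 hq').2
  obtain ⟨c1, hc1g, hc1⟩ := hcoeff A fun a ha b hb => by
    have h1 : O.valuation (f a) ≤ O.valuation x := by
      by_contra hcon
      exact ha (Finset.mem_filter.2 ⟨Finset.mem_univ _, not_le.1 hcon⟩)
    exact h1.trans_lt (Finset.mem_filter.1 hb).2
  obtain ⟨c2, hc2g, hc2⟩ := hcoeff (A ∪ M) fun a ha b hb => by
    rw [Finset.mem_union, not_or] at ha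
    have h1 : O.valuation (f a) < O.valuation x := by
      rcases lt_trichotomy (O.valuation (f a)) (O.valuation x) with h | h | h
      · exact h
      · exact absurd (show a ∈ M from Finset.mem_filter.2 ⟨Finset.mem_univ _, h⟩) ha.2
      · exact absurd (show a ∈ A from Finset.mem_filter.2 ⟨Finset.mem_univ _, h⟩) ha.1
    rcases Finset.mem_union.1 hb with h | h
    · exact h1.trans (Finset.mem_filter.1 h).2
    · rw [(Finset.mem_filter.1 h).2]
      exact h1
  have hne : ∏ q ∈ A, O.valuation (f q) ≠ 0 := Finset.prod_ne_zero_iff.2 fun q _ =>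
    (Valuation.ne_zero_iff _).2 (hf0 q)
  have hMp : ∏ q ∈ M, O.valuation (f q) = O.valuation x ^ M.card := by
    rw [Finset.prod_congr rfl fun q hq => (Finset.mem_filter.1 hq).2, Finset.prod_const]
  rw [Finset.prod_union hdisj, hMp] at hc2
  refine ⟨M.card, c2 / c1, ?_, ?_, fun g => ?_, ?_⟩
  · have h1 : (QuotientGroup.mk ⁻¹' (M : Set (Γ ⧸ S)) : Set Γ) = (extStab Γ O : Set Γ) := by
      ext g
      rw [Set.mem_preimage, Finset.mem_coe, hM, Finset.mem_filter, hfmk, hbZ]
      simp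
    have h2 := Nat.card_congr (QuotientGroup.preimageMkEquivSubgroupProdSet S
      (M : Set (Γ ⧸ S)))
    rw [h1, Nat.card_prod] at h2
    have h3 : Nat.card ((M : Set (Γ ⧸ S))) = M.card := by
      rw [Nat.card_coe_set_eq, Set.ncard_coe_finset]
    rw [h3, mul_comm] at h2
    exact h2.symm
  · have e1 : c1 ≠ 0 := by
      rintro rfl
      rw [map_zero] at hc1
      exact hne hc1.symm
    have e2 : c2 ≠ 0 := by
      rintro rfl
      rw [map_zero] at hc2
      exact mul_ne_zero hne (pow_ne_zero _ ((Valuation.ne_zero_iff _).2 hx)) hc2.symm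
    exact div_ne_zero e2 e1
  · rw [smul_div₀', hc1g, hc2g]
  · rw [map_div₀, hc1, hc2, mul_div_cancel_left₀ _ hne]

end Newton

/-! ### Conjugacy -/

section Conj

theorem ext_conj_half {Γ N : Type*} [Group Γ] [Field N] [MulSemiringAction Γ N] [Finite Γ]
    (O O' : ValuationSubring N) (h : ∀ x : N, (∀ g : Γ, g • x = x) → (x ∈ O ↔ x ∈ O')) :
    ∃ g : Γ, ∀ x : N, g • x ∈ O' → x ∈ O := by
  classical
  have _ := Fintype.ofFinite Γ
  have hlt : ∀ x : N, (∀ g : Γ, g • x = x) → O.valuation x < 1 → O'.valuation x < 1 := by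
    intro x hx h1
    by_contra h2
    rw [not_lt] at h2
    have hx0 : x ≠ 0 := by
      rintro rfl
      rw [map_zero] at h2
      exact absurd h2 (by simp)
    have h3 : x⁻¹ ∈ O' := by
      rw [← ValuationSubring.valuation_le_one_iff, map_inv₀]
      exact inv_le_one_of_one_le₀ h2
    rw [← h x⁻¹ fun g => by rw [smul_inv'', hx], ← ValuationSubring.valuation_le_one_iff,
      map_inv₀] at h3
    exact absurd h1 (not_lt.2 ((inv_le_one₀ (zero_lt_iff.2
      ((Valuation.ne_zero_iff _).2 hx0))).1 h3))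
  let B : Subring N :=
    { carrier := {z | ∀ g : Γ, g • z ∈ O ∧ g • z ∈ O'}
      mul_mem' := fun {a b} ha hb g => by
        rw [smul_mul']
        exact ⟨O.mul_mem _ _ (ha g).1 (hb g).1, O'.mul_mem _ _ (ha g).2 (hb g).2⟩
      one_mem' := fun g => by
        rw [smul_one]
        exact ⟨O.one_mem, O'.one_mem⟩
      add_mem' := fun {a b} ha hb g => by
        rw [smul_add]
        exact ⟨O.add_mem _ _ (ha g).1 (hb g).1, O'.add_mem _ _ (ha g).2 (hb g).2⟩
      zero_mem' := fun g => by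
        rw [smul_zero]
        exact ⟨O.zero_mem, O'.zero_mem⟩
      neg_mem' := fun {a} ha g => by
        rw [smul_neg]
        exact ⟨O.neg_mem _ (ha g).1, O'.neg_mem _ (ha g).2⟩ }
  let ψ : B →+* O :=
    { toFun := fun z => ⟨z, by have := (z.2 1).1; rwa [one_smul] at this⟩
      map_one' := rfl
      map_mul' := fun _ _ => rfl
      map_zero' := rfl
      map_add' := fun _ _ => rfl }
  let φ : Γ → B →+* O' := fun g =>
    { toFun := fun z => ⟨g • (z : N), (z.2 g).2⟩
      map_one' := Subtype.ext (smul_one g)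
      map_mul' := fun a b => Subtype.ext (smul_mul' g (a : N) (b : N))
      map_zero' := Subtype.ext (smul_zero g)
      map_add' := fun a b => Subtype.ext (smul_add g (a : N) (b : N)) }
  let Q : Ideal B := (IsLocalRing.maximalIdeal O).comap ψ
  let P : Γ → Ideal B := fun g => (IsLocalRing.maximalIdeal O').comap (φ g)
  have hQ : ∀ z : B, z ∈ Q ↔ O.valuation (z : N) < 1 := fun z => by
    rw [Ideal.mem_comap, ValuationSubring.valuation_lt_one_iff]
    rfl
  have hP : ∀ g (z : B), z ∈ P g ↔ O'.valuation (g • (z : N)) < 1 := fun g z => by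
    rw [Ideal.mem_comap, ValuationSubring.valuation_lt_one_iff]
    rfl
  have hsub : (Q : Set B) ⊆ ⋃ g ∈ (↑(Finset.univ : Finset Γ) : Set Γ), (P g : Set B) := by
    intro z hz
    rw [SetLike.mem_coe, hQ] at hz
    have h1 : O.valuation (∏ g : Γ, g • (z : N)) < 1 := by
      rw [map_prod]
      refine ext_prod_lt_one _ _ (fun g _ => ?_) ⟨1, Finset.mem_univ _, by rwa [one_smul]⟩
      rw [ValuationSubring.valuation_le_one_iff]
      exact (z.2 g).1
    have h2 := hlt _ (fun g => Finset.smul_prod_perm (z : N) g) h1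
    rw [map_prod] at h2
    by_contra hcon
    simp only [Set.mem_iUnion, not_exists] at hcon
    refine absurd h2 (not_lt.2 (le_of_eq (Finset.prod_eq_one fun g hg => ?_).symm))
    have h3 := hcon g (by simp)
    rw [SetLike.mem_coe, hP, not_lt] at h3
    refine le_antisymm ?_ h3
    rw [ValuationSubring.valuation_le_one_iff]
    exact (z.2 g).2
  obtain ⟨g, -, hg⟩ := (Ideal.subset_union_prime 1 1
    (fun g _ _ _ => Ideal.IsPrime.comap (φ g))).1 hsub
  refine ⟨g, fun x hx => ?_⟩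
  by_contra hxO
  obtain ⟨z, hz⟩ := ext_nagata (Finset.univ : Finset (Γ ⊕ Γ))
    (Sum.elim (fun h => O.comap (MulSemiringAction.toRingHom Γ N h))
      fun h => O'.comap (MulSemiringAction.toRingHom Γ N h)) x
  have hzB : z ∈ B := fun h => by
    have h1 : z ∈ O.comap (MulSemiringAction.toRingHom Γ N h) :=
      (hz (Sum.inl h) (Finset.mem_univ _)).1
    have h2 : z ∈ O'.comap (MulSemiringAction.toRingHom Γ N h) :=
      (hz (Sum.inr h) (Finset.mem_univ _)).1
    exact ⟨h1, h2⟩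
  have h1 : x ∉ O.comap (MulSemiringAction.toRingHom Γ N 1) →
      (O.comap (MulSemiringAction.toRingHom Γ N 1)).valuation z < 1 :=
    (hz (Sum.inl 1) (Finset.mem_univ _)).2.2
  have h2 : x ∈ O'.comap (MulSemiringAction.toRingHom Γ N g) →
      (O'.comap (MulSemiringAction.toRingHom Γ N g)).valuation z = 1 :=
    (hz (Sum.inr g) (Finset.mem_univ _)).2.1
  rw [ValuationSubring.mem_comap, MulSemiringAction.toRingHom_apply, one_smul,
    ext_comap_lt_one, MulSemiringAction.toRingHom_apply, one_smul] at h1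
  rw [ValuationSubring.mem_comap, MulSemiringAction.toRingHom_apply,
    ext_comap_eq_one, MulSemiringAction.toRingHom_apply] at h2
  have h3 := h1 hxO
  have h4 := h2 hx
  have h5 := hg ((hQ ⟨z, hzB⟩).2 h3)
  rw [hP] at h5
  exact absurd h4 h5.ne

/-- valuation rings with the same invariants are conjugate. -/
theorem ext_conj {Γ N : Type*} [Group Γ] [Field N] [MulSemiringAction Γ N] [Finite Γ]
    (O O' : ValuationSubring N) (h : ∀ x : N, (∀ g : Γ, g • x = x) → (x ∈ O ↔ x ∈ O')) :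
    ∃ g : Γ, ∀ x : N, x ∈ O ↔ g • x ∈ O' := by
  obtain ⟨g, hg⟩ := ext_conj_half O O' h
  obtain ⟨g', hg'⟩ := ext_conj_half O' O fun x hx => (h x hx).symm
  have h1 : g' * g ∈ extStab Γ O := by
    by_contra hcon
    have h2 : (g' * g)⁻¹ ∉ extStab Γ O := fun h3 => hcon (by
      have := (extStab Γ O).inv_mem h3
      rwa [inv_inv] at this)
    obtain ⟨x, hx, hx'⟩ := ext_not_stab h2
    apply hx'
    apply hg
    apply hg'
    rw [← mul_smul, smul_inv_smul]
    exact hx
  refine ⟨g, fun x => ⟨fun hx => ?_, hg x⟩⟩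
  apply hg'
  rw [← mul_smul]
  exact (h1 x).2 hx

end Conj

/-! ### Residue fields -/

section Res

variable {F N : Type*} [Field F] [Field N] [Algebra F N]

open Polynomial in
/-- no residue extension over an algebraically closed residue field. -/
theorem ext_res [FiniteDimensional F N] (O : ValuationSubring N)
    (hac : IsAlgClosed (IsLocalRing.ResidueField (O.comap (algebraMap F N)))) {β : N}
    (hβ : β ∈ O) : ∃ c : F, O.valuation (β - algebraMap F N c) < 1 := by
  classical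
  let f : O.comap (algebraMap F N) →+* O :=
    { toFun := fun x => ⟨algebraMap F N x, x.2⟩
      map_one' := Subtype.ext (map_one _)
      map_mul' := fun a b => Subtype.ext (map_mul (algebraMap F N) (a : F) (b : F))
      map_zero' := Subtype.ext (map_zero _)
      map_add' := fun a b => Subtype.ext (map_add (algebraMap F N) (a : F) (b : F)) }
  have hf : IsLocalHom f := by
    constructor
    intro a ha
    rw [ValuationSubring.valuation_eq_one_iff] at ha ⊢
    rw [ext_comap_eq_one]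
    exact ha
  let ρ : IsLocalRing.ResidueField (O.comap (algebraMap F N)) →+* IsLocalRing.ResidueField O :=
    IsLocalRing.ResidueField.map f
  have hρ : ∀ a : O.comap (algebraMap F N), ρ (IsLocalRing.residue _ a) =
      IsLocalRing.residue O (f a) := fun a => IsLocalRing.ResidueField.map_residue f a
  let _ : Algebra (IsLocalRing.ResidueField (O.comap (algebraMap F N)))
    (IsLocalRing.ResidueField O) := ρ.toAlgebra
  set p : F[X] := minpoly F β with hp
  have hp0 : p ≠ 0 := minpoly.ne_zero (Algebra.IsIntegral.isIntegral β)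
  obtain ⟨i0, hi0, hmax⟩ := Finset.exists_max_image p.support
    (fun i => O.valuation (algebraMap F N (p.coeff i)))
    (Polynomial.support_nonempty.2 hp0)
  have hc0 : p.coeff i0 ≠ 0 := Polynomial.mem_support_iff.1 hi0
  have hc0' : algebraMap F N (p.coeff i0) ≠ 0 := by
    rwa [Ne, map_eq_zero]
  have hmem : ∀ i, p.coeff i / p.coeff i0 ∈ O.comap (algebraMap F N) := by
    intro i
    rw [ValuationSubring.mem_comap, ← ValuationSubring.valuation_le_one_iff, map_div₀, map_div₀,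
      div_le_one₀ (zero_lt_iff.2 ((Valuation.ne_zero_iff _).2 hc0'))]
    by_cases hi : i ∈ p.support
    · exact hmax i hi
    · rw [Polynomial.notMem_support_iff.1 hi, map_zero, map_zero]
      exact zero_le
  set q : (IsLocalRing.ResidueField (O.comap (algebraMap F N)))[X] :=
    ∑ i ∈ range (p.natDegree + 1), C (IsLocalRing.residue _
      (⟨p.coeff i / p.coeff i0, hmem i⟩ : O.comap (algebraMap F N))) * X ^ i with hq
  have hq0 : q ≠ 0 := by
    intro h
    have h1 : q.coeff i0 = 1 := by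
      rw [hq, Polynomial.finsetSum_coeff, Finset.sum_eq_single i0]
      · rw [Polynomial.coeff_C_mul_X_pow, if_pos rfl]
        have : (⟨p.coeff i0 / p.coeff i0, hmem i0⟩ : O.comap (algebraMap F N)) = 1 :=
          Subtype.ext (div_self hc0)
        rw [this, map_one]
      · intro i _ hi
        rw [Polynomial.coeff_C_mul_X_pow, if_neg (Ne.symm hi)]
      · intro h2
        exfalso
        apply h2
        rw [Finset.mem_range]
        have := Polynomial.le_natDegree_of_mem_supp i0 hi0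
        omega
    rw [h, Polynomial.coeff_zero] at h1
    exact zero_ne_one h1
  have hqβ : aeval (IsLocalRing.residue O ⟨β, hβ⟩) q = 0 := by
    have h1 : ∑ i ∈ range (p.natDegree + 1),
        (⟨algebraMap F N (p.coeff i / p.coeff i0), hmem i⟩ : O) * ⟨β, hβ⟩ ^ i = 0 := by
      apply Subtype.ext
      have h5 : ((∑ i ∈ range (p.natDegree + 1),
          (⟨algebraMap F N (p.coeff i / p.coeff i0), hmem i⟩ : O) * ⟨β, hβ⟩ ^ i : O) : N) =
          ∑ i ∈ range (p.natDegree + 1), algebraMap F N (p.coeff i / p.coeff i0) * β ^ i :=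
        map_sum O.subtype _ _
      rw [h5]
      have h2 : aeval β p = 0 := minpoly.aeval F β
      rw [Polynomial.aeval_eq_sum_range] at h2
      have h3 : ∑ i ∈ range (p.natDegree + 1), algebraMap F N (p.coeff i / p.coeff i0) * β ^ i =
          (∑ i ∈ range (p.natDegree + 1), p.coeff i • β ^ i) / algebraMap F N (p.coeff i0) := by
        rw [Finset.sum_div]
        refine Finset.sum_congr rfl fun i _ => ?_
        rw [map_div₀, Algebra.smul_def]
        ring
      rw [h3, h2, zero_div]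
      rfl
    rw [hq, map_sum]
    have h4 := congrArg (IsLocalRing.residue O) h1
    rw [map_sum, map_zero] at h4
    rw [← h4]
    refine Finset.sum_congr rfl fun i _ => ?_
    rw [map_mul, map_mul, map_pow, map_pow, aeval_C, aeval_X]
    congr 1
  have hint : IsIntegral (IsLocalRing.ResidueField (O.comap (algebraMap F N)))
      (IsLocalRing.residue O ⟨β, hβ⟩) := by
    rw [← isAlgebraic_iff_isIntegral]
    exact ⟨q, hq0, hqβ⟩
  obtain ⟨c, hc⟩ := minpoly.mem_range_of_degree_eq_one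
    (IsLocalRing.ResidueField (O.comap (algebraMap F N))) (IsLocalRing.residue O ⟨β, hβ⟩)
    (IsAlgClosed.degree_eq_one_of_irreducible _ (minpoly.irreducible hint))
  obtain ⟨c, rfl⟩ := IsLocalRing.residue_surjective c
  refine ⟨c, ?_⟩
  have h5 : IsLocalRing.residue O (⟨β, hβ⟩ - f c) = 0 := by
    rw [map_sub, sub_eq_zero, ← hρ]
    exact hc.symm
  rw [IsLocalRing.residue_eq_zero_iff, ValuationSubring.valuation_lt_one_iff] at h5
  exact h5

/-- roots of unity are separated by the residue field. -/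
theorem ext_root {ℓ : ℕ} (O : ValuationSubring N) (hℓ : O.valuation (ℓ : N) = 1) {ξ : N}
    (hξ1 : ξ ≠ 1) (hξ : ξ ^ ℓ = 1) : ¬ O.valuation (ξ - 1) < 1 := by
  intro h
  have hsum : ∑ i ∈ range ℓ, ξ ^ i = 0 := by
    have h1 := geom_sum_mul ξ ℓ
    rw [hξ, sub_self] at h1
    exact (mul_eq_zero.1 h1).resolve_right (sub_ne_zero.2 hξ1)
  have h1 : ξ - 1 ∈ O := by
    rw [← ValuationSubring.valuation_le_one_iff]
    exact h.le
  have h2 : IsLocalRing.residue O ⟨ξ - 1, h1⟩ = 0 := by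
    rw [IsLocalRing.residue_eq_zero_iff, ValuationSubring.valuation_lt_one_iff]
    exact h
  have h3 : ∑ i ∈ range ℓ, ((⟨ξ - 1, h1⟩ : O) + 1) ^ i = 0 := by
    apply Subtype.ext
    push_cast
    simp only [sub_add_cancel]
    exact hsum
  have h4 := congrArg (IsLocalRing.residue O) h3
  rw [map_sum, map_zero] at h4
  simp only [map_pow, map_add, h2, map_one, zero_add, one_pow, Finset.sum_const,
    Finset.card_range, nsmul_eq_mul, mul_one] at h4
  have h5 : IsLocalRing.residue O (ℓ : O) = 0 := by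
    rw [map_natCast]
    exact h4
  rw [IsLocalRing.residue_eq_zero_iff, ValuationSubring.valuation_lt_one_iff] at h5
  push_cast at h5
  rw [hℓ] at h5
  exact lt_irrefl _ h5

end Res

/-! ### Kummer theory -/

section Kummer

variable {F N : Type*} [Field F] [Field N] [Algebra F N]

/-- an eigenvector for a subgroup of index `ℓ`. -/
theorem ext_kummer [FiniteDimensional F N] {ℓ : ℕ} [Fact ℓ.Prime] {ζ : F}
    (hζ : IsPrimitiveRoot ζ ℓ) (hℓ : (ℓ : N) ≠ 0) {S : Subgroup (N ≃ₐ[F] N)} {σ : N ≃ₐ[F] N}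
    (hσ : σ ∉ S) (hσℓ : σ ^ ℓ ∈ S) (hnorm : ∀ s ∈ S, σ⁻¹ * s * σ ∈ S) :
    ∃ (α : N) (ξ : F), α ≠ 0 ∧ (∀ s ∈ S, s α = α) ∧ ξ ≠ 1 ∧ ξ ^ ℓ = 1 ∧
      σ α = algebraMap F N ξ * α := by
  have hℓp : ℓ.Prime := Fact.out
  obtain ⟨y, hy, hσy⟩ : ∃ y : N, (∀ s ∈ S, s y = y) ∧ σ y ≠ y := by
    by_contra hcon
    push Not at hcon
    apply hσ
    rw [← IntermediateField.fixingSubgroup_fixedField S, IntermediateField.mem_fixingSubgroup_iff]
    intro x hx
    exact hcon x fun s hs => (IntermediateField.mem_fixedField_iff S x).1 hx s hs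
  have hyi : ∀ i : ℕ, ∀ s ∈ S, s ((σ ^ i) y) = (σ ^ i) y := by
    intro i
    induction i with
    | zero => exact hy
    | succ i ih =>
      intro s hs
      have h1 : s ((σ ^ (i + 1)) y) = σ ((σ⁻¹ * s * σ) ((σ ^ i) y)) := by
        rw [pow_succ']
        show s (σ ((σ ^ i) y)) = σ (σ.symm (s (σ ((σ ^ i) y))))
        rw [AlgEquiv.apply_symm_apply]
      rw [h1, ih _ (hnorm s hs), pow_succ']
      rfl
  let α : ℕ → N := fun j => ∑ i ∈ range ℓ, algebraMap F N (ζ ^ (i * j)) * (σ ^ i) y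
  have hα : ∀ j, α j = ∑ i ∈ range ℓ, algebraMap F N (ζ ^ (i * j)) * (σ ^ i) y := fun _ => rfl
  have hσα : ∀ j, algebraMap F N (ζ ^ j) * σ (α j) = α j := by
    intro j
    have h1 : algebraMap F N (ζ ^ j) * σ (α j) =
        ∑ i ∈ range ℓ, algebraMap F N (ζ ^ ((i + 1) * j)) * (σ ^ (i + 1)) y := by
      rw [hα, map_sum, Finset.mul_sum]
      refine Finset.sum_congr rfl fun i _ => ?_
      rw [map_mul, AlgEquiv.commutes, ← mul_assoc, ← map_mul, ← pow_add, pow_succ']
      congr 3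
      ring
    have h2 := Finset.sum_range_succ (fun i => algebraMap F N (ζ ^ (i * j)) * (σ ^ i) y) ℓ
    have h3 := Finset.sum_range_succ' (fun i => algebraMap F N (ζ ^ (i * j)) * (σ ^ i) y) ℓ
    have h4 : algebraMap F N (ζ ^ (ℓ * j)) * (σ ^ ℓ) y =
        algebraMap F N (ζ ^ (0 * j)) * (σ ^ 0) y := by
      rw [pow_mul, hζ.pow_eq_one, one_pow, zero_mul, pow_zero, hy _ hσℓ]
      rfl
    rw [h1]
    rw [h2, h4] at h3
    exact (add_right_cancel h3).symm
  have hsum : ∑ j ∈ range ℓ, α j = (ℓ : N) * y := by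
    simp only [hα]
    rw [Finset.sum_comm]
    have h1 : ∀ i ∈ range ℓ, ∑ j ∈ range ℓ, algebraMap F N (ζ ^ (i * j)) * (σ ^ i) y =
        if i = 0 then (ℓ : N) * y else 0 := by
      intro i hi
      rw [← Finset.sum_mul, ← map_sum]
      split_ifs with h
      · subst h
        simp
      · have h2 : ∑ j ∈ range ℓ, ζ ^ (i * j) = 0 := by
          have h3 := geom_sum_mul (ζ ^ i) ℓ
          rw [← pow_mul, mul_comm i ℓ, pow_mul, hζ.pow_eq_one, one_pow, sub_self] at h3
          have h4 : ζ ^ i - 1 ≠ 0 := sub_ne_zero.2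
            (hζ.pow_ne_one_of_pos_of_lt h (Finset.mem_range.1 hi))
          rw [← (mul_eq_zero.1 h3).resolve_right h4]
          exact Finset.sum_congr rfl fun j _ => pow_mul _ _ _
        rw [h2, map_zero, zero_mul]
    rw [Finset.sum_congr rfl h1, Finset.sum_ite_eq' (range ℓ) 0, if_pos
      (Finset.mem_range.2 hℓp.pos)]
  obtain ⟨j, hj, hj0, hαj⟩ : ∃ j ∈ range ℓ, j ≠ 0 ∧ α j ≠ 0 := by
    by_contra hcon
    push Not at hcon
    have h1 : ∑ j ∈ range ℓ, α j = α 0 :=
      Finset.sum_eq_single 0 (fun j hj hj0 => hcon j hj hj0)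
        fun h => absurd (Finset.mem_range.2 hℓp.pos) h
    have h2 := hσα 0
    rw [← h1, hsum, pow_zero, map_one, one_mul, map_mul, map_natCast] at h2
    exact hσy (mul_left_cancel₀ hℓ h2)
  refine ⟨α j, (ζ ^ j)⁻¹, hαj, fun s hs => ?_, ?_, ?_, ?_⟩
  · rw [hα, map_sum]
    refine Finset.sum_congr rfl fun i _ => ?_
    rw [map_mul, AlgEquiv.commutes, hyi i s hs]
  · intro h
    exact hζ.pow_ne_one_of_pos_of_lt hj0 (Finset.mem_range.1 hj) (inv_eq_one.1 h)
  · rw [inv_pow, ← pow_mul, mul_comm j ℓ, pow_mul, hζ.pow_eq_one, one_pow, inv_one]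
  · have h1 := hσα j
    have h2 : algebraMap F N (ζ ^ j) ≠ 0 := by
      rw [Ne, map_eq_zero]
      exact pow_ne_zero _ (hζ.ne_zero hℓp.ne_zero)
    rw [map_inv₀]
    rw [eq_comm, inv_mul_eq_iff_eq_mul₀ h2]
    exact h1.symm

end Kummer

/-! ### Sylow subgroups of decomposition groups -/

section Sylow

open scoped Pointwise in
/-- `ℓ`-subgroups of `Z` are conjugate into a Sylow subgroup. -/
theorem ext_sylow_conj {G : Type*} [Group G] [Finite G] {ℓ : ℕ} [Fact ℓ.Prime]
    {Z T S : Subgroup G} (hT : T ≤ Z) {n : ℕ} (hTc : Nat.card T = ℓ ^ n)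
    (hn : ¬ ℓ ^ (n + 1) ∣ Nat.card Z) (hS : S ≤ Z) {a : ℕ} (hSc : Nat.card S = ℓ ^ a) :
    ∃ z ∈ Z, ∀ s ∈ S, z⁻¹ * s * z ∈ T := by
  have hTc' : Nat.card (T.subgroupOf Z) = ℓ ^ n := by
    rw [Nat.card_congr (Subgroup.subgroupOfEquivOfLe hT).toEquiv, hTc]
  have hSc' : Nat.card (S.subgroupOf Z) = ℓ ^ a := by
    rw [Nat.card_congr (Subgroup.subgroupOfEquivOfLe hS).toEquiv, hSc]
  have hfac : n = (Nat.card Z).factorization ℓ := by
    have h1 : ℓ ^ n ∣ Nat.card Z := by
      rw [← hTc']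
      exact Subgroup.card_subgroup_dvd_card _
    have hℓp : ℓ.Prime := Fact.out
    have h2 := (hℓp.pow_dvd_iff_le_factorization Nat.card_pos.ne').1 h1
    have h3 : ¬ n + 1 ≤ (Nat.card Z).factorization ℓ := fun h =>
      hn ((hℓp.pow_dvd_iff_le_factorization Nat.card_pos.ne').2 h)
    omega
  let P : Sylow ℓ Z := Sylow.ofCard (T.subgroupOf Z) (by rw [hTc', hfac])
  obtain ⟨Q, hQ⟩ := (IsPGroup.of_card hSc').exists_le_sylow
  obtain ⟨z, hz⟩ := MulAction.exists_smul_eq Z P Q
  refine ⟨z, z.2, fun s hs => ?_⟩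
  have h1 : (⟨s, hS hs⟩ : Z) ∈ Q := hQ (Subgroup.mem_subgroupOf.2 hs)
  rw [← hz] at h1
  have h2 : (⟨s, hS hs⟩ : Z) ∈ MulAut.conj z • (T.subgroupOf Z) := h1
  rw [Subgroup.mem_pointwise_smul_iff_inv_smul_mem, ← map_inv, MulAut.smul_def,
    MulAut.conj_apply, inv_inv, Subgroup.mem_subgroupOf] at h2
  exact h2

variable {F N : Type*} [Field F] [Field N] [Algebra F N]

/-- the index of `Z ∩ H` in `Z` is prime to `ℓ`. -/
theorem ext_claim [FiniteDimensional F N] {ℓ : ℕ} [Fact ℓ.Prime] {ζ : F}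
    (hζ : IsPrimitiveRoot ζ ℓ) (O : ValuationSubring N) (hℓ : O.valuation (ℓ : N) = 1)
    (hres : ∀ β ∈ O, ∃ c : F, O.valuation (β - algebraMap F N c) < 1)
    (H : Subgroup (N ≃ₐ[F] N)) (hram : ∀ x : N, x ≠ 0 → (∀ h ∈ H, h x = x) →
      ∃ m : ℕ, ¬ ℓ ∣ m ∧ ∃ c : F, O.valuation x ^ m = O.valuation (algebraMap F N c))
    {S : Subgroup (N ≃ₐ[F] N)} (hSH : S ≤ H) (hSZ : S ≤ extStab (N ≃ₐ[F] N) O) {n : ℕ}
    (hS : Nat.card S = ℓ ^ n)
    (hSyl : ¬ ℓ ^ (n + 1) ∣ Nat.card (extStab (N ≃ₐ[F] N) O ⊓ H : Subgroup (N ≃ₐ[F] N))) :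
    ¬ ℓ ^ (n + 1) ∣ Nat.card (extStab (N ≃ₐ[F] N) O) := by
  intro hdvd
  have hℓp : ℓ.Prime := Fact.out
  set Z := extStab (N ≃ₐ[F] N) O with hZ
  have hSc' : Nat.card (S.subgroupOf Z) = ℓ ^ n := by
    rw [Nat.card_congr (Subgroup.subgroupOfEquivOfLe hSZ).toEquiv, hS]
  obtain ⟨K, hK, hSK⟩ := Sylow.exists_subgroup_card_pow_succ hdvd hSc'
  set S' : Subgroup (N ≃ₐ[F] N) := K.map Z.subtype with hS'
  have hS'c : Nat.card S' = ℓ ^ (n + 1) := by
    rw [hS', Nat.card_congr (Subgroup.equivMapOfInjective K Z.subtype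
      Z.subtype_injective).symm.toEquiv, hK]
  have hS'Z : S' ≤ Z := Subgroup.map_subtype_le K
  have hSS' : S ≤ S' := fun s hs => by
    rw [hS', Subgroup.mem_map]
    exact ⟨⟨s, hSZ hs⟩, hSK (Subgroup.mem_subgroupOf.2 hs), rfl⟩
  -- `S` is normal of index `ℓ` in `S'`
  have hindex : (S.subgroupOf S').index = ℓ := by
    have h1 := Subgroup.card_mul_index (S.subgroupOf S')
    rw [Nat.card_congr (Subgroup.subgroupOfEquivOfLe hSS').toEquiv, hS, hS'c, pow_succ] at h1
    exact Nat.eq_of_mul_eq_mul_left (pow_pos hℓp.pos n) h1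
  have hnor : (S.subgroupOf S').Normal := by
    apply Subgroup.normal_of_index_eq_minFac_card
    rw [hindex, hS'c, hℓp.pow_minFac (Nat.succ_ne_zero n)]
  obtain ⟨σ, hσ', hσ⟩ : ∃ σ ∈ S', σ ∉ S := by
    by_contra hcon
    push Not at hcon
    have h1 : S' = S := le_antisymm hcon hSS'
    rw [h1, hS] at hS'c
    exact absurd hS'c (Nat.pow_lt_pow_right hℓp.one_lt (Nat.lt_succ_self n)).ne
  have hnorm : ∀ s ∈ S, σ⁻¹ * s * σ ∈ S := by
    intro s hs
    have h1 := hnor.conj_mem ⟨s, hSS' hs⟩ (Subgroup.mem_subgroupOf.2 hs) ⟨σ, hσ'⟩⁻¹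
    rw [Subgroup.mem_subgroupOf, inv_inv] at h1
    exact h1
  have hσℓ : σ ^ ℓ ∈ S := by
    have h1 := Subgroup.pow_index_mem (S.subgroupOf S') (⟨σ, hσ'⟩ : S')
    rw [hindex, Subgroup.mem_subgroupOf] at h1
    exact h1
  have hℓ0 : (ℓ : N) ≠ 0 := by
    intro h
    rw [h, map_zero] at hℓ
    exact zero_ne_one hℓ
  obtain ⟨α, ξ, hα0, hαS, hξ1, hξℓ, hσα⟩ := ext_kummer hζ hℓ0 hσ hσℓ hnorm
  -- the value of `α`
  obtain ⟨m1, c, hm1, hc0, hcH, hαc⟩ := ext_newton (Γ := H) O (S := S.subgroupOf H)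
    (fun s hs => fun x => hSZ (Subgroup.mem_subgroupOf.1 hs) x) hα0
    (fun s hs => hαS s (Subgroup.mem_subgroupOf.1 hs))
  have hm1' : ¬ ℓ ∣ m1 := by
    rintro ⟨q, rfl⟩
    apply hSyl
    rw [Nat.card_congr (Subgroup.subgroupOfEquivOfLe hSH).toEquiv, hS] at hm1
    have h1 : Nat.card (extStab H O) = Nat.card (Z ⊓ H : Subgroup (N ≃ₐ[F] N)) := by
      have h2 : extStab H O = (Z ⊓ H).subgroupOf H := by
        ext g
        rw [Subgroup.mem_subgroupOf, Subgroup.mem_inf]
        exact ⟨fun h => ⟨h, g.2⟩, fun h => h.1⟩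
      rw [h2, Nat.card_congr (Subgroup.subgroupOfEquivOfLe inf_le_right).toEquiv]
    rw [← h1, ← hm1]
    exact ⟨q, by ring⟩
  obtain ⟨m2, hm2, f, hf⟩ := hram c hc0 fun h hh => hcH ⟨h, hh⟩
  have hβv : O.valuation (α ^ (m1 * m2)) = O.valuation (algebraMap F N f) := by
    rw [map_pow, pow_mul, hαc, hf]
  have hf0 : algebraMap F N f ≠ 0 := by
    intro h
    rw [h, map_zero, map_pow] at hβv
    exact pow_ne_zero _ ((Valuation.ne_zero_iff _).2 hα0) hβv
  set β : N := α ^ (m1 * m2) / algebraMap F N f with hβ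
  have hβ1 : O.valuation β = 1 := by
    rw [hβ, map_div₀, hβv, div_self ((Valuation.ne_zero_iff _).2 hf0)]
  have hσβ : σ β = algebraMap F N (ξ ^ (m1 * m2)) * β := by
    rw [hβ, map_div₀, map_pow, hσα, AlgEquiv.commutes, mul_pow, map_pow, mul_div_assoc]
  obtain ⟨b, hb⟩ := hres β (by rw [← ValuationSubring.valuation_le_one_iff, hβ1])
  have h1 : O.valuation (σ β - β) < 1 := by
    have h2 : O.valuation (σ (β - algebraMap F N b)) < 1 := by
      have h3 := extStab_val (hS'Z hσ') (β - algebraMap F N b)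
      rw [AlgEquiv.smul_def] at h3
      rw [h3]
      exact hb
    have h3 : σ β - β = σ (β - algebraMap F N b) - (β - algebraMap F N b) := by
      rw [map_sub, AlgEquiv.commutes]
      ring
    rw [h3]
    exact Valuation.map_sub_lt _ h2 hb
  rw [hσβ] at h1
  have h2 : algebraMap F N (ξ ^ (m1 * m2)) * β - β = (algebraMap F N (ξ ^ (m1 * m2)) - 1) * β := by
    ring
  rw [h2, map_mul, hβ1, mul_one] at h1
  refine ext_root O hℓ ?_ ?_ h1
  · intro h3
    rw [← map_one (algebraMap F N)] at h3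
    have h4 := (algebraMap F N).injective h3
    have h5 : orderOf ξ = ℓ := orderOf_eq_prime hξℓ hξ1
    have h6 := orderOf_dvd_of_pow_eq_one h4
    rw [h5] at h6
    rcases hℓp.dvd_mul.1 h6 with h | h
    · exact hm1' h
    · exact hm2 h
  · rw [← map_pow, ← pow_mul, mul_comm, pow_mul, hξℓ, one_pow, map_one]

end Sylow

/-! ### Extensions and limits -/

section Ext

variable {F N : Type*} [Field F] [Field N]

theorem ext_exists (f : F →+* N) (O : ValuationSubring F) :
    ∃ Q : ValuationSubring N, Q.comap f = O := by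
  obtain ⟨A, hA, hloc⟩ := IsLocalRing.exists_factor_valuationRing (f.comp O.subtype)
  refine ⟨A, ?_⟩
  ext x
  rw [ValuationSubring.mem_comap]
  refine ⟨fun hx => ?_, fun hx => hA ⟨x, hx⟩⟩
  by_contra hxO
  have hx0 : x ≠ 0 := fun h => hxO (h ▸ O.zero_mem)
  have h1 : x⁻¹ ∈ O := (O.mem_or_inv_mem x).resolve_left hxO
  have h2 : IsUnit (⟨x⁻¹, h1⟩ : O) := by
    apply hloc.map_nonunit
    refine isUnit_iff_exists_inv.2 ⟨⟨f x, hx⟩, Subtype.ext ?_⟩
    show f x⁻¹ * f x = 1
    rw [← map_mul, inv_mul_cancel₀ hx0, map_one]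
  obtain ⟨y, hy⟩ := isUnit_iff_exists_inv.1 h2
  apply hxO
  have h3 : (y : F) = x := by
    have h4 : x⁻¹ * (y : F) = 1 := congrArg Subtype.val hy
    rw [inv_mul_eq_iff_eq_mul₀ hx0, mul_one] at h4
    exact h4
  rw [← h3]
  exact y.2

/-- the limit of valuation rings along an ultrafilter. -/
def extLim {I : Type*} (U : Ultrafilter I) (Q : I → ValuationSubring N) : ValuationSubring N where
  carrier := {x | ∀ᶠ i in (U : Filter I), x ∈ Q i}
  mul_mem' := fun {a b} ha hb => by
    filter_upwards [ha, hb] with i h1 h2 using (Q i).mul_mem _ _ h1 h2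
  one_mem' := Filter.Eventually.of_forall fun i => (Q i).one_mem
  add_mem' := fun {a b} ha hb => by
    filter_upwards [ha, hb] with i h1 h2 using (Q i).add_mem _ _ h1 h2
  zero_mem' := Filter.Eventually.of_forall fun i => (Q i).zero_mem
  neg_mem' := fun {a} ha => by
    filter_upwards [ha] with i h1 using (Q i).neg_mem _ h1
  mem_or_inv_mem' := fun x => by
    show (∀ᶠ i in (U : Filter I), x ∈ Q i) ∨ ∀ᶠ i in (U : Filter I), x⁻¹ ∈ Q i
    rw [← Ultrafilter.eventually_or]
    exact Filter.Eventually.of_forall fun i => (Q i).mem_or_inv_mem x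

theorem mem_extLim {I : Type*} {U : Ultrafilter I} {Q : I → ValuationSubring N} {x : N} :
    x ∈ extLim U Q ↔ ∀ᶠ i in (U : Filter I), x ∈ Q i := Iff.rfl

theorem ext_const {I α : Type*} [Finite α] (U : Ultrafilter I) (f : I → α) :
    ∃ a, ∀ᶠ i in (U : Filter I), f i = a := by
  have h : ∀ᶠ i in (U : Filter I), ∃ a, f i = a :=
    Filter.Eventually.of_forall fun i => ⟨f i, rfl⟩
  exact (Ultrafilter.eventually_exists_iff).1 h

end Ext

/-! ### The main result of this file -/

section Main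

/-- Galois form. -/
theorem ext_val_gal {F L N : Type*} [Field F] [Field L] [Field N] [Algebra F L] [Algebra L N]
    [Algebra F N] [IsScalarTower F L N] [FiniteDimensional F N] [IsGalois F N] {ℓ : ℕ}
    [Fact ℓ.Prime] {ζ : F} (hζ : IsPrimitiveRoot ζ ℓ) {I : Type*} (U : Ultrafilter I)
    (O : I → ValuationSubring F) (W : ValuationSubring L)
    (hlim : ∀ x : F, algebraMap F L x ∈ W ↔ ∀ᶠ i in (U : Filter I), x ∈ O i)
    (hac : IsAlgClosed (IsLocalRing.ResidueField (W.comap (algebraMap F L))))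
    (hℓ : W.valuation (ℓ : L) = 1)
    (hram : ∀ x : L, x ≠ 0 → ∃ m : ℕ, ¬ ℓ ∣ m ∧ ∃ c : F,
      W.valuation x ^ m = W.valuation (algebraMap F L c)) :
    ∃ Q : I → ValuationSubring L, (∀ i, (Q i).comap (algebraMap F L) = O i) ∧
      (∀ x : L, x ∈ W ↔ ∀ᶠ i in (U : Filter I), x ∈ Q i) ∧
      ∀ᶠ i in (U : Filter I), ∀ x : L, x ≠ 0 → ∃ m : ℕ, ¬ ℓ ∣ m ∧ ∃ c : F,
        (Q i).valuation x ^ m = (Q i).valuation (algebraMap F L c) := by
  classical
  have hℓp : ℓ.Prime := Fact.out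
  obtain ⟨W', hW'⟩ := ext_exists (algebraMap L N) W
  choose Q' hQ' using fun i => ext_exists (algebraMap F N) (O i)
  -- the decomposition groups
  set G := N ≃ₐ[F] N with hG
  have hfix : ∀ x : N, (∀ g : G, g • x = x) → ∃ c : F, algebraMap F N c = x := fun x hx =>
    (IsGalois.mem_range_algebraMap_iff_fixed x).2 hx
  have hFL : ∀ c : F, algebraMap F N c = algebraMap L N (algebraMap F L c) := fun c =>
    IsScalarTower.algebraMap_apply F L N c
  have hWF : ∀ c : F, algebraMap F N c ∈ W' ↔ algebraMap F L c ∈ W := fun c => by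
    rw [hFL, ← ValuationSubring.mem_comap, hW']
  have hQF : ∀ i (c : F), algebraMap F N c ∈ Q' i ↔ c ∈ O i := fun i c => by
    rw [← ValuationSubring.mem_comap, hQ']
  obtain ⟨g, hg⟩ := ext_conj (Γ := G) W' (extLim U Q') fun x hx => by
    obtain ⟨c, rfl⟩ := hfix x hx
    rw [hWF, hlim, mem_extLim]
    simp only [hQF]
  set Q1 : I → ValuationSubring N := fun i =>
    (Q' i).comap (MulSemiringAction.toRingHom G N g) with hQ1
  have hQ1F : ∀ i (c : F), algebraMap F N c ∈ Q1 i ↔ c ∈ O i := fun i c => by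
    rw [hQ1]
    simp only
    rw [ValuationSubring.mem_comap, MulSemiringAction.toRingHom_apply, AlgEquiv.smul_def,
      AlgEquiv.commutes, hQF]
  have hQ1W : ∀ x : N, x ∈ W' ↔ ∀ᶠ i in (U : Filter I), x ∈ Q1 i := fun x => by
    rw [hg, mem_extLim]
    rfl
  set Z := extStab G W' with hZ
  have hZi : ∀ᶠ i in (U : Filter I), extStab G (Q1 i) ≤ Z := by
    have h1 : ∀ g : G, ∀ᶠ i in (U : Filter I), g ∈ extStab G (Q1 i) → g ∈ Z := by
      intro g
      by_cases hgZ : g ∈ Z
      · exact Filter.Eventually.of_forall fun _ _ => hgZ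
      · obtain ⟨x, hx, hgx⟩ := ext_not_stab hgZ
        rw [hQ1W] at hx hgx
        rw [← Ultrafilter.eventually_not] at hgx
        filter_upwards [hx, hgx] with i h2 h3 h4
        exact absurd ((h4 x).2 h2) h3
    have h2 := Filter.eventually_all.2 h1
    filter_upwards [h2] with i h3 g hg using h3 g hg
  -- the group of `L`
  set H : Subgroup G :=
    { carrier := {h | ∀ x : L, h (algebraMap L N x) = algebraMap L N x}
      one_mem' := fun _ => rfl
      mul_mem' := fun {a b} ha hb x => by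
        show a (b _) = _
        rw [hb, ha]
      inv_mem' := fun {a} ha x => by
        show a.symm _ = _
        rw [AlgEquiv.symm_apply_eq, ha] } with hH
  have hHL : ∀ x : N, (∀ h ∈ H, h x = x) → ∃ y : L, algebraMap L N y = x := by
    intro x hx
    have : IsGalois L N := IsGalois.tower_top_of_isGalois F L N
    have : FiniteDimensional L N := FiniteDimensional.right F L N
    refine (IsGalois.mem_range_algebraMap_iff_fixed x).2 fun f => ?_
    exact hx (f.restrictScalars F) fun y => f.commutes y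
  -- Sylow subgroups
  set ZH : Subgroup G := Z ⊓ H with hZH
  let T0 : Sylow ℓ ZH := default
  set T : Subgroup G := (T0 : Subgroup ZH).map ZH.subtype with hT
  have hTle : T ≤ ZH := Subgroup.map_subtype_le _
  have hTc : Nat.card T = ℓ ^ (Nat.card ZH).factorization ℓ := by
    rw [hT, Nat.card_congr (Subgroup.equivMapOfInjective (T0 : Subgroup ZH) ZH.subtype
      ZH.subtype_injective).symm.toEquiv]
    exact T0.card_eq_multiplicity
  have hTsyl : ¬ ℓ ^ ((Nat.card ZH).factorization ℓ + 1) ∣ Nat.card ZH :=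
    Nat.pow_succ_factorization_not_dvd Nat.card_pos.ne' hℓp
  have hres : ∀ β ∈ W', ∃ c : F, W'.valuation (β - algebraMap F N c) < 1 := by
    intro β hβ
    refine ext_res W' ?_ hβ
    have h1 : W'.comap (algebraMap F N) = W.comap (algebraMap F L) := by
      ext x
      rw [ValuationSubring.mem_comap, ValuationSubring.mem_comap, hWF]
    rw [h1]
    exact hac
  have hval : ∀ x y : L, W'.valuation (algebraMap L N x) = W'.valuation (algebraMap L N y) ↔
      W.valuation x = W.valuation y := fun x y => by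
    have h := ext_comap_eq W' (algebraMap L N) (x := x) (y := y)
    rw [hW'] at h
    exact h.symm
  have hℓN : W'.valuation (ℓ : N) = 1 := by
    have h := hval (ℓ : L) 1
    rw [map_natCast, map_one, map_one, map_one] at h
    exact h.2 hℓ
  have hclaim : ¬ ℓ ^ ((Nat.card ZH).factorization ℓ + 1) ∣ Nat.card Z := by
    refine ext_claim hζ W' hℓN hres H ?_ (hTle.trans inf_le_right) (hTle.trans inf_le_left)
      hTc hTsyl
    intro x hx0 hx
    obtain ⟨y, rfl⟩ := hHL x hx
    obtain ⟨m, hm, c, hc⟩ := hram y (by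
      rintro rfl
      exact hx0 (map_zero _))
    refine ⟨m, hm, c, ?_⟩
    rw [← map_pow] at hc ⊢
    rw [hFL, ← map_pow, hval]
    exact hc
  -- the conjugating elements
  have hex : ∀ i, extStab G (Q1 i) ≤ Z → ∃ z ∈ Z, ∀ x : L, x ≠ 0 → ∃ m : ℕ, ¬ ℓ ∣ m ∧ ∃ c : F,
      (Q1 i).valuation (z • algebraMap L N x) ^ m = (Q1 i).valuation (algebraMap F N c) := by
    intro i hi
    let S0 : Sylow ℓ (extStab G (Q1 i)) := default
    set S : Subgroup G := (S0 : Subgroup (extStab G (Q1 i))).map (extStab G (Q1 i)).subtype with hS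
    have hSle : S ≤ extStab G (Q1 i) := Subgroup.map_subtype_le _
    have hSc : Nat.card S = ℓ ^ (Nat.card (extStab G (Q1 i))).factorization ℓ := by
      rw [hS, Nat.card_congr (Subgroup.equivMapOfInjective
        (S0 : Subgroup (extStab G (Q1 i))) (extStab G (Q1 i)).subtype
        (extStab G (Q1 i)).subtype_injective).symm.toEquiv]
      exact S0.card_eq_multiplicity
    obtain ⟨z, hzZ, hz⟩ := ext_sylow_conj (hTle.trans inf_le_left) hTc hclaim
      (hSle.trans hi) hSc
    refine ⟨z, hzZ, fun x hx => ?_⟩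
    have hx0 : z • algebraMap L N x ≠ 0 := by
      rw [smul_ne_zero_iff_ne, Ne, map_eq_zero]
      exact hx
    have hxS : ∀ s ∈ S, s • (z • algebraMap L N x) = z • algebraMap L N x := by
      intro s hs
      have h1 : z⁻¹ * s * z ∈ H := (hTle (hz s hs)).2
      have h2 : (z⁻¹ * s * z) • algebraMap L N x = algebraMap L N x := h1 x
      have h3 : s • (z • algebraMap L N x) = z • ((z⁻¹ * s * z) • algebraMap L N x) := by
        rw [← mul_smul, ← mul_smul]
        congr 1
        group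
      rw [h3, h2]
    obtain ⟨m, c, hm, hc0, hcG, hv⟩ := ext_newton (Γ := G) (Q1 i) hSle hx0 hxS
    refine ⟨m, ?_, ?_⟩
    · rintro ⟨q, rfl⟩
      refine Nat.pow_succ_factorization_not_dvd
        (Nat.card_pos (α := extStab G (Q1 i))).ne' hℓp ?_
      rw [hSc] at hm
      refine ⟨q, hm.symm.trans ?_⟩
      rw [pow_succ]
      ring
    · obtain ⟨f, rfl⟩ := hfix c hcG
      exact ⟨f, hv⟩
  choose z hzZ hz using hex
  set z' : I → G := fun i => if h : extStab G (Q1 i) ≤ Z then z i h else 1 with hz'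
  have hz'Z : ∀ i, z' i ∈ Z := by
    intro i
    rw [hz']
    simp only
    split_ifs with h
    · exact hzZ i h
    · exact Z.one_mem
  obtain ⟨z0, hz0⟩ := ext_const U z'
  have hz0Z : z0 ∈ Z := by
    obtain ⟨i, hi⟩ := hz0.exists
    rw [← hi]
    exact hz'Z i
  set Q2 : I → ValuationSubring N := fun i =>
    (Q1 i).comap (MulSemiringAction.toRingHom G N (z' i)) with hQ2
  refine ⟨fun i => (Q2 i).comap (algebraMap L N), fun i => ?_, fun x => ?_, ?_⟩
  · ext c
    rw [ValuationSubring.mem_comap, ValuationSubring.mem_comap, hQ2]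
    simp only
    rw [ValuationSubring.mem_comap, MulSemiringAction.toRingHom_apply, ← hFL,
      AlgEquiv.smul_def, AlgEquiv.commutes, hQ1F]
  · have h1 : x ∈ W ↔ algebraMap L N x ∈ W' := by rw [← ValuationSubring.mem_comap, hW']
    rw [h1, ← hz0Z (algebraMap L N x), hQ1W]
    refine Filter.eventually_congr ?_
    filter_upwards [hz0] with i hi
    rw [ValuationSubring.mem_comap, hQ2]
    simp only
    rw [ValuationSubring.mem_comap, MulSemiringAction.toRingHom_apply, hi]
    exact Iff.rfl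
  · filter_upwards [hZi] with i hi x hx
    obtain ⟨m, hm, c, hc⟩ := hz i hi x hx
    refine ⟨m, hm, c, ?_⟩
    rw [← map_pow, ext_comap_eq, map_pow, ← hFL, ← map_pow, hQ2]
    simp only
    rw [ext_comap_eq, MulSemiringAction.toRingHom_apply, MulSemiringAction.toRingHom_apply]
    have h1 : z' i = z i hi := by
      rw [hz']
      simp only
      rw [dif_pos hi]
    rw [h1, map_pow (algebraMap L N), smul_pow', map_pow, hc, AlgEquiv.smul_def,
      AlgEquiv.commutes]

/-- Algebra form, for every finite separable extension. -/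
theorem ext_val_alg {F L : Type*} [Field F] [Field L] [Algebra F L] [FiniteDimensional F L]
    [Algebra.IsSeparable F L] {ℓ : ℕ} [Fact ℓ.Prime] {ζ : F} (hζ : IsPrimitiveRoot ζ ℓ)
    {I : Type*} (U : Ultrafilter I) (O : I → ValuationSubring F) (W : ValuationSubring L)
    (hlim : ∀ x : F, algebraMap F L x ∈ W ↔ ∀ᶠ i in (U : Filter I), x ∈ O i)
    (hac : IsAlgClosed (IsLocalRing.ResidueField (W.comap (algebraMap F L))))
    (hℓ : W.valuation (ℓ : L) = 1)
    (hram : ∀ x : L, x ≠ 0 → ∃ m : ℕ, ¬ ℓ ∣ m ∧ ∃ c : F,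
      W.valuation x ^ m = W.valuation (algebraMap F L c)) :
    ∃ Q : I → ValuationSubring L, (∀ i, (Q i).comap (algebraMap F L) = O i) ∧
      (∀ x : L, x ∈ W ↔ ∀ᶠ i in (U : Filter I), x ∈ Q i) ∧
      ∀ᶠ i in (U : Filter I), ∀ x : L, x ≠ 0 → ∃ m : ℕ, ¬ ℓ ∣ m ∧ ∃ c : F,
        (Q i).valuation x ^ m = (Q i).valuation (algebraMap F L c) := by
  let Ω := SeparableClosure F
  let φ : L →ₐ[F] Ω := IsSepClosed.lift
  let _ : Algebra L Ω := φ.toRingHom.toAlgebra
  have _ : IsScalarTower F L Ω := IsScalarTower.of_algebraMap_eq fun x => (φ.commutes x).symm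
  exact ext_val_gal (N := IntermediateField.normalClosure F L Ω) hζ U O W hlim hac hℓ hram

/-- **Subfield form.** -/
theorem ext_val (ℓ : ℕ) [Fact ℓ.Prime] {L : Type*} [Field L] (M : Subfield L)
    [FiniteDimensional M L] [Algebra.IsSeparable M L] (hz : ∃ ζ : M, IsPrimitiveRoot ζ ℓ)
    {I : Type*} (U : Ultrafilter I) (O : I → ValuationSubring M) (W : ValuationSubring L)
    (hlim : ∀ x : M, (x : L) ∈ W ↔ ∀ᶠ i in (U : Filter I), x ∈ O i)
    (hac : IsAlgClosed (IsLocalRing.ResidueField (W.comap M.subtype)))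
    (hℓ : W.valuation (ℓ : L) = 1)
    (hram : ∀ x : L, x ≠ 0 → ∃ m : ℕ, ¬ ℓ ∣ m ∧ ∃ y : M,
      W.valuation (x ^ m) = W.valuation (y : L)) :
    ∃ Q : I → ValuationSubring L, (∀ i, (Q i).comap M.subtype = O i) ∧
      (∀ x : L, x ∈ W ↔ ∀ᶠ i in (U : Filter I), x ∈ Q i) ∧
      ∀ᶠ i in (U : Filter I), ∀ x : L, x ≠ 0 → ∃ m : ℕ, ¬ ℓ ∣ m ∧ ∃ y : M,
        (Q i).valuation (x ^ m) = (Q i).valuation (y : L) := by
  obtain ⟨ζ, hζ⟩ := hz
  obtain ⟨Q, h1, h2, h3⟩ := ext_val_alg (F := M) (L := L) hζ U O W hlim hac hℓ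
    fun x hx => by
      obtain ⟨m, hm, y, hy⟩ := hram x hx
      exact ⟨m, hm, y, by rw [← map_pow]; exact hy⟩
  refine ⟨Q, h1, h2, ?_⟩
  filter_upwards [h3] with i hi x hx
  obtain ⟨m, hm, y, hy⟩ := hi x hx
  exact ⟨m, hm, y, by rw [map_pow]; exact hy⟩

end Main

end Vale.Agent.P019R
end
end

section

section

/-!
# Rational functions in an ultraproduct
-/

namespace Vale.Agent.P019P

open Vale.Agent.P019

set_option linter.style.haveILetI false
set_option linter.unusedSectionVars false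

open Polynomial Filter

section drat

attribute [local irreducible] DGm.field

variable {I : Type*} {U : Ultrafilter I} {κ : I → Type*} [∀ i, Field (κ i)]

/-- lifts of polynomials. -/
theorem exists_dlift_coeff {E : ∀ i, Subfield (κ i)} (A : (dSub U E)[X]) :
    ∃ α : ℕ → ∀ i, κ i, (∀ j, dgm U κ (α j) = ((A.coeff j : dSub U E) : DGm U κ)) ∧
      ∀ j i, α j i ∈ E i := by
  have h1 : ∀ j, ∃ f : ∀ i, κ i, dgm U κ f = ((A.coeff j : dSub U E) : DGm U κ) ∧ ∀ i, f i ∈ E i :=
    fun j => (A.coeff j).2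
  choose f hf hfE using h1
  exact ⟨f, hf, hfE⟩

/-- transcendence in the ultrapower. -/
theorem dgm_transc {E : ∀ i, Subfield (κ i)} {g : ∀ i, κ i} (hg : ∀ᶠ i in U, ¬ IsAlgebraic (E i) (g i)) :
    ¬ IsAlgebraic (dSub U E) (dgm U κ g) := by
  rintro ⟨A, hA0, hA⟩
  obtain ⟨α, hα, hαE⟩ := exists_dlift_coeff A
  obtain ⟨j, hj⟩ : ∃ j, A.coeff j ≠ 0 := by
    by_contra hcon
    push Not at hcon
    exact hA0 (Polynomial.ext fun j => by rw [hcon j, coeff_zero])
  have hjd : j ≤ A.natDegree := le_natDegree_of_ne_zero hj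
  have h1 : ∀ᶠ i in U, α j i ≠ 0 := by
    have h2 : dgm U κ (α j) ≠ 0 := by
      rw [hα]
      intro h
      exact hj (Subtype.ext h)
    rw [← map_zero (dgm U κ)] at h2
    exact dgm_ne.1 h2
  have h3 : ∀ᶠ i in U, ∑ j ∈ Finset.range (A.natDegree + 1), α j i * g i ^ j = 0 := by
    rw [← dgm_eq_zero, ← hA, aeval_eq_sum_le le_rfl, dgm_sum]
    refine Finset.sum_congr rfl fun j _ => ?_
    rw [dgm_mul, dgm_pow, hα]
  obtain ⟨i, hi1, hi2, hi3⟩ := (h1.and (h3.and hg)).exists
  refine hi3 ⟨mkPol (E i) A.natDegree (fun j => α j i) (fun j => hαE j i), ?_, ?_⟩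
  · intro h
    have h4 := congrArg (fun p => ((p.coeff j : E i) : κ i)) h
    simp only [coeff_zero] at h4
    rw [coeff_mkPol hjd] at h4
    exact hi1 h4
  · rw [aeval_mkPol]
    exact hi2

variable [∀ i, PerfectField (κ i)]

/-- rational functions are relatively algebraically closed in the ultraproduct. -/
theorem rat_dgm {E : ∀ i, Subfield (κ i)} {g : ∀ i, κ i}
    (hg : ∀ᶠ i in U, ¬ IsAlgebraic (E i) (g i)) {r : DGm U κ}
    (hr : r ∈ dSub U (fun i => adj (E i) (g i)))
    (halg : IsAlgebraic (adj (dSub U E) (dgm U κ g)) r) : r ∈ adj (dSub U E) (dgm U κ g) := by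
  classical
  have hgt : ¬ IsAlgebraic (dSub U E) (dgm U κ g) := dgm_transc hg
  by_cases hr0 : r = 0
  · rw [hr0]; exact Subfield.zero_mem _
  obtain ⟨f, rfl, hf⟩ := hr
  set F := adj (dSub U E) (dgm U κ g) with hF
  set F0 := Vale.Agent.P019.adj (dSub U E) (dgm U κ g) with hF0
  set r : DGm U κ := dgm U κ f with hrdef
  set m := minpoly F r with hm
  have hint : IsIntegral F r := halg.isIntegral
  have hsep : m.Separable := PerfectField.separable_of_irreducible (minpoly.irreducible hint)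
  set n := m.natDegree with hn
  -- common exponent
  have hN : ∃ N : ℕ, ∀ i ∈ Finset.range (n + 1),
      ((m.coeff i : F) : DGm U κ) ^ (ringExpChar (DGm U κ)) ^ N ∈ F0 := by
    have h1 : ∀ i, ∃ N : ℕ, ((m.coeff i : F) : DGm U κ) ^ (ringExpChar (DGm U κ)) ^ N ∈ F0 := by
      intro i
      exact mem_pf.1 (m.coeff i).2
    choose N hN using h1
    refine ⟨(Finset.range (n + 1)).sup N, fun i hi => ?_⟩
    obtain ⟨k, hk⟩ := Nat.exists_eq_add_of_le (Finset.le_sup (f := N) hi)
    rw [hk, pow_add, pow_mul]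
    exact Subfield.pow_mem _ (hN i) _
  obtain ⟨N, hN⟩ := hN
  let φ : DGm U κ →+* DGm U κ := iterateFrobenius (DGm U κ) (ringExpChar (DGm U κ)) N
  have hφ : ∀ z, φ z = z ^ (ringExpChar (DGm U κ)) ^ N := fun z => iterateFrobenius_def _ _ _
  let c : ℕ → DGm U κ := fun i => φ ((m.coeff i : F) : DGm U κ)
  have hcF : ∀ i ∈ Finset.range (n + 1), c i ∈ F0 := by
    intro i hi
    change φ _ ∈ F0
    rw [hφ]
    exact hN i hi
  set ρ := φ r with hρ
  have hsum0 : ∑ i ∈ Finset.range (n + 1), c i * ρ ^ i = 0 := by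
    have h1 : aeval r m = 0 := minpoly.aeval F r
    rw [aeval_eq_sum_le le_rfl] at h1
    have h2 := congrArg φ h1
    rw [map_sum, map_zero] at h2
    rw [← h2]
    refine Finset.sum_congr rfl fun i _ => ?_
    rw [map_mul, map_pow]
  have hsum1 : ∑ i ∈ Finset.range (n + 1), c i * ((i : DGm U κ) * ρ ^ (i - 1)) ≠ 0 := by
    have h1 : aeval r (derivative m) ≠ 0 := by
      intro h
      obtain ⟨a, b, hab⟩ := hsep
      have h2 := congrArg (aeval r) hab
      rw [map_add, map_mul, map_mul, minpoly.aeval, h, mul_zero, mul_zero, add_zero, map_one] at h2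
      exact zero_ne_one h2
    intro h2
    apply h1
    apply φ.injective
    rw [map_zero, ← h2]
    conv_lhs => rw [m.as_sum_range]
    rw [derivative_sum, map_sum, map_sum]
    refine Finset.sum_congr rfl fun i _ => ?_
    rw [derivative_monomial, aeval_monomial, map_mul, map_pow, map_mul, map_mul, map_natCast,
      map_natCast]
    change c i * _ * _ = _
    ring
  obtain ⟨D, hD0, hDA⟩ := common_den hgt c (Finset.range (n + 1)) hcF
  have hDg : aeval (dgm U κ g) D ≠ 0 := aeval_ne_of_transc hgt hD0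
  choose! A hA using hDA
  -- extend by zero
  have hcn : c n ≠ 0 := by
    change φ _ ≠ 0
    rw [hn, hm, coeff_natDegree, (minpoly.monic hint).leadingCoeff]
    rw [show (((1 : F) : F) : DGm U κ) = 1 from rfl, map_one]
    exact one_ne_zero
  have hc0 : c 0 ≠ 0 := by
    change φ _ ≠ 0
    rw [Ne, map_eq_zero]
    intro h
    exact minpoly.coeff_zero_ne_zero hint hr0 (Subtype.ext h)
  have hAne : ∀ i ∈ Finset.range (n + 1), c i ≠ 0 → A i ≠ 0 := by
    intro i hi hci h
    have h1 := hA i hi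
    rw [h, map_zero] at h1
    exact mul_ne_zero hDg hci h1.symm
  set H := (Finset.range (n + 1)).sup (fun i => (A i).natDegree) with hH
  have hAH : ∀ i ∈ Finset.range (n + 1), (A i).natDegree ≤ H := fun i hi =>
    Finset.le_sup (f := fun i => (A i).natDegree) hi
  have hlift : ∀ i, ∃ α : ℕ → ∀ i, κ i, (∀ j, dgm U κ (α j) = (((A i).coeff j : dSub U E) : DGm U κ)) ∧
      ∀ j ι, α j ι ∈ E ι := fun i => exists_dlift_coeff (A i)
  choose α hα hαE using hlift
  have hev : ∀ i ∈ Finset.range (n + 1), aeval (dgm U κ g) (A i) =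
      dgm U κ (fun ι => ∑ j ∈ Finset.range (H + 1), α i j ι * g ι ^ j) := by
    intro i hi
    rw [aeval_eq_sum_le (hAH i hi), dgm_sum]
    refine Finset.sum_congr rfl fun j _ => ?_
    rw [dgm_mul, dgm_pow, hα]
  have hρg : ρ = dgm U κ (fun ι => f ι ^ (ringExpChar (DGm U κ)) ^ N) := by
    rw [hρ, hφ, dgm_pow]
  have hne : ∀ i ∈ Finset.range (n + 1), A i ≠ 0 →
      ∀ᶠ ι in U, mkPol (E ι) H (fun j => α i j ι) (fun j => hαE i j ι) ≠ 0 := by
    intro i hi hAi
    obtain ⟨j, hj⟩ : ∃ j, (A i).coeff j ≠ 0 := by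
      by_contra hcon
      push Not at hcon
      exact hAi (Polynomial.ext fun j => by rw [hcon j, coeff_zero])
    have hjd : j ≤ H := (le_natDegree_of_ne_zero hj).trans (hAH i hi)
    have h1 : ∀ᶠ ι in U, α i j ι ≠ 0 := by
      have h2 : dgm U κ (α i j) ≠ 0 := by
        rw [hα]
        intro h
        exact hj (Subtype.ext h)
      rw [← map_zero (dgm U κ)] at h2
      exact dgm_ne.1 h2
    refine h1.mono fun ι hι h => hι ?_
    have h4 := congrArg (fun p => ((p.coeff j : E ι) : κ ι)) h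
    simp only [coeff_zero] at h4
    rw [coeff_mkPol hjd] at h4
    exact h4
  have e0 : ∀ᶠ ι in U, ∑ i ∈ Finset.range (n + 1),
      (∑ j ∈ Finset.range (H + 1), α i j ι * g ι ^ j) *
        (f ι ^ (ringExpChar (DGm U κ)) ^ N) ^ i = 0 := by
    rw [← dgm_eq_zero, dgm_sum]
    have h1 : ∑ i ∈ Finset.range (n + 1), dgm U κ (fun ι =>
        (∑ j ∈ Finset.range (H + 1), α i j ι * g ι ^ j) * (f ι ^ (ringExpChar (DGm U κ)) ^ N) ^ i) =
        aeval (dgm U κ g) D * ∑ i ∈ Finset.range (n + 1), c i * ρ ^ i := by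
      rw [Finset.mul_sum]
      refine Finset.sum_congr rfl fun i hi => ?_
      rw [dgm_mul, ← hev i hi, hA i hi, dgm_pow, ← hρg]
      ring
    rw [h1, hsum0, mul_zero]
  have e1 : ∀ᶠ ι in U, ∑ i ∈ Finset.range (n + 1),
      (∑ j ∈ Finset.range (H + 1), α i j ι * g ι ^ j) *
        ((i : κ ι) * (f ι ^ (ringExpChar (DGm U κ)) ^ N) ^ (i - 1)) ≠ 0 := by
    have h2 : dgm U κ (fun ι => ∑ i ∈ Finset.range (n + 1),
      (∑ j ∈ Finset.range (H + 1), α i j ι * g ι ^ j) *
        ((i : κ ι) * (f ι ^ (ringExpChar (DGm U κ)) ^ N) ^ (i - 1))) ≠ dgm U κ 0 := by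
      rw [map_zero, dgm_sum]
      have h1 : ∑ i ∈ Finset.range (n + 1), dgm U κ (fun ι =>
          (∑ j ∈ Finset.range (H + 1), α i j ι * g ι ^ j) *
            ((i : κ ι) * (f ι ^ (ringExpChar (DGm U κ)) ^ N) ^ (i - 1))) =
          aeval (dgm U κ g) D * ∑ i ∈ Finset.range (n + 1), c i * ((i : DGm U κ) * ρ ^ (i - 1)) := by
        rw [Finset.mul_sum]
        refine Finset.sum_congr rfl fun i hi => ?_
        rw [dgm_mul, ← hev i hi, hA i hi, dgm_mul, dgm_pow, ← hρg]
        have h3 : dgm U κ (fun ι => (i : κ ι)) = (i : DGm U κ) := map_natCast (dgm U κ) i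
        rw [h3]
        ring
      rw [h1]
      exact mul_ne_zero hDg hsum1
    exact dgm_ne.1 h2
  have h0n : (0 : ℕ) ∈ Finset.range (n + 1) := Finset.mem_range.2 (Nat.succ_pos n)
  have hnn : n ∈ Finset.range (n + 1) := Finset.mem_range.2 (Nat.lt_succ_self n)
  have hfin : ∀ᶠ ι in U, ∃ u v : (E ι)[X], u.natDegree ≤ H ∧ v.natDegree ≤ H ∧ v ≠ 0 ∧
      (f ι ^ (ringExpChar (DGm U κ)) ^ N) * aeval (g ι) v = aeval (g ι) u := by
    filter_upwards [hg, e0, e1, hne 0 h0n (hAne 0 h0n hc0), hne n hnn (hAne n hnn hcn)]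
      with ι h1 h2 h3 h4 h5
    refine rat_root h1 (Subfield.pow_mem _ (hf ι) _) (n := n)
      (fun i => mkPol (E ι) H (fun j => α i j ι) (fun j => hαE i j ι))
      (fun i => natDegree_mkPol) h4 h5 ?_ ?_
    · simp only [aeval_mkPol]
      exact h2
    · simp only [aeval_mkPol]
      exact h3
  have hex : ∀ ι, ∃ u v : (E ι)[X], ((∃ u v : (E ι)[X], u.natDegree ≤ H ∧ v.natDegree ≤ H ∧
      v ≠ 0 ∧ (f ι ^ (ringExpChar (DGm U κ)) ^ N) * aeval (g ι) v = aeval (g ι) u) →
      u.natDegree ≤ H ∧ v.natDegree ≤ H ∧ v ≠ 0 ∧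
      (f ι ^ (ringExpChar (DGm U κ)) ^ N) * aeval (g ι) v = aeval (g ι) u) := by
    intro ι
    by_cases h : ∃ u v : (E ι)[X], u.natDegree ≤ H ∧ v.natDegree ≤ H ∧
      v ≠ 0 ∧ (f ι ^ (ringExpChar (DGm U κ)) ^ N) * aeval (g ι) v = aeval (g ι) u
    · obtain ⟨u, v, huv⟩ := h
      exact ⟨u, v, fun _ => huv⟩
    · exact ⟨0, 0, fun h' => absurd h' h⟩
  choose u v huv using hex
  have hmem : ∀ w : (ι : I) → (E ι)[X],
      dgm U κ (fun ι => ∑ j ∈ Finset.range (H + 1), (((w ι).coeff j : E ι) : κ ι) * g ι ^ j) ∈ F0 := by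
    intro w
    rw [dgm_sum]
    refine sum_mem fun j _ => ?_
    rw [dgm_mul, dgm_pow]
    refine mul_mem (Vale.Agent.P019.le_adj _ _ ?_)
      (pow_mem (Vale.Agent.P019.mem_adj _ _) j)
    exact ⟨_, rfl, fun ι => ((w ι).coeff j).2⟩
  have hv0 : dgm U κ (fun ι => ∑ j ∈ Finset.range (H + 1), (((v ι).coeff j : E ι) : κ ι) * g ι ^ j) ≠
      dgm U κ 0 := by
    rw [dgm_ne]
    filter_upwards [hfin, hg] with ι h1 h2
    obtain ⟨-, h3, h4, -⟩ := huv ι h1
    rw [← aeval_eq_sum_le h3]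
    exact aeval_ne_of_transc h2 h4
  rw [map_zero] at hv0
  have hρv : ρ * dgm U κ (fun ι => ∑ j ∈ Finset.range (H + 1), (((v ι).coeff j : E ι) : κ ι) * g ι ^ j) =
      dgm U κ (fun ι => ∑ j ∈ Finset.range (H + 1), (((u ι).coeff j : E ι) : κ ι) * g ι ^ j) := by
    rw [hρg, ← dgm_mul, dgm_eq]
    filter_upwards [hfin] with ι h1
    obtain ⟨h5, h3, h4, h6⟩ := huv ι h1
    rw [← aeval_eq_sum_le h3, ← aeval_eq_sum_le h5]
    exact h6
  have hρF : ρ ∈ F0 := by
    rw [← eq_div_iff hv0] at hρv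
    rw [hρv]
    exact Subfield.div_mem _ (hmem u) (hmem v)
  rw [hρ, hφ] at hρF
  exact mem_pf.2 ⟨N, hρF⟩

/-- the characteristic exponents of almost all factors. -/
theorem dgm_expChar : ∀ᶠ i in (U : Filter I), ringExpChar (DGm U κ) = 1 ∨
    ringExpChar (κ i) = ringExpChar (DGm U κ) := by
  obtain ⟨p, hp⟩ := ExpChar.exists (DGm U κ)
  rw [ringExpChar.eq (DGm U κ) p]
  cases hp with
  | zero => exact Eventually.of_forall fun i => Or.inl rfl
  | prime hp' =>
    haveI : Fact p.Prime := ⟨hp'⟩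
    refine (dgm_char (U := U) (κ := κ) (p := p)).mono fun i hi => Or.inr ?_
    haveI := hi
    haveI : ExpChar (κ i) p := ExpChar.prime hp'
    exact ringExpChar.eq (κ i) p

/-- simple extensions of ultraproducts. -/
theorem adj_le_dSub {E : ∀ i, Subfield (κ i)} {g : ∀ i, κ i} :
    adj (dSub U E) (dgm U κ g) ≤ dSub U (fun i => adj (E i) (g i)) := by
  have h0 : Vale.Agent.P019.adj (dSub U E) (dgm U κ g) ≤
      dSub U (fun i => Vale.Agent.P019.adj (E i) (g i)) := by
    refine sup_le (dSub_mono fun i => Vale.Agent.P019.le_adj _ _) ?_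
    rw [Subfield.closure_le]
    rintro _ rfl
    exact dgm_mem_dSub.2 (Eventually.of_forall fun i => Vale.Agent.P019.mem_adj _ _)
  intro z hz
  obtain ⟨n, hn⟩ := mem_pf.1 hz
  obtain ⟨f, rfl⟩ := dgm_surj U κ z
  have h1 := h0 hn
  rw [← dgm_pow, dgm_mem_dSub] at h1
  rw [dgm_mem_dSub]
  filter_upwards [h1, dgm_expChar (U := U) (κ := κ)] with i hi hq
  rcases hq with hq | hq
  · rw [hq, one_pow, pow_one] at hi
    exact adj0_le_adj _ _ hi
  · rw [← hq] at hi
    exact mem_pf.2 ⟨n, hi⟩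

/-- limits of bounded relations. -/
theorem dgm_alg_of_brel {E : ∀ i, Subfield (κ i)} (hE : ∀ i, IsAlgClosed (E i))
    {X Y : ∀ i, κ i} (hX : dgm U κ X ∉ dSub U E) {d : ℕ}
    (h : ∀ᶠ i in (U : Filter I), BRel (E i) d (X i) (Y i)) :
    IsAlgebraic (adj (dSub U E) (dgm U κ X)) (dgm U κ Y) := by
  classical
  have h1 : ∀ i, ∃ c : ℕ → ℕ → κ i, (∀ a b, c a b ∈ E i) ∧ (BRel (E i) d (X i) (Y i) →
      (∃ a ∈ Finset.range (d + 1), ∃ b ∈ Finset.range (d + 1), c a b ≠ 0) ∧
      ∑ a ∈ Finset.range (d + 1), ∑ b ∈ Finset.range (d + 1), c a b * X i ^ a * Y i ^ b = 0) := by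
    intro i
    by_cases hi : BRel (E i) d (X i) (Y i)
    · obtain ⟨c, hc, hc0, hcs⟩ := hi
      exact ⟨c, hc, fun _ => ⟨hc0, hcs⟩⟩
    · exact ⟨fun _ _ => 0, fun _ _ => (E i).zero_mem, fun h' => absurd h' hi⟩
  choose c hc hcr using h1
  have hcu : ∀ a b, dgm U κ (fun i => c i a b) ∈ dSub U E :=
    fun a b => ⟨fun i => c i a b, rfl, fun i => hc i a b⟩
  refine brel_alg (RAC_of_isAlgClosed _ (isAlgClosed_dSub hE)) hX (d := d)
    (c := fun a b => dgm U κ (fun i => c i a b)) hcu ?_ ?_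
  · have h3 : ∃ a ∈ Finset.range (d + 1), ∃ b ∈ Finset.range (d + 1),
        ∀ᶠ i in (U : Filter I), c i a b ≠ 0 := by
      by_contra hcon
      push Not at hcon
      have h4 : ∀ᶠ i in (U : Filter I), ∀ a ∈ Finset.range (d + 1),
          ∀ b ∈ Finset.range (d + 1), c i a b = 0 := by
        rw [Filter.eventually_all_finset]
        intro a ha
        rw [Filter.eventually_all_finset]
        intro b hb
        exact hcon a ha b hb
      obtain ⟨i, hi, hb⟩ := (h4.and h).exists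
      obtain ⟨⟨a, ha, b, hb, hab⟩, -⟩ := hcr i hb
      exact hab (hi a ha b hb)
    obtain ⟨a, ha, b, hb, hab⟩ := h3
    exact ⟨a, ha, b, hb, dgm_ne_zero.2 hab⟩
  · have h5 : dgm U κ (fun i => ∑ a ∈ Finset.range (d + 1), ∑ b ∈ Finset.range (d + 1),
        c i a b * X i ^ a * Y i ^ b) = 0 := by
      rw [dgm_eq_zero]
      exact h.mono fun i hi => (hcr i hi).2
    rw [← h5, dgm_sum]
    refine Finset.sum_congr rfl fun a _ => ?_
    rw [dgm_sum]
    refine Finset.sum_congr rfl fun b _ => ?_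
    rw [dgm_mul, dgm_mul, dgm_pow, dgm_pow]

/-- the degree of elements of the limit. -/
theorem dgm_deg_le {E : ∀ i, Subfield (κ i)} (hE : ∀ i, IsAlgClosed (E i)) {g : ∀ i, κ i}
    (hg : dgm U κ g ∉ dSub U E) {d : ℕ}
    (hd : ∀ᶠ i in (U : Filter I), Module.Finite (adj (E i) (g i)) (κ i) ∧
      Module.finrank (adj (E i) (g i)) (κ i) ≤ d) {w : DGm U κ}
    (halg : IsAlgebraic (adj (dSub U E) (dgm U κ g)) w) :
    (minpoly (adj (dSub U E) (dgm U κ g)) w).natDegree ≤ d := by
  classical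
  have hgt : ∀ᶠ i in (U : Filter I), ¬ IsAlgebraic (E i) (g i) := by
    rw [dgm_mem_dSub, ← Ultrafilter.eventually_not] at hg
    exact hg.mono fun i hi h => hi (RAC_of_isAlgClosed _ (hE i) _ h)
  refine (ul1_natDegree adj_le_dSub (fun z hz h => rat_dgm hgt hz h) halg).trans ?_
  obtain ⟨v, rfl⟩ := dgm_surj U κ w
  set R := dSub U (fun i => adj (E i) (g i)) with hR
  have h1 : ∀ i, ∃ a : ℕ → κ i, (∀ j, a j ∈ adj (E i) (g i)) ∧ a d = 1 ∧
      ((Module.Finite (adj (E i) (g i)) (κ i) ∧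
      Module.finrank (adj (E i) (g i)) (κ i) ≤ d) →
      ∑ j ∈ Finset.range (d + 1), a j * v i ^ j = 0) := by
    intro i
    by_cases hc : Module.Finite (adj (E i) (g i)) (κ i) ∧
      Module.finrank (adj (E i) (g i)) (κ i) ≤ d
    · obtain ⟨hfin, hrank⟩ := hc
      set m := minpoly (adj (E i) (g i)) (v i) with hm
      have hint : IsIntegral (adj (E i) (g i)) (v i) := IsIntegral.of_finite _ _
      have hmd : m.natDegree ≤ d := (minpoly.natDegree_le _).trans hrank
      have hmm : m.Monic := minpoly.monic hint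
      set p := m * Polynomial.X ^ (d - m.natDegree) with hp
      have hpm : p.Monic := hmm.mul (monic_X_pow _)
      have hpd : p.natDegree = d := by
        rw [hp, hmm.natDegree_mul (monic_X_pow _), natDegree_X_pow]
        omega
      have hp0 : aeval (v i) p = 0 := by
        rw [hp, map_mul, hm, minpoly.aeval, zero_mul]
      refine ⟨fun j => ((p.coeff j : adj (E i) (g i)) : κ i), fun j => (p.coeff j).2, ?_,
        fun _ => ?_⟩
      · have h3 : p.coeff d = 1 := by
          rw [← hpd]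
          exact hpm.coeff_natDegree
        change ((p.coeff d : adj (E i) (g i)) : κ i) = 1
        rw [h3]
        rfl
      · rw [← hp0, aeval_eq_sum_range' (n := d + 1) (by omega)]
        refine Finset.sum_congr rfl fun j _ => ?_
        rw [Algebra.smul_def]
        rfl
    · exact ⟨fun _ => 1, fun _ => Subfield.one_mem _, rfl, fun h' => absurd h' hc⟩
  choose a ha had hav using h1
  have hau : ∀ j, dgm U κ (fun i => a i j) ∈ R := fun j =>
    ⟨fun i => a i j, rfl, fun i => ha i j⟩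
  refine (apd_minpoly (E := R) (n := d) (a := fun j => ⟨dgm U κ (fun i => a i j), hau j⟩)
    ?_ ?_).2
  · refine ⟨d, Finset.mem_range.2 (Nat.lt_succ_self d), fun h0 => ?_⟩
    have h3 : dgm U κ (fun i => a i d) = 0 := congrArg Subtype.val h0
    rw [dgm_eq_zero] at h3
    obtain ⟨i, hi⟩ := h3.exists
    rw [had] at hi
    exact one_ne_zero hi
  · change ∑ j ∈ Finset.range (d + 1), dgm U κ (fun i => a i j) * dgm U κ v ^ j = 0
    have h3 : dgm U κ (fun i => ∑ j ∈ Finset.range (d + 1), a i j * v i ^ j) = 0 :=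
      dgm_eq_zero.2 (hd.mono fun i hi => hav i hi)
    rw [← h3, dgm_sum]
    refine Finset.sum_congr rfl fun j _ => ?_
    rw [dgm_mul, dgm_pow]

end drat

end Vale.Agent.P019P
end
end

section

section

/-!
# Abhyankar valuations: rational extensions
-/

namespace Vale.Agent.P019P

open Vale.Agent.P019

set_option linter.style.haveILetI false
set_option linter.unusedSectionVars false

open Polynomial Filter

section ab

variable {F : Type*} [Field F] {O : ValuationSubring F}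

theorem rs_mem_kap {E : Subfield F} {e : F} (he : e ∈ E) (heO : e ∈ O) : rs O e ∈ rbar E O :=
  rs_mem_rbar he heO

theorem kap_mono {E E' : Subfield F} (h : E ≤ E') : rbar E O ≤ rbar E' O := rbar_mono h O

theorem ab_sum_mem {ι : Type*} (s : Finset ι) (f : ι → F) (hf : ∀ i ∈ s, f i ∈ O) :
    ∑ i ∈ s, f i ∈ O ∧ rs O (∑ i ∈ s, f i) = ∑ i ∈ s, rs O (f i) := by
  classical
  induction s using Finset.induction_on with
  | empty => simp [rs_zero, zero_mem]
  | insert i s hi ih =>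
    have h1 := ih fun j hj => hf j (Finset.mem_insert_of_mem hj)
    have h2 := hf i (Finset.mem_insert_self i s)
    rw [Finset.sum_insert hi, Finset.sum_insert hi]
    exact ⟨add_mem h2 h1.1, by rw [rs_add h2 h1.1, h1.2]⟩

/-- Gauss valuations of polynomials. -/
theorem ab_gauss_poly {E : Subfield F} {y : F} (hy : y ∈ O)
    (htr : ¬ IsAlgebraic (rbar E O) (rs O y)) (P : E[X]) (hP : P ≠ 0) :
    ∃ c ∈ E, c ≠ 0 ∧ O.valuation (aeval y P * c) = 1 ∧
      rs O (aeval y P * c) ∈ Vale.Agent.P019.adj (rbar E O) (rs O y) := by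
  classical
  obtain ⟨j, hj, hjmax⟩ := P.support.exists_max_image
    (fun i => O.valuation ((P.coeff i : E) : F)) (Polynomial.nonempty_support_iff.2 hP)
  have hj0 : P.coeff j ≠ 0 := mem_support_iff.1 hj
  have hj0' : ((P.coeff j : E) : F) ≠ 0 := fun h => hj0 (Subtype.ext h)
  have hvj : O.valuation ((P.coeff j : E) : F) ≠ 0 := (Valuation.ne_zero_iff _).2 hj0'
  set c : F := ((P.coeff j : E) : F)⁻¹ with hc
  have hcE : c ∈ E := inv_mem (P.coeff j).2
  have hcoef : ∀ i, ((P.coeff i : E) : F) * c ∈ O := by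
    intro i
    by_cases hi : P.coeff i = 0
    · rw [hi]
      simp [zero_mem]
    · have h1 := hjmax i (mem_support_iff.2 hi)
      rw [← O.valuation_le_one_iff, map_mul, hc, map_inv₀, ← div_eq_mul_inv]
      exact div_le_one_of_le₀ h1 zero_le
  have heq : aeval y P * c = ∑ i ∈ Finset.range (P.natDegree + 1),
      (((P.coeff i : E) : F) * c) * y ^ i := by
    rw [aeval_eq_sum_range, Finset.sum_mul]
    refine Finset.sum_congr rfl fun i _ => ?_
    rw [Algebra.smul_def]
    change ((P.coeff i : E) : F) * y ^ i * c = _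
    ring
  have hmem : ∀ i ∈ Finset.range (P.natDegree + 1),
      (((P.coeff i : E) : F) * c) * y ^ i ∈ O := fun i _ => mul_mem (hcoef i) (pow_mem hy i)
  obtain ⟨h1, h2⟩ := ab_sum_mem _ _ hmem
  rw [← heq] at h1 h2
  have hk : ∀ i, rs O (((P.coeff i : E) : F) * c) ∈ rbar E O := fun i =>
    rs_mem_kap (mul_mem (P.coeff i).2 hcE) (hcoef i)
  let G : (rbar E O)[X] := ∑ i ∈ Finset.range (P.natDegree + 1), monomial i
    (⟨rs O (((P.coeff i : E) : F) * c), hk i⟩ : rbar E O)
  have hG : aeval (rs O y) G = rs O (aeval y P * c) := by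
    rw [h2, map_sum]
    refine Finset.sum_congr rfl fun i _ => ?_
    rw [aeval_monomial, rs_mul (hcoef i) (pow_mem hy i), rs_pow hy]
    rfl
  have hjr : j ∈ Finset.range (P.natDegree + 1) :=
    Finset.mem_range.2 (Nat.lt_succ_of_le (le_natDegree_of_mem_supp j hj))
  have hGc : G.coeff j = ⟨rs O (((P.coeff j : E) : F) * c), hk j⟩ := by
    simp only [G, finsetSum_coeff, coeff_monomial]
    rw [Finset.sum_ite_eq' (Finset.range (P.natDegree + 1)) j
      (fun i => (⟨rs O (((P.coeff i : E) : F) * c), hk i⟩ : rbar E O)), if_pos hjr]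
  have hG0 : G ≠ 0 := by
    intro h0
    rw [h0, coeff_zero] at hGc
    have h3 := congrArg Subtype.val hGc
    change (0 : IsLocalRing.ResidueField O) = rs O (((P.coeff j : E) : F) * c) at h3
    rw [hc, mul_inv_cancel₀ hj0', rs_one] at h3
    exact zero_ne_one h3
  have h4 : rs O (aeval y P * c) ≠ 0 := by
    rw [← hG]
    intro h0
    exact htr ⟨G, hG0, h0⟩
  refine ⟨c, hcE, inv_ne_zero hj0', (rs_ne_zero h1).1 h4, ?_⟩
  rw [h2]
  refine sum_mem fun i _ => ?_
  rw [rs_mul (hcoef i) (pow_mem hy i), rs_pow hy]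
  exact mul_mem (Vale.Agent.P019.le_adj _ _ (hk i))
    (pow_mem (Vale.Agent.P019.mem_adj _ _) i)

/-- Gauss valuations. -/
theorem ab_gauss {E : Subfield F} {y : F} (hy : y ∈ O)
    (htr : ¬ IsAlgebraic (rbar E O) (rs O y)) {z : F} (hz : z ∈ Vale.Agent.P019.adj E y)
    (hz0 : z ≠ 0) :
    ∃ c ∈ E, c ≠ 0 ∧ O.valuation (z * c) = 1 ∧
      rs O (z * c) ∈ Vale.Agent.P019.adj (rbar E O) (rs O y) := by
  obtain ⟨P, Q, hPQ⟩ := (IntermediateField.mem_adjoin_simple_iff _ _).1 (mem_adjoin_simple.2 hz)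
  have hQy : aeval y Q ≠ 0 := by
    intro h
    rw [h, div_zero] at hPQ
    exact hz0 hPQ
  have hPy : aeval y P ≠ 0 := by
    intro h
    rw [h, zero_div] at hPQ
    exact hz0 hPQ
  have hQ0 : Q ≠ 0 := by
    rintro rfl
    exact hQy (map_zero _)
  have hP0 : P ≠ 0 := by
    rintro rfl
    exact hPy (map_zero _)
  obtain ⟨a, ha, ha0, hav, har⟩ := ab_gauss_poly hy htr P hP0
  obtain ⟨b, hb, hb0, hbv, hbr⟩ := ab_gauss_poly hy htr Q hQ0
  have h1 : z * (a / b) = (aeval y P * a) * (aeval y Q * b)⁻¹ := by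
    rw [hPQ]
    field_simp
  have h2 : O.valuation (aeval y Q * b)⁻¹ = 1 := by rw [map_inv₀, hbv, inv_one]
  refine ⟨a / b, div_mem ha hb, div_ne_zero ha0 hb0, ?_, ?_⟩
  · rw [h1, map_mul, hav, h2, one_mul]
  · rw [h1, rs_mul (mem_of_val hav) (mem_of_val h2), rs_inv hbv]
    exact mul_mem har (inv_mem hbr)

/-- monomial valuations of polynomials. -/
theorem ab_mono_poly {E : Subfield F} {x : F} (hx0 : x ≠ 0)
    (hx : ∀ c ∈ E, c ≠ 0 → ∀ n : ℕ, 0 < n → O.valuation (c * x ^ n) ≠ 1) (P : E[X])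
    (hP : P ≠ 0) :
    ∃ c ∈ E, c ≠ 0 ∧ ∃ n : ℕ, aeval x P ≠ 0 ∧ O.valuation (aeval x P / (c * x ^ n) - 1) < 1 := by
  classical
  have hx0' : O.valuation x ≠ 0 := (Valuation.ne_zero_iff _).2 hx0
  have hsum : aeval x P = ∑ i ∈ P.support, ((P.coeff i : E) : F) * x ^ i := by
    rw [aeval_eq_sum_range, ← Finset.sum_subset (s₁ := P.support)]
    · refine Finset.sum_congr rfl fun i _ => ?_
      rw [Algebra.smul_def]
      rfl
    · intro i hi
      exact Finset.mem_range.2 (Nat.lt_succ_of_le (le_natDegree_of_mem_supp i hi))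
    · intro i _ hi
      rw [notMem_support_iff.1 hi, zero_smul]
  obtain ⟨j, hj, hjmax⟩ := P.support.exists_max_image
    (fun i => O.valuation (((P.coeff i : E) : F) * x ^ i)) (Polynomial.nonempty_support_iff.2 hP)
  have hne : ∀ i ∈ P.support, ((P.coeff i : E) : F) ≠ 0 := fun i hi h =>
    mem_support_iff.1 hi (Subtype.ext h)
  have hmono : ∀ i k : ℕ, i ∈ P.support → k ∈ P.support → i < k →
      O.valuation (((P.coeff i : E) : F) * x ^ i) ≠ O.valuation (((P.coeff k : E) : F) * x ^ k) := by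
    intro i k hi hk hik h
    have h1 : O.valuation (((P.coeff k : E) : F) / ((P.coeff i : E) : F) * x ^ (k - i)) = 1 := by
      have h2 : ((P.coeff k : E) : F) / ((P.coeff i : E) : F) * x ^ (k - i) =
          (((P.coeff k : E) : F) * x ^ k) / (((P.coeff i : E) : F) * x ^ i) := by
        have h3 : x ^ k = x ^ (k - i) * x ^ i := by
          rw [← pow_add, Nat.sub_add_cancel hik.le]
        have h4 := hne i hi
        rw [h3]
        field_simp
      rw [h2, map_div₀, ← h, div_self]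
      exact (Valuation.ne_zero_iff _).2 (mul_ne_zero (hne i hi) (pow_ne_zero _ hx0))
    exact hx _ (div_mem (P.coeff k).2 (P.coeff i).2) (div_ne_zero (hne k hk) (hne i hi)) _
      (Nat.sub_pos_of_lt hik) h1
  have hlt : ∀ i ∈ P.support.erase j, O.valuation (((P.coeff i : E) : F) * x ^ i) <
      O.valuation (((P.coeff j : E) : F) * x ^ j) := by
    intro i hi
    rw [Finset.mem_erase] at hi
    refine lt_of_le_of_ne (hjmax i hi.2) ?_
    rcases lt_or_gt_of_ne hi.1 with h | h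
    · exact hmono i j hi.2 hj h
    · exact fun h' => hmono j i hj hi.2 h h'.symm
  have hcj := hne j hj
  have hcx : ((P.coeff j : E) : F) * x ^ j ≠ 0 := mul_ne_zero hcj (pow_ne_zero _ hx0)
  have hvcx : O.valuation (((P.coeff j : E) : F) * x ^ j) ≠ 0 := (Valuation.ne_zero_iff _).2 hcx
  have h1 := Valuation.map_sum_lt O.valuation hvcx hlt
  have h2 : aeval x P / (((P.coeff j : E) : F) * x ^ j) - 1 =
      (∑ i ∈ P.support.erase j, ((P.coeff i : E) : F) * x ^ i) /
        (((P.coeff j : E) : F) * x ^ j) := by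
    rw [hsum, ← Finset.add_sum_erase _ _ hj, add_div, div_self hcx, add_sub_cancel_left]
  have h3 : O.valuation (aeval x P / (((P.coeff j : E) : F) * x ^ j) - 1) < 1 := by
    rw [h2, map_div₀]
    exact (div_lt_one₀ (zero_lt_iff.2 hvcx)).2 h1
  refine ⟨((P.coeff j : E) : F), (P.coeff j).2, hcj, j, ?_, h3⟩
  intro h0
  rw [h0, zero_div, zero_sub, Valuation.map_neg, map_one] at h3
  exact lt_irrefl _ h3

theorem ab_sub_one {u : F} (h : O.valuation (u - 1) < 1) : O.valuation u = 1 ∧ rs O u = 1 := by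
  have h1 : O.valuation u = 1 := by
    have h2 : u = 1 + (u - 1) := by ring
    rw [h2]
    exact Valuation.map_one_add_of_lt _ h
  refine ⟨h1, ?_⟩
  rw [← rs_one (W := O), rs_eq (mem_of_val h1) (one_mem O)]
  exact h

/-- monomial valuations. -/
theorem ab_mono {E : Subfield F} {x : F} (hx0 : x ≠ 0)
    (hx : ∀ c ∈ E, c ≠ 0 → ∀ n : ℕ, 0 < n → O.valuation (c * x ^ n) ≠ 1) {z : F}
    (hz : z ∈ Vale.Agent.P019.adj E x) (hz0 : z ≠ 0) :
    ∃ c ∈ E, c ≠ 0 ∧ ∃ n : ℤ, O.valuation (z * c * x ^ n) = 1 ∧ rs O (z * c * x ^ n) = 1 := by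
  obtain ⟨P, Q, hPQ⟩ := (IntermediateField.mem_adjoin_simple_iff _ _).1 (mem_adjoin_simple.2 hz)
  have hQy : aeval x Q ≠ 0 := by
    intro h
    rw [h, div_zero] at hPQ
    exact hz0 hPQ
  have hPy : aeval x P ≠ 0 := by
    intro h
    rw [h, zero_div] at hPQ
    exact hz0 hPQ
  have hQ0 : Q ≠ 0 := by
    rintro rfl
    exact hQy (map_zero _)
  have hP0 : P ≠ 0 := by
    rintro rfl
    exact hPy (map_zero _)
  obtain ⟨a, ha, ha0, n, -, hav⟩ := ab_mono_poly hx0 hx P hP0
  obtain ⟨b, hb, hb0, m, -, hbv⟩ := ab_mono_poly hx0 hx Q hQ0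
  obtain ⟨h1, h2⟩ := ab_sub_one hav
  obtain ⟨h3, h4⟩ := ab_sub_one hbv
  have h5 : z * (b / a) * x ^ ((m : ℤ) - n) =
      (aeval x P / (a * x ^ n)) * (aeval x Q / (b * x ^ m))⁻¹ := by
    rw [hPQ, zpow_sub₀ hx0, zpow_natCast, zpow_natCast]
    have h6 := pow_ne_zero n hx0
    have h7 := pow_ne_zero m hx0
    field_simp
  have h6 : O.valuation (aeval x Q / (b * x ^ m))⁻¹ = 1 := by rw [map_inv₀, h3, inv_one]
  refine ⟨b / a, div_mem hb ha, div_ne_zero hb0 ha0, (m : ℤ) - n, ?_, ?_⟩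
  · rw [h5, map_mul, h1, h6, one_mul]
  · rw [h5, rs_mul (mem_of_val h1) (mem_of_val h6), rs_inv h3, h2, h4, inv_one, one_mul]

/-- the elements of `E` have the values of elements of `l`. -/
def AbV (O : ValuationSubring F) (l E : Subfield F) : Prop :=
  ∀ z ∈ E, z ≠ 0 → ∃ c ∈ l, c ≠ 0 ∧ O.valuation (z * c) = 1

theorem AbV.refl (l : Subfield F) : AbV O l l := fun z hz hz0 =>
  ⟨z⁻¹, inv_mem hz, inv_ne_zero hz0, by rw [mul_inv_cancel₀ hz0, map_one]⟩

theorem AbV.gauss {l E : Subfield F} (h : AbV O l E) {y : F} (hy : y ∈ O)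
    (htr : ¬ IsAlgebraic (rbar E O) (rs O y)) : AbV O l (Vale.Agent.P019.adj E y) := by
  intro z hz hz0
  obtain ⟨c, hc, hc0, hcv, -⟩ := ab_gauss hy htr hz hz0
  obtain ⟨d, hd, hd0, hdv⟩ := h c hc hc0
  refine ⟨d⁻¹, inv_mem hd, inv_ne_zero hd0, ?_⟩
  have h1 : z * d⁻¹ = (z * c) * (c * d)⁻¹ := by
    field_simp
  rw [h1, map_mul, hcv, map_inv₀, hdv, inv_one, one_mul]

theorem kap_gauss {E : Subfield F} {y : F} (hy : y ∈ O)
    (htr : ¬ IsAlgebraic (rbar E O) (rs O y)) :
    rbar (Vale.Agent.P019.adj E y) O = Vale.Agent.P019.adj (rbar E O) (rs O y) := by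
  apply le_antisymm
  · rintro _ ⟨z, hz, hzO, rfl⟩
    by_cases hz1 : rs O z = 0
    · rw [hz1]
      exact zero_mem _
    have hzv := (rs_ne_zero hzO).1 hz1
    have hz0 : z ≠ 0 := by
      rintro rfl
      exact hz1 rs_zero
    obtain ⟨c, hc, hc0, hcv, hcr⟩ := ab_gauss hy htr hz hz0
    have hc1 : O.valuation c = 1 := by rwa [map_mul, hzv, one_mul] at hcv
    rw [rs_mul hzO (mem_of_val hc1)] at hcr
    have h1 : rs O c ∈ Vale.Agent.P019.adj (rbar E O) (rs O y) :=
      Vale.Agent.P019.le_adj _ _ (rs_mem_kap hc (mem_of_val hc1))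
    have h2 : rs O c ≠ 0 := (rs_ne_zero (mem_of_val hc1)).2 hc1
    have h3 : rs O z = (rs O z * rs O c) * (rs O c)⁻¹ := by
      rw [mul_inv_cancel_right₀ h2]
    rw [h3]
    exact mul_mem hcr (inv_mem h1)
  · exact Vale.Agent.P019.adj_le (kap_mono (Vale.Agent.P019.le_adj _ _))
      (rs_mem_kap (Vale.Agent.P019.mem_adj _ _) hy)

theorem kap_mono_ext {E : Subfield F} {x : F} (hx0 : x ≠ 0)
    (hx : ∀ c ∈ E, c ≠ 0 → ∀ n : ℕ, 0 < n → O.valuation (c * x ^ n) ≠ 1) :
    rbar (Vale.Agent.P019.adj E x) O = rbar E O := by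
  apply le_antisymm
  · rintro _ ⟨z, hz, hzO, rfl⟩
    by_cases hz1 : rs O z = 0
    · rw [hz1]
      exact zero_mem _
    have hzv := (rs_ne_zero hzO).1 hz1
    have hz0 : z ≠ 0 := by
      rintro rfl
      exact hz1 rs_zero
    obtain ⟨c, hc, hc0, n, hcv, hcr⟩ := ab_mono hx0 hx hz hz0
    have hn : n = 0 := by
      rw [mul_assoc, map_mul, hzv, one_mul] at hcv
      rcases lt_trichotomy n 0 with h | h | h
      · exfalso
        obtain ⟨m, hm⟩ := Int.eq_ofNat_of_zero_le (show 0 ≤ -n by omega)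
        have hn : n = -(m : ℤ) := by omega
        refine hx c⁻¹ (inv_mem hc) (inv_ne_zero hc0) m (by omega) ?_
        have h1 : c⁻¹ * x ^ m = (c * x ^ n)⁻¹ := by
          rw [hn, zpow_neg, zpow_natCast, mul_inv, inv_inv]
        rw [h1, map_inv₀, hcv, inv_one]
      · exact h
      · exfalso
        obtain ⟨m, rfl⟩ := Int.eq_ofNat_of_zero_le h.le
        rw [zpow_natCast] at hcv
        exact hx c hc hc0 m (by omega) hcv
    rw [hn, zpow_zero, mul_one] at hcv hcr
    have hc1 : O.valuation c = 1 := by rwa [map_mul, hzv, one_mul] at hcv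
    rw [rs_mul hzO (mem_of_val hc1)] at hcr
    have h2 : rs O c ≠ 0 := (rs_ne_zero (mem_of_val hc1)).2 hc1
    rw [eq_inv_of_mul_eq_one_left hcr]
    exact inv_mem (rs_mem_kap hc (mem_of_val hc1))
  · exact kap_mono (Vale.Agent.P019.le_adj _ _)

end ab

end Vale.Agent.P019P
end
end

section

section

/-!
# Abhyankar valuations: finite extensions
-/

namespace Vale.Agent.P019P

open Vale.Agent.P019

set_option linter.style.haveILetI false
set_option linter.unusedSectionVars false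

open Polynomial Filter

section abf

variable {F : Type*} [Field F] {O : ValuationSubring F}

/-- independence of the elements whose residues are independent. -/
theorem ab_indep {E : Subfield F} {ι : Type*} [Fintype ι] {z : ι → F} (hz : ∀ i, z i ∈ O)
    (h : LinearIndependent (rbar E O) fun i => rs O (z i)) : LinearIndependent E z := by
  rw [Fintype.linearIndependent_iff] at h ⊢
  intro a ha
  by_contra hcon
  push Not at hcon
  obtain ⟨i1, hi1⟩ := hcon
  obtain ⟨i0, -, hmax⟩ := Finset.univ.exists_max_image (fun i => O.valuation (a i : F))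
    ⟨i1, Finset.mem_univ _⟩
  have ha0 : (a i0 : F) ≠ 0 := by
    intro h0
    have h1 := hmax i1 (Finset.mem_univ _)
    rw [h0, map_zero] at h1
    exact hi1 (Subtype.ext ((Valuation.zero_iff _).1 (le_antisymm h1 zero_le)))
  have hv0 : 0 < O.valuation (a i0 : F) := zero_lt_iff.2 ((Valuation.ne_zero_iff _).2 ha0)
  have hb : ∀ i, (a i : F) / a i0 ∈ O := by
    intro i
    rw [← O.valuation_le_one_iff, map_div₀]
    exact (div_le_one₀ hv0).2 (hmax i (Finset.mem_univ _))
  have hsum : ∑ i, ((a i : F) / a i0) * z i = 0 := by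
    have h1 : ∑ i, ((a i : F) / a i0) * z i = (∑ i, (a i : F) * z i) / a i0 := by
      rw [Finset.sum_div]
      exact Finset.sum_congr rfl fun i _ => by ring
    rw [h1]
    have h2 : ∑ i, (a i : F) * z i = 0 := ha
    rw [h2, zero_div]
  have h2 := (ab_sum_mem (O := O) Finset.univ (fun i => ((a i : F) / a i0) * z i)
    fun i _ => mul_mem (hb i) (hz i)).2
  rw [hsum, rs_zero] at h2
  have hk : ∀ i, rs O ((a i : F) / a i0) ∈ rbar E O := fun i =>
    rs_mem_kap (div_mem (a i).2 (a i0).2) (hb i)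
  have h3 := h (fun i => ⟨rs O ((a i : F) / a i0), hk i⟩) (by
    rw [h2]
    refine Finset.sum_congr rfl fun i _ => ?_
    rw [rs_mul (hb i) (hz i)]
    rfl) i0
  have h4 : rs O ((a i0 : F) / a i0) = 0 := congrArg Subtype.val h3
  rw [div_self ha0, rs_one] at h4
  exact one_ne_zero h4

/-- the residues of a subfield as an algebra. -/
noncomputable def abK (O : ValuationSubring F) {E L : Subfield F} (hL : E ≤ L) :
    Subalgebra (rbar E O) (IsLocalRing.ResidueField O) where
  carrier := {c | ∃ z ∈ L, z ∈ O ∧ rs O z = c}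
  mul_mem' := by
    rintro _ _ ⟨x, hx, hxO, rfl⟩ ⟨y, hy, hyO, rfl⟩
    exact ⟨x * y, mul_mem hx hy, mul_mem hxO hyO, rs_mul hxO hyO⟩
  add_mem' := by
    rintro _ _ ⟨x, hx, hxO, rfl⟩ ⟨y, hy, hyO, rfl⟩
    exact ⟨x + y, add_mem hx hy, add_mem hxO hyO, rs_add hxO hyO⟩
  algebraMap_mem' := by
    rintro ⟨c, hc⟩
    exact kap_mono hL hc

theorem ab_le {E : Subfield F} (L : IntermediateField E F) : E ≤ L.toSubfield := fun z hz =>
  L.algebraMap_mem ⟨z, hz⟩

/-- the residue extension is finite. -/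
theorem ab_fin {E : Subfield F} (L : IntermediateField E F) [FiniteDimensional E L] :
    (Subalgebra.toSubmodule (abK O (ab_le L))).FG := by
  classical
  have h1 : Module.rank (rbar E O) (Subalgebra.toSubmodule (abK O (ab_le L))) ≤
      (Module.finrank E L : ℕ) := by
    refine rank_le fun s hs => ?_
    have hex : ∀ i : s, ∃ z ∈ L, z ∈ O ∧ rs O z =
        ((i : Subalgebra.toSubmodule (abK O (ab_le L))) : IsLocalRing.ResidueField O) :=
      fun i => (i : Subalgebra.toSubmodule (abK O (ab_le L))).2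
    choose w hwL hwO hw using hex
    have h2 : LinearIndependent (rbar E O) fun i => rs O (w i) := by
      have h3 := hs.map' (Subalgebra.toSubmodule (abK O (ab_le L))).subtype
        (Submodule.ker_subtype _)
      have h4 : (fun i => rs O (w i)) = (Subalgebra.toSubmodule (abK O (ab_le L))).subtype ∘
          fun i : s => (i : Subalgebra.toSubmodule (abK O (ab_le L))) := by
        funext i
        exact hw i
      rw [h4]
      exact h3
    have h5 := ab_indep hwO h2
    have h6 : LinearIndependent E (fun i => (⟨w i, hwL i⟩ : L)) :=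
      LinearIndependent.of_comp L.val.toLinearMap h5
    have h7 := h6.fintype_card_le_finrank
    rwa [Fintype.card_coe] at h7
  have h8 : Module.rank (rbar E O) (Subalgebra.toSubmodule (abK O (ab_le L))) < Cardinal.aleph0 :=
    lt_of_le_of_lt h1 (Cardinal.natCast_lt_aleph0)
  exact Module.Finite.iff_fg.1 (Module.rank_lt_aleph0_iff.1 h8)

/-- the values of the elements of a finite extension. -/
theorem ab_pow {E : Subfield F} (L : IntermediateField E F) [FiniteDimensional E L] {z : F}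
    (hz : z ∈ L) (hz0 : z ≠ 0) :
    ∃ c ∈ E, c ≠ 0 ∧ O.valuation z ^ (Module.finrank E L).factorial = O.valuation c := by
  set P := minpoly E (⟨z, hz⟩ : L) with hP
  have hint : IsIntegral E (⟨z, hz⟩ : L) := Algebra.IsIntegral.isIntegral _
  haveI : Module.Free E L := Module.Free.of_divisionRing _ _
  have hdeg : P.natDegree ≤ Module.finrank E L := minpoly.natDegree_le _
  have hmon : P.Monic := minpoly.monic hint
  have hroot : ∑ i ∈ Finset.range (P.natDegree + 1), (P.coeff i : F) * z ^ i = 0 := by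
    have h1 : aeval (⟨z, hz⟩ : L) P = 0 := minpoly.aeval _ _
    rw [aeval_eq_sum_range] at h1
    have h2 := congrArg (fun x : L => (x : F)) h1
    have h3 : ∑ i ∈ Finset.range (P.natDegree + 1), algebraMap E F (P.coeff i) * z ^ i = 0 := by
      simpa [IntermediateField.coe_sum, Algebra.smul_def] using h2
    exact h3
  have key : ∀ i j : ℕ, i < j → j ≤ P.natDegree → (P.coeff i : F) ≠ 0 → (P.coeff j : F) ≠ 0 →
      O.valuation ((P.coeff i : F) * z ^ i) = O.valuation ((P.coeff j : F) * z ^ j) →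
      ∃ c ∈ E, c ≠ 0 ∧ O.valuation z ^ (Module.finrank E L).factorial = O.valuation c := by
    intro i j hij hj hi0 hj0 h
    have h1 := rsb_cancel hj0 hz0 hij h
    have hdvd : j - i ∣ (Module.finrank E L).factorial :=
      Nat.dvd_factorial (by omega) (by omega)
    obtain ⟨k, hk⟩ := hdvd
    refine ⟨((P.coeff i : F) / P.coeff j) ^ k, pow_mem (div_mem (P.coeff i).2 (P.coeff j).2) k,
      pow_ne_zero _ (div_ne_zero hi0 hj0), ?_⟩
    rw [hk, pow_mul, h1, map_pow]
  obtain ⟨i, hi, j, hj, hij, hi0, h⟩ := rsb_two (O := O) (Finset.range (P.natDegree + 1))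
    (fun i => (P.coeff i : F) * z ^ i) hroot ⟨P.natDegree, Finset.self_mem_range_succ _, by
      rw [hmon.coeff_natDegree]
      exact mul_ne_zero one_ne_zero (pow_ne_zero _ hz0)⟩
  rw [Finset.mem_range, Nat.lt_succ_iff] at hi hj
  have hj0 : (P.coeff j : F) * z ^ j ≠ 0 := by
    intro h0
    rw [h0, map_zero] at h
    exact hi0 ((Valuation.zero_iff _).1 h)
  have hi1 : (P.coeff i : F) ≠ 0 := left_ne_zero_of_mul hi0
  have hj1 : (P.coeff j : F) ≠ 0 := left_ne_zero_of_mul hj0
  rcases lt_or_gt_of_ne hij with hlt | hgt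
  · exact key i j hlt hj hi1 hj1 h
  · exact key j i hgt hi hj1 hi1 h.symm

end abf

end Vale.Agent.P019P
end
end

section

section

/-!
# Abhyankar valuations
-/

namespace Vale.Agent.P019P

open Vale.Agent.P019

set_option linter.style.haveILetI false
set_option linter.unusedSectionVars false

open Polynomial Filter

section abc0

variable {F : Type*} [Field F]

/-- the subfield `k(B)`. -/
def gs0 (k : Subfield F) (B : Finset F) : Subfield F := k ⊔ Subfield.closure (B : Set F)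

theorem gs0_empty (k : Subfield F) : gs0 k ∅ = k := by
  rw [gs0, Finset.coe_empty, Subfield.closure_empty, sup_bot_eq]

theorem le_gs0 (k : Subfield F) (B : Finset F) : k ≤ gs0 k B := le_sup_left

theorem mem_gs0 {k : Subfield F} {B : Finset F} {x : F} (hx : x ∈ B) : x ∈ gs0 k B :=
  (le_sup_right : Subfield.closure (B : Set F) ≤ gs0 k B) (Subfield.subset_closure hx)

theorem gs0_le {k E : Subfield F} {B : Finset F} (h : k ≤ E) (hB : ∀ x ∈ B, x ∈ E) :
    gs0 k B ≤ E := sup_le h (Subfield.closure_le.2 fun x hx => hB x hx)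

theorem gs0_insert [DecidableEq F] (k : Subfield F) (B : Finset F) (v : F) :
    gs0 k (insert v B) = Vale.Agent.P019.adj (gs0 k B) v := by
  apply le_antisymm
  · refine gs0_le ((le_gs0 k B).trans (Vale.Agent.P019.le_adj _ _)) fun x hx => ?_
    rcases Finset.mem_insert.1 hx with rfl | hx
    · exact Vale.Agent.P019.mem_adj _ _
    · exact Vale.Agent.P019.le_adj _ _ (mem_gs0 hx)
  · exact Vale.Agent.P019.adj_le (gs0_le (le_gs0 _ _) fun x hx =>
      mem_gs0 (Finset.mem_insert_of_mem hx)) (mem_gs0 (Finset.mem_insert_self _ _))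

theorem gs0_alg {k : Subfield F} {B : Finset F} {z : F} :
    IsAlgebraic (gsp k B) z ↔ IsAlgebraic (gs0 k B) z := isAlgebraic_pf

/-- images of algebraic elements. -/
theorem ab_alg_map {A Ω : Type*} [Field A] [Field Ω] (ι : A →+* Ω) {E : Subfield A} {x : A}
    (h : IsAlgebraic E x) : IsAlgebraic (E.map ι) (ι x) := by
  obtain ⟨P, hP0, hP⟩ := h
  let f : E →+* E.map ι :=
    { toFun := fun y => ⟨ι y, ⟨y, y.2, rfl⟩⟩
      map_one' := Subtype.ext (map_one ι)
      map_mul' := fun a b => Subtype.ext (map_mul ι _ _)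
      map_zero' := Subtype.ext (map_zero ι)
      map_add' := fun a b => Subtype.ext (map_add ι _ _) }
  refine ⟨P.map f, ?_, ?_⟩
  · rwa [Ne, Polynomial.map_eq_zero_iff f.injective]
  · rw [aeval_def, eval₂_map]
    have h1 : (algebraMap (E.map ι) Ω).comp f = ι.comp (algebraMap E A) := by
      ext y
      rfl
    rw [h1, ← hom_eval₂, ← aeval_def, hP, map_zero]

/-- elements with independent residues are independent. -/
theorem ab_lift_alg {O : ValuationSubring F} {E : Subfield F} {y : F} (hy : y ∈ O)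
    (htr : ¬ IsAlgebraic (rbar E O) (rs O y)) : ¬ IsAlgebraic E y := by
  rintro ⟨P, hP0, hP⟩
  obtain ⟨c, -, -, h, -⟩ := ab_gauss_poly hy htr P hP0
  rw [hP, zero_mul, map_zero] at h
  exact zero_ne_one h

theorem ab_expchar (O : ValuationSubring F) {Ω : Type*} [Field Ω]
    (ι : IsLocalRing.ResidueField O →+* Ω) (m : ℕ) :
    ∃ m' : ℕ, ringExpChar F ^ m = ringExpChar Ω ^ m' := by
  rcases CharP.exists F with ⟨p, hp⟩
  have h1 : ringExpChar F = max p 1 := by rw [ringExpChar, ringChar.eq F p]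
  rcases CharP.char_is_prime_or_zero F p with h2 | h2
  · refine ⟨m, ?_⟩
    have h3 : ringExpChar F = p := by
      rw [h1]
      exact max_eq_left h2.one_lt.le
    have h4 : (p : O) = 0 := by
      apply Subtype.ext
      have h5 : ((p : O) : F) = (p : F) := map_natCast O.subtype p
      rw [h5, CharP.cast_eq_zero]
      rfl
    have h5 : (p : IsLocalRing.ResidueField O) = 0 := by
      have h6 := congrArg (IsLocalRing.residue O) h4
      rwa [map_natCast, map_zero] at h6
    have h6 : (p : Ω) = 0 := by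
      have h7 := congrArg ι h5
      rwa [map_natCast, map_zero] at h7
    have h7 : ringExpChar Ω = p := by
      rw [ringExpChar, CharP.ringChar_of_prime_eq_zero h2 h6]
      exact max_eq_left h2.one_lt.le
    rw [h3, h7]
  · refine ⟨0, ?_⟩
    rw [h1, h2]
    simp

end abc0

section indp

variable {F : Type*} [Field F]

/-- independence in terms of the honest subfields. -/
theorem ab_indp_iff {k : Subfield F} {B : Finset F} :
    Indp k B ↔ ∀ S ⊆ B, ∀ v ∈ B, v ∉ S → ¬ IsAlgebraic (gs0 k S) v := by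
  constructor
  · intro h S hS v hv hvS h1
    exact h S hS v hv hvS (gs0_alg.2 h1)
  · intro h S hS v hv hvS h1
    exact h S hS v hv hvS (gs0_alg.1 h1)

theorem gs0_mono (k : Subfield F) {B B' : Finset F} (h : B ⊆ B') : gs0 k B ≤ gs0 k B' :=
  gs0_le (le_gs0 _ _) fun _ hx => mem_gs0 (h hx)

/-- adding an element (arbitrary fields). -/
theorem ab_indp_insert [DecidableEq F] {k : Subfield F} {B : Finset F} (h : Indp k B) {v : F}
    (hv : ¬ IsAlgebraic (gs0 k B) v) : Indp k (insert v B) := by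
  rw [ab_indp_iff] at h ⊢
  intro S hS w hw hwS hal
  by_cases hvS : v ∈ S
  · have hwv : w ≠ v := fun h1 => hwS (h1 ▸ hvS)
    have hwB : w ∈ B := (Finset.mem_insert.1 hw).resolve_left hwv
    have hS' : S.erase v ⊆ B := fun x hx => by
      rw [Finset.mem_erase] at hx
      exact (Finset.mem_insert.1 (hS hx.2)).resolve_left hx.1
    have hw' : ¬ IsAlgebraic (gs0 k (S.erase v)) w :=
      h _ hS' w hwB fun h1 => hwS (Finset.mem_of_mem_erase h1)
    have h1 : S = Insert.insert v (S.erase v) := (Finset.insert_erase hvS).symm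
    rw [h1, gs0_insert] at hal
    have h2 := Vale.Agent.P019.exchange hw' hal
    rw [← gs0_insert] at h2
    exact hv (isAlgebraic_mono (gs0_mono k (Finset.insert_subset hwB hS')) h2)
  · have hSB : S ⊆ B := fun x hx =>
      (Finset.mem_insert.1 (hS hx)).resolve_left fun h1 => hvS (h1 ▸ hx)
    rcases Finset.mem_insert.1 hw with rfl | hw
    · exact hv (isAlgebraic_mono (gs0_mono k hSB) hal)
    · exact h S hSB w hw hwS hal

end indp

section chain

variable {F : Type*} [Field F] {O : ValuationSubring F}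

attribute [-instance] AFastc2e625x13a.a0 AFastc2e625x13a.a1 AFastc2e625x13a.a2 AFastc2e625x13a.a3 AFastc2e625x13a.a4 AFastc2e625x13a.a5 AFastc2e625x13a.a6 AFastc2e625x13a.a7 AFastc2e625x13a.a8 AFastc2e625x13a.a9 AFastc2e625x13a.a10 AFastc2e625x13a.a11 AFastc2e625x13a.a12 AFastc2e625x13a.a13 AFastc2e625x13a.a14 AFastc2e625x13a.a15 AFastc2e625x13a.a16 AFastc2e625x13a.a17 AFastc2e625x13a.a18 AFastc2e625x13a.a19 AFastc2e625x13a.a20 AFastc2e625x13a.a21 AFastc2e625x13a.a22 AFastc2e625x13a.a23 AFastc2e625x13a.a24 AFastc2e625x13a.a25 AFastc2e625x13a.a26 AFastc2e625x13a.a27 AFastc2e625x13a.a28 AFastc2e625x13a.a29 AFastc2e625x13a.a30 AFastc2e625x13a.a31 AFastc2e625x13a.a32 AFastc2e625x13a.a33 AFastc2e625x13a.a34 AFastc2e625x13a.a35 AFastc2e625x13a.a36 AFastc2e625x13a.a37 AFastc2e625x13a.a38 AFastc2e625x13a.a39 AFastc2e625x13a.a40 AFastc2e625x13a.a41 AFastc2e625x13a.a42 AFastc2e625x13a.a43 AFastc2e625x13a.a44 AFastc2e625x13a.a45 AFastc2e625x13a.a46 AFastc2e625x13a.a47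 AFastc2e625x13a.a48 AFastc2e625x13a.a49 AFastc2e625x13a.a50 AFastc2e625x13a.a51 AFastc2e625x13a.a52 AFastc2e625x13a.a53 AFastc2e625x13a.a54 AFastc2e625x13a.a55 AFastc2e625x13a.a56 AFastc2e625x13a.a57 AFastc2e625x13a.a58 AFastc2e625x13a.a59 AFastc2e625x13a.a60 AFastc2e625x13a.a61 AFastc2e625x13a.a62 AFastc2e625x13a.a63 AFastc2e625x13a.a64 AFastc2e625x13a.a65 AFastc2e625x13a.a66 AFastc2e625x13a.a67 AFastc2e625x13a.a68 AFastc2e625x13a.a69 AFastc2e625x13a.a70 AFastc2e625x13a.a71 AFastc2e625x13a.a72 AFastc2e625x13a.a73 AFastc2e625x13a.a74 AFastc2e625x13a.a75 AFastc2e625x13a.a76 AFastc2e625x13a.a77 AFastc2e625x13a.a78 AFastc2e625x13a.a79 AFastc2e625x13a.a80 AFastc2e625x13a.a81 AFastc2e625x13a.a82 AFastc2e625x13a.a83 AFastc2e625x13a.a84 AFastc2e625x13b.a0 AFastc2e625x13b.a1 AFastc2e625x13b.a2 AFastc2e625x13b.a3 AFastc2e625x13b.a4 AFastc2e625x13b.a5 AFastc2e625x13b.a6 AFastc2e625x13b.a7 AFastc2e625x13b.a8 AFastc2e625x13b.a9 AFastc2e625x13b.a10 AFastc2e625x13b.a11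 AFastc2e625x13b.a12 in
/-- lifts of independent residues. -/
theorem ab_chain (l : Subfield F) {B : Finset (IsLocalRing.ResidueField O)}
    (hB : Indp (rbar l O) B) :
    ∃ B' : Finset F, B'.card = B.card ∧ Indp l B' ∧ (∀ y ∈ B', y ∈ O) ∧ AbV O l (gs0 l B') ∧
      rbar (gs0 l B') O = gs0 (rbar l O) B := by
  classical
  induction B using Finset.induction_on with
  | empty =>
    refine ⟨∅, rfl, fun S _ v hv => absurd hv (Finset.notMem_empty v),
      fun y hy => absurd hy (Finset.notMem_empty y), ?_, ?_⟩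
    · rw [gs0_empty]
      exact AbV.refl l
    · rw [gs0_empty, gs0_empty]
  | insert c B hc ih =>
    obtain ⟨B', hcard, hind, hBO, hV, hT⟩ := ih (hB.mono (Finset.subset_insert c B))
    have hcalg : ¬ IsAlgebraic (gs0 (rbar l O) B) c :=
      ab_indp_iff.1 hB B (Finset.subset_insert c B) c (Finset.mem_insert_self c B) hc
    obtain ⟨y, hy, rfl⟩ := rs_surj c
    have htr : ¬ IsAlgebraic (rbar (gs0 l B') O) (rs O y) := by rwa [hT]
    have hyalg : ¬ IsAlgebraic (gs0 l B') y := fun h => ab_lift_alg hy htr h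
    have hyB : y ∉ B' := fun h' => hyalg (isAlgebraic_of_mem (mem_gs0 h'))
    refine ⟨insert y B', ?_, ab_indp_insert hind hyalg, ?_, ?_, ?_⟩
    · rw [Finset.card_insert_of_notMem hyB, Finset.card_insert_of_notMem hc, hcard]
    · intro z hz
      rcases Finset.mem_insert.1 hz with rfl | hz
      · exact hy
      · exact hBO z hz
    · rw [gs0_insert]
      exact hV.gauss hy htr
    · rw [gs0_insert, gs0_insert, kap_gauss hy htr, hT]

/-- roots of constants. -/
theorem ab_root {l : Subfield F} (hl : IsAlgClosed l) {n : ℕ} (hn : 0 < n) {c : F} (hc : c ∈ l)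
    (hc0 : c ≠ 0) : ∃ d ∈ l, d ≠ 0 ∧ d ^ n = c := by
  haveI := hl
  obtain ⟨d, hd⟩ := IsAlgClosed.exists_pow_nat_eq (⟨c, hc⟩ : l) hn
  have h1 : (d : F) ^ n = c := congrArg Subtype.val hd
  refine ⟨d, d.2, ?_, h1⟩
  intro h0
  rw [h0, zero_pow hn.ne'] at h1
  exact hc0 h1.symm

/-- positive powers of an element whose value is not commensurable with the constants. -/
theorem ab_pow_ne {l : Subfield F} {X : F}
    (hX : ∀ a ∈ l, a ≠ 0 → ∀ i : ℤ, O.valuation (a * X ^ i) = 1 → i = 0) :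
    ∀ c ∈ l, c ≠ 0 → ∀ n : ℕ, 0 < n → O.valuation (c * X ^ n) ≠ 1 := by
  intro c hc hc0 n hn h
  have h1 := hX c hc hc0 n (by rwa [zpow_natCast])
  omega

theorem AbV.ne {l E : Subfield F} (h : AbV O l E) {X : F}
    (hX : ∀ c ∈ l, c ≠ 0 → ∀ n : ℕ, 0 < n → O.valuation (c * X ^ n) ≠ 1) :
    ∀ c ∈ E, c ≠ 0 → ∀ n : ℕ, 0 < n → O.valuation (c * X ^ n) ≠ 1 := by
  intro c hc hc0 n hn h1
  obtain ⟨d, hd, hd0, hdv⟩ := h c hc hc0
  refine hX d⁻¹ (inv_mem hd) (inv_ne_zero hd0) n hn ?_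
  have h2 : d⁻¹ * X ^ n = (c * X ^ n) * (c * d)⁻¹ := by
    field_simp
  rw [h2, map_mul, h1, map_inv₀, hdv, inv_one, one_mul]

/-- independent residues and an element with a new value give independent elements. -/
theorem ab_insert [DecidableEq F] {l : Subfield F} {B' : Finset F} (hind : Indp l B')
    (hV : AbV O l (gs0 l B')) {X : F} (hX0 : X ≠ 0)
    (hX : ∀ c ∈ l, c ≠ 0 → ∀ n : ℕ, 0 < n → O.valuation (c * X ^ n) ≠ 1) :
    X ∉ B' ∧ Indp l (insert X B') := by
  have h1 : ¬ IsAlgebraic (gs0 l B') X := by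
    rintro ⟨P, hP0, hP⟩
    obtain ⟨-, -, -, n, h2, -⟩ := ab_mono_poly hX0 (hV.ne hX) P hP0
    exact h2 hP
  exact ⟨fun h => h1 (isAlgebraic_of_mem (mem_gs0 h)), ab_indp_insert hind h1⟩

end chain

section main

variable {F : Type*} [Field F] [PerfectField F] {O : ValuationSubring F}

/-- Abhyankar valuations: a finite extension of the rational part. -/
theorem ab_model {l : Subfield F} (hfg : FG l (⊤ : Subfield F)) {n : ℕ}
    (htd : Td l (n + 1)) {X : F} (hX0 : X ≠ 0)
    (hX : ∀ a ∈ l, a ≠ 0 → ∀ i : ℤ, O.valuation (a * X ^ i) = 1 → i = 0)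
    {B : Finset (IsLocalRing.ResidueField O)} (hB : Indp (rbar l O) B) (hBn : B.card = n) :
    ∃ (E1 : Subfield F) (L : IntermediateField E1 F), FiniteDimensional E1 L ∧ l ≤ E1 ∧
      X ∈ E1 ∧ (∀ z : F, ∃ m : ℕ, z ^ ringExpChar F ^ m ∈ L) ∧
      rbar E1 O = gs0 (rbar l O) B ∧
      ∀ z ∈ E1, z ≠ 0 → ∃ c ∈ l, c ≠ 0 ∧ ∃ k : ℤ, O.valuation (z * c * X ^ k) = 1 := by
  classical
  obtain ⟨B', hcard, hind, -, hV, hT⟩ := ab_chain l hB
  have hXn := ab_pow_ne (O := O) hX
  obtain ⟨hXB, hind'⟩ := ab_insert hind hV hX0 hXn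
  have hXE := hV.ne hXn
  -- the transcendence basis
  have halg : ∀ z : F, IsAlgebraic (gs0 l (insert X B')) z := by
    obtain ⟨B2, hsub, hB2, h2⟩ := hind'.extend hfg
    have h3 : B2.card = n + 1 := Td.unique (K := F) (k := l) ⟨B2, rfl, hB2, h2⟩ htd
    have h4 : insert X B' = B2 := by
      refine Finset.eq_of_subset_of_card_le hsub ?_
      rw [h3, Finset.card_insert_of_notMem hXB, hcard, hBn]
    rw [h4]
    exact fun z => gs0_alg.1 (h2 z)
  obtain ⟨S, hS⟩ := hfg
  haveI : FiniteDimensional (gs0 l (insert X B'))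
      (IntermediateField.adjoin (gs0 l (insert X B')) (S : Set F)) :=
    IntermediateField.finiteDimensional_adjoin fun x _ => (halg x).isIntegral
  refine ⟨gs0 l (insert X B'), IntermediateField.adjoin (gs0 l (insert X B')) (S : Set F),
    inferInstance, le_gs0 _ _, mem_gs0 (Finset.mem_insert_self _ _), fun z => ?_, ?_, ?_⟩
  · have h1 : z ∈ pf (l ⊔ Subfield.closure (S : Set F)) := hS ▸ Subfield.mem_top z
    obtain ⟨m, hm⟩ := mem_pf.1 h1
    have h2 : l ⊔ Subfield.closure (S : Set F) ≤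
        (IntermediateField.adjoin (gs0 l (insert X B')) (S : Set F)).toSubfield :=
      sup_le ((le_gs0 _ _).trans (ab_le _))
        (Subfield.closure_le.2 fun z hz => IntermediateField.subset_adjoin _ _ hz)
    exact ⟨m, h2 hm⟩
  · rw [gs0_insert, kap_mono_ext hX0 hXE, hT]
  · intro z hz hz0
    rw [gs0_insert] at hz
    obtain ⟨c1, hc1, hc10, i, hi, -⟩ := ab_mono hX0 hXE hz hz0
    obtain ⟨d, hd, hd0, hdv⟩ := hV c1 hc1 hc10
    refine ⟨d⁻¹, inv_mem hd, inv_ne_zero hd0, i, ?_⟩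
    have h1 : z * d⁻¹ * X ^ i = (z * c1 * X ^ i) * (c1 * d)⁻¹ := by
      have := zpow_ne_zero i hX0
      field_simp
    rw [h1, map_mul, hi, map_inv₀, hdv, inv_one, one_mul]

/-- the residue field of an Abhyankar valuation. -/
theorem ab_main {Ω : Type*} [Field Ω] [PerfectField Ω] (ι : IsLocalRing.ResidueField O →+* Ω)
    (hι : ∀ c : Ω, ∃ (n : ℕ) (x : IsLocalRing.ResidueField O), ι x = c ^ ringExpChar Ω ^ n)
    {l : Subfield F} (hfg : FG l (⊤ : Subfield F)) {n : ℕ}
    (htd : Td l (n + 1)) {X : F} (hX0 : X ≠ 0)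
    (hX : ∀ a ∈ l, a ≠ 0 → ∀ i : ℤ, O.valuation (a * X ^ i) = 1 → i = 0)
    {B : Finset (IsLocalRing.ResidueField O)} (hB : Indp (rbar l O) B) (hBn : B.card = n) :
    (∀ c : Ω, IsAlgebraic ((gs0 (rbar l O) B).map ι) c) ∧
    FG ((rbar l O).map ι) (⊤ : Subfield Ω) := by
  classical
  obtain ⟨E1, L, hfd, hlE1, hXE1, hpow, hkap, -⟩ := ab_model hfg htd hX0 hX hB hBn
  have hfin := ab_fin (O := O) L
  have hpow' : ∀ c : Ω, ∃ m : ℕ, ∃ x ∈ rbar L.toSubfield O, ι x = c ^ ringExpChar Ω ^ m := by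
    intro c
    obtain ⟨n1, x, hx⟩ := hι c
    obtain ⟨z, hz, rfl⟩ := rs_surj x
    obtain ⟨m, hm⟩ := hpow z
    obtain ⟨m', hm'⟩ := ab_expchar O ι m
    refine ⟨n1 + m', rs O (z ^ ringExpChar F ^ m), rs_mem_kap hm (pow_mem hz _), ?_⟩
    rw [rs_pow hz, map_pow, hx, hm', ← pow_mul, ← pow_add]
  refine ⟨fun c => ?_, ?_⟩
  · obtain ⟨m, x, hx, hxc⟩ := hpow' c
    have h1 : IsIntegral (rbar E1 O) x := IsIntegral.of_mem_of_fg _ hfin _ hx
    have h2 := ab_alg_map ι h1.isAlgebraic
    rw [hkap, hxc] at h2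
    exact IsAlgebraic.of_pow (pow_pos (expChar_pos Ω _) _) h2
  · obtain ⟨T2, hT2⟩ := hfin
    refine ⟨(B ∪ T2).image ι, (top_unique ?_).symm⟩
    intro c _
    obtain ⟨m, x, hx, hxc⟩ := hpow' c
    refine mem_pf.2 ⟨m, ?_⟩
    rw [← hxc]
    have hsub : rbar E1 O ≤ ((rbar l O).map ι ⊔ Subfield.closure
        (((B ∪ T2).image ι : Finset Ω) : Set Ω)).comap ι := by
      rw [hkap]
      refine gs0_le (fun z hz => ?_) fun z hz => ?_
      · exact (le_sup_left : (rbar l O).map ι ≤ _) ⟨z, hz, rfl⟩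
      · refine (le_sup_right : Subfield.closure _ ≤ _) (Subfield.subset_closure ?_)
        exact Finset.mem_coe.2 (Finset.mem_image_of_mem ι (Finset.mem_union_left _ hz))
    have h2 : x ∈ Submodule.span (rbar E1 O) (T2 : Set (IsLocalRing.ResidueField O)) := by
      rw [hT2]
      exact hx
    change x ∈ ((rbar l O).map ι ⊔ Subfield.closure
        (((B ∪ T2).image ι : Finset Ω) : Set Ω)).comap ι
    refine Submodule.span_induction ?_ ?_ ?_ ?_ h2
    · intro z hz
      refine (le_sup_right : Subfield.closure _ ≤ _) (Subfield.subset_closure ?_)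
      exact Finset.mem_coe.2 (Finset.mem_image_of_mem ι (Finset.mem_union_right _ hz))
    · exact zero_mem _
    · intro x y _ _ hx hy
      exact add_mem hx hy
    · intro a x _ hx
      rw [Algebra.smul_def]
      exact mul_mem (hsub a.2) hx

end main

end Vale.Agent.P019P
end
end

section

section

/-!
# Approximation: evaluation maps, congruences, limits of valuation rings
-/

namespace Vale.Agent.P019P

open Vale.Agent.P019

set_option linter.style.haveILetI false
set_option linter.unusedSectionVars false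

open Polynomial Filter

section ev

variable {A B D : Type*} [CommRing A] [CommRing B] [CommRing D]

/-- evaluation of a bivariate polynomial: outer variable at `t`, inner variable at `s`. -/
noncomputable def apbEv (i : A →+* B) (t s : B) : A[X][X] →+* B :=
  eval₂RingHom (eval₂RingHom i s) t

theorem apbEv_X (i : A →+* B) (t s : B) : apbEv i t s X = t := by
  simp [apbEv]

theorem apbEv_CC (i : A →+* B) (t s : B) (a : A) : apbEv i t s (C (C a)) = i a := by
  simp [apbEv]

theorem apbEv_CX (i : A →+* B) (t s : B) : apbEv i t s (C X) = s := by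
  simp [apbEv]

end ev

section val

variable {K : Type*} [Field K] {O : ValuationSubring K}

end val

section compos

variable {K : Type*} [Field K] {W : ValuationSubring K}
  {P : ValuationSubring (IsLocalRing.ResidueField W)}

end compos

section lim

variable {K : Type*} [Field K]

end lim

section exist

variable {K : Type*} [Field K]

end exist

end Vale.Agent.P019P
end
end

section

section

/-!
# Approximation: valuation rings on `k(t, s)`
-/

namespace Vale.Agent.P019P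

open Vale.Agent.P019

set_option linter.style.haveILetI false
set_option linter.unusedSectionVars false

open Polynomial Filter

variable {K : Type*} [Field K] {k : Subfield K}

/-- elements of `k(s)(t)` as fractions. -/
theorem apb_mem_adj2 {t s z : K}
    (hz : z ∈ Vale.Agent.P019.adj (Vale.Agent.P019.adj k s) t) :
    ∃ f g : k[X][X], apbEv k.subtype t s g ≠ 0 ∧
      z = apbEv k.subtype t s f / apbEv k.subtype t s g := by
  set A : Subring K := (apbEv k.subtype t s).range with hA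
  have h1 : Vale.Agent.P019.adj (Vale.Agent.P019.adj k s) t ≤ Subfield.closure (A : Set K) := by
    refine Vale.Agent.P019.adj_le (Vale.Agent.P019.adj_le ?_ ?_) ?_
    · intro a ha
      exact Subfield.subset_closure ⟨C (C ⟨a, ha⟩), apbEv_CC _ _ _ _⟩
    · exact Subfield.subset_closure ⟨C X, apbEv_CX _ _ _⟩
    · exact Subfield.subset_closure ⟨X, apbEv_X _ _ _⟩
  have h2 := h1 hz
  rw [Subfield.mem_closure_iff, Subring.closure_eq] at h2
  obtain ⟨_, ⟨f, rfl⟩, _, ⟨g, rfl⟩, rfl⟩ := h2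
  by_cases hg : apbEv k.subtype t s g = 0
  · refine ⟨0, 1, by rw [map_one]; exact one_ne_zero, ?_⟩
    rw [hg, div_zero, map_zero, zero_div]
  · exact ⟨f, g, hg, rfl⟩

end Vale.Agent.P019P
end
end

section

section

/-!
# Approximation: the model of a surface
-/

namespace Vale.Agent.P019P

open Vale.Agent.P019

set_option linter.style.haveILetI false
set_option linter.unusedSectionVars false

open Polynomial Filter

variable {K : Type*} [Field K] {k : Subfield K}

theorem apb_common_den {t s : K} (S : Finset K)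
    (h : ∀ z ∈ S, z ∈ Vale.Agent.P019.adj (Vale.Agent.P019.adj k s) t) :
    ∃ d : k[X][X], apbEv k.subtype t s d ≠ 0 ∧
      ∀ z ∈ S, ∃ f, apbEv k.subtype t s f = apbEv k.subtype t s d * z := by
  classical
  induction S using Finset.induction_on with
  | empty =>
    exact ⟨1, by rw [map_one]; exact one_ne_zero, fun z hz => absurd hz (Finset.notMem_empty z)⟩
  | insert a S _ ih =>
    obtain ⟨d, hd, hdS⟩ := ih fun z hz => h z (Finset.mem_insert_of_mem hz)
    obtain ⟨f, g, hg, hfg⟩ := apb_mem_adj2 (h a (Finset.mem_insert_self a S))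
    refine ⟨d * g, by rw [map_mul]; exact mul_ne_zero hd hg, fun z hz => ?_⟩
    rcases Finset.mem_insert.1 hz with rfl | hz
    · refine ⟨d * f, ?_⟩
      rw [map_mul, map_mul, hfg]
      field_simp
    · obtain ⟨f', hf'⟩ := hdS z hz
      refine ⟨g * f', ?_⟩
      rw [map_mul, map_mul, hf']
      ring

end Vale.Agent.P019P
end
end

section

section

/-!
# The values of a valuation ring of rational rank one over the constants
-/

namespace Vale.Agent.P019P

open Vale.Agent.P019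

set_option linter.unusedSectionVars false

variable {L : Type*} [Field L] {l : Subfield L}

/-- independent elements of the right number are a transcendence basis. -/
theorem ab_basis [PerfectField L] {n : ℕ} (htd : Td l n) {B : Finset L} (hB : Indp l B)
    (hc : B.card = n) (z : L) : IsAlgebraic (gs0 l B) z := by
  classical
  by_contra h
  have h1 : z ∉ B := fun hz => h (isAlgebraic_of_mem (mem_gs0 hz))
  have h2 := htd.le (ab_indp_insert hB h)
  rw [Finset.card_insert_of_notMem h1, hc] at h2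
  omega

/-- the values modulo the values of `l` and of `ρ` are torsion.
Proof. Lift `y` to `y' ∈ O`. `y'`, `ρ` are algebraically independent over `l`: a polynomial
`∑ a, p_a(y') * ρ ^ a` with coefficients in `l` has value `max |c_a| * |ρ| ^ a`, where `c_a` is
the coefficient of `p_a` of largest value (the residue of `p_a(y') / c_a` is a non-zero polynomial
in `y ∉ rbar l O`, and `rbar l O` is algebraically closed (`rbar_ac`)); these values are different
for different `a` by `hρ`. So every non-zero `x ∈ gsp l {y', ρ}` has a power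
`x ^ (ringExpChar L) ^ m` with the value of `c * ρ ^ a`, `c ∈ l`. As `L` has transcendence degree
two, every `z : L` is algebraic over `gsp l {y', ρ}`; in a relation `∑ i, x_i * z ^ i = 0` two
different non-zero terms have the same value. -/
theorem r6_tors [PerfectField L] (hl : IsAlgClosed l) (htd : Td l 2) {O : ValuationSubring L}
    {ρ : L} (hρ0 : ρ ≠ 0)
    (hρ : ∀ a ∈ l, a ≠ 0 → ∀ i : ℤ, O.valuation (a * ρ ^ i) = 1 → i = 0)
    {y : IsLocalRing.ResidueField O} (hy : y ∉ rbar l O) {z : L} (hz : z ≠ 0) :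
    ∃ N : ℕ, 0 < N ∧ ∃ c ∈ l, c ≠ 0 ∧ ∃ a : ℤ, O.valuation (z ^ N * c * ρ ^ a) = 1 := by
  classical
  have hB : Indp (rbar l O) {y} := by
    rw [ab_indp_iff]
    intro S hS v hv hvS h
    rw [Finset.mem_singleton] at hv
    subst hv
    have h1 : S = ∅ := by
      rcases Finset.subset_singleton_iff.1 hS with h | h
      · exact h
      · rw [h] at hvS
        exact absurd (Finset.mem_singleton_self _) hvS
    rw [h1, gs0_empty] at h
    exact hy (RAC_of_isAlgClosed _ (rbar_ac hl O) v h)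
  obtain ⟨B', hcard, hind, -, hV, -⟩ := ab_chain l hB
  have hXn := ab_pow_ne (O := O) hρ
  obtain ⟨hXB, hind'⟩ := ab_insert hind hV hρ0 hXn
  have halg := ab_basis htd hind' (by
    rw [Finset.card_insert_of_notMem hXB, hcard, Finset.card_singleton])
  have : FiniteDimensional (gs0 l (insert ρ B'))
      (IntermediateField.adjoin (gs0 l (insert ρ B')) {z}) :=
    IntermediateField.adjoin.finiteDimensional (halg z).isIntegral
  obtain ⟨c, hc, hc0, hcv⟩ := ab_pow (O := O)
    (IntermediateField.adjoin (gs0 l (insert ρ B')) {z})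
    (IntermediateField.mem_adjoin_simple_self _ z) hz
  rw [gs0_insert] at hc
  obtain ⟨c1, hc1, hc10, i, hi, -⟩ := ab_mono hρ0 (hV.ne hXn) hc hc0
  obtain ⟨d, hd, hd0, hdv⟩ := hV c1 hc1 hc10
  refine ⟨_, Nat.factorial_pos (Module.finrank (gs0 l (insert ρ B'))
    (IntermediateField.adjoin (gs0 l (insert ρ B')) {z})), d⁻¹, inv_mem hd, inv_ne_zero hd0, i, ?_⟩
  have h1 : c * d⁻¹ * ρ ^ i = (c * c1 * ρ ^ i) * (c1 * d)⁻¹ := by
    have := zpow_ne_zero i hρ0
    field_simp
  rw [map_mul, map_mul, map_pow, hcv, ← map_mul, ← map_mul, h1, map_mul, hi, map_inv₀, hdv,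
    inv_one, one_mul]

end Vale.Agent.P019P
end
end

section

section

/-!
# Residues in the perfect closure of the residue field
-/

namespace Vale.Agent.P019P

open Vale.Agent.P019

set_option linter.style.haveILetI false
set_option linter.unusedSectionVars false

open Polynomial Filter

section rsp

variable {K : Type*} [Field K] {W : ValuationSubring K}

theorem rsP_zero : rsP W 0 = 0 := by
  rw [rsP, rs_zero, map_zero]

theorem rsP_one : rsP W 1 = 1 := by
  rw [rsP, rs_one, map_one]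

theorem rsP_mul {x y : K} (hx : x ∈ W) (hy : y ∈ W) : rsP W (x * y) = rsP W x * rsP W y := by
  rw [rsP, rs_mul hx hy, map_mul, rsP, rsP]

theorem rsP_add {x y : K} (hx : x ∈ W) (hy : y ∈ W) : rsP W (x + y) = rsP W x + rsP W y := by
  rw [rsP, rs_add hx hy, map_add, rsP, rsP]

theorem rsP_sub {x y : K} (hx : x ∈ W) (hy : y ∈ W) : rsP W (x - y) = rsP W x - rsP W y := by
  rw [rsP, rs_sub hx hy, map_sub, rsP, rsP]

theorem rsP_pow {x : K} (hx : x ∈ W) (n : ℕ) : rsP W (x ^ n) = rsP W x ^ n := by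
  rw [rsP, rs_pow hx, map_pow, rsP]

theorem rsP_eq_zero {x : K} (hx : x ∈ W) : rsP W x = 0 ↔ W.valuation x < 1 := by
  rw [rsP, map_eq_zero_iff _ (rf_injective W), rs_eq_zero hx]

theorem rsP_ne_zero {x : K} (hx : x ∈ W) : rsP W x ≠ 0 ↔ W.valuation x = 1 := by
  rw [Ne, rsP_eq_zero hx, not_lt]
  constructor
  · exact fun h => le_antisymm ((W.valuation_le_one_iff x).2 hx) h
  · exact fun h => h.ge

theorem rsP_eq {x y : K} (hx : x ∈ W) (hy : y ∈ W) :
    rsP W x = rsP W y ↔ W.valuation (x - y) < 1 := by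
  rw [← sub_eq_zero, ← rsP_sub hx hy, rsP_eq_zero (sub_mem hx hy)]

theorem rsP_sum {ι : Type*} (s : Finset ι) (f : ι → K) (h : ∀ i ∈ s, f i ∈ W) :
    rsP W (∑ i ∈ s, f i) = ∑ i ∈ s, rsP W (f i) := by
  classical
  induction s using Finset.induction_on with
  | empty => rw [Finset.sum_empty, Finset.sum_empty, rsP_zero]
  | insert a s ha ih =>
    rw [Finset.sum_insert ha, Finset.sum_insert ha, rsP_add (h a (Finset.mem_insert_self a s))
      (sum_mem fun i hi => h i (Finset.mem_insert_of_mem hi)),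
      ih fun i hi => h i (Finset.mem_insert_of_mem hi)]

theorem rs_natCast (n : ℕ) : rs W (n : K) = (n : IsLocalRing.ResidueField W) := by
  induction n with
  | zero => rw [Nat.cast_zero, Nat.cast_zero, rs_zero]
  | succ n ih => rw [Nat.cast_succ, Nat.cast_succ, rs_add (natCast_mem _ n) W.one_mem, ih, rs_one]

theorem natCast_expChar_eq_zero (F : Type*) [Field F] (q : ℕ) [h : ExpChar F q]
    (hq : q.Prime) : (q : F) = 0 := by
  cases h with
  | zero => exact absurd hq Nat.not_prime_one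
  | prime _ => exact CharP.cast_eq_zero F q

/-- descent of roots from the perfect closure. -/
theorem cl_zero_of_rf {ℓ : ℕ} [Fact ℓ.Prime] (hℓ : W.valuation (ℓ : K) = 1)
    {c : IsLocalRing.ResidueField W} {w : RFP W} (hw : w ^ ℓ = rf W c) : cl ℓ c = 0 := by
  obtain ⟨m, y, hy⟩ := rf_pow W w
  have h1 : y ^ ℓ = c ^ (ringExpChar (IsLocalRing.ResidueField W) ^ m) := by
    apply rf_injective W
    rw [map_pow, hy, map_pow, ← hw, ← pow_mul, ← pow_mul, mul_comm]
  have h2 : (ringExpChar (IsLocalRing.ResidueField W) ^ m) • cl ℓ c = 0 := by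
    rw [← cl_pow, ← h1, cl_pow_self]
  have h3 : (ℓ : IsLocalRing.ResidueField W) ≠ 0 := by
    rw [← rs_natCast (W := W) ℓ]
    exact (rs_ne_zero (natCast_mem _ ℓ)).2 hℓ
  have h4 : ((ringExpChar (IsLocalRing.ResidueField W) ^ m : ℕ) : ZMod ℓ) ≠ 0 := by
    rw [Ne, ZMod.natCast_eq_zero_iff]
    intro h5
    have h6 := (Fact.out : ℓ.Prime).dvd_of_dvd_pow h5
    rcases expChar_is_prime_or_one (IsLocalRing.ResidueField W)
      (ringExpChar (IsLocalRing.ResidueField W)) with h7 | h7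
    · have h8 := (Nat.prime_dvd_prime_iff_eq (Fact.out : ℓ.Prime) h7).1 h6
      apply h3
      rw [h8]
      exact natCast_expChar_eq_zero _ _ h7
    · rw [h7, Nat.dvd_one] at h6
      exact (Fact.out : ℓ.Prime).one_lt.ne' h6
  rw [← Nat.cast_smul_eq_nsmul (ZMod ℓ), smul_eq_zero] at h2
  exact h2.resolve_left h4

theorem rsP_mem_rbarP {k : Subfield K} {z : K} (hz : z ∈ k) (hzW : z ∈ W) :
    rsP W z ∈ rbarP k W := mem_rbarP.2 ⟨z, hz, hzW, rfl⟩

end rsp

end Vale.Agent.P019P
end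
end

section

section

/-!
# Bottom valuations: the residue field of the constants is algebraic over a finite field
-/

namespace Vale.Agent.P019P

open Vale.Agent.P019

set_option linter.style.haveILetI false
set_option linter.unusedSectionVars false
set_option linter.unusedVariables false

open Polynomial Filter

/-- bottom valuation, on `k(t, s)`: a Gauss valuation of `k(t - c, s)` composed with the divisor
`t = c`. -/
structure Bot0 {K : Type*} [Field K] (k : Subfield K) (t s : K) (W : ValuationSubring K)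
    (c : K) : Prop where
  fin : Fin' (rbar k W)
  ck : c ∈ k
  cW : c ∈ W
  tc : W.valuation (t - c) < 1
  sW : s ∈ W
  sb : rs W s ∉ rbar k W
  inf : ∀ a ∈ k, W.valuation a < 1 → ∀ n : ℕ, W.valuation a < W.valuation (t - c) ^ n
  rep : ∀ z ∈ adj (adj k s) t, z ≠ 0 → ∃ (m : ℕ) (n : ℤ), ∃ a ∈ k, a ≠ 0 ∧
    W.valuation (z ^ ringExpChar K ^ m * (t - c) ^ n * a) = 1 ∧
    rs W (z ^ ringExpChar K ^ m * (t - c) ^ n * a) ∈ Vale.Agent.P019.adj (rbar k W) (rs W s)

/-- bottom valuation of the whole field. -/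
structure Bot {K : Type*} [Field K] (k : Subfield K) (t s θ : K) (W : ValuationSubring K)
    (c : K) : Prop extends Bot0 k t s W c where
  repT : ∀ z : K, z ≠ 0 → ∃ (m : ℕ) (n : ℤ), ∃ a ∈ k, a ≠ 0 ∧
    W.valuation (z ^ ringExpChar K ^ m * (t - c) ^ n * a) = 1
  θW : θ ∈ W
  gen : ∀ y : IsLocalRing.ResidueField W, ∃ m : ℕ, y ^ ringExpChar K ^ m ∈
    Vale.Agent.P019.adj (Vale.Agent.P019.adj (rbar k W) (rs W s)) (rs W θ)

end Vale.Agent.P019P
end
end

section

section

/-!
# The functional of a bottom valuation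
-/

namespace Vale.Agent.P019P

open Vale.Agent.P019

set_option linter.style.haveILetI false
set_option linter.unusedSectionVars false
set_option linter.unusedVariables false

open Polynomial Filter

variable {K : Type*} [Field K] [PerfectField K] {k : Subfield K} {t s θ : K}

private theorem r10b_unit {ℓ : ℕ} {W : ValuationSubring K} {z : K} (hz : W.valuation z = 1) :
    cl ℓ z ∈ UC ℓ W := mem_UC.2 ⟨z, hz, rfl⟩

section base

variable {W : ValuationSubring K} {c : K} (h : Bot k t s θ W c)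
include h

private theorem r10b_pos : 0 < W.valuation (t - c) := by
  have h1 := h.inf 0 k.zero_mem (by rw [map_zero]; exact zero_lt_one) 1
  rw [map_zero, pow_one] at h1
  exact h1

private theorem r10b_ne : t - c ≠ 0 := by
  intro h0
  have := r10b_pos h
  rw [h0, map_zero] at this
  exact lt_irrefl _ this

/-- a value `v(π)^N v(a)^e = 1`, `a` a constant, forces `N = 0`. -/
private theorem r10b_zero {a : K} (ha : a ∈ k) (ha0 : a ≠ 0) {N : ℤ} {e : ℕ} (he : e ≠ 0)
    (hv : W.valuation (t - c) ^ N * W.valuation a ^ e = 1) : N = 0 := by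
  have hπ0 := r10b_pos h
  have hπ1 := h.tc
  have hva : 0 < W.valuation a := zero_lt_iff.2 ((Valuation.ne_zero_iff _).2 ha0)
  -- `v(b) < 1`, `b` a constant, `v(b)^e = v(π)^M` is impossible
  have key : ∀ b ∈ k, W.valuation b < 1 → ∀ M : ℤ,
      W.valuation b ^ e = W.valuation (t - c) ^ M → False := by
    intro b hb hb1 M hM
    rcases le_total M 0 with hM0 | hM0
    · have h1 : 1 ≤ W.valuation (t - c) ^ M := by
        have := zpow_le_zpow_right_of_le_one₀ hπ0 hπ1.le hM0
        rwa [zpow_zero] at this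
      rw [← hM] at h1
      exact absurd (pow_lt_one₀ zero_le hb1 he) (not_lt.2 h1)
    · obtain ⟨n, rfl⟩ := Int.eq_ofNat_of_zero_le hM0
      have h1 := h.inf b hb hb1 n
      have h2 : W.valuation b ^ e ≤ W.valuation b := pow_le_of_le_one zero_le hb1.le he
      rw [hM, zpow_natCast] at h2
      exact absurd h1 (not_lt.2 h2)
  rcases lt_trichotomy (W.valuation a) 1 with h1 | h1 | h1
  · refine (key a ha h1 (-N) ?_).elim
    rw [zpow_neg]
    exact eq_inv_of_mul_eq_one_right hv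
  · rw [h1, one_pow, mul_one] at hv
    by_contra hN
    rcases lt_or_gt_of_ne hN with h2 | h2
    · have h3 := zpow_lt_zpow_right_of_lt_one₀ hπ0 hπ1 h2
      rw [zpow_zero, hv] at h3
      exact lt_irrefl _ h3
    · have h3 := zpow_lt_zpow_right_of_lt_one₀ hπ0 hπ1 h2
      rw [zpow_zero, hv] at h3
      exact lt_irrefl _ h3
  · refine (key a⁻¹ (k.inv_mem ha) ?_ N ?_).elim
    · rw [map_inv₀]; exact inv_lt_one_of_one_lt₀ h1
    · rw [map_inv₀, inv_pow]
      exact (eq_inv_of_mul_eq_one_left hv).symm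

variable (ℓ : ℕ) [Fact ℓ.Prime] [NeZero (ℓ : K)] (hk : IsAlgClosed k)
include hk

private theorem r10b_const {a : K} (ha : a ∈ k) : cl ℓ a = 0 := by
  by_cases ha0 : a = 0
  · rw [ha0, cl_zero]
  have hℓ : ℓ.Prime := Fact.out
  haveI := hk
  obtain ⟨b, hb⟩ := IsAlgClosed.exists_pow_nat_eq (⟨a, ha⟩ : k) hℓ.pos
  have hb' : (b : K) ^ ℓ = a := by
    have := congrArg (fun x : k => (x : K)) hb
    simpa using this
  rw [← hb', cl_pow_self]

/-- the classes modulo the unit classes. -/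
private theorem r10b_rep {z : K} (hz : z ≠ 0) : ∃ (m : ℕ) (n : ℤ), ∃ a ∈ k, a ≠ 0 ∧
    W.valuation z ^ ringExpChar K ^ m * W.valuation (t - c) ^ n * W.valuation a = 1 ∧
    ((ringExpChar K ^ m : ℕ) : ZMod ℓ) • cl ℓ z + (n : ZMod ℓ) • cl ℓ (t - c) ∈ UC ℓ W := by
  obtain ⟨m, n, a, ha, ha0, hv⟩ := h.repT z hz
  have hπ := r10b_ne h
  refine ⟨m, n, a, ha, ha0, ?_, ?_⟩
  · rw [map_mul, map_mul, map_pow, map_zpow₀] at hv
    exact hv
  · have h1 := r10b_unit (ℓ := ℓ) hv
    rw [cl_mul ℓ (mul_ne_zero (pow_ne_zero _ hz) (zpow_ne_zero _ hπ)) ha0,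
      cl_mul ℓ (pow_ne_zero _ hz) (zpow_ne_zero _ hπ), r10b_const h ℓ hk ha, add_zero, cl_pow,
      cl_zpow] at h1
    rwa [Nat.cast_smul_eq_nsmul, Int.cast_smul_eq_zsmul]

private theorem r10b_notMem : cl ℓ (t - c) ∉ UC ℓ W := by
  intro hcl
  obtain ⟨u, hu, hcu⟩ := mem_UC.1 hcl
  have hπ := r10b_ne h
  have hu0 : u ≠ 0 := by rintro rfl; rw [map_zero] at hu; exact zero_ne_one hu
  obtain ⟨w, hw, hwe⟩ := (cl_eq_iff ℓ hπ hu0).1 hcu
  have hvw : W.valuation (t - c) = W.valuation w ^ ℓ := by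
    rw [hwe, map_mul, hu, one_mul, map_pow]
  obtain ⟨m, n, a, ha, ha0, hv⟩ := h.repT w hw
  rw [map_mul, map_mul, map_pow, map_zpow₀] at hv
  have hℓ : ℓ.Prime := Fact.out
  have hpos := r10b_pos h
  have h1 : W.valuation (t - c) ^ (((ringExpChar K ^ m : ℕ) : ℤ) + n * ℓ) *
      W.valuation a ^ ℓ = 1 := by
    have h2 := congrArg (fun x => x ^ ℓ) hv
    simp only [one_pow, mul_pow] at h2
    rw [← h2]
    congr 1
    rw [zpow_add₀ hpos.ne', zpow_natCast, zpow_mul, zpow_natCast]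
    congr 1
    rw [hvw, ← pow_mul, ← pow_mul, mul_comm]
  have h2 := r10b_zero h ha ha0 hℓ.ne_zero h1
  have h3 : ((ringExpChar K ^ m : ℕ) : ZMod ℓ) = 0 := by
    have := congrArg (fun x : ℤ => (x : ZMod ℓ)) h2
    simpa using this
  exact q_pow_ne_zero ℓ K m h3

end base

theorem Bot.fn (ℓ : ℕ) [Fact ℓ.Prime] [NeZero (ℓ : K)] (hk : IsAlgClosed k)
    {W : ValuationSubring K} {c : K} (h : Bot k t s θ W c) :
    ∃ f : V ℓ K →ₗ[ZMod ℓ] ZMod ℓ, Adp W f ∧ f (cl ℓ (t - c)) = 1 := by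
  have hℓ : ℓ.Prime := Fact.out
  have hπ := r10b_ne h
  have hpos := r10b_pos h
  have hπ1 := h.tc
  -- the functional
  obtain ⟨f, hf1, hfU⟩ : ∃ f : V ℓ K →ₗ[ZMod ℓ] ZMod ℓ, f (cl ℓ (t - c)) = 1 ∧
      ∀ v ∈ UC ℓ W, f v = 0 := by
    obtain ⟨f, hf, hle⟩ := Submodule.exists_le_ker_of_notMem (r10b_notMem h ℓ hk)
    refine ⟨(f (cl ℓ (t - c)))⁻¹ • f, ?_, fun v hv => ?_⟩
    · rw [LinearMap.smul_apply, smul_eq_mul, inv_mul_cancel₀ hf]
    · rw [LinearMap.smul_apply, LinearMap.mem_ker.1 (hle hv), smul_zero]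
  have hfu : ∀ z : K, W.valuation z = 1 → f (cl ℓ z) = 0 := fun z hz => hfU _ (r10b_unit hz)
  have hker : ∀ v, f v = 0 ↔ v ∈ UC ℓ W := by
    intro v
    refine ⟨fun hv => ?_, hfU v⟩
    obtain ⟨z, hz, rfl⟩ := cl_surj ℓ v
    obtain ⟨m, n, a, ha, ha0, -, hmem⟩ := r10b_rep h ℓ hk hz
    have h1 := hfU _ hmem
    rw [map_add, map_smul, map_smul, hv, smul_zero, zero_add, hf1, smul_eq_mul, mul_one] at h1
    rw [h1, zero_smul, add_zero] at hmem
    have h2 := Submodule.smul_mem _ (((ringExpChar K ^ m : ℕ) : ZMod ℓ)⁻¹) hmem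
    rwa [smul_smul, inv_mul_cancel₀ (q_pow_ne_zero ℓ K m), one_smul] at h2
  refine ⟨f, ⟨?_, hker, ?_⟩, hf1⟩
  · intro h0
    rw [h0, LinearMap.zero_apply] at hf1
    exact zero_ne_one hf1
  -- first: elements `1 + m` with `f m ≠ 0`
  have h1 : ∀ m : K, m ≠ 0 → W.valuation m < 1 → f (cl ℓ m) ≠ 0 →
      cl ℓ (1 + m) ∈ H f := by
    intro m hm0 hlt hm g hg
    have h2 := hg (-m)
    have e1 : (1 : K) - -m = 1 + m := by ring
    have hne : (-m) ≠ 0 := neg_ne_zero.2 hm0
    have e2 : f (cl ℓ (1 + m)) = 0 := hfu _ (val_one_add hlt)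
    have e4 : f (cl ℓ (-m)) = f (cl ℓ m) := by
      have e5 : -m = (-1) * m := by ring
      rw [e5, cl_mul ℓ (by norm_num) hm0, map_add,
        hfu (-1) (by rw [Valuation.map_neg, map_one]), zero_add]
    rw [e1, e2, e4, zero_mul] at h2
    exact (mul_eq_zero.1 h2).resolve_left hm
  rintro _ ⟨m, hm, rfl⟩
  by_cases hm0 : m = 0
  · rw [hm0, add_zero, cl_one]; exact Submodule.zero_mem _
  by_cases hfm : f (cl ℓ m) ≠ 0
  · exact h1 m hm0 hm hfm
  push Not at hfm
  obtain ⟨j, n, a, ha, ha0, hval1, hmem⟩ := r10b_rep h ℓ hk hm0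
  haveI : PerfectRing K (ringExpChar K) := PerfectField.toPerfectRing _
  obtain ⟨p, hp⟩ := (bijective_iterateFrobenius K (ringExpChar K) (n := j)).2 (t - c)
  rw [iterateFrobenius_def] at hp
  have hp0 : p ≠ 0 := by
    rintro rfl
    rw [zero_pow (qpow_pos K j).ne'] at hp
    exact hπ hp.symm
  have hq := q_pow_ne_zero ℓ K j
  have hfp : f (cl ℓ p) ≠ 0 := by
    have e : ((ringExpChar K ^ j : ℕ) : ZMod ℓ) * f (cl ℓ p) = 1 := by
      have e6 : cl ℓ (p ^ ringExpChar K ^ j) = cl ℓ (t - c) := congrArg (cl ℓ) hp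
      rw [← hf1, ← e6, cl_pow, ← smul_eq_mul, ← map_smul, Nat.cast_smul_eq_nsmul]
    intro h0
    rw [h0, mul_zero] at e
    exact zero_ne_one e
  have hp1 : W.valuation p < 1 := by
    by_contra hcon
    push Not at hcon
    have h2 : (1 : W.ValueGroup) ≤ W.valuation (p ^ ringExpChar K ^ j) := by
      rw [map_pow]
      exact one_le_pow₀ hcon
    rw [hp] at h2
    exact absurd hπ1 (not_lt.2 h2)
  have hn : (n : ZMod ℓ) = 0 := by
    have h2 := hfU _ hmem
    rwa [map_add, map_smul, map_smul, hfm, smul_zero, zero_add, hf1, smul_eq_mul, mul_one] at h2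
  have hmp : W.valuation m < W.valuation p := by
    have hvp : W.valuation p ^ (ringExpChar K ^ j) = W.valuation (t - c) := by
      rw [← map_pow, hp]
    have hva : 0 < W.valuation a := zero_lt_iff.2 ((Valuation.ne_zero_iff _).2 ha0)
    have hvπ : W.valuation (t - c) ^ n ≠ 0 := zpow_ne_zero _ hpos.ne'
    have hv : W.valuation m ^ (ringExpChar K ^ j) =
        W.valuation (t - c) ^ (-n) * (W.valuation a)⁻¹ := by
      rw [zpow_neg, ← mul_inv]
      rw [mul_assoc] at hval1
      exact eq_inv_of_mul_eq_one_left hval1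
    have hlt1 : W.valuation m ^ (ringExpChar K ^ j) < 1 :=
      pow_lt_one₀ zero_le hm (qpow_pos K j).ne'
    refine lt_of_pow_lt_pow_left₀ (ringExpChar K ^ j) zero_le ?_
    rw [hvp]
    rcases lt_trichotomy (W.valuation a) 1 with h2 | h2 | h2
    · -- impossible
      exfalso
      have h3 : 1 ≤ W.valuation (t - c) ^ (-n) * (W.valuation a)⁻¹ := by
        rw [← div_eq_mul_inv, one_le_div₀ hva]
        rcases le_total (-n) 0 with h4 | h4
        · have h5 := zpow_le_zpow_right_of_le_one₀ hpos hπ1.le h4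
          rw [zpow_zero] at h5
          exact h2.le.trans h5
        · obtain ⟨N, hN⟩ := Int.eq_ofNat_of_zero_le h4
          rw [hN]
          have h5 := h.inf a ha h2 N
          have h6 : W.valuation (t - c) ^ (N : ℤ) = W.valuation (t - c) ^ N := zpow_natCast _ _
          exact (h5.le).trans h6.ge
      rw [← hv] at h3
      exact absurd hlt1 (not_lt.2 h3)
    · rw [hv, h2, inv_one, mul_one]
      have hn1 : 0 < -n := by
        by_contra hcon
        push Not at hcon
        have h3 : 1 ≤ W.valuation (t - c) ^ (-n) := by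
          have := zpow_le_zpow_right_of_le_one₀ hpos hπ1.le hcon
          rwa [zpow_zero] at this
        rw [hv, h2, inv_one, mul_one] at hlt1
        exact absurd hlt1 (not_lt.2 h3)
      have hn2 : -n ≠ 1 := by
        intro h3
        have h4 : n = -1 := by omega
        rw [h4] at hn
        simp at hn
      have := zpow_lt_zpow_right_of_lt_one₀ hpos hπ1 (show (1 : ℤ) < -n by omega)
      rwa [zpow_one] at this
    · rw [hv]
      have hinv : W.valuation a⁻¹ < 1 := by rw [map_inv₀]; exact inv_lt_one_of_one_lt₀ h2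
      have hpp : 0 < W.valuation (t - c) ^ (-n) := zpow_pos hpos _
      rcases le_total 0 (-n) with h4 | h4
      · have h5 := zpow_le_zpow_right_of_le_one₀ hpos hπ1.le h4
        rw [zpow_zero] at h5
        have h6 := h.inf a⁻¹ (k.inv_mem ha) hinv 1
        rw [pow_one, map_inv₀] at h6
        calc W.valuation (t - c) ^ (-n) * (W.valuation a)⁻¹ ≤ 1 * (W.valuation a)⁻¹ :=
              mul_le_mul_left h5 _
          _ = (W.valuation a)⁻¹ := one_mul _
          _ < W.valuation (t - c) := h6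
      · obtain ⟨N, hN⟩ := Int.eq_ofNat_of_zero_le (show 0 ≤ n by omega)
        have h6 := h.inf a⁻¹ (k.inv_mem ha) hinv (N + 1)
        rw [map_inv₀] at h6
        calc W.valuation (t - c) ^ (-n) * (W.valuation a)⁻¹
            < W.valuation (t - c) ^ (-n) * W.valuation (t - c) ^ (N + 1) := by
              exact (mul_lt_mul_iff_right₀ hpp).2 h6
          _ = W.valuation (t - c) := by
              rw [← zpow_natCast, ← zpow_add₀ hpos.ne', hN]
              rw [show (-(N : ℤ) + ((N + 1 : ℕ) : ℤ)) = 1 by push_cast; ring, zpow_one]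
  have hmp1 : W.valuation (m / p) < 1 := by
    rw [map_div₀]
    exact (div_lt_one₀ (zero_lt_iff.2 ((Valuation.ne_zero_iff _).2 hp0))).2 hmp
  have hne1 : 1 + p ≠ 0 := one_add_ne_zero hp1
  set m' := (m - p) / (1 + p) with hm'
  have e : 1 + m = (1 + p) * (1 + m') := by
    rw [hm']; field_simp; ring
  have hval : W.valuation (m / p - 1) = 1 := by
    have : m / p - 1 = -(1 + -(m / p)) := by ring
    rw [this, Valuation.map_neg]
    exact val_one_add (by rwa [Valuation.map_neg])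
  have hne3 : m / p - 1 ≠ 0 := by
    intro h; rw [h, map_zero] at hval; exact zero_ne_one hval
  have e2 : m' = (m / p - 1) * p / (1 + p) := by
    rw [hm']; field_simp [hp0]
  have hm'0 : m' ≠ 0 := by
    rw [e2]
    exact div_ne_zero (mul_ne_zero hne3 hp0) hne1
  have hvm' : W.valuation m' = W.valuation p := by
    rw [e2, map_div₀, map_mul, hval, one_mul, val_one_add hp1, div_one]
  have hfm' : f (cl ℓ m') ≠ 0 := by
    rw [e2, div_eq_mul_inv, cl_mul ℓ (mul_ne_zero hne3 hp0) (inv_ne_zero hne1),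
      cl_mul ℓ hne3 hp0, map_add, map_add, hfu _ hval, zero_add,
      hfu (1 + p)⁻¹ (by rw [map_inv₀, val_one_add hp1, inv_one]), add_zero]
    exact hfp
  have hlt' : W.valuation m' < 1 := by rw [hvm']; exact hp1
  rw [e, cl_mul ℓ hne1 (one_add_ne_zero hlt')]
  exact Submodule.add_mem _ (h1 p hp0 hp1 hfp) (h1 m' hm'0 hlt' hfm')

end Vale.Agent.P019P
end
end

section

section

/-!
# Classes of a perfect field and of a function field with this perfect closure
-/

namespace Vale.Agent.P019P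

open Vale.Agent.P019

set_option linter.style.haveILetI false
set_option linter.unusedSectionVars false

open Polynomial IntermediateField

variable {F : Type*} [Field F] {k : Subfield F} (F0 : IntermediateField k F) [CFF k F0]
  [IsPurelyInseparable F0 F]

namespace AuxFCl

/-- every element has a `q`-power in `F0`. -/
theorem exists_pow_mem (w : F) : ∃ (n : ℕ) (z : F0), (z : F) = w ^ ringExpChar F ^ n := by
  haveI : ExpChar F0 (ringExpChar F) :=
    (algebraMap F0 F).expChar (algebraMap F0 F).injective _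
  obtain ⟨n, z, hz⟩ := IsPurelyInseparable.pow_mem F0 (ringExpChar F) w
  exact ⟨n, z, hz⟩

end AuxFCl

/-- every class is the class of an element of `F0`. -/
theorem exists_cl {ℓ : ℕ} [Fact ℓ.Prime] [NeZero (ℓ : F)] (v : V ℓ F) :
    ∃ z : F0, z ≠ 0 ∧ cl ℓ (z : F) = v := by
  obtain ⟨w, hw0, hw⟩ := cl_surj ℓ v
  obtain ⟨n, z, hz⟩ := AuxFCl.exists_pow_mem F0 w
  have hz0 : z ≠ 0 := by
    rintro rfl
    have h1 : w ^ ringExpChar F ^ n = 0 := by rw [← hz]; rfl
    exact hw0 (eq_zero_of_pow_eq_zero h1)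
  have hu := q_pow_ne_zero ℓ F n
  set c : ZMod ℓ := ((ringExpChar F ^ n : ℕ) : ZMod ℓ)⁻¹ with hc
  refine ⟨z ^ c.val, pow_ne_zero _ hz0, ?_⟩
  have h2 : ((z ^ c.val : F0) : F) = (z : F) ^ c.val := rfl
  rw [h2, cl_pow, hz, cl_pow, hw, ← Nat.cast_smul_eq_nsmul (ZMod ℓ), ← Nat.cast_smul_eq_nsmul (ZMod ℓ),
    smul_smul, ZMod.natCast_val, ZMod.cast_id, hc, inv_mul_cancel₀ hu, one_smul]

/-- the elements of `F0` with trivial class. -/
theorem cl_coe_eq_zero {ℓ : ℕ} [Fact ℓ.Prime] [NeZero (ℓ : F)] {z : F0} (hz : z ≠ 0) :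
    cl ℓ (z : F) = 0 ↔ ∃ w : F0, w ≠ 0 ∧ z = w ^ ℓ := by
  constructor
  · intro h
    have hzF : (z : F) ≠ 0 := fun h0 => hz (Subtype.ext h0)
    obtain ⟨t, ht0, ht⟩ := (cl_eq_zero_iff ℓ hzF).1 h
    obtain ⟨n, T, hT⟩ := AuxFCl.exists_pow_mem F0 t
    have hT0 : T ≠ 0 := by
      rintro rfl
      have h1 : t ^ ringExpChar F ^ n = 0 := by rw [← hT]; rfl
      exact ht0 (eq_zero_of_pow_eq_zero h1)
    have h1 : z ^ ringExpChar F ^ n = T ^ ℓ := by
      apply Subtype.ext
      change (z : F) ^ ringExpChar F ^ n = (T : F) ^ ℓ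
      rw [hT, ← ht, ← pow_mul, ← pow_mul, mul_comm]
    have hcop : IsCoprime ((ringExpChar F ^ n : ℕ) : ℤ) (ℓ : ℤ) := by
      rw [Nat.isCoprime_iff_coprime]
      apply Nat.Coprime.symm
      rw [(Fact.out : ℓ.Prime).coprime_iff_not_dvd]
      intro hd
      exact q_pow_ne_zero ℓ F n ((ZMod.natCast_eq_zero_iff _ _).2 hd)
    obtain ⟨a, b, hab⟩ := hcop
    refine ⟨T ^ a * z ^ b, mul_ne_zero (zpow_ne_zero _ hT0) (zpow_ne_zero _ hz), ?_⟩
    rw [mul_pow, ← zpow_natCast, ← zpow_natCast, ← zpow_mul, mul_comm a, zpow_mul, zpow_natCast, ← h1,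
      ← zpow_natCast z, ← zpow_mul, ← zpow_mul, ← zpow_add₀ hz, mul_comm _ a, hab, zpow_one]
  · rintro ⟨w, hw0, rfl⟩
    exact cl_pow_self ℓ (w : F)

namespace AuxFCl

theorem cl_smul {ℓ : ℕ} [Fact ℓ.Prime] [NeZero (ℓ : F)] {a : k} (ha : a ≠ 0) {z : F0}
    (hz : z ≠ 0) : cl ℓ ((a • z : F0) : F) = cl ℓ (z : F) := by
  haveI : IsAlgClosed k := CFF.ac (k := k) (F := F0)
  obtain ⟨b, hb⟩ := IsAlgClosed.exists_pow_nat_eq a (Fact.out : ℓ.Prime).pos
  have h1 : ((a • z : F0) : F) = (b : F) ^ ℓ * (z : F) := by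
    rw [← hb]
    rfl
  have hb0 : (b : F) ≠ 0 := by
    intro h
    have h2 : b = 0 := Subtype.ext h
    rw [h2, zero_pow (Fact.out : ℓ.Prime).pos.ne'] at hb
    exact ha hb.symm
  have hzF : (z : F) ≠ 0 := fun h0 => hz (Subtype.ext h0)
  rw [h1, cl_mul ℓ (pow_ne_zero _ hb0) hzF, cl_pow_self, zero_add]

theorem cl_eq_of_dv {ℓ : ℕ} [Fact ℓ.Prime] [NeZero (ℓ : F)] {z w : F0} (hz : z ≠ 0) (hw : w ≠ 0)
    (h : dv k z = dv k w) : cl ℓ (z : F) = cl ℓ (w : F) := by
  obtain ⟨a, ha, rfl⟩ := (dv_eq_iff hz hw).1 h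
  exact (cl_smul F0 ha hz).symm

theorem dv_pow {z : F0} (hz : z ≠ 0) (n : ℕ) : dv k (z ^ n) = n • dv k z := by
  induction n with
  | zero => rw [pow_zero, zero_smul, AuxFEff.fe_dv_one]
  | succ n ih => rw [pow_succ, dv_mul (pow_ne_zero n hz) hz, ih, succ_nsmul]

end AuxFCl

/-- the class of a principal divisor. -/
theorem exists_clHom (ℓ : ℕ) [Fact ℓ.Prime] [NeZero (ℓ : F)] :
    ∃ f : prn k F0 →+ V ℓ F, (∀ z : F0, (hz : z ≠ 0) → f ⟨dv k z, z, hz, rfl⟩ = cl ℓ (z : F)) ∧
      Function.Surjective f ∧ ∀ D : prn k F0, f D = 0 ↔ ∃ E : prn k F0, D = ℓ • E := by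
  classical
  have hD : ∀ D : prn k F0, ∃ z : F0, z ≠ 0 ∧ (D : Plk k F0 →₀ ℤ) = dv k z := fun D => D.2
  choose s hs0 hs using hD
  let f : prn k F0 →+ V ℓ F := AddMonoidHom.mk' (fun D => cl ℓ (s D : F)) (by
    intro D E
    have h1 : dv k (s (D + E)) = dv k (s D * s E) := by
      rw [← hs, dv_mul (hs0 D) (hs0 E), ← hs, ← hs]
      rfl
    have h2 := AuxFCl.cl_eq_of_dv (ℓ := ℓ) F0 (hs0 _) (mul_ne_zero (hs0 D) (hs0 E)) h1
    have hzD : (s D : F) ≠ 0 := fun h0 => hs0 D (Subtype.ext h0)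
    have hzE : (s E : F) ≠ 0 := fun h0 => hs0 E (Subtype.ext h0)
    change cl ℓ (s (D + E) : F) = cl ℓ (s D : F) + cl ℓ (s E : F)
    rw [h2, ← cl_mul ℓ hzD hzE]
    rfl)
  have hf : ∀ z : F0, (hz : z ≠ 0) → f ⟨dv k z, z, hz, rfl⟩ = cl ℓ (z : F) := by
    intro z hz
    exact AuxFCl.cl_eq_of_dv F0 (hs0 _) hz (hs _).symm
  refine ⟨f, hf, ?_, ?_⟩
  · intro v
    obtain ⟨z, hz, hv⟩ := exists_cl F0 v
    exact ⟨⟨dv k z, z, hz, rfl⟩, (hf z hz).trans hv⟩
  · intro D
    constructor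
    · intro h
      have h1 : cl ℓ (s D : F) = 0 := h
      obtain ⟨w, hw0, hw⟩ := (cl_coe_eq_zero F0 (hs0 D)).1 h1
      refine ⟨⟨dv k w, w, hw0, rfl⟩, ?_⟩
      apply Subtype.ext
      change (D : Plk k F0 →₀ ℤ) = ℓ • dv k w
      rw [hs D, ← AuxFCl.dv_pow F0 hw0, ← hw]
    · rintro ⟨E, rfl⟩
      rw [map_nsmul]
      change ℓ • cl ℓ (s E : F) = 0
      rw [← cl_pow, cl_pow_self]

end Vale.Agent.P019P
end
end

section

section

/-!
# Dominating monomials
-/

namespace Vale.Agent.P019P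

open Vale.Agent.P019

set_option linter.unusedSectionVars false

variable {L : Type*} [Field L] {l : Subfield L} {w : ValuationSubring L} {ρ ϖ : L}

/-- the quotient of two monomials. -/
theorem monb_quot (hρ : ρ ≠ 0) (hϖ : ϖ ≠ 0) (c c' : L) (a b a' b' : ℕ) :
    c / c' * ρ ^ ((a : ℤ) - a') * ϖ ^ ((b : ℤ) - b') =
      c * ρ ^ a * ϖ ^ b * (c' * ρ ^ a' * ϖ ^ b')⁻¹ := by
  rw [zpow_sub₀ hρ, zpow_sub₀ hϖ]
  simp only [zpow_natCast, mul_inv, div_eq_mul_inv]
  ring

/-- every polynomial in `ρ`, `ϖ` is dominated by one of its monomials, at `w` and at every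
valuation ring at which the finitely many quotients of the monomials which are small at `w`
are small.
Proof. The values of the monomials `c t * ρ ^ t.1 * ϖ ^ t.2`, `t ∈ T`, are pairwise different
(`Mon.one_iff` for quotients); take `t₀` with the largest value, and
`M = {(c t / c t₀, t.1 - t₀.1, t.2 - t₀.2) | t ∈ T, t ≠ t₀}`. -/
theorem mon_dom [DecidableEq L] (h : Mon l w ρ ϖ) (T : Finset (ℕ × ℕ)) (hT : T.Nonempty)
    (c : ℕ × ℕ → L) (hc : ∀ t ∈ T, c t ∈ l ∧ c t ≠ 0) :
    ∃ t₀ ∈ T, ∃ M : Finset (L × ℤ × ℤ),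
      (∀ m ∈ M, m.1 ∈ l ∧ m.1 ≠ 0 ∧ w.valuation (m.1 * ρ ^ m.2.1 * ϖ ^ m.2.2) < 1) ∧
      ∀ q : ValuationSubring L,
        (∀ m ∈ M, q.valuation (m.1 * ρ ^ m.2.1 * ϖ ^ m.2.2) < 1) →
        q.valuation ((∑ t ∈ T, c t * ρ ^ t.1 * ϖ ^ t.2) * (c t₀ * ρ ^ t₀.1 * ϖ ^ t₀.2)⁻¹) = 1 := by
  obtain ⟨t₀, ht₀, hmax⟩ := T.exists_max_image
    (fun t => w.valuation (c t * ρ ^ t.1 * ϖ ^ t.2)) hT
  have hne : ∀ t ∈ T, c t * ρ ^ t.1 * ϖ ^ t.2 ≠ 0 := fun t ht =>
    mul_ne_zero (mul_ne_zero (hc t ht).2 (pow_ne_zero _ h.rne)) (pow_ne_zero _ h.pne)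
  refine ⟨t₀, ht₀, (T.erase t₀).image
    (fun t => (c t / c t₀, (t.1 : ℤ) - t₀.1, (t.2 : ℤ) - t₀.2)), ?_, ?_⟩
  · intro m hm
    obtain ⟨t, ht, rfl⟩ := Finset.mem_image.1 hm
    obtain ⟨hne0, htT⟩ := Finset.mem_erase.1 ht
    have h1 : c t / c t₀ ∈ l := l.div_mem (hc t htT).1 (hc t₀ ht₀).1
    have h2 : c t / c t₀ ≠ 0 := div_ne_zero (hc t htT).2 (hc t₀ ht₀).2
    refine ⟨h1, h2, ?_⟩
    dsimp only
    refine lt_of_le_of_ne ?_ ?_
    · rw [monb_quot h.rne h.pne, map_mul, map_inv₀]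
      have h3 : w.valuation (c t₀ * ρ ^ t₀.1 * ϖ ^ t₀.2) ≠ 0 :=
        (Valuation.ne_zero_iff _).2 (hne t₀ ht₀)
      rw [← div_eq_mul_inv]
      exact (div_le_one₀ (zero_lt_iff.2 h3)).2 (hmax t htT)
    · intro h3
      obtain ⟨-, h4, h5⟩ := (h.one_iff h1 h2 _ _).1 h3
      exact hne0 (Prod.ext (by omega) (by omega))
  · intro q hq
    have h1 : ∀ t ∈ T.erase t₀, q.valuation
        (c t * ρ ^ t.1 * ϖ ^ t.2 * (c t₀ * ρ ^ t₀.1 * ϖ ^ t₀.2)⁻¹) < 1 := by
      intro t ht
      rw [← monb_quot h.rne h.pne]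
      exact hq _ (Finset.mem_image_of_mem _ ht)
    have h2 : (∑ t ∈ T, c t * ρ ^ t.1 * ϖ ^ t.2) * (c t₀ * ρ ^ t₀.1 * ϖ ^ t₀.2)⁻¹ =
        1 + ∑ t ∈ T.erase t₀, c t * ρ ^ t.1 * ϖ ^ t.2 * (c t₀ * ρ ^ t₀.1 * ϖ ^ t₀.2)⁻¹ := by
      rw [← Finset.add_sum_erase T _ ht₀, add_mul, mul_inv_cancel₀ (hne t₀ ht₀),
        Finset.sum_mul]
    have h3 : q.valuation (∑ t ∈ T.erase t₀, c t * ρ ^ t.1 * ϖ ^ t.2 *
        (c t₀ * ρ ^ t₀.1 * ϖ ^ t₀.2)⁻¹) < 1 :=
      Valuation.map_sum_lt _ one_ne_zero h1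
    rw [h2]
    exact q.valuation.map_one_add_of_lt h3

/-- a polynomial in `ρ`, `ϖ` is dominated by a monomial. -/
theorem monb_poly [DecidableEq L] (h : Mon l w ρ ϖ) (r : MvPolynomial (Fin 2) l)
    (hr : MvPolynomial.aeval ![ρ, ϖ] r ≠ 0) :
    ∃ (c : L) (a b : ℕ), c ∈ l ∧ c ≠ 0 ∧ ∃ M : Finset (L × ℤ × ℤ),
      (∀ m ∈ M, m.1 ∈ l ∧ m.1 ≠ 0 ∧ w.valuation (m.1 * ρ ^ m.2.1 * ϖ ^ m.2.2) < 1) ∧
      ∀ q : ValuationSubring L,
        (∀ m ∈ M, q.valuation (m.1 * ρ ^ m.2.1 * ϖ ^ m.2.2) < 1) →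
        q.valuation (MvPolynomial.aeval ![ρ, ϖ] r * (c * ρ ^ a * ϖ ^ b)⁻¹) = 1 := by
  set e : (Fin 2 →₀ ℕ) ≃ ℕ × ℕ :=
    Finsupp.equivFunOnFinite.trans (finTwoArrowEquiv ℕ) with he
  have he0 : ∀ d : Fin 2 →₀ ℕ, e d = (d 0, d 1) := fun d => rfl
  set T : Finset (ℕ × ℕ) := r.support.map e.toEmbedding with hTdef
  set c : ℕ × ℕ → L := fun t => ((r.coeff (e.symm t) : l) : L) with hcdef
  have hsum : MvPolynomial.aeval ![ρ, ϖ] r = ∑ t ∈ T, c t * ρ ^ t.1 * ϖ ^ t.2 := by
    rw [hTdef, Finset.sum_map, MvPolynomial.aeval_def, MvPolynomial.eval₂_eq']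
    refine Finset.sum_congr rfl fun d _ => ?_
    have h1 : c (e d) = ((r.coeff d : l) : L) := by
      simp only [hcdef, Equiv.symm_apply_apply]
    rw [Fin.prod_univ_two, ← mul_assoc, Equiv.coe_toEmbedding, h1, he0]
    rfl
  have hr0 : r ≠ 0 := by
    rintro rfl
    exact hr (map_zero _)
  have hT : T.Nonempty := by
    rw [hTdef, Finset.map_nonempty]
    exact MvPolynomial.support_nonempty.2 hr0
  have hc : ∀ t ∈ T, c t ∈ l ∧ c t ≠ 0 := by
    intro t ht
    refine ⟨Subtype.coe_prop _, ?_⟩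
    rw [hTdef, Finset.mem_map_equiv] at ht
    have h1 := MvPolynomial.mem_support_iff.1 ht
    intro h2
    exact h1 (Subtype.ext h2)
  obtain ⟨t₀, ht₀, M, hM, hq⟩ := mon_dom h T hT c hc
  refine ⟨c t₀, t₀.1, t₀.2, (hc t₀ ht₀).1, (hc t₀ ht₀).2, M, hM, fun q hq' => ?_⟩
  rw [hsum]
  exact hq q hq'

/-- `l(ρ, ϖ)` consists of the quotients of polynomials. -/
theorem monb_frac {x : L} (hx : x ∈ l ⊔ Subfield.closure ({ρ, ϖ} : Set L)) :
    ∃ r s : MvPolynomial (Fin 2) l,
      x = MvPolynomial.aeval ![ρ, ϖ] r / MvPolynomial.aeval ![ρ, ϖ] s := by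
  have h1 : l ⊔ Subfield.closure ({ρ, ϖ} : Set L) ≤
      (IntermediateField.adjoin l (Set.range ![ρ, ϖ])).toSubfield := by
    refine sup_le (fun y hy => ?_) (Subfield.closure_le.2 fun y hy => ?_)
    · exact (IntermediateField.adjoin l (Set.range ![ρ, ϖ])).algebraMap_mem ⟨y, hy⟩
    · refine IntermediateField.subset_adjoin _ _ ?_
      rcases hy with rfl | hy
      · exact ⟨0, rfl⟩
      · exact ⟨1, by simpa using (Set.mem_singleton_iff.1 hy).symm⟩
  exact (IntermediateField.mem_adjoin_range_iff _ _ _).1 (h1 hx)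

/-- the same for elements of the perfect closure of `l(ρ, ϖ)`.
Proof. Some power `z ^ (ringExpChar L) ^ m` is a quotient of two polynomials in `ρ`, `ϖ` with
coefficients in `l` (`gsp`, `pf` and `Subfield.closure`); both numerator and denominator are
non-zero; take out the zero coefficients and use `mon_dom` twice; the quotient of the two
dominating monomials is again a monomial. -/
theorem mon_gsp [PerfectField L] [DecidableEq L] (h : Mon l w ρ ϖ) {z : L} (hz0 : z ≠ 0)
    (hz : z ∈ gsp l {ρ, ϖ}) :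
    ∃ (m : ℕ) (c : L) (a b : ℤ), c ∈ l ∧ c ≠ 0 ∧ ∃ M : Finset (L × ℤ × ℤ),
      (∀ m ∈ M, m.1 ∈ l ∧ m.1 ≠ 0 ∧ w.valuation (m.1 * ρ ^ m.2.1 * ϖ ^ m.2.2) < 1) ∧
      ∀ q : ValuationSubring L,
        (∀ m ∈ M, q.valuation (m.1 * ρ ^ m.2.1 * ϖ ^ m.2.2) < 1) →
        q.valuation (z ^ (ringExpChar L) ^ m * c * ρ ^ a * ϖ ^ b) = 1 := by
  obtain ⟨m, hm⟩ := mem_pf.1 hz
  rw [Finset.coe_insert, Finset.coe_singleton] at hm
  obtain ⟨r, s, hrs⟩ := monb_frac hm
  have hz1 : z ^ (ringExpChar L) ^ m ≠ 0 := pow_ne_zero _ hz0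
  have hr0 : MvPolynomial.aeval ![ρ, ϖ] r ≠ 0 := by
    intro h0
    rw [h0, zero_div] at hrs
    exact hz1 hrs
  have hs0 : MvPolynomial.aeval ![ρ, ϖ] s ≠ 0 := by
    intro h0
    rw [h0, div_zero] at hrs
    exact hz1 hrs
  obtain ⟨c₁, a₁, b₁, hc₁, hc₁0, M₁, hM₁, hq₁⟩ := monb_poly h r hr0
  obtain ⟨c₂, a₂, b₂, hc₂, hc₂0, M₂, hM₂, hq₂⟩ := monb_poly h s hs0
  refine ⟨m, c₂ / c₁, (a₂ : ℤ) - a₁, (b₂ : ℤ) - b₁, l.div_mem hc₂ hc₁,
    div_ne_zero hc₂0 hc₁0, M₁ ∪ M₂, ?_, ?_⟩
  · intro n hn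
    rcases Finset.mem_union.1 hn with hn | hn
    · exact hM₁ n hn
    · exact hM₂ n hn
  · intro q hq
    have h1 := hq₁ q fun n hn => hq n (Finset.mem_union_left _ hn)
    have h2 := hq₂ q fun n hn => hq n (Finset.mem_union_right _ hn)
    have h3 : z ^ (ringExpChar L) ^ m * (c₂ / c₁) * ρ ^ ((a₂ : ℤ) - a₁) * ϖ ^ ((b₂ : ℤ) - b₁) =
        (MvPolynomial.aeval ![ρ, ϖ] r * (c₁ * ρ ^ a₁ * ϖ ^ b₁)⁻¹) *
          (MvPolynomial.aeval ![ρ, ϖ] s * (c₂ * ρ ^ a₂ * ϖ ^ b₂)⁻¹)⁻¹ := by
      rw [mul_assoc, mul_assoc, ← mul_assoc (c₂ / c₁), monb_quot h.rne h.pne, hrs,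
        mul_inv (MvPolynomial.aeval ![ρ, ϖ] s), inv_inv, div_eq_mul_inv]
      ring
    rw [h3, map_mul, map_inv₀, h1, h2, inv_one, one_mul]

end Vale.Agent.P019P
end
end

section

section

/-!
# The choice of the approximation
-/

namespace Vale.Agent.P019P

open Vale.Agent.P019

variable {L : Type*} [Field L] {l : Subfield L} {w : ValuationSubring L} {ρ ϖ : L}

/-- roots in `l`. -/
theorem monc_root (hl : IsAlgClosed l) {c : L} (hc : c ∈ l) (hc0 : c ≠ 0) {n : ℕ} (hn : 0 < n) :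
    ∃ e ∈ l, e ≠ 0 ∧ e ^ n = c := by
  obtain ⟨z, hz⟩ := IsAlgClosed.exists_pow_nat_eq (⟨c, hc⟩ : l) hn
  have hz' : (z : L) ^ n = c := by
    have := congrArg (fun t : l => (t : L)) hz
    simpa using this
  refine ⟨z, z.2, ?_, hz'⟩
  intro h0
  rw [h0, zero_pow hn.ne'] at hz'
  exact hc0 hz'.symm

/-- an upper bound for `x`. -/
theorem monc_pos {e x : L} (he : e ≠ 0) {n : ℕ} (hn : 0 < n) :
    w.valuation (e ^ n * x ^ (n : ℤ)) < 1 ↔ w.valuation x < w.valuation e⁻¹ := by
  have he' : 0 < w.valuation e := zero_lt_iff.2 ((Valuation.ne_zero_iff _).2 he)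
  rw [zpow_natCast, ← mul_pow, map_pow, pow_lt_one_iff hn.ne', map_mul, map_inv₀, mul_comm,
    ← one_div, lt_div_iff₀ he']

/-- a lower bound for `x`. -/
theorem monc_neg {e x : L} (hx : x ≠ 0) {n : ℕ} (hn : 0 < n) :
    w.valuation (e ^ n * x ^ (-(n : ℤ))) < 1 ↔ w.valuation e < w.valuation x := by
  have hx' : 0 < w.valuation x := zero_lt_iff.2 ((Valuation.ne_zero_iff _).2 hx)
  rw [zpow_neg, zpow_natCast, ← div_eq_mul_inv, ← div_pow, map_pow, pow_lt_one_iff hn.ne',
    map_div₀, div_lt_one₀ hx']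

/-- the values of `l` are dense, without end points. -/
theorem monc_between (hl : IsAlgClosed l) {e : L} (he : e ∈ l) (he0 : e ≠ 0)
    (he1 : w.valuation e < 1) (lo hi : Finset L) (hlo : ∀ x ∈ lo, x ∈ l ∧ x ≠ 0)
    (hhi : ∀ y ∈ hi, y ∈ l ∧ y ≠ 0)
    (h : ∀ x ∈ lo, ∀ y ∈ hi, w.valuation x < w.valuation y) :
    ∃ c ∈ l, c ≠ 0 ∧ (∀ x ∈ lo, w.valuation x < w.valuation c) ∧
      ∀ y ∈ hi, w.valuation c < w.valuation y := by
  have pos : ∀ x : L, x ≠ 0 → 0 < w.valuation x := fun x hx =>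
    zero_lt_iff.2 ((Valuation.ne_zero_iff _).2 hx)
  by_cases h1 : lo.Nonempty
  · obtain ⟨x, hx, hx1⟩ := Finset.exists_max_image lo w.valuation h1
    by_cases h2 : hi.Nonempty
    · obtain ⟨y, hy, hy1⟩ := Finset.exists_min_image hi w.valuation h2
      have hxy := h x hx y hy
      obtain ⟨c, hc, hc0, hc2⟩ := monc_root hl (l.mul_mem (hlo x hx).1 (hhi y hy).1)
        (mul_ne_zero (hlo x hx).2 (hhi y hy).2) (n := 2) (by norm_num)
      have hc3 : w.valuation c * w.valuation c = w.valuation x * w.valuation y := by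
        rw [← map_mul, ← map_mul, ← hc2, pow_two]
      have px := pos x (hlo x hx).2
      have py := pos y (hhi y hy).2
      have pc := pos c hc0
      refine ⟨c, hc, hc0, fun z hz => (hx1 z hz).trans_lt ?_,
        fun z hz => lt_of_lt_of_le ?_ (hy1 z hz)⟩
      · by_contra hlt
        rw [not_lt] at hlt
        have : w.valuation c * w.valuation c ≤ w.valuation x * w.valuation x :=
          mul_le_mul' hlt hlt
        rw [hc3] at this
        have h3 : w.valuation y ≤ w.valuation x := le_of_mul_le_mul_left this px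
        exact absurd hxy (not_lt.2 h3)
      · by_contra hlt
        rw [not_lt] at hlt
        have : w.valuation y * w.valuation y ≤ w.valuation c * w.valuation c :=
          mul_le_mul' hlt hlt
        rw [hc3] at this
        have h3 : w.valuation y ≤ w.valuation x := le_of_mul_le_mul_right this py
        exact absurd hxy (not_lt.2 h3)
    · refine ⟨x * e⁻¹, l.mul_mem (hlo x hx).1 (l.inv_mem he),
        mul_ne_zero (hlo x hx).2 (inv_ne_zero he0), fun z hz => (hx1 z hz).trans_lt ?_,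
        fun y hy => absurd ⟨y, hy⟩ h2⟩
      have px := pos x (hlo x hx).2
      have pe := pos e he0
      rw [← div_eq_mul_inv, map_div₀, lt_div_iff₀ pe]
      exact mul_lt_of_lt_one_right px he1
  · by_cases h2 : hi.Nonempty
    · obtain ⟨y, hy, hy1⟩ := Finset.exists_min_image hi w.valuation h2
      refine ⟨y * e, l.mul_mem (hhi y hy).1 he, mul_ne_zero (hhi y hy).2 he0,
        fun x hx => absurd ⟨x, hx⟩ h1, fun z hz => lt_of_lt_of_le ?_ (hy1 z hz)⟩
      have py := pos y (hhi y hy).2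
      rw [map_mul]
      exact mul_lt_of_lt_one_right py he1
    · exact ⟨1, l.one_mem, one_ne_zero, fun x hx => absurd ⟨x, hx⟩ h1,
        fun y hy => absurd ⟨y, hy⟩ h2⟩

/-- an approximation of the value of `ρ` by the value of `c₀ * ϖ ^ n`.
Proof. Case 1: `w` is not trivial on `l` (some `e ∈ l`, `e ≠ 0`, `w.valuation e < 1`): take
`n = 0`. For `m = (c, a, b) ∈ M` with `a = 0` the claim is `Mon.lt_iff`. For `a ≠ 0` we have
`w (c * ρ ^ a) < 1` (`Mon.lt_iff`, `Mon.ind`), and we need `w (c * c₀ ^ a) < 1`; with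
`e ∈ l`, `e ^ |a| = c⁻¹` or `c` (roots exist, `l` is algebraically closed) this says
`w c₀ < w e` or `w e < w c₀`, and `w ρ < w e` or `w e < w ρ` is known. So there are finitely many
lower bounds `w x < w ρ` and upper bounds `w ρ < w y`, `x, y ∈ l`, and we need `c₀ ∈ l`
strictly between: take `c₀ ^ 2 = x * y` for the largest lower bound and the smallest upper
bound; if there is no lower or no upper bound use a power of the small element `e ∈ l`.
Case 2: all non-zero elements of `l` have value `1`: then `w ρ ≠ 1`; take `c₀ = 1` and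
`n = N` or ... so that the sign is right: note that `n : ℤ` may be negative if `w ρ > 1`. For
`a ≠ 0`: `w (ρ ^ a) < 1`, so `0 < n * a` when `n` has the sign of the value of `ρ`; take `|n|`
larger than all `|b|`. -/
theorem mon_choose (hl : IsAlgClosed l) (h : Mon l w ρ ϖ) (M : Finset (L × ℤ × ℤ))
    (hM : ∀ m ∈ M, m.1 ∈ l ∧ m.1 ≠ 0 ∧ w.valuation (m.1 * ρ ^ m.2.1 * ϖ ^ m.2.2) < 1) :
    ∃ (c₀ : L) (n : ℤ), c₀ ∈ l ∧ c₀ ≠ 0 ∧ ∀ m ∈ M,
      w.valuation (m.1 * c₀ ^ m.2.1) < 1 ∨
        w.valuation (m.1 * c₀ ^ m.2.1) = 1 ∧ 0 < n * m.2.1 + m.2.2 := by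
  classical
  have hM' : ∀ m ∈ M, w.valuation (m.1 * ρ ^ m.2.1) < 1 ∨
      (m.2.1 = 0 ∧ w.valuation m.1 = 1 ∧ 0 < m.2.2) := by
    intro m hm
    obtain ⟨h1, h2, h3⟩ := hM m hm
    rcases (h.lt_iff h1 h2 m.2.1 m.2.2).1 h3 with h4 | ⟨h4, h5⟩
    · exact Or.inl h4
    · have h6 := h.ind _ h1 h2 _ h4
      rw [h6, zpow_zero, mul_one] at h4
      exact Or.inr ⟨h6, h4, h5⟩
  by_cases htr : ∃ e ∈ l, e ≠ 0 ∧ w.valuation e < 1
  · obtain ⟨e, he, he0, he1⟩ := htr
    have hr : ∀ m ∈ M, m.2.1 ≠ 0 → ∃ g ∈ l, g ≠ 0 ∧ g ^ m.2.1.natAbs = m.1 := by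
      intro m hm hm0
      exact monc_root hl (hM m hm).1 (hM m hm).2.1 (Int.natAbs_pos.2 hm0)
    choose! g hg using hr
    have key : ∀ m ∈ M, m.2.1 < 0 → ∀ x : L, x ≠ 0 →
        (w.valuation (m.1 * x ^ m.2.1) < 1 ↔ w.valuation (g m) < w.valuation x) := by
      intro m hm hm0 x hx
      obtain ⟨g1, g2, g3⟩ := hg m hm hm0.ne
      have h4 := monc_neg (w := w) (e := g m) hx (Int.natAbs_pos.2 hm0.ne)
      have h5 : -((m.2.1.natAbs : ℕ) : ℤ) = m.2.1 := by omega
      rw [g3, h5] at h4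
      exact h4
    have key2 : ∀ m ∈ M, 0 < m.2.1 → ∀ x : L,
        (w.valuation (m.1 * x ^ m.2.1) < 1 ↔ w.valuation x < w.valuation (g m)⁻¹) := by
      intro m hm hm0 x
      obtain ⟨g1, g2, g3⟩ := hg m hm hm0.ne'
      have h4 := monc_pos (w := w) (e := g m) (x := x) g2 (Int.natAbs_pos.2 hm0.ne')
      have h5 : ((m.2.1.natAbs : ℕ) : ℤ) = m.2.1 := by omega
      rw [g3, h5] at h4
      exact h4
    obtain ⟨c, hc, hc0, hc1, hc2⟩ := monc_between hl he he0 he1
      ((M.filter fun m => m.2.1 < 0).image g) ((M.filter fun m => 0 < m.2.1).image fun m => (g m)⁻¹)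
      (by
        intro x hx
        rw [Finset.mem_image] at hx
        obtain ⟨m, hm, rfl⟩ := hx
        rw [Finset.mem_filter] at hm
        obtain ⟨g1, g2, g3⟩ := hg m hm.1 hm.2.ne
        exact ⟨g1, g2⟩)
      (by
        intro x hx
        rw [Finset.mem_image] at hx
        obtain ⟨m, hm, rfl⟩ := hx
        rw [Finset.mem_filter] at hm
        obtain ⟨g1, g2, g3⟩ := hg m hm.1 hm.2.ne'
        exact ⟨l.inv_mem g1, inv_ne_zero g2⟩)
      (by
        intro x hx y hy
        rw [Finset.mem_image] at hx hy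
        obtain ⟨m, hm, rfl⟩ := hx
        obtain ⟨m', hm', rfl⟩ := hy
        rw [Finset.mem_filter] at hm hm'
        have h1 : w.valuation (m.1 * ρ ^ m.2.1) < 1 := by
          rcases hM' m hm.1 with h1 | h1
          · exact h1
          · exact absurd h1.1 hm.2.ne
        have h2 : w.valuation (m'.1 * ρ ^ m'.2.1) < 1 := by
          rcases hM' m' hm'.1 with h1 | h1
          · exact h1
          · exact absurd h1.1 hm'.2.ne'
        exact ((key m hm.1 hm.2 ρ h.rne).1 h1).trans ((key2 m' hm'.1 hm'.2 ρ).1 h2))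
    refine ⟨c, 0, hc, hc0, fun m hm => ?_⟩
    rcases hM' m hm with h1 | ⟨h1, h2, h3⟩
    · left
      rcases lt_trichotomy m.2.1 0 with h2 | h2 | h2
      · rw [key m hm h2 c hc0]
        exact hc1 _ (Finset.mem_image_of_mem _ (Finset.mem_filter.2 ⟨hm, h2⟩))
      · rw [h2, zpow_zero] at h1 ⊢
        exact h1
      · rw [key2 m hm h2 c]
        exact hc2 _ (Finset.mem_image.2 ⟨m, Finset.mem_filter.2 ⟨hm, h2⟩, rfl⟩)
    · right
      rw [h1, zpow_zero, mul_one]
      exact ⟨h2, by omega⟩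
  · have htr' : ∀ c ∈ l, c ≠ 0 → w.valuation c = 1 := by
      intro c hc hc0
      rcases lt_trichotomy (w.valuation c) 1 with h1 | h1 | h1
      · exact absurd ⟨c, hc, hc0, h1⟩ htr
      · exact h1
      · refine absurd ⟨c⁻¹, l.inv_mem hc, inv_ne_zero hc0, ?_⟩ htr
        rw [map_inv₀]
        exact inv_lt_one_of_one_lt₀ h1
    have hρ : w.valuation ρ ≠ 1 := by
      intro h1
      have h2 := h.ind 1 l.one_mem one_ne_zero 1 (by rw [zpow_one, one_mul]; exact h1)
      exact absurd h2 (by norm_num)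
    have hρ0 : 0 < w.valuation ρ := zero_lt_iff.2 ((Valuation.ne_zero_iff _).2 h.rne)
    have hN : ∀ m ∈ M, |m.2.2| ≤ ∑ m ∈ M, |m.2.2| := fun m hm =>
      Finset.single_le_sum (f := fun m : L × ℤ × ℤ => |m.2.2|) (fun i _ => abs_nonneg _) hm
    set N : ℤ := ∑ m ∈ M, |m.2.2| with hNdef
    have hN0 : 0 ≤ N := Finset.sum_nonneg fun i _ => abs_nonneg _
    rcases lt_or_gt_of_ne hρ with h1 | h1
    · refine ⟨1, N + 1, l.one_mem, one_ne_zero, fun m hm => Or.inr ?_⟩
      rw [one_zpow, mul_one]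
      refine ⟨htr' _ (hM m hm).1 (hM m hm).2.1, ?_⟩
      rcases hM' m hm with h2 | ⟨h2, h3, h4⟩
      · rw [map_mul, htr' _ (hM m hm).1 (hM m hm).2.1, one_mul, map_zpow₀] at h2
        have h5 : 0 < m.2.1 := by
          by_contra h6
          rw [not_lt] at h6
          exact absurd h2 (not_lt.2 (one_le_zpow_of_nonpos₀ hρ0 h1.le h6))
        have h6 := hN m hm
        have h7 := neg_abs_le m.2.2
        nlinarith
      · rw [h2]; omega
    · refine ⟨1, -(N + 1), l.one_mem, one_ne_zero, fun m hm => Or.inr ?_⟩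
      rw [one_zpow, mul_one]
      refine ⟨htr' _ (hM m hm).1 (hM m hm).2.1, ?_⟩
      rcases hM' m hm with h2 | ⟨h2, h3, h4⟩
      · rw [map_mul, htr' _ (hM m hm).1 (hM m hm).2.1, one_mul, map_zpow₀] at h2
        have h5 : m.2.1 < 0 := by
          by_contra h6
          rw [not_lt] at h6
          exact absurd h2 (not_lt.2 (one_le_zpow₀ h1.le h6))
        have h6 := hN m hm
        have h7 := neg_abs_le m.2.2
        nlinarith
      · rw [h2]; omega

end Vale.Agent.P019P
end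
end

section

section

/-!
# Abhyankar valuations: independence
-/

namespace Vale.Agent.P019P

open Vale.Agent.P019

set_option linter.style.haveILetI false
set_option linter.unusedSectionVars false
set_option linter.unusedVariables false

open Polynomial Filter

variable {L : Type*} [Field L] {l : Subfield L}

/-- the same with an element with value not commensurable with the values of `l`. -/
theorem abh_lift (hl : IsAlgClosed l) {O : ValuationSubring L} {ρ : L} (hρ0 : ρ ≠ 0)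
    (hρ : ∀ a ∈ l, a ≠ 0 → ∀ i : ℤ, O.valuation (a * ρ ^ i) = 1 → i = 0)
    {B : Finset (IsLocalRing.ResidueField O)} (hB : Indp (rbar l O) B) :
    ∃ B' : Finset L, B'.card = B.card + 1 ∧ Indp l B' := by
  classical
  obtain ⟨B', h1, h2, -, h3, -⟩ := ab_chain l hB
  obtain ⟨h4, h5⟩ := ab_insert h2 h3 hρ0 (ab_pow_ne hρ)
  exact ⟨insert ρ B', by rw [Finset.card_insert_of_notMem h4, h1], h5⟩

/-- a class which is not a unit class has a value which is not commensurable with the values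
of `l`. -/
theorem not_torsion (hl : IsAlgClosed l) {ℓ : ℕ} [Fact ℓ.Prime]
    {O : ValuationSubring L} {ρ : L} (hρ0 : ρ ≠ 0) (h : cl ℓ ρ ∉ UC ℓ O) :
    ∀ a ∈ l, a ≠ 0 → ∀ i : ℤ, O.valuation (a * ρ ^ i) = 1 → i = 0 := by
  have key : ∀ a ∈ l, a ≠ 0 → ∀ n : ℕ, 0 < n → O.valuation (a * ρ ^ n) ≠ 1 := by
    intro a ha ha0 n hn h1
    obtain ⟨d, hd, hd0, rfl⟩ := ab_root hl hn ha ha0
    rw [← mul_pow, map_pow] at h1
    have h2 : O.valuation (d * ρ) = 1 := (pow_eq_one_iff_of_nonneg zero_le hn.ne').1 h1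
    obtain ⟨e, he, he0, hed⟩ := ab_root hl (Fact.out : ℓ.Prime).pos hd hd0
    apply h
    refine ⟨d * ρ, h2, ?_⟩
    rw [cl_mul ℓ hd0 hρ0, (cl_eq_zero_iff ℓ hd0).2 ⟨e, he0, hed⟩, zero_add]
  intro a ha ha0 i hi
  rcases lt_trichotomy i 0 with h1 | h1 | h1
  · exfalso
    obtain ⟨m, hm⟩ := Int.eq_ofNat_of_zero_le (show 0 ≤ -i by omega)
    have hi' : i = -(m : ℤ) := by omega
    refine key a⁻¹ (inv_mem ha) (inv_ne_zero ha0) m (by omega) ?_
    have h2 : a⁻¹ * ρ ^ m = (a * ρ ^ i)⁻¹ := by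
      rw [hi', zpow_neg, zpow_natCast, mul_inv, inv_inv]
    rw [h2, map_inv₀, hi, inv_one]
  · exact h1
  · exfalso
    obtain ⟨m, rfl⟩ := Int.eq_ofNat_of_zero_le h1.le
    rw [zpow_natCast] at hi
    exact key a ha ha0 m (by omega) hi

end Vale.Agent.P019P
end
end

section

section

/-!
# Abhyankar valuations: the residue fields are function fields
-/

namespace Vale.Agent.P019P

open Vale.Agent.P019

set_option linter.style.haveILetI false
set_option linter.unusedSectionVars false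
set_option linter.unusedVariables false

open Polynomial Filter

section map

variable {A Ω : Type*} [Field A] [Field Ω] (ι : A →+* Ω)

/-- elements whose images are algebraic are algebraic. -/
theorem r5b_alg_of_map {E : Subfield A} {x : A} (h : IsAlgebraic (E.map ι) (ι x)) :
    IsAlgebraic E x := by
  obtain ⟨P, hP0, hP⟩ := h
  have hex : ∀ i, ∃ y : E, ι y = ((P.coeff i : E.map ι) : Ω) := by
    intro i
    obtain ⟨y, hy, hyi⟩ := (P.coeff i).2
    exact ⟨⟨y, hy⟩, hyi⟩
  choose y hy using hex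
  let G : E[X] := ∑ i ∈ Finset.range (P.natDegree + 1), monomial i (y i)
  have hGc : ∀ j ∈ Finset.range (P.natDegree + 1), G.coeff j = y j := by
    intro j hj
    simp only [G, finsetSum_coeff, coeff_monomial]
    rw [Finset.sum_ite_eq' (Finset.range (P.natDegree + 1)) j (fun i => y i), if_pos hj]
  refine ⟨G, ?_, ?_⟩
  · intro h0
    have h1 := hGc P.natDegree (Finset.self_mem_range_succ _)
    rw [h0, coeff_zero] at h1
    have h2 := hy P.natDegree
    rw [← h1] at h2
    have h3 : P.coeff P.natDegree = 0 := by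
      apply Subtype.ext
      rw [← h2]
      exact map_zero ι
    exact hP0 (leadingCoeff_eq_zero.1 h3)
  · apply ι.injective
    have h1 : aeval x G = ∑ i ∈ Finset.range (P.natDegree + 1), algebraMap E A (y i) * x ^ i := by
      simp only [G, map_sum, aeval_monomial]
    have h2 : aeval (ι x) P = ∑ i ∈ Finset.range (P.natDegree + 1),
        ((P.coeff i : E.map ι) : Ω) * ι x ^ i := by
      rw [aeval_eq_sum_range]
      refine Finset.sum_congr rfl fun i _ => ?_
      rw [Algebra.smul_def]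
      rfl
    rw [map_zero, ← hP, h1, h2, map_sum]
    refine Finset.sum_congr rfl fun i _ => ?_
    rw [map_mul, map_pow, ← hy]
    rfl

theorem r5b_gs0_map [DecidableEq Ω] (k : Subfield A) (B : Finset A) :
    gs0 (k.map ι) (B.image ι) = (gs0 k B).map ι := by
  rw [gs0, gs0, Subfield.map_sup, RingHom.map_field_closure, Finset.coe_image]

/-- images of independent sets are independent. -/
theorem r5b_indp_map [DecidableEq Ω] {k : Subfield A} {B : Finset A} (hB : Indp k B) :
    Indp (k.map ι) (B.image ι) := by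
  classical
  rw [ab_indp_iff] at hB ⊢
  intro S hS v hv hvS h
  obtain ⟨v, hvB, rfl⟩ := Finset.mem_image.1 hv
  have hS' : S = (B.filter fun x => ι x ∈ S).image ι := by
    ext x
    rw [Finset.mem_image]
    constructor
    · intro hx
      obtain ⟨y, hy, rfl⟩ := Finset.mem_image.1 (hS hx)
      exact ⟨y, Finset.mem_filter.2 ⟨hy, hx⟩, rfl⟩
    · rintro ⟨y, hy, rfl⟩
      exact (Finset.mem_filter.1 hy).2
  rw [hS', r5b_gs0_map] at h
  exact hB _ (Finset.filter_subset _ _) v hvB (fun h1 => hvS (Finset.mem_filter.1 h1).2)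
    (r5b_alg_of_map ι h)

end map

variable {L : Type*} [Field L] [PerfectField L] {l : Subfield L}

/-- the residue field of an Abhyankar valuation of rational rank one over `l` is finitely
generated (up to perfect closures). -/
theorem abh_fg (hl : IsAlgClosed l) (hfg : FG l (⊤ : Subfield L)) {n : ℕ} (htd : Td l (n + 1))
    {O : ValuationSubring L} {ρ : L} (hρ0 : ρ ≠ 0)
    (hρ : ∀ a ∈ l, a ≠ 0 → ∀ i : ℤ, O.valuation (a * ρ ^ i) = 1 → i = 0)
    {B : Finset (IsLocalRing.ResidueField O)} (hBc : B.card = n)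
    (hB : Indp (rbar l O) B) :
    Td (rbarP l O) n ∧ FG (rbarP l O) (⊤ : Subfield (RFP O)) := by
  classical
  have hι : ∀ c : RFP O, ∃ (n : ℕ) (x : IsLocalRing.ResidueField O),
      rf O x = c ^ ringExpChar (RFP O) ^ n := by
    intro c
    obtain ⟨m, y, hy⟩ := rf_pow O c
    rw [ringExpChar_eq_of_hom (rf O)] at hy
    exact ⟨m, y, hy⟩
  obtain ⟨h1, h2⟩ := ab_main (rf O) hι hfg htd hρ0 hρ hB hBc
  refine ⟨⟨B.image (rf O), ?_, r5b_indp_map (rf O) hB, fun z => ?_⟩, h2⟩
  · rw [Finset.card_image_of_injective _ (rf_injective O), hBc]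
  · rw [gs0_alg]
    have h3 := h1 z
    rw [← r5b_gs0_map] at h3
    exact h3

/-- the case of surfaces. -/
theorem abh_cv (hl : IsAlgClosed l) (hfg : FG l (⊤ : Subfield L)) (htd : Td l 2)
    {O : ValuationSubring L} {ρ : L} (hρ0 : ρ ≠ 0)
    (hρ : ∀ a ∈ l, a ≠ 0 → ∀ i : ℤ, O.valuation (a * ρ ^ i) = 1 → i = 0)
    {y : IsLocalRing.ResidueField O} (hy : y ∉ rbar l O) : Cv (rbarP l O) := by
  classical
  have hB : Indp (rbar l O) {y} := by
    rw [ab_indp_iff]
    intro S hS v hv hvS h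
    rw [Finset.mem_singleton] at hv
    subst hv
    have h1 : S = ∅ := by
      rcases Finset.subset_singleton_iff.1 hS with h | h
      · exact h
      · rw [h] at hvS
        exact absurd (Finset.mem_singleton_self _) hvS
    rw [h1, gs0_empty] at h
    exact hy (RAC_of_isAlgClosed _ (rbar_ac hl O) v h)
  have hι : ∀ c : RFP O, ∃ (n : ℕ) (x : IsLocalRing.ResidueField O),
      rf O x = c ^ ringExpChar (RFP O) ^ n := by
    intro c
    obtain ⟨m, y, hy⟩ := rf_pow O c
    rw [ringExpChar_eq_of_hom (rf O)] at hy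
    exact ⟨m, y, hy⟩
  obtain ⟨h1, h2⟩ := ab_main (rf O) hι hfg (n := 1) htd hρ0 hρ hB (Finset.card_singleton y)
  refine ⟨rbarP_ac hl O, h2, rf O y, fun h => hy (rf_mem_rbarP.1 h), fun z => ?_⟩
  have h3 := h1 z
  rw [← r5b_gs0_map, Finset.image_singleton] at h3
  rw [isAlgebraic_adj]
  have h4 : gs0 ((rbar l O).map (rf O)) {rf O y} =
      Vale.Agent.P019.adj (rbarP l O) (rf O y) := by
    rw [← insert_empty_eq, gs0_insert, gs0_empty]
    rfl
  rwa [h4] at h3

end Vale.Agent.P019P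
end
end

section

section

/-!
# Independence of the monomial parameters and values at the approximating rings
-/

namespace Vale.Agent.P019P

open Vale.Agent.P019

set_option linter.unusedSectionVars false

variable {L : Type*} [Field L] {l : Subfield L} {w : ValuationSubring L} {ρ ϖ : L}

/-- two elements, the first transcendental and the second transcendental over the first. -/
theorem mone_pair {x y : L} (hx : ¬ IsAlgebraic l x)
    (hy : ¬ IsAlgebraic (Vale.Agent.P019.adj l x) y) : AlgebraicIndependent l ![x, y] := by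
  have h1 : AlgebraicIndependent l ![x] :=
    (algebraicIndependent_unique_type_iff).2 hx
  have hr : Set.range (![x] : Fin 1 → L) = {x} := by
    ext z
    constructor
    · rintro ⟨i, rfl⟩
      fin_cases i
      rfl
    · rintro rfl
      exact ⟨0, rfl⟩
  have h2 := indep_snoc (z := y) h1 (fun h => hy (by
    have h4 := mem_rac.1 h
    rw [hr] at h4
    exact h4))
  have h3 : (Fin.snoc ![x] y : Fin 2 → L) = ![x, y] := by
    funext i
    fin_cases i <;> rfl
  rwa [h3] at h2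

/-- Proof. A polynomial relation between `ρ * (c₀ * ϖ ^ n)⁻¹` and `ϖ` gives one between `ρ` and
`ϖ` (multiply by a power of `ϖ`), which contradicts `mon_dom` (for `q = w`). -/
theorem Mon.indep [DecidableEq L] (h : Mon l w ρ ϖ) {c₀ : L} (hc : c₀ ∈ l) (hc0 : c₀ ≠ 0)
    (n : ℤ) : AlgebraicIndependent l ![ρ * (c₀ * ϖ ^ n)⁻¹, ϖ] := by
  have hρ := h.rne
  have hϖ := h.pne
  have hx0 : ρ * (c₀ * ϖ ^ n)⁻¹ ≠ 0 :=
    mul_ne_zero hρ (inv_ne_zero (mul_ne_zero hc0 (zpow_ne_zero _ hϖ)))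
  have hpow : ∀ k : ℤ, (ρ * (c₀ * ϖ ^ n)⁻¹) ^ k = (c₀ ^ k)⁻¹ * ρ ^ k * ϖ ^ (-(n * k)) := by
    intro k
    rw [mul_zpow, inv_zpow, mul_zpow, mul_inv, ← zpow_mul, zpow_neg]
    ring
  have hx : ∀ c ∈ l, c ≠ 0 → ∀ k : ℕ, 0 < k →
      w.valuation (c * (ρ * (c₀ * ϖ ^ n)⁻¹) ^ k) ≠ 1 := by
    intro c hcl hcn k hk h1
    have h2 : c * (ρ * (c₀ * ϖ ^ n)⁻¹) ^ k =
        (c * (c₀ ^ (k : ℤ))⁻¹) * ρ ^ (k : ℤ) * ϖ ^ (-(n * k)) := by
      rw [← zpow_natCast, hpow]
      ring
    rw [h2] at h1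
    have h3 := (h.one_iff (l.mul_mem hcl (l.inv_mem (l.zpow_mem hc _)))
      (mul_ne_zero hcn (inv_ne_zero (zpow_ne_zero _ hc0))) _ _).1 h1
    omega
  apply mone_pair
  · rintro ⟨P, hP0, hP⟩
    obtain ⟨-, -, -, -, h2, -⟩ := ab_mono_poly hx0 hx P hP0
    exact h2 hP
  · have hy : ∀ z ∈ Vale.Agent.P019.adj l (ρ * (c₀ * ϖ ^ n)⁻¹), z ≠ 0 → ∀ j : ℕ, 0 < j →
        w.valuation (z * ϖ ^ j) ≠ 1 := by
      intro z hz hz0 j hj h1
      obtain ⟨c, hcl, hcn, k, hk, -⟩ := ab_mono hx0 hx hz hz0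
      have h2 : w.valuation (c⁻¹ * (ρ * (c₀ * ϖ ^ n)⁻¹) ^ (-k) * ϖ ^ j) = 1 := by
        have h3 : c⁻¹ * (ρ * (c₀ * ϖ ^ n)⁻¹) ^ (-k) * ϖ ^ j =
            (z * c * (ρ * (c₀ * ϖ ^ n)⁻¹) ^ k)⁻¹ * (z * ϖ ^ j) := by
          rw [zpow_neg, mul_inv, mul_inv]
          field_simp
        rw [h3, map_mul, map_inv₀, hk, h1, inv_one, one_mul]
      have h4 : c⁻¹ * (ρ * (c₀ * ϖ ^ n)⁻¹) ^ (-k) * ϖ ^ j =
          (c⁻¹ * (c₀ ^ (-k))⁻¹) * ρ ^ (-k) * ϖ ^ (-(n * -k) + j) := by
        rw [hpow, zpow_add₀ hϖ, zpow_natCast]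
        ring
      rw [h4] at h2
      have h5 := (h.one_iff (l.mul_mem (l.inv_mem hcl) (l.inv_mem (l.zpow_mem hc _)))
        (mul_ne_zero (inv_ne_zero hcn) (inv_ne_zero (zpow_ne_zero _ hc0))) _ _).1 h2
      have h6 : k = 0 := by omega
      rw [h6] at h5
      have h7 := h5.2.2
      simp at h7
      omega
    rintro ⟨P, hP0, hP⟩
    obtain ⟨-, -, -, -, h2, -⟩ := ab_mono_poly hϖ hy P hP0
    exact h2 hP

/-- values of the elements of `gsp` at `q`. -/
theorem QMon.rep [PerfectField L] [DecidableEq L] (hl : IsAlgClosed l) {q : ValuationSubring L}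
    {u : L} (h : QMon l w q u ϖ) {z : L} (hz0 : z ≠ 0) (hz : z ∈ gsp l {u, ϖ}) :
    ∃ (m : ℕ) (c : L) (b : ℤ), c ∈ l ∧ c ≠ 0 ∧
      q.valuation (z ^ (ringExpChar L) ^ m * c * ϖ ^ b) = 1 := by
  obtain ⟨m, hm⟩ := mem_pf.1 hz
  have hu : ¬ IsAlgebraic (rbar l q) (rs q u) := by
    intro h1
    obtain ⟨c, hc, hcq, hcu⟩ := RAC_of_isAlgClosed _ (rbar_ac hl q) _ h1
    have h2 := h.ures c hc hcq
    have h3 := (rs_eq h.uq hcq).1 hcu.symm
    rw [h2] at h3
    exact lt_irrefl _ h3
  have hV : AbV q l (Vale.Agent.P019.adj l u) := (AbV.refl l).gauss h.uq hu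
  have hp0 : 0 < q.valuation ϖ := zero_lt_iff.2 ((Valuation.ne_zero_iff _).2 h.pne)
  have hϖ : ∀ c ∈ l, c ≠ 0 → ∀ n : ℕ, 0 < n → q.valuation (c * ϖ ^ n) ≠ 1 := by
    intro c hc hc0 n hn h1
    rw [map_mul, map_pow] at h1
    have h2 : q.valuation c⁻¹ = q.valuation ϖ ^ n := by
      rw [map_inv₀]
      exact (eq_inv_of_mul_eq_one_right h1).symm
    have h3 : q.valuation c⁻¹ < 1 := by
      rw [h2]
      exact pow_lt_one₀ hp0.le h.plt hn.ne'
    have h4 := h.inf c⁻¹ (l.inv_mem hc) (inv_ne_zero hc0) h3 n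
    rw [zpow_natCast, h2] at h4
    exact lt_irrefl _ h4
  have hz' : z ^ ringExpChar L ^ m ∈ Vale.Agent.P019.adj (Vale.Agent.P019.adj l u) ϖ := by
    have h1 : gs0 l {u, ϖ} ≤ Vale.Agent.P019.adj (Vale.Agent.P019.adj l u) ϖ := by
      refine gs0_le ((Vale.Agent.P019.le_adj _ _).trans (Vale.Agent.P019.le_adj _ _))
        fun x hx => ?_
      rcases Finset.mem_insert.1 hx with rfl | hx
      · exact Vale.Agent.P019.le_adj _ _ (Vale.Agent.P019.mem_adj _ _)
      · rw [Finset.mem_singleton.1 hx]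
        exact Vale.Agent.P019.mem_adj _ _
    exact h1 hm
  obtain ⟨c1, hc1, hc10, k, hk, -⟩ := ab_mono h.pne (hV.ne hϖ) hz' (pow_ne_zero _ hz0)
  obtain ⟨d, hd, hd0, hdv⟩ := hV c1 hc1 hc10
  refine ⟨m, d⁻¹, k, l.inv_mem hd, inv_ne_zero hd0, ?_⟩
  have h1 : z ^ ringExpChar L ^ m * d⁻¹ * ϖ ^ k =
      (z ^ ringExpChar L ^ m * c1 * ϖ ^ k) * (c1 * d)⁻¹ := by
    have := zpow_ne_zero k h.pne
    field_simp
  rw [h1, map_mul, hk, map_inv₀, hdv, inv_one, one_mul]

end Vale.Agent.P019P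
end
end

section

section

/-!
# Approximation of monomial valuation rings
-/

namespace Vale.Agent.P019P

open Vale.Agent.P019

set_option linter.unusedSectionVars false

variable {L : Type*} [Field L] {l : Subfield L} {w : ValuationSubring L} {ρ ϖ : L}

theorem mone_small {q : ValuationSubring L} {c₀ : L} {n : ℤ}
    (hq : QMon l w q (ρ * (c₀ * ϖ ^ n)⁻¹) ϖ) (hc₀ : c₀ ∈ l) (hc₀0 : c₀ ≠ 0) (hρ : ρ ≠ 0)
    {m : L × ℤ × ℤ} (hm : m.1 ∈ l) (hm0 : m.1 ≠ 0)
    (h : w.valuation (m.1 * c₀ ^ m.2.1) < 1 ∨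
      w.valuation (m.1 * c₀ ^ m.2.1) = 1 ∧ 0 < n * m.2.1 + m.2.2) :
    q.valuation (m.1 * ρ ^ m.2.1 * ϖ ^ m.2.2) < 1 := by
  have hϖ := hq.pne
  have h1 : m.1 * ρ ^ m.2.1 * ϖ ^ m.2.2 =
      (m.1 * c₀ ^ m.2.1) * (ρ * (c₀ * ϖ ^ n)⁻¹) ^ m.2.1 * ϖ ^ (n * m.2.1 + m.2.2) := by
    rw [mul_zpow, inv_zpow, mul_zpow, zpow_add₀ hϖ, ← zpow_mul]
    have h2 : c₀ ^ m.2.1 ≠ 0 := zpow_ne_zero _ hc₀0
    have h3 : ϖ ^ (n * m.2.1) ≠ 0 := zpow_ne_zero _ hϖ
    field_simp
  rw [h1, hq.lt_iff (l.mul_mem hm (l.zpow_mem hc₀ _)) (mul_ne_zero hm0 (zpow_ne_zero _ hc₀0))]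
  exact h

/-- approximation on finite sets. -/
theorem mon_point [PerfectField L] [DecidableEq L] (hl : IsAlgClosed l) (h : Mon l w ρ ϖ)
    (S : Finset L) (hS : ∀ z ∈ S, z ∈ gsp l {ρ, ϖ}) :
    ∃ (q : ValuationSubring L) (c₀ : L) (n : ℤ), c₀ ∈ l ∧ c₀ ≠ 0 ∧
      QMon l w q (ρ * (c₀ * ϖ ^ n)⁻¹) ϖ ∧ ∀ z ∈ S, z ∈ w ↔ z ∈ q := by
  classical
  have hg : ∀ z : L, ∃ (m : ℕ) (c : L) (a b : ℤ) (M : Finset (L × ℤ × ℤ)), z ∈ S → z ≠ 0 →
      c ∈ l ∧ c ≠ 0 ∧
      (∀ m ∈ M, m.1 ∈ l ∧ m.1 ≠ 0 ∧ w.valuation (m.1 * ρ ^ m.2.1 * ϖ ^ m.2.2) < 1) ∧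
      ∀ q : ValuationSubring L,
        (∀ m ∈ M, q.valuation (m.1 * ρ ^ m.2.1 * ϖ ^ m.2.2) < 1) →
        q.valuation (z ^ (ringExpChar L) ^ m * c * ρ ^ a * ϖ ^ b) = 1 := by
    intro z
    by_cases hz : z ∈ S ∧ z ≠ 0
    · obtain ⟨m, c, a, b, h1, h2, M, h3, h4⟩ := mon_gsp h hz.2 (hS z hz.1)
      exact ⟨m, c, a, b, M, fun _ _ => ⟨h1, h2, h3, h4⟩⟩
    · exact ⟨0, 0, 0, 0, ∅, fun h1 h2 => absurd ⟨h1, h2⟩ hz⟩
  choose m c a b M hM using hg
  -- the monomials themselves
  let M' : L → Finset (L × ℤ × ℤ) := fun z =>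
    {x ∈ ({(c z, a z, b z), ((c z)⁻¹, -a z, -b z)} : Finset (L × ℤ × ℤ)) |
      w.valuation (x.1 * ρ ^ x.2.1 * ϖ ^ x.2.2) < 1}
  let S' := S.filter (fun z => z ≠ 0)
  have hSS : ∀ z ∈ S', z ∈ S ∧ z ≠ 0 := fun z hz => Finset.mem_filter.1 hz
  obtain ⟨c₀, n, hc₀, hc₀0, hc⟩ := mon_choose hl h (S'.biUnion fun z => M z ∪ M' z) (by
    intro x hx
    rw [Finset.mem_biUnion] at hx
    obtain ⟨z, hz, hx⟩ := hx
    obtain ⟨hz1, hz2⟩ := hSS z hz
    obtain ⟨h1, h2, h3, -⟩ := hM z hz1 hz2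
    rcases Finset.mem_union.1 hx with hx | hx
    · exact h3 x hx
    · obtain ⟨hx1, hx2⟩ := Finset.mem_filter.1 hx
      rw [Finset.mem_insert, Finset.mem_singleton] at hx1
      rcases hx1 with rfl | rfl
      · exact ⟨h1, h2, hx2⟩
      · exact ⟨l.inv_mem h1, inv_ne_zero h2, hx2⟩)
  obtain ⟨q, hq⟩ := exists_qmon (w := w) (h.indep hc₀ hc₀0 n)
  refine ⟨q, c₀, n, hc₀, hc₀0, hq, fun z hz => ?_⟩
  by_cases hz0 : z = 0
  · rw [hz0]
    exact ⟨fun _ => q.zero_mem, fun _ => w.zero_mem⟩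
  have hzS : z ∈ S' := Finset.mem_filter.2 ⟨hz, hz0⟩
  obtain ⟨h1, h2, h3, h4⟩ := hM z hz hz0
  have hsm : ∀ x ∈ M z ∪ M' z, q.valuation (x.1 * ρ ^ x.2.1 * ϖ ^ x.2.2) < 1 := by
    intro x hx
    have hx' : x.1 ∈ l ∧ x.1 ≠ 0 := by
      rcases Finset.mem_union.1 hx with hx | hx
      · exact ⟨(h3 x hx).1, (h3 x hx).2.1⟩
      · obtain ⟨hx1, -⟩ := Finset.mem_filter.1 hx
        rw [Finset.mem_insert, Finset.mem_singleton] at hx1
        rcases hx1 with rfl | rfl
        · exact ⟨h1, h2⟩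
        · exact ⟨l.inv_mem h1, inv_ne_zero h2⟩
    exact mone_small hq hc₀ hc₀0 h.rne hx'.1 hx'.2
      (hc x (Finset.mem_biUnion.2 ⟨z, hzS, hx⟩))
  have hu_q := h4 q fun x hx => hsm x (Finset.mem_union_left _ hx)
  have hu_w := h4 w fun x hx => (h3 x hx).2.2
  -- the monomial
  set μ := c z * ρ ^ a z * ϖ ^ b z with hμ
  have hμ0 : μ ≠ 0 := mul_ne_zero (mul_ne_zero h2 (zpow_ne_zero _ h.rne)) (zpow_ne_zero _ h.pne)
  have hinv : (c z)⁻¹ * ρ ^ (-a z) * ϖ ^ (-b z) = μ⁻¹ := by
    rw [hμ, mul_inv, mul_inv, zpow_neg, zpow_neg]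
  have key : (w.valuation μ ≤ 1 ↔ q.valuation μ ≤ 1) ∧ (1 ≤ w.valuation μ ↔ 1 ≤ q.valuation μ) := by
    have e1 : w.valuation μ < 1 → q.valuation μ < 1 := by
      intro hlt
      exact hsm (c z, a z, b z) (Finset.mem_union_right _ (Finset.mem_filter.2
        ⟨Finset.mem_insert_self _ _, hlt⟩))
    have e2 : 1 < w.valuation μ → 1 < q.valuation μ := by
      intro hlt
      have h5 : w.valuation μ⁻¹ < 1 := by
        rw [map_inv₀]
        exact inv_lt_one_of_one_lt₀ hlt
      have h6 := hsm ((c z)⁻¹, -a z, -b z) (Finset.mem_union_right _ (Finset.mem_filter.2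
        ⟨Finset.mem_insert_of_mem (Finset.mem_singleton_self _), by
          change w.valuation ((c z)⁻¹ * ρ ^ (-a z) * ϖ ^ (-b z)) < 1
          rwa [hinv]⟩))
      change q.valuation ((c z)⁻¹ * ρ ^ (-a z) * ϖ ^ (-b z)) < 1 at h6
      rw [hinv, map_inv₀] at h6
      by_contra hcon
      push Not at hcon
      have h7 : 0 < q.valuation μ := zero_lt_iff.2 ((_root_.map_ne_zero _).2 hμ0)
      exact absurd h6 (not_lt.2 ((one_le_inv₀ h7).2 hcon))
    have e3 : w.valuation μ = 1 → q.valuation μ = 1 := by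
      intro heq
      obtain ⟨h5, h6, h7⟩ := (h.one_iff h1 h2 _ _).1 heq
      rw [hμ, h6, h7, zpow_zero, zpow_zero, mul_one, mul_one]
      exact ((hq.val_iff h1 h2).2).2 h5
    rcases lt_trichotomy (w.valuation μ) 1 with h5 | h5 | h5
    · have h6 := e1 h5
      exact ⟨⟨fun _ => h6.le, fun _ => h5.le⟩, ⟨fun h7 => absurd h5 (not_lt.2 h7),
        fun h7 => absurd h6 (not_lt.2 h7)⟩⟩
    · have h6 := e3 h5
      rw [h5, h6]
      exact ⟨⟨fun _ => le_rfl, fun _ => le_rfl⟩, ⟨fun _ => le_rfl, fun _ => le_rfl⟩⟩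
    · have h6 := e2 h5
      exact ⟨⟨fun h7 => absurd h5 (not_lt.2 h7), fun h7 => absurd h6 (not_lt.2 h7)⟩,
        ⟨fun _ => h6.le, fun _ => h5.le⟩⟩
  have hform : z ^ (ringExpChar L) ^ m z * c z * ρ ^ a z * ϖ ^ b z =
      z ^ (ringExpChar L) ^ m z * μ := by
    rw [hμ]
    ring
  rw [hform, map_mul, map_pow] at hu_q hu_w
  have hp : (ringExpChar L) ^ m z ≠ 0 := pow_ne_zero _ (by
    rcases expChar_is_prime_or_one L (ringExpChar L) with h5 | h5
    · exact h5.ne_zero
    · rw [h5]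
      exact one_ne_zero)
  have hval : ∀ v : ValuationSubring L, v.valuation z ^ (ringExpChar L) ^ m z * v.valuation μ = 1 →
      (z ∈ v ↔ 1 ≤ v.valuation μ) := by
    intro v hv
    have hv0 : 0 < v.valuation μ := zero_lt_iff.2 ((_root_.map_ne_zero _).2 hμ0)
    rw [← v.valuation_le_one_iff, ← pow_le_one_iff hp, eq_inv_of_mul_eq_one_left hv,
      inv_le_one₀ hv0]
  rw [hval w hu_w, hval q hu_q]
  exact key.2

end Vale.Agent.P019P
end
end

section

section

/-!
# Values and residues of polynomials at bottom valuations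
-/

namespace Vale.Agent.P019P

open Vale.Agent.P019

set_option linter.style.haveILetI false
set_option linter.unusedSectionVars false

open Polynomial Filter

section botb

theorem bb_sum_ne {F : Type*} [Field F] {E : Subfield F} {x : F} (hx : ¬ IsAlgebraic E x)
    {n : ℕ} {a : ℕ → F} (ha : ∀ i, a i ∈ E) {i₀ : ℕ} (hi₀ : i₀ ≤ n) (h : a i₀ ≠ 0) :
    ∑ i ∈ Finset.range (n + 1), a i * x ^ i ≠ 0 := by
  rw [← aeval_mkPol (hα := ha)]
  refine aeval_ne_of_transc hx ?_
  intro h0
  have h1 := congrArg (fun p => ((p.coeff i₀ : E) : F)) h0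
  simp only [coeff_zero] at h1
  rw [coeff_mkPol hi₀] at h1
  exact h h1

variable {K : Type*} [Field K] {k : Subfield K} {t s : K} {W : ValuationSubring K} {c : K}

theorem rs_sum' {ι : Type*} (S : Finset ι) (f : ι → K) (h : ∀ i ∈ S, f i ∈ W) :
    rs W (∑ i ∈ S, f i) = ∑ i ∈ S, rs W (f i) := by
  classical
  induction S using Finset.induction_on with
  | empty => rw [Finset.sum_empty, Finset.sum_empty, rs_zero]
  | insert a s ha ih =>
    rw [Finset.sum_insert ha, Finset.sum_insert ha, rs_add (h a (Finset.mem_insert_self a s))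
      (sum_mem fun i hi => h i (Finset.mem_insert_of_mem hi)),
      ih fun i hi => h i (Finset.mem_insert_of_mem hi)]

/-- polynomials in `s` with integral coefficients, one of them a unit. -/
theorem bb_unit (hk : IsAlgClosed k) (hsW : s ∈ W) (hsb : rs W s ∉ rbar k W) {n : ℕ}
    {b : ℕ → K} (hb : ∀ i, b i ∈ k) (hbW : ∀ i, b i ∈ W) {i₀ : ℕ} (hi₀ : i₀ ≤ n)
    (h : W.valuation (b i₀) = 1) :
    W.valuation (∑ i ∈ Finset.range (n + 1), b i * s ^ i) = 1 ∧
      rs W (∑ i ∈ Finset.range (n + 1), b i * s ^ i) ∈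
        Vale.Agent.P019.adj (rbar k W) (rs W s) := by
  have hx : ¬ IsAlgebraic (rbar k W) (rs W s) := fun h1 =>
    hsb (RAC_of_isAlgClosed _ (rbar_ac hk W) _ h1)
  have h1 : ∀ i ∈ Finset.range (n + 1), b i * s ^ i ∈ W := fun i _ =>
    mul_mem (hbW i) (pow_mem hsW i)
  have h2 : rs W (∑ i ∈ Finset.range (n + 1), b i * s ^ i) =
      ∑ i ∈ Finset.range (n + 1), rs W (b i) * rs W s ^ i := by
    rw [rs_sum' _ _ h1]
    refine Finset.sum_congr rfl fun i _ => ?_
    rw [rs_mul (hbW i) (pow_mem hsW i), rs_pow hsW]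
  constructor
  · rw [← rs_ne_zero (sum_mem h1), h2]
    exact bb_sum_ne hx (fun i => rs_mem_rbar (hb i) (hbW i)) hi₀ ((rs_ne_zero (hbW i₀)).2 h)
  · rw [h2]
    refine sum_mem fun i _ => mul_mem (Vale.Agent.P019.le_adj _ _ (rs_mem_rbar (hb i) (hbW i)))
      (pow_mem (Vale.Agent.P019.mem_adj _ _) i)

/-- normalization of polynomials in `s`. -/
theorem bb_poly1 (hk : IsAlgClosed k) (hsW : s ∈ W) (hsb : rs W s ∉ rbar k W) {f : k[X]}
    (hf : f ≠ 0) : ∃ a ∈ k, a ≠ 0 ∧ W.valuation (eval₂ k.subtype s f * a) = 1 ∧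
      rs W (eval₂ k.subtype s f * a) ∈ Vale.Agent.P019.adj (rbar k W) (rs W s) := by
  classical
  obtain ⟨i₀, hi₀, hmax⟩ := f.support.exists_max_image
    (fun i => W.valuation ((f.coeff i : k) : K)) (by rwa [Polynomial.support_nonempty])
  have h0 : ((f.coeff i₀ : k) : K) ≠ 0 := by
    rw [mem_support_iff] at hi₀
    exact fun h => hi₀ (Subtype.ext h)
  have hv0 : 0 < W.valuation ((f.coeff i₀ : k) : K) :=
    zero_lt_iff.2 ((Valuation.ne_zero_iff _).2 h0)
  have hle : ∀ i, W.valuation ((f.coeff i : k) : K) ≤ W.valuation ((f.coeff i₀ : k) : K) := by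
    intro i
    by_cases hi : i ∈ f.support
    · exact hmax i hi
    · rw [notMem_support_iff.1 hi]
      change W.valuation (0 : K) ≤ _
      rw [map_zero]
      exact zero_le
  refine ⟨((f.coeff i₀ : k) : K)⁻¹, k.inv_mem (f.coeff i₀).2, inv_ne_zero h0, ?_⟩
  have h1 : eval₂ k.subtype s f * ((f.coeff i₀ : k) : K)⁻¹ =
      ∑ i ∈ Finset.range (f.natDegree + 1),
        (((f.coeff i : k) : K) * ((f.coeff i₀ : k) : K)⁻¹) * s ^ i := by
    rw [eval₂_eq_sum_range, Finset.sum_mul]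
    refine Finset.sum_congr rfl fun i _ => ?_
    rw [Subfield.subtype_apply]
    ring
  rw [h1]
  refine bb_unit hk hsW hsb (fun i => k.mul_mem (f.coeff i).2 (k.inv_mem (f.coeff i₀).2))
    (fun i => ?_) (i₀ := i₀) (le_natDegree_of_mem_supp i₀ hi₀) ?_
  · rw [← W.valuation_le_one_iff, map_mul, map_inv₀, ← div_eq_mul_inv]
    exact (div_le_one₀ hv0).2 (hle i)
  · rw [mul_inv_cancel₀ h0, map_one]

/-- shift of the outer variable. -/
theorem bb_shift (cc : k) (f : k[X][X]) :
    apbEv k.subtype t s f = apbEv k.subtype (t - cc) s (f.comp (X + C (C cc))) := by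
  unfold apbEv
  rw [coe_eval₂RingHom, coe_eval₂RingHom, eval₂_comp]
  congr 1
  rw [eval₂_add, eval₂_X, eval₂_C, coe_eval₂RingHom, eval₂_C, Subfield.subtype_apply,
    sub_add_cancel]

theorem bb_comp_ne {f : k[X][X]} (hf : f ≠ 0) (cc : k) : f.comp (X + C (C cc)) ≠ 0 := by
  intro h
  rw [comp_eq_zero_iff] at h
  rcases h with h | ⟨-, h⟩
  · exact hf h
  · have h1 := congrArg natDegree h
    rw [natDegree_X_add_C, natDegree_C] at h1
    exact one_ne_zero h1

/-- the data of a bottom valuation. -/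
structure PBot (k : Subfield K) (t s : K) (W : ValuationSubring K) (c : K) : Prop where
  ck : c ∈ k
  cW : c ∈ W
  tc : W.valuation (t - c) < 1
  tne : t ≠ c
  sW : s ∈ W
  sb : rs W s ∉ rbar k W
  inf : ∀ a ∈ k, W.valuation a < 1 → ∀ n : ℕ, W.valuation a < W.valuation (t - c) ^ n

theorem PBot.vpos (h : PBot k t s W c) : 0 < W.valuation (t - c) :=
  zero_lt_iff.2 ((Valuation.ne_zero_iff _).2 (sub_ne_zero.2 h.tne))

theorem PBot.inf' (h : PBot k t s W c) {a : K} (ha : a ∈ k) (ha0 : a ≠ 0) {n : ℤ}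
    (he : W.valuation (a * (t - c) ^ n) = 1) : n = 0 ∧ W.valuation a = 1 := by
  have hv0 := h.vpos
  have ha1 : 0 < W.valuation a := zero_lt_iff.2 ((Valuation.ne_zero_iff _).2 ha0)
  rw [map_mul, map_zpow₀] at he
  rcases lt_trichotomy n 0 with hn | hn | hn
  · exfalso
    obtain ⟨m, hm⟩ := Int.eq_ofNat_of_zero_le (neg_nonneg.2 hn.le)
    have hn' : n = -(m : ℤ) := by rw [← hm, neg_neg]
    have hm0 : m ≠ 0 := by rintro rfl; rw [hn'] at hn; simp at hn
    rw [hn', zpow_neg, zpow_natCast] at he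
    have h1 : W.valuation a = W.valuation (t - c) ^ m := by
      rw [mul_inv_eq_one₀ (pow_pos hv0 m).ne'] at he
      exact he
    have h2 := h.inf a ha (h1 ▸ pow_lt_one₀ hv0.le h.tc hm0) m
    rw [h1] at h2
    exact lt_irrefl _ h2
  · refine ⟨hn, ?_⟩
    rw [hn, zpow_zero, mul_one] at he
    exact he
  · exfalso
    obtain ⟨m, hm⟩ := Int.eq_ofNat_of_zero_le hn.le
    have hm0 : m ≠ 0 := by rintro rfl; rw [hm] at hn; simp at hn
    rw [hm, zpow_natCast] at he
    have h1 : W.valuation a⁻¹ = W.valuation (t - c) ^ m := by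
      rw [map_inv₀]
      exact inv_eq_of_mul_eq_one_right he
    have h2 := h.inf a⁻¹ (k.inv_mem ha) (h1 ▸ pow_lt_one₀ hv0.le h.tc hm0) m
    rw [h1] at h2
    exact lt_irrefl _ h2

/-- normalization of polynomials in `t`, `s`. -/
theorem PBot.poly2 (hk : IsAlgClosed k) (h : PBot k t s W c) {f : k[X][X]} (hf : f ≠ 0) :
    ∃ (n : ℕ), ∃ a ∈ k, a ≠ 0 ∧
      W.valuation (apbEv k.subtype t s f * (((t - c) ^ n)⁻¹ * a)) = 1 ∧
      rs W (apbEv k.subtype t s f * (((t - c) ^ n)⁻¹ * a)) ∈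
        Vale.Agent.P019.adj (rbar k W) (rs W s) := by
  classical
  have hv0 := h.vpos
  rw [bb_shift (t := t) (s := s) ⟨c, h.ck⟩ f]
  set g := f.comp (X + C (C ⟨c, h.ck⟩)) with hg
  have hg0 : g ≠ 0 := bb_comp_ne hf _
  change ∃ (n : ℕ), ∃ a ∈ k, a ≠ 0 ∧
      W.valuation (apbEv k.subtype (t - c) s g * (((t - c) ^ n)⁻¹ * a)) = 1 ∧
      rs W (apbEv k.subtype (t - c) s g * (((t - c) ^ n)⁻¹ * a)) ∈
        Vale.Agent.P019.adj (rbar k W) (rs W s)
  -- the coefficients
  have h1 : ∀ j, ∃ a : K, j ∈ g.support → a ∈ k ∧ a ≠ 0 ∧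
      W.valuation (eval₂ k.subtype s (g.coeff j) * a) = 1 ∧
      rs W (eval₂ k.subtype s (g.coeff j) * a) ∈ Vale.Agent.P019.adj (rbar k W) (rs W s) := by
    intro j
    by_cases hj : j ∈ g.support
    · obtain ⟨a, ha, ha0, h2, h3⟩ := bb_poly1 hk h.sW h.sb (mem_support_iff.1 hj)
      exact ⟨a, fun _ => ⟨ha, ha0, h2, h3⟩⟩
    · exact ⟨0, fun h' => absurd h' hj⟩
  choose a ha using h1
  have hval : ∀ j ∈ g.support, W.valuation (eval₂ k.subtype s (g.coeff j) * (t - c) ^ j) =
      (W.valuation (a j))⁻¹ * W.valuation (t - c) ^ j := by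
    intro j hj
    obtain ⟨-, h2, h3, -⟩ := ha j hj
    have h4 : 0 < W.valuation (a j) := zero_lt_iff.2 ((Valuation.ne_zero_iff _).2 h2)
    rw [map_mul] at h3
    rw [map_mul, map_pow, eq_inv_of_mul_eq_one_left h3]
  obtain ⟨j₀, hj₀, hmax⟩ := g.support.exists_max_image
    (fun j => W.valuation (eval₂ k.subtype s (g.coeff j) * (t - c) ^ j))
    (by rwa [Polynomial.support_nonempty])
  have hstrict : ∀ j ∈ g.support.erase j₀,
      W.valuation (eval₂ k.subtype s (g.coeff j) * (t - c) ^ j) <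
        W.valuation (eval₂ k.subtype s (g.coeff j₀) * (t - c) ^ j₀) := by
    intro j hj
    have hj' := Finset.mem_of_mem_erase hj
    refine lt_of_le_of_ne (hmax j hj') fun he => ?_
    obtain ⟨hak, ha0, -, -⟩ := ha j hj'
    obtain ⟨hak', ha0', -, -⟩ := ha j₀ hj₀
    rw [hval j hj', hval j₀ hj₀] at he
    have h4 : 0 < W.valuation (a j) := zero_lt_iff.2 ((Valuation.ne_zero_iff _).2 ha0)
    have h5 : 0 < W.valuation (a j₀) := zero_lt_iff.2 ((Valuation.ne_zero_iff _).2 ha0')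
    have h6 : W.valuation ((a j₀ / a j) * (t - c) ^ ((j : ℤ) - j₀)) = 1 := by
      rw [map_mul, map_div₀, map_zpow₀, zpow_sub₀ hv0.ne', zpow_natCast, zpow_natCast]
      have h7 : W.valuation (a j₀) / W.valuation (a j) *
          (W.valuation (t - c) ^ j / W.valuation (t - c) ^ j₀) =
          ((W.valuation (a j))⁻¹ * W.valuation (t - c) ^ j) *
            (W.valuation (a j₀) * (W.valuation (t - c) ^ j₀)⁻¹) := by
        rw [div_eq_mul_inv, div_eq_mul_inv, mul_comm (W.valuation (a j₀)) _, mul_mul_mul_comm]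
      rw [h7, he]
      have h8 := (pow_pos hv0 j₀).ne'
      rw [mul_comm (W.valuation (a j₀)) _, mul_assoc, ← mul_assoc (W.valuation (t - c) ^ j₀),
        mul_inv_cancel₀ h8, one_mul, inv_mul_cancel₀ h5.ne']
    have h9 := (h.inf' (k.div_mem hak' hak) (div_ne_zero ha0' ha0) h6).1
    have h10 : j = j₀ := by omega
    exact (Finset.ne_of_mem_erase hj) h10
  have hsum : apbEv k.subtype (t - c) s g =
      eval₂ k.subtype s (g.coeff j₀) * (t - c) ^ j₀ +
        ∑ j ∈ g.support.erase j₀, eval₂ k.subtype s (g.coeff j) * (t - c) ^ j := by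
    rw [Finset.add_sum_erase _ (fun j => eval₂ k.subtype s (g.coeff j) * (t - c) ^ j) hj₀]
    unfold apbEv
    rw [coe_eval₂RingHom, eval₂_eq_sum, sum_def]
    rfl
  obtain ⟨hak', ha0', hv1, hv2⟩ := ha j₀ hj₀
  have htc0 : (t - c) ^ j₀ ≠ 0 := pow_ne_zero _ (sub_ne_zero.2 h.tne)
  set u := ((t - c) ^ j₀)⁻¹ * a j₀ with hu
  have hmain : eval₂ k.subtype s (g.coeff j₀) * (t - c) ^ j₀ * u =
      eval₂ k.subtype s (g.coeff j₀) * a j₀ := by
    rw [hu]
    field_simp
  have hmne : W.valuation (eval₂ k.subtype s (g.coeff j₀) * (t - c) ^ j₀) ≠ 0 := by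
    intro h0
    have h11 : W.valuation (eval₂ k.subtype s (g.coeff j₀) * (t - c) ^ j₀ * u) = 1 := by
      rw [hmain, hv1]
    rw [map_mul, h0, zero_mul] at h11
    exact zero_ne_one h11
  have hrest : W.valuation ((∑ j ∈ g.support.erase j₀,
      eval₂ k.subtype s (g.coeff j) * (t - c) ^ j) * u) < 1 := by
    have h12 := Valuation.map_sum_lt W.valuation hmne hstrict
    have h13 : W.valuation (eval₂ k.subtype s (g.coeff j₀) * (t - c) ^ j₀ * u) = 1 := by
      rw [hmain, hv1]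
    rw [map_mul] at h13 ⊢
    have hu0 : 0 < W.valuation u := by
      rw [zero_lt_iff]
      intro h0
      rw [h0, mul_zero] at h13
      exact zero_ne_one h13
    rw [← h13]
    exact mul_lt_mul_of_pos_right h12 hu0
  have hfin : apbEv k.subtype (t - c) s g * u = eval₂ k.subtype s (g.coeff j₀) * a j₀ +
      (∑ j ∈ g.support.erase j₀, eval₂ k.subtype s (g.coeff j) * (t - c) ^ j) * u := by
    rw [hsum, add_mul, hmain]
  have hmemr : (∑ j ∈ g.support.erase j₀, eval₂ k.subtype s (g.coeff j) * (t - c) ^ j) * u ∈ W :=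
    (W.valuation_le_one_iff _).1 hrest.le
  have hres : rs W (apbEv k.subtype (t - c) s g * u) =
      rs W (eval₂ k.subtype s (g.coeff j₀) * a j₀) := by
    rw [hfin, rs_add (mem_of_val hv1) hmemr, (rs_eq_zero hmemr).2 hrest, add_zero]
  refine ⟨j₀, a j₀, hak', ha0', ?_, ?_⟩
  · rw [← rs_ne_zero, hres]
    · exact (rs_ne_zero (mem_of_val hv1)).2 hv1
    · rw [hfin]
      exact add_mem (mem_of_val hv1) hmemr
  · rw [hres]
    exact hv2

/-- the field `k(s, t)`. -/
theorem bb_adj_le [PerfectField K] :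
    adj (adj k s) t ≤ pf (Vale.Agent.P019.adj (Vale.Agent.P019.adj k s) t) :=
  adj_le (pf_mono (Vale.Agent.P019.le_adj _ _))
    (le_pf _ (Vale.Agent.P019.mem_adj _ _))

theorem PBot.rep [PerfectField K] (hk : IsAlgClosed k) (h : PBot k t s W c) {z : K}
    (hz : z ∈ adj (adj k s) t) (hz0 : z ≠ 0) : ∃ (m : ℕ) (n : ℤ), ∃ a ∈ k, a ≠ 0 ∧
    W.valuation (z ^ ringExpChar K ^ m * (t - c) ^ n * a) = 1 ∧
    rs W (z ^ ringExpChar K ^ m * (t - c) ^ n * a) ∈
      Vale.Agent.P019.adj (rbar k W) (rs W s) := by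
  obtain ⟨m, hm⟩ := mem_pf.1 (bb_adj_le hz)
  obtain ⟨f, g, hg, hfg⟩ := apb_mem_adj2 hm
  have hw0 : z ^ ringExpChar K ^ m ≠ 0 := pow_ne_zero _ hz0
  have hf0 : f ≠ 0 := by
    rintro rfl
    rw [map_zero, zero_div] at hfg
    exact hw0 hfg
  have hg0 : g ≠ 0 := by
    rintro rfl
    rw [map_zero] at hg
    exact hg rfl
  obtain ⟨n₁, a₁, ha₁, ha₁0, h1, h2⟩ := h.poly2 hk hf0
  obtain ⟨n₂, a₂, ha₂, ha₂0, h3, h4⟩ := h.poly2 hk hg0
  have htc := sub_ne_zero.2 h.tne
  have key : z ^ ringExpChar K ^ m * (t - c) ^ ((n₂ : ℤ) - n₁) * (a₁ / a₂) =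
      (apbEv k.subtype t s f * (((t - c) ^ n₁)⁻¹ * a₁)) *
        (apbEv k.subtype t s g * (((t - c) ^ n₂)⁻¹ * a₂))⁻¹ := by
    rw [hfg, zpow_sub₀ htc, zpow_natCast, zpow_natCast]
    field_simp
  refine ⟨m, (n₂ : ℤ) - n₁, a₁ / a₂, k.div_mem ha₁ ha₂, div_ne_zero ha₁0 ha₂0, ?_, ?_⟩
  · rw [key, map_mul, map_inv₀, h1, h3, inv_one, mul_one]
  · have h5 : (apbEv k.subtype t s g * (((t - c) ^ n₂)⁻¹ * a₂))⁻¹ ∈ W := by
      rw [← W.valuation_le_one_iff, map_inv₀, h3, inv_one]
    rw [key, rs_mul (mem_of_val h1) h5, rs_inv h3]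
    exact Subfield.mul_mem _ h2 (Subfield.inv_mem _ h4)

theorem Bot0.pbot (h : Bot0 k t s W c) : PBot k t s W c where
  ck := h.ck
  cW := h.cW
  tc := h.tc
  tne := by
    rintro rfl
    have h1 := h.inf 0 k.zero_mem (by rw [map_zero]; exact zero_lt_one) 1
    rw [sub_self, pow_one] at h1
    exact lt_irrefl _ h1
  sW := h.sW
  sb := h.sb
  inf := h.inf

/-- the exponential characteristic of the residue field. -/
theorem rfp_char (W : ValuationSubring K) :
    ringExpChar K = 1 ∨ ringExpChar K = ringExpChar (RFP W) := by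
  rcases expChar_is_prime_or_one K (ringExpChar K) with h | h
  · right
    have h1 : ((ringExpChar K : ℕ) : K) = 0 := natCast_expChar_eq_zero K _ h
    have h2 : ((ringExpChar K : ℕ) : RFP W) = 0 := by
      have h3 : rf W (rs W ((ringExpChar K : ℕ) : K)) = ((ringExpChar K : ℕ) : RFP W) := by
        rw [rs_natCast, map_natCast]
      rw [← h3, h1, rs_zero, map_zero]
    haveI : CharP (RFP W) (ringExpChar K) := (CharP.charP_iff_prime_eq_zero h).2 h2
    haveI : ExpChar (RFP W) (ringExpChar K) := ExpChar.prime h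
    exact (ringExpChar.eq (RFP W) (ringExpChar K)).symm
  · exact Or.inl h

/-- perfect subfields of the perfect closure of the residue field. -/
theorem mem_of_pow_rfp {E : Subfield (RFP W)} [PerfectField E] {x : RFP W} {m : ℕ}
    (h : x ^ ringExpChar K ^ m ∈ E) : x ∈ E := by
  rcases rfp_char W with h1 | h1
  · rwa [h1, one_pow, pow_one] at h
  · rw [h1] at h
    exact mem_of_pow_q h

theorem rsP_mem_adj0 {x : IsLocalRing.ResidueField W}
    (hx : x ∈ Vale.Agent.P019.adj (rbar k W) (rs W s)) :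
    rf W x ∈ adj (rbarP k W) (rsP W s) := by
  have h1 : Vale.Agent.P019.adj (rbar k W) (rs W s) ≤
      (adj (rbarP k W) (rsP W s)).comap (rf W) := by
    refine Vale.Agent.P019.adj_le (fun y hy => ?_) ?_
    · exact le_adj _ _ (rf_mem_rbarP.2 hy)
    · exact mem_adj _ _
  exact h1 hx

/-- residues of the elements of `k(s, t)`. -/
theorem PBot.res_mem [PerfectField K] (hk : IsAlgClosed k) (h : PBot k t s W c) {z : K}
    (hz : z ∈ adj (adj k s) t) (hzW : z ∈ W) : rsP W z ∈ adj (rbarP k W) (rsP W s) := by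
  by_cases hz1 : W.valuation z = 1
  · have hz0 : z ≠ 0 := by rintro rfl; rw [map_zero] at hz1; exact zero_ne_one hz1
    obtain ⟨m, n, a, ha, ha0, h1, h2⟩ := h.rep hk hz hz0
    have h3 : W.valuation (a * (t - c) ^ n) = 1 := by
      rw [map_mul, map_mul, map_pow, hz1, one_pow, one_mul] at h1
      rw [map_mul, mul_comm]
      exact h1
    obtain ⟨hn, hva⟩ := h.inf' ha ha0 h3
    rw [hn, zpow_zero, mul_one, rs_mul (pow_mem hzW _) (mem_of_val hva), rs_pow hzW] at h2
    have h4 : rs W z ^ ringExpChar K ^ m ∈ Vale.Agent.P019.adj (rbar k W) (rs W s) := by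
      have h5 : rs W a ≠ 0 := (rs_ne_zero (mem_of_val hva)).2 hva
      have h6 := Subfield.div_mem _ h2
        (Vale.Agent.P019.le_adj _ (rs W s) (rs_mem_rbar ha (mem_of_val hva)))
      rwa [mul_div_cancel_right₀ _ h5] at h6
    have h7 := rsP_mem_adj0 h4
    rw [map_pow] at h7
    exact mem_of_pow_rfp h7
  · have h1 : W.valuation z < 1 := lt_of_le_of_ne ((W.valuation_le_one_iff z).2 hzW) hz1
    rw [(rsP_eq_zero hzW).2 h1]
    exact Subfield.zero_mem _

theorem Bot0.res_mem [PerfectField K] (hk : IsAlgClosed k) (h : Bot0 k t s W c) {z : K}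
    (hz : z ∈ adj (adj k s) t) (hzW : z ∈ W) : rsP W z ∈ adj (rbarP k W) (rsP W s) :=
  h.pbot.res_mem hk hz hzW

theorem Bot0.transc (hk : IsAlgClosed k) (h : Bot0 k t s W c) :
    ¬ IsAlgebraic (rbarP k W) (rsP W s) := fun h1 =>
  h.sb (rf_mem_rbarP.1 (RAC_of_isAlgClosed _ (rbarP_ac hk W) _ h1))

/-- reduction of the minimal polynomial of an element. -/
theorem bot_red [PerfectField K] {I : Type*} {U : Ultrafilter I} {W : I → ValuationSubring K}
    {c : I → K} (hk : IsAlgClosed k) (hS : Srf k t s)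
    (hW : ∀ᶠ i in U, Bot0 k t s (W i) (c i)) (hu : Ulu U W) (θ : K) :
    ∀ᶠ i in U, IsAlgebraic (adj (rbarP k (W i)) (rsP (W i) s)) (rsP (W i) θ) ∧
      (minpoly (adj (rbarP k (W i)) (rsP (W i) s)) (rsP (W i) θ)).natDegree ≤
        (minpoly (adj (adj k s) t) θ).natDegree := by
  classical
  set F := adj (adj k s) t with hF
  have hint : IsIntegral F θ := (hS.alg θ).isIntegral
  set d := (minpoly F θ).natDegree with hd
  have hmem : ∀ z : K, ∀ᶠ i in U, z ∈ W i := by
    intro z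
    by_cases hz : z = 0
    · rw [hz]; exact Eventually.of_forall fun i => (W i).zero_mem
    · exact (hu z hz).mono fun i hi => mem_of_val hi
  have hco : ∀ᶠ i in U, ∀ j ∈ Finset.range (d + 1), (((minpoly F θ).coeff j : F) : K) ∈ W i := by
    rw [Filter.eventually_all_finset]
    exact fun j _ => hmem _
  filter_upwards [hW, hmem θ, hco] with i h1 h2 h3
  set A := adj (rbarP k (W i)) (rsP (W i) s) with hA
  let a : ℕ → RFP (W i) := fun j => if j ∈ Finset.range (d + 1) then
    rsP (W i) (((minpoly F θ).coeff j : F) : K) else 0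
  have haA : ∀ j, a j ∈ A := by
    intro j
    by_cases hj : j ∈ Finset.range (d + 1)
    · simp only [a, if_pos hj]
      exact h1.res_mem hk ((minpoly F θ).coeff j).2 (h3 j hj)
    · simp only [a, if_neg hj]
      exact A.zero_mem
  have h4 : ∑ j ∈ Finset.range (d + 1), a j * rsP (W i) θ ^ j = 0 := by
    have h5 : ∑ j ∈ Finset.range (d + 1), (((minpoly F θ).coeff j : F) : K) * θ ^ j = 0 := by
      rw [← aeval_eq_sum_le hd.symm.le]
      exact minpoly.aeval F θ
    have h6 := congrArg (rsP (W i)) h5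
    rw [rsP_zero, rsP_sum _ _ fun j hj => mul_mem (h3 j hj) (pow_mem h2 j)] at h6
    rw [← h6]
    refine Finset.sum_congr rfl fun j hj => ?_
    rw [rsP_mul (h3 j hj) (pow_mem h2 j), rsP_pow h2]
    simp only [a, if_pos hj]
  have had : a d = 1 := by
    simp only [a, if_pos (Finset.mem_range.2 (Nat.lt_succ_self d))]
    rw [hd, coeff_natDegree, (minpoly.monic hint).leadingCoeff]
    exact rsP_one
  have h5 : aeval (rsP (W i) θ) (mkPol A d a haA) = 0 := by
    rw [aeval_mkPol]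
    exact h4
  have h6 : mkPol A d a haA ≠ 0 := by
    intro h0
    have h7 := congrArg (fun p => ((p.coeff d : A) : RFP (W i))) h0
    simp only [coeff_zero] at h7
    rw [coeff_mkPol le_rfl] at h7
    change a d = 0 at h7
    rw [had] at h7
    exact one_ne_zero h7
  exact ⟨⟨_, h6, h5⟩, (natDegree_le_of_dvd (minpoly.dvd A _ h5) h6).trans natDegree_mkPol⟩

end botb

end Vale.Agent.P019P
end
end

section

section

/-!
# Existence of bottom valuations
-/

namespace Vale.Agent.P019P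

open Vale.Agent.P019

set_option linter.style.haveILetI false
set_option linter.unusedSectionVars false
set_option linter.unusedVariables false

open Polynomial Filter

universe u

/-- a zero of a polynomial relation with integral coefficients, the first and the last being
units. -/
theorem bb_rel_unit {K : Type*} [Field K] {W : ValuationSubring K} {n : ℕ} {p : ℕ → K} {z : K}
    (hn : n ≠ 0) (hp : ∀ i ∈ Finset.range (n + 1), p i ∈ W) (h0 : W.valuation (p 0) = 1)
    (h1 : W.valuation (p n) = 1) (hz : z ≠ 0)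
    (h : ∑ i ∈ Finset.range (n + 1), p i * z ^ i = 0) : W.valuation z = 1 := by
  have hv0 : 0 < W.valuation z := zero_lt_iff.2 ((Valuation.ne_zero_iff _).2 hz)
  have hle : ∀ i ∈ Finset.range (n + 1), W.valuation (p i) ≤ 1 := fun i hi =>
    (W.valuation_le_one_iff _).2 (hp i hi)
  rcases lt_trichotomy (W.valuation z) 1 with hlt | heq | hgt
  · exfalso
    have h2 : W.valuation (∑ i ∈ Finset.range n, p (i + 1) * z ^ (i + 1)) < W.valuation (p 0) := by
      refine Valuation.map_sum_lt _ (by rw [h0]; exact one_ne_zero) fun i hi => ?_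
      rw [h0, map_mul, map_pow]
      calc W.valuation (p (i + 1)) * W.valuation z ^ (i + 1) ≤ 1 * W.valuation z ^ (i + 1) :=
            mul_le_mul_left (hle _ (Finset.mem_range.2 (by
              have := Finset.mem_range.1 hi
              omega))) _
        _ = W.valuation z ^ (i + 1) := one_mul _
        _ < 1 := pow_lt_one₀ hv0.le hlt (Nat.succ_ne_zero i)
    rw [Finset.sum_range_succ'] at h
    have h3 := Valuation.map_add_eq_of_lt_left W.valuation (x := p 0 * z ^ 0) (y := ∑ i ∈ Finset.range n, p (i + 1) * z ^ (i + 1)) (by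
      rwa [pow_zero, mul_one])
    rw [add_comm, h, map_zero, pow_zero, mul_one, h0] at h3
    exact zero_ne_one h3
  · exact heq
  · exfalso
    have h2 : W.valuation (∑ i ∈ Finset.range n, p i * z ^ i) < W.valuation (p n * z ^ n) := by
      have h3 : W.valuation (p n * z ^ n) = W.valuation z ^ n := by
        rw [map_mul, map_pow, h1, one_mul]
      refine Valuation.map_sum_lt _ (by rw [h3]; exact (pow_pos hv0 n).ne') fun i hi => ?_
      rw [h3, map_mul, map_pow]
      calc W.valuation (p i) * W.valuation z ^ i ≤ 1 * W.valuation z ^ i :=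
            mul_le_mul_left (hle _ (Finset.mem_range.2 (by
              have := Finset.mem_range.1 hi
              omega))) _
        _ = W.valuation z ^ i := one_mul _
        _ < W.valuation z ^ n := pow_lt_pow_right₀ hgt (Finset.mem_range.1 hi)
    rw [Finset.sum_range_succ] at h
    have h3 := Valuation.map_add_eq_of_lt_left W.valuation h2
    rw [add_comm, h, map_zero, map_mul, map_pow, h1, one_mul] at h3
    exact (pow_pos hv0 n).ne h3

/-- values of polynomials with integral coefficients around `c`. -/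
theorem bb_poly_unit {K : Type*} [Field K] {k : Subfield K} (hk : IsAlgClosed k)
    {W : ValuationSubring K} {t s : K} {cc : k} (hsW : s ∈ W) (hsb : rs W s ∉ rbar k W)
    (htc : W.valuation (t - cc) < 1) {f : k[X][X]}
    (hf : ∀ i j, ((((f.comp (X + C (C cc))).coeff j).coeff i : k) : K) ∈ W)
    {i₀ : ℕ} (hi₀ : W.valuation ((((f.comp (X + C (C cc))).coeff 0).coeff i₀ : k) : K) = 1) :
    W.valuation (apbEv k.subtype t s f) = 1 := by
  rw [bb_shift cc f]
  set g := f.comp (X + C (C cc)) with hg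
  have htcW : t - cc ∈ W := (W.valuation_le_one_iff _).1 htc.le
  have hev : ∀ j, eval₂ k.subtype s (g.coeff j) ∈ W := by
    intro j
    rw [eval₂_eq_sum_range]
    exact sum_mem fun i _ => mul_mem (hf i j) (pow_mem hsW i)
  have h1 : apbEv k.subtype (t - cc) s g = eval₂ k.subtype s (g.coeff 0) +
      (∑ j ∈ Finset.range g.natDegree, eval₂ k.subtype s (g.coeff (j + 1)) * (t - cc) ^ j) *
        (t - cc) := by
    unfold apbEv
    rw [coe_eval₂RingHom, eval₂_eq_sum_range, Finset.sum_range_succ', pow_zero, mul_one,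
      coe_eval₂RingHom, add_comm, Finset.sum_mul]
    congr 1
    refine Finset.sum_congr rfl fun j _ => ?_
    rw [pow_succ, mul_assoc]
  have h2 : W.valuation ((∑ j ∈ Finset.range g.natDegree,
      eval₂ k.subtype s (g.coeff (j + 1)) * (t - cc) ^ j) * (t - cc)) < 1 := by
    rw [map_mul]
    have h3 : W.valuation (∑ j ∈ Finset.range g.natDegree,
        eval₂ k.subtype s (g.coeff (j + 1)) * (t - cc) ^ j) ≤ 1 :=
      (W.valuation_le_one_iff _).2 (sum_mem fun j _ => mul_mem (hev _) (pow_mem htcW j))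
    exact (mul_le_mul_left h3 _).trans_lt (by rwa [one_mul])
  have hi₀' : i₀ ≤ (g.coeff 0).natDegree := by
    refine le_natDegree_of_ne_zero fun h0 => ?_
    rw [h0] at hi₀
    change W.valuation (0 : K) = 1 at hi₀
    rw [map_zero] at hi₀
    exact zero_ne_one hi₀
  have h3 : W.valuation (eval₂ k.subtype s (g.coeff 0)) = 1 := by
    have h4 : eval₂ k.subtype s (g.coeff 0) = ∑ i ∈ Finset.range ((g.coeff 0).natDegree + 1),
        (((g.coeff 0).coeff i : k) : K) * s ^ i := by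
      rw [eval₂_eq_sum_range]
      rfl
    rw [h4]
    exact (bb_unit hk hsW hsb (fun i => ((g.coeff 0).coeff i).2) (fun i => hf i 0) hi₀' hi₀).1
  rw [h1, Valuation.map_add_eq_of_lt_left W.valuation (by rw [h3]; exact h2), h3]

/-- relations over polynomials. -/
theorem bb_exists_rel {K : Type*} [Field K] [PerfectField K] {k : Subfield K} {t s : K}
    (hS : Srf k t s) {z : K} (hz : z ≠ 0) : ∃ (n : ℕ) (p : ℕ → k[X][X]), n ≠ 0 ∧
      p 0 ≠ 0 ∧ p n ≠ 0 ∧ ∑ i ∈ Finset.range (n + 1), apbEv k.subtype t s (p i) * z ^ i = 0 := by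
  classical
  set M := Vale.Agent.P019.adj (Vale.Agent.P019.adj k s) t with hM
  have halg : IsAlgebraic M z := isAlgebraic_pf.1 (isAlgebraic_mono bb_adj_le (hS.alg z))
  have hint : IsIntegral M z := halg.isIntegral
  set n := (minpoly M z).natDegree with hn
  obtain ⟨d, hd, hdS⟩ := apb_common_den (k := k) (t := t) (s := s)
    ((Finset.range (n + 1)).image fun i => (((minpoly M z).coeff i : M) : K)) (by
      intro y hy
      obtain ⟨i, -, rfl⟩ := Finset.mem_image.1 hy
      exact ((minpoly M z).coeff i).2)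
  have h1 : ∀ i, ∃ f : k[X][X], i ∈ Finset.range (n + 1) →
      apbEv k.subtype t s f = apbEv k.subtype t s d * (((minpoly M z).coeff i : M) : K) := by
    intro i
    by_cases hi : i ∈ Finset.range (n + 1)
    · obtain ⟨f, hf⟩ := hdS _ (Finset.mem_image_of_mem _ hi)
      exact ⟨f, fun _ => hf⟩
    · exact ⟨0, fun h => absurd h hi⟩
  choose p hp using h1
  have hne : ∀ i ∈ Finset.range (n + 1), (minpoly M z).coeff i ≠ 0 → p i ≠ 0 := by
    intro i hi h2 h3
    have h4 := hp i hi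
    rw [h3, map_zero] at h4
    exact mul_ne_zero hd (fun h5 => h2 (Subtype.ext h5)) h4.symm
  refine ⟨n, p, (minpoly.natDegree_pos hint).ne', hne 0 (Finset.mem_range.2 (Nat.succ_pos n))
    (minpoly.coeff_zero_ne_zero hint hz), hne n (Finset.mem_range.2 (Nat.lt_succ_self n)) ?_, ?_⟩
  · rw [hn, coeff_natDegree, (minpoly.monic hint).leadingCoeff]
    exact one_ne_zero
  · have h2 : ∑ i ∈ Finset.range (n + 1), (((minpoly M z).coeff i : M) : K) * z ^ i = 0 := by
      rw [← aeval_eq_sum_le hn.symm.le]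
      exact minpoly.aeval M z
    calc ∑ i ∈ Finset.range (n + 1), apbEv k.subtype t s (p i) * z ^ i =
        apbEv k.subtype t s d *
          ∑ i ∈ Finset.range (n + 1), (((minpoly M z).coeff i : M) : K) * z ^ i := by
          rw [Finset.mul_sum]
          refine Finset.sum_congr rfl fun i hi => ?_
          rw [hp i hi, mul_assoc]
      _ = 0 := by rw [h2, mul_zero]

/-- a point outside the zeros of finitely many polynomials. -/
theorem bb_exists_pt {k : Type*} [Field k] [Infinite k] (T : Finset k[X][X])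
    (hT : ∀ f ∈ T, f ≠ 0) : ∃ cc : k, ∀ f ∈ T, f.eval (C cc) ≠ 0 := by
  classical
  have h1 : (⋃ f ∈ T, {cc : k | f.eval (C cc) = 0}).Finite := by
    refine Set.Finite.biUnion T.finite_toSet fun f hf => ?_
    have h2 : {x : k[X] | f.IsRoot x}.Finite := Polynomial.finite_setOfPred_isRoot (hT f hf)
    exact h2.preimage (C_injective.injOn)
  obtain ⟨cc, hcc⟩ := h1.exists_notMem
  refine ⟨cc, fun f hf h0 => hcc ?_⟩
  simp only [Set.mem_iUnion]
  exact ⟨f, hf, h0⟩

/-- existence on finite sets. -/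
theorem exists_bot0 {K : Type*} [Field K] [PerfectField K] {k : Subfield K}
    (hk : IsAlgClosed k) {t s : K} (hS : Srf k t s) (S : Finset K) (hS0 : ∀ z ∈ S, z ≠ 0) :
    ∃ (W : ValuationSubring K) (c : K), Bot0 k t s W c ∧ ∀ z ∈ S, W.valuation z = 1 := by
  classical
  haveI := hk
  have hrel : ∀ z : K, ∃ (n : ℕ) (p : ℕ → k[X][X]), z ≠ 0 → n ≠ 0 ∧
      p 0 ≠ 0 ∧ p n ≠ 0 ∧ ∑ i ∈ Finset.range (n + 1), apbEv k.subtype t s (p i) * z ^ i = 0 := by
    intro z
    by_cases hz : z ≠ 0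
    · obtain ⟨n, p, h⟩ := bb_exists_rel hS hz
      exact ⟨n, p, fun _ => h⟩
    · exact ⟨0, 0, fun h => absurd h hz⟩
  choose n p hnp using hrel
  -- the polynomials
  let T : Finset k[X][X] := (S.biUnion fun z => (Finset.range (n z + 1)).image (p z)).filter
    (fun f => f ≠ 0)
  haveI : Infinite k := IsAlgClosed.instInfinite
  obtain ⟨cc, hcc⟩ := bb_exists_pt T (fun f hf => (Finset.mem_filter.1 hf).2)
  -- the coefficients
  let T' : Finset k := insert cc (T.biUnion fun f =>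
    (f.comp (X + C (C cc))).support.biUnion fun j =>
      ((f.comp (X + C (C cc))).coeff j).support.image fun i =>
        ((f.comp (X + C (C cc))).coeff j).coeff i)
  obtain ⟨κ, _, P, -, htor, hP⟩ := exists_finpl (T'.filter (fun a => a ≠ 0))
    (fun a ha => (Finset.mem_filter.1 ha).2)
  have hPO : ∀ a ∈ T', a ∈ P.O := by
    intro a ha
    by_cases ha0 : a = 0
    · rw [ha0]; exact P.O.zero_mem
    · exact (hP a (Finset.mem_filter.2 ⟨ha, ha0⟩)).1
  have hccO : cc ∈ P.O := hPO cc (Finset.mem_insert_self _ _)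
  obtain ⟨Ω, _, i, W, hWk, hWev, hsW, hstr, htcW, htc0, hinf⟩ :=
    exists_botpl hS.ss hS.tt P hccO
  have hval1 : ∀ a : k, W.O.valuation (a : K) = 1 ↔ P.O.valuation a = 1 := by
    intro a
    rw [← Pl.U_iff, ← Pl.U_iff]
    constructor
    · rintro ⟨h1, h2⟩
      have h3 := (hWk a).1 h1
      refine ⟨h3, ?_⟩
      rw [hWev a h3] at h2
      exact fun h4 => h2 (by rw [h4, map_zero])
    · rintro ⟨h1, h2⟩
      refine ⟨(hWk a).2 h1, ?_⟩
      rw [hWev a h1, Ne, map_eq_zero]
      exact h2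
  have hvallt : ∀ a : k, W.O.valuation (a : K) < 1 → P.O.valuation a < 1 := by
    intro a ha
    have h1 : (a : K) ∈ W.O := W.mem_of_lt ha
    have h2 := (hWk a).1 h1
    refine lt_of_le_of_ne ((P.O.valuation_le_one_iff a).2 h2) fun h3 => ?_
    rw [(hval1 a).2 h3] at ha
    exact lt_irrefl _ ha
  have hsb : rs W.O s ∉ rbar k W.O := by
    rintro ⟨a, ha, haW, h1⟩
    have h2 : W.O.valuation (s - a) < 1 := (rs_eq hsW haW).1 h1.symm
    apply hstr
    have h3 : W.ev (s - a) = 0 := W.ev_of_lt h2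
    rw [W.ev_sub hsW haW, sub_eq_zero] at h3
    rw [h3, hWev ⟨a, ha⟩ ((hWk ⟨a, ha⟩).1 haW)]
    exact isAlgebraic_of_mem ⟨_, rfl⟩
  have htc : W.O.valuation (t - cc) < 1 := (W.ev_eq_zero_iff htcW).1 htc0
  have htne : t ≠ cc := by
    intro h
    apply hS.tt
    rw [h]
    exact isAlgebraic_of_mem (le_adj k s cc.2)
  have hpb : PBot k t s W.O cc :=
  { ck := cc.2
    cW := (hWk cc).2 hccO
    tc := htc
    tne := htne
    sW := hsW
    sb := hsb
    inf := fun a ha ha1 m => by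
      obtain ⟨h1, h2⟩ := hinf ⟨a, ha⟩ (hvallt ⟨a, ha⟩ ha1) m
      have h3 : W.O.valuation (a / (t - cc) ^ m) < 1 := (W.ev_eq_zero_iff h1).1 h2
      have h4 : 0 < W.O.valuation ((t - cc) ^ m) := by
        rw [zero_lt_iff]
        exact (Valuation.ne_zero_iff _).2 (pow_ne_zero _ (sub_ne_zero.2 htne))
      rw [map_div₀, div_lt_one₀ h4, map_pow] at h3
      exact h3 }
  -- the polynomials are units
  have hTu : ∀ f ∈ T, W.O.valuation (apbEv k.subtype t s f) = 1 := by
    intro f hf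
    have h1 : (f.comp (X + C (C cc))).coeff 0 ≠ 0 := by
      rw [coeff_zero_eq_eval_zero, eval_comp, eval_add, eval_X, eval_C, zero_add]
      exact hcc f hf
    obtain ⟨i₀, hi₀⟩ : ∃ i₀, ((f.comp (X + C (C cc))).coeff 0).coeff i₀ ≠ 0 := by
      by_contra hcon
      push Not at hcon
      exact h1 (Polynomial.ext fun i => by rw [hcon i, coeff_zero])
    have hmemT : ∀ i j, ((f.comp (X + C (C cc))).coeff j).coeff i ≠ 0 →
        ((f.comp (X + C (C cc))).coeff j).coeff i ∈ T' := by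
      intro i j hij
      refine Finset.mem_insert_of_mem (Finset.mem_biUnion.2 ⟨f, hf, Finset.mem_biUnion.2
        ⟨j, ?_, Finset.mem_image.2 ⟨i, mem_support_iff.2 hij, rfl⟩⟩⟩)
      rw [mem_support_iff]
      intro h2
      rw [h2, coeff_zero] at hij
      exact hij rfl
    refine bb_poly_unit hk hsW hsb htc (fun i j => ?_) (i₀ := i₀) ?_
    · by_cases hij : ((f.comp (X + C (C cc))).coeff j).coeff i = 0
      · rw [hij]
        exact W.O.zero_mem
      · exact (hWk _).2 (hPO _ (hmemT i j hij))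
    · rw [hval1]
      exact P.U_iff.1 (hP _ (Finset.mem_filter.2 ⟨hmemT i₀ 0 hi₀, hi₀⟩))
  refine ⟨W.O, cc, ⟨?_, hpb.ck, hpb.cW, hpb.tc, hpb.sW, hpb.sb, hpb.inf,
    fun z hz hz0 => hpb.rep hk hz hz0⟩, fun z hz => ?_⟩
  · rintro _ ⟨a, ha, haW, rfl⟩ ha0
    have h1 : W.O.valuation a = 1 := (rs_ne_zero haW).1 ha0
    have h2 : P.O.valuation (⟨a, ha⟩ : k) = 1 := (hval1 ⟨a, ha⟩).1 h1
    have h3 := (P.U_iff.2 h2)
    obtain ⟨m, hm, h4⟩ := htor _ h3.2
    refine ⟨m, hm, ?_⟩
    have h5 : W.ev a = i (P.ev ⟨a, ha⟩) := hWev ⟨a, ha⟩ h3.1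
    have h6 : W.ev (a ^ m - 1) = 0 := by
      rw [W.ev_sub (pow_mem haW m) W.O.one_mem, W.ev_one, W.ev_pow haW, h5, ← map_pow, h4, map_one,
        sub_self]
    rw [W.ev_eq_zero_iff (sub_mem (pow_mem haW m) W.O.one_mem)] at h6
    rw [← rs_pow haW, ← rs_one, rs_eq (pow_mem haW m) W.O.one_mem]
    exact h6
  · have hz0 := hS0 z hz
    obtain ⟨hn0, hp0, hpn, hsum⟩ := hnp z hz0
    have hmem : ∀ i ∈ Finset.range (n z + 1), p z i ≠ 0 → p z i ∈ T := fun i hi h0 =>
      Finset.mem_filter.2 ⟨Finset.mem_biUnion.2 ⟨z, hz, Finset.mem_image_of_mem _ hi⟩, h0⟩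
    refine bb_rel_unit hn0 (fun i hi => ?_) (hTu _ (hmem 0 (Finset.mem_range.2 (Nat.succ_pos _)) hp0))
      (hTu _ (hmem _ (Finset.mem_range.2 (Nat.lt_succ_self _)) hpn)) hz0 hsum
    by_cases h0 : p z i = 0
    · rw [h0, map_zero]; exact W.O.zero_mem
    · exact mem_of_val (hTu _ (hmem i hi h0))

/-- the family. -/
theorem exists_bot {K : Type u} [Field K] [PerfectField K] {k : Subfield K}
    (hk : IsAlgClosed k) {t s : K} (hS : Srf k t s) :
    ∃ (I : Type u) (U : Ultrafilter I) (W : I → ValuationSubring K) (c : I → K),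
      (∀ i, Bot0 k t s (W i) (c i)) ∧ Ulu U W := by
  classical
  have h1 : ∀ i : Finset K, ∃ (W : ValuationSubring K) (c : K), Bot0 k t s W c ∧
      ∀ z ∈ i, z ≠ 0 → W.valuation z = 1 := by
    intro i
    obtain ⟨W, c, h2, h3⟩ := exists_bot0 hk hS (i.filter (fun z => z ≠ 0))
      (fun z hz => (Finset.mem_filter.1 hz).2)
    exact ⟨W, c, h2, fun z hz hz0 => h3 z (Finset.mem_filter.2 ⟨hz, hz0⟩)⟩
  choose W c h2 h3 using h1
  refine ⟨Finset K, Ultrafilter.of atTop, W, c, h2, fun z hz => ?_⟩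
  have h4 : ∀ᶠ i : Finset K in atTop, z ∈ i := by
    filter_upwards [eventually_ge_atTop ({z} : Finset K)] with i hi
    exact hi (Finset.mem_singleton_self z)
  have h5 : ∀ᶠ i in (Ultrafilter.of (atTop : Filter (Finset K)) : Filter (Finset K)), z ∈ i :=
    Ultrafilter.of_le atTop h4
  exact h5.mono fun i hi => h3 i z hi hz

end Vale.Agent.P019P
end
end

section

section

/-!
# The embedding in the ultraproduct of the perfect closures of the residue fields
-/

namespace Vale.Agent.P019P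

open Vale.Agent.P019

set_option linter.style.haveILetI false
set_option linter.unusedSectionVars false

open Polynomial Filter

section dj

variable {I : Type*} {U : Ultrafilter I} {L : Type*} [Field L] {O : I → ValuationSubring L}

/-- the embedding of the field in the ultraproduct. -/
noncomputable def Ulu.dj (hu : Ulu U O) : L →+* DGm U (fun i => RFP (O i)) where
  toFun z := dgm U _ (fun i => rsP (O i) z)
  map_one' := by
    rw [← map_one (dgm U fun i => RFP (O i))]
    exact congrArg _ (funext fun i => rsP_one)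
  map_zero' := by
    rw [← map_zero (dgm U fun i => RFP (O i))]
    exact congrArg _ (funext fun i => rsP_zero)
  map_mul' x y := by
    by_cases hx : x = 0
    · rw [hx, zero_mul]
      have h1 : dgm U (fun i => RFP (O i)) (fun i => rsP (O i) (0 : L)) = 0 :=
        dgm_eq_zero.2 (Eventually.of_forall fun i => rsP_zero)
      rw [h1, zero_mul]
    by_cases hy : y = 0
    · rw [hy, mul_zero]
      have h1 : dgm U (fun i => RFP (O i)) (fun i => rsP (O i) (0 : L)) = 0 :=
        dgm_eq_zero.2 (Eventually.of_forall fun i => rsP_zero)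
      rw [h1, mul_zero]
    rw [← dgm_mul, dgm_eq]
    filter_upwards [hu x hx, hu y hy] with i h1 h2
    exact rsP_mul (((O i).valuation_le_one_iff x).1 h1.le)
      (((O i).valuation_le_one_iff y).1 h2.le)
  map_add' x y := by
    by_cases hx : x = 0
    · rw [hx, zero_add]
      have h1 : dgm U (fun i => RFP (O i)) (fun i => rsP (O i) (0 : L)) = 0 :=
        dgm_eq_zero.2 (Eventually.of_forall fun i => rsP_zero)
      rw [h1, zero_add]
    by_cases hy : y = 0
    · rw [hy, add_zero]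
      have h1 : dgm U (fun i => RFP (O i)) (fun i => rsP (O i) (0 : L)) = 0 :=
        dgm_eq_zero.2 (Eventually.of_forall fun i => rsP_zero)
      rw [h1, add_zero]
    rw [← dgm_add, dgm_eq]
    filter_upwards [hu x hx, hu y hy] with i h1 h2
    exact rsP_add (((O i).valuation_le_one_iff x).1 h1.le)
      (((O i).valuation_le_one_iff y).1 h2.le)

theorem Ulu.dj_apply (hu : Ulu U O) (z : L) :
    hu.dj z = dgm U (fun i => RFP (O i)) (fun i => rsP (O i) z) := rfl

theorem Ulu.mem (hu : Ulu U O) (z : L) : ∀ᶠ i in U, z ∈ O i := by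
  by_cases hz : z = 0
  · rw [hz]; exact Eventually.of_forall fun i => (O i).zero_mem
  · exact (hu z hz).mono fun i hi => ((O i).valuation_le_one_iff z).1 hi.le

/-- the residues of the constants in the ultraproduct. -/
noncomputable def dR (U : Ultrafilter I) (O : I → ValuationSubring L) (l : Subfield L) :
    Subfield (DGm U (fun i => RFP (O i))) := dSub U (fun i => rbarP l (O i))

theorem dR_ac {l : Subfield L} (hl : IsAlgClosed l) : IsAlgClosed (dR U O l) :=
  isAlgClosed_dSub fun i => rbarP_ac hl (O i)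

theorem Ulu.dj_mem_of_mem (hu : Ulu U O) {l : Subfield L} {z : L} (hz : z ∈ l) :
    hu.dj z ∈ dR U O l := by
  rw [hu.dj_apply, dR, dgm_mem_dSub]
  exact (hu.mem z).mono fun i hi => rsP_mem_rbarP hz hi

theorem Ulu.map_le (hu : Ulu U O) (l : Subfield L) : l.map hu.dj ≤ dR U O l := by
  rintro _ ⟨z, hz, rfl⟩
  exact hu.dj_mem_of_mem hz

/-- constants of the limit. -/
theorem Ulu.dj_mem_dR (hu : Ulu U O) {l : Subfield L} {h : L} :
    hu.dj h ∈ dR U O l ↔
      ∃ c : I → L, (∀ i, c i ∈ l) ∧ ∀ᶠ i in U, (O i).valuation (h - c i) < 1 := by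
  classical
  rw [hu.dj_apply, dR, dgm_mem_dSub]
  constructor
  · intro h1
    have h2 : ∀ i, ∃ c : L, c ∈ l ∧ (h ∈ O i → rsP (O i) h ∈ rbarP l (O i) →
        (O i).valuation (h - c) < 1) := by
      intro i
      by_cases h3 : h ∈ O i ∧ rsP (O i) h ∈ rbarP l (O i)
      · obtain ⟨c, hc, hcO, h4⟩ := mem_rbarP.1 h3.2
        exact ⟨c, hc, fun _ _ => (rsP_eq h3.1 hcO).1 h4.symm⟩
      · exact ⟨0, l.zero_mem, fun h4 h5 => absurd ⟨h4, h5⟩ h3⟩
    choose c hc hc' using h2
    refine ⟨c, hc, ?_⟩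
    filter_upwards [h1, hu.mem h] with i h3 h4
    exact hc' i h4 h3
  · rintro ⟨c, hc, h1⟩
    filter_upwards [h1, hu.mem h] with i h3 h4
    have h5 : c i ∈ O i := by
      have h6 : h - c i ∈ O i := ((O i).valuation_le_one_iff _).1 h3.le
      have h7 := sub_mem h4 h6
      rwa [sub_sub_cancel] at h7
    rw [(rsP_eq h4 h5).2 h3]
    exact rsP_mem_rbarP (hc i) h5

/-- `ℓ`-th powers in the ultraproduct. -/
theorem Ulu.dj_root (hu : Ulu U O) {ℓ : ℕ} [Fact ℓ.Prime] [NeZero (ℓ : L)] {z : L}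
    (hz : z ≠ 0) : (∃ w, w ^ ℓ = hu.dj z) ↔ ∀ᶠ i in U, cl ℓ z ∈ U1 ℓ (O i) := by
  have hℓ : ∀ᶠ i in U, (O i).valuation (ℓ : L) = 1 := hu _ (NeZero.ne _)
  constructor
  · rintro ⟨w, hw⟩
    obtain ⟨w', rfl⟩ := dgm_surj U _ w
    rw [← dgm_pow, hu.dj_apply, dgm_eq] at hw
    filter_upwards [hw, hu z hz, hℓ] with i h1 h2 h3
    have h4 : rs (O i) z ≠ 0 := (rs_ne_zero (((O i).valuation_le_one_iff z).1 h2.le)).2 h2
    rw [cl_mem_U1_iff h2]
    exact cl_zero_of_rf h3 h1
  · intro h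
    have h1 : ∀ i, ∃ w : RFP (O i), (O i).valuation z = 1 → cl ℓ z ∈ U1 ℓ (O i) →
        w ^ ℓ = rsP (O i) z := by
      intro i
      by_cases h2 : (O i).valuation z = 1 ∧ cl ℓ z ∈ U1 ℓ (O i)
      · obtain ⟨h2, h3⟩ := h2
        have h4 : rs (O i) z ≠ 0 := (rs_ne_zero (((O i).valuation_le_one_iff z).1 h2.le)).2 h2
        rw [cl_mem_U1_iff h2, cl_eq_zero_iff ℓ h4] at h3
        obtain ⟨c, -, hc⟩ := h3
        exact ⟨rf (O i) c, fun _ _ => by rw [← map_pow, hc, rsP]⟩
      · exact ⟨0, fun h3 h4 => absurd ⟨h3, h4⟩ h2⟩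
    choose w hw using h1
    refine ⟨dgm U _ w, ?_⟩
    rw [← dgm_pow, hu.dj_apply, dgm_eq]
    filter_upwards [h, hu z hz] with i h2 h3
    exact hw i h3 h2

/-- the ultraproduct of the rational function fields. -/
noncomputable def dF (U : Ultrafilter I) (O : I → ValuationSubring L) (l : Subfield L) (s : L) :
    Subfield (DGm U (fun i => RFP (O i))) :=
  dSub U (fun i => adj (rbarP l (O i)) (rsP (O i) s))

theorem Ulu.adj_le_dF (hu : Ulu U O) {l : Subfield L} {s : L} :
    adj (dR U O l) (hu.dj s) ≤ dF U O l s := adj_le_dSub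

theorem Ulu.dF_rac (hu : Ulu U O) {l : Subfield L} {s : L}
    (hs : ∀ᶠ i in U, ¬ IsAlgebraic (rbarP l (O i)) (rsP (O i) s)) :
    ∀ z ∈ dF U O l s, IsAlgebraic (adj (dR U O l) (hu.dj s)) z → z ∈ adj (dR U O l) (hu.dj s) :=
  fun _ hz h => rat_dgm hs hz h

theorem Ulu.dj_transc (hu : Ulu U O) {l : Subfield L} {s : L}
    (hs : ∀ᶠ i in U, ¬ IsAlgebraic (rbarP l (O i)) (rsP (O i) s)) :
    ¬ IsAlgebraic (dR U O l) (hu.dj s) := dgm_transc hs

end dj

end Vale.Agent.P019P
end
end
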