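import Vale.Agent.P019.MathlibFull
import Vale.Agent.P019.MathlibFull2
import Vale.Agent.P019.MathlibUsed
import Vale.Agent.P019.Bd4.B1
import Vale.Agent.P019.Bd4.B4
import Vale.Agent.P019.Bd4.B8
import Vale.Agent.P019.Bd4.B9
import Vale.Agent.P019.Bd4.B10
import Vale.Agent.P019.Bd4.B11
import Vale.Agent.P019.Bd4.B6
import Vale.Agent.P019.Bd4.B5
import Vale.Agent.P019.Bd4.B2
import Vale.Agent.P019.Bd4.B3
import Vale.Agent.P019.Bd4.B7

set_option linter.all false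

namespace AFast06608dx17a
@[reducible] noncomputable def a0.{u1} {x1 : ℕ} {x2 : Type u1} [x3 : Field x2] : AddCommMonoid (Vale.Agent.P019.V x1 x2) := inferInstance
@[reducible] noncomputable def a1.{u1} {x1 : ℕ} {x2 : Type u1} [x3 : Field x2] {x4 : ValuationSubring x2} : SMulZeroClass (ZMod x1) (Vale.Agent.P019.V x1 (Vale.Agent.P019P.RFP x4)) := inferInstance
@[reducible] noncomputable def a2.{u1} {x1 : ℕ} {x2 : Type u1} [x3 : Field x2] {x4 : ValuationSubring x2} : SMul (ZMod x1) (Vale.Agent.P019.V x1 (Vale.Agent.P019P.RFP x4)) := inferInstance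
@[reducible] noncomputable def a3.{u1} {x1 : ℕ} {x2 : Type u1} [x3 : Field x2] : SMulZeroClass (ZMod x1) (Vale.Agent.P019.V x1 x2) := inferInstance
theorem a4.{u1} {x1 : Type u1} [x2 : Field x1] {x3 : ValuationSubring x1} : MulHomClass (Valuation x1 x3.ValueGroup) x1 x3.ValueGroup := inferInstance
@[reducible] noncomputable def a5.{u1} {x1 : ℕ} {x2 : Type u1} [x3 : Field x2] {x4 : ValuationSubring x2} : DistribSMul (ZMod x1) (Vale.Agent.P019.V x1 (Vale.Agent.P019P.RFP x4)) := inferInstance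
@[reducible] noncomputable def a6.{u1} {x1 : ℕ} {x2 : Type u1} [x3 : Field x2] : SMul (ZMod x1) (Vale.Agent.P019.V x1 x2) := inferInstance
@[reducible] noncomputable def a7.{u1} {x1 : Type u1} [x2 : Field x1] {x3 : ValuationSubring x1} : One x3.ValueGroup := inferInstance
@[reducible] noncomputable def a8.{u1} {x1 : ℕ} {x2 : Type u1} [x3 : Field x2] {x4 : ValuationSubring x2} : SMul (ZMod x1) (Vale.Agent.P019.V x1 (IsLocalRing.ResidueField ↥x4)) := inferInstance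
@[reducible] noncomputable def a9.{u1} {x1 : ℕ} {x2 : Type u1} [x3 : Field x2] {x4 : ValuationSubring x2} : SMulZeroClass (ZMod x1) (Vale.Agent.P019.V x1 (IsLocalRing.ResidueField ↥x4)) := inferInstance
theorem a10.{u1} {x1 : Type u1} [x2 : Field x1] {x3 : ValuationSubring x1} : ZeroLEOneClass x3.ValueGroup := inferInstance
@[reducible] noncomputable def a11.{u1} {x1 : ℕ} {x2 : Type u1} [x3 : Field x2] : DistribSMul (ZMod x1) (Vale.Agent.P019.V x1 x2) := inferInstance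
@[reducible] noncomputable def a12.{u1} {x1 : ℕ} {x2 : Type u1} [x3 : Field x2] {x4 : ValuationSubring x2} : DistribMulAction (ZMod x1) (Vale.Agent.P019.V x1 (Vale.Agent.P019P.RFP x4)) := inferInstance
@[reducible] noncomputable def a13.{u1} {x1 : ℕ} {x2 : Type u1} [x3 : Field x2] {x4 : ValuationSubring x2} : DistribSMul (ZMod x1) (Vale.Agent.P019.V x1 (IsLocalRing.ResidueField ↥x4)) := inferInstance
@[reducible] def a14.{u1} {x1 : Type u1} [x2 : Field x1] {x3 : Subfield x1} : CommSemiring ↥x3 := inferInstance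
theorem a15.{u1} {x1 : Type u1} [x2 : Field x1] : SubsemiringClass (Subfield x1) x1 := inferInstance
@[reducible] def a16.{u1} {x1 : Type u1} [x2 : Field x1] {x3 : Subfield x1} : Zero ↥x3 := inferInstance
@[reducible] noncomputable def a17.{u1} {x1 : ℕ} {x2 : Type u1} [x3 : Field x2] [x4 : Fact (Nat.Prime x1)] : DistribMulAction (ZMod x1) (Vale.Agent.P019.V x1 x2) := inferInstance
@[reducible] def a18.{u1} {x1 : Type u1} [x2 : Field x1] {x3 : Subfield x1} : Semiring ↥x3 := inferInstance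
@[reducible] noncomputable def a19.{u1} {x1 : ℕ} {x2 : Type u1} [x3 : Field x2] {x4 : ValuationSubring x2} : DistribMulAction (ZMod x1) (Vale.Agent.P019.V x1 (IsLocalRing.ResidueField ↥x4)) := inferInstance
@[reducible] noncomputable def a20.{u1} {x1 : Type u1} [x2 : Field x1] {x3 : ValuationSubring x1} : Preorder x3.ValueGroup := inferInstance
theorem a21.{u1} {x1 : Type u1} [x2 : Field x1] {x3 : Subfield x1} : Nontrivial ↥x3 := inferInstance
@[reducible] noncomputable def a22.{u1} {x1 : Type u1} [x2 : Field x1] {x3 : ValuationSubring x1} : PartialOrder x3.ValueGroup := inferInstance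
@[reducible] def a23.{u1} {x1 : Type u1} [x2 : Field x1] {x3 : Subfield x1} : CommRing ↥x3 := inferInstance
end AFast06608dx17a
attribute [local instance] AFast06608dx17a.a0 AFast06608dx17a.a1 AFast06608dx17a.a2
  AFast06608dx17a.a3 AFast06608dx17a.a4 AFast06608dx17a.a5 AFast06608dx17a.a6 AFast06608dx17a.a7
  AFast06608dx17a.a8 AFast06608dx17a.a9 AFast06608dx17a.a10 AFast06608dx17a.a11
  AFast06608dx17a.a12 AFast06608dx17a.a13 AFast06608dx17a.a14 AFast06608dx17a.a15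
  AFast06608dx17a.a16 AFast06608dx17a.a17 AFast06608dx17a.a18 AFast06608dx17a.a19
  AFast06608dx17a.a20 AFast06608dx17a.a21 AFast06608dx17a.a22 AFast06608dx17a.a23
namespace AFast06608dx17b
theorem a0.{u1} {x1 : Type u1} [x2 : Field x1] {x3 : Subfield x1} [x4 : IsAlgClosed ↥x3] : PerfectField ↥x3 := inferInstance
@[reducible] noncomputable def a1.{u1, u2} {x1 : Type u1} {x2 : Ultrafilter x1} {x3 : Type u2} [x4 : Field x3] {x5 : x1 → ValuationSubring x3} : Algebra (IsLocalRing.ResidueField ↥(Vale.Agent.P019P.uVal x2 x5)) (AlgebraicClosure (IsLocalRing.ResidueField ↥(Vale.Agent.P019P.uVal x2 x5))) := inferInstance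
theorem a2.{u1} {x1 : Type u1} [x2 : Field x1] {x3 : Subfield x1} : IsScalarTower (↥x3) (↥x3) x1 := inferInstance
theorem a3.{u1} {x1 : Type u1} [x2 : Field x1] {x3 : Subfield x1} : AddMonoidHomClass (↥x3 →+* x1) (↥x3) x1 := inferInstance
theorem a4.{u1, u2} {x1 : Type u1} [x2 : Field x1] {x3 : Type u2} {x4 : x3 → ValuationSubring x1} {x5 : x3} : AddMonoidHomClass (IsLocalRing.ResidueField ↥(x4 x5) →+* Vale.Agent.P019P.RFP (x4 x5)) (IsLocalRing.ResidueField ↥(x4 x5)) (Vale.Agent.P019P.RFP (x4 x5)) := inferInstance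
theorem a5.{u1, u2} {x1 : Type u1} [x2 : Field x1] {x3 : Type u2} {x4 : Set ℕ} [x5 : CommRing x3] [x6 : Algebra x1 x3] : AddMonoidHomClass (x3 ≃ₗ[x1] ↑x4 →₀ x1) x3 (↑x4 →₀ x1) := inferInstance
theorem a6.{u1, u2} {x1 : Type u1} [x2 : Field x1] {x3 : Type u2} {x4 : Set ℕ} [x5 : CommRing x3] [x6 : Algebra x1 x3] : DistribMulActionSemiHomClass (x3 ≃ₗ[x1] ↑x4 →₀ x1) (⇑(RingHom.id x1)) x3 (↑x4 →₀ x1) := inferInstance
@[reducible] def a7.{u1} {x1 : Type u1} [x2 : Field x1] {x3 : @Subfield x1 (@Field.toDivisionRing x1 x2)} {x4 : Finset x1} : @Algebra (↥x3) (↥(@IntermediateField.adjoin (↥x3) (@Subfield.toField x1 x2 x3) x1 x2 (@Subfield.toAlgebra x1 x2 x3) (@SetLike.coe (Finset x1) x1 (@Finset.instSetLike x1) x4))) (@Semifield.toCommSemiring (↥x3) (@Field.toSemifield (↥x3) (@Subfield.toField x1 x2 x3))) (@DivisionSemiring.toSemiring (↥(@IntermediateField.adjoin (↥x3) (@Subfield.toField x1 x2 x3) x1 x2 (@Subfield.toAlgebra x1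 x2 x3) (@SetLike.coe (Finset x1) x1 (@Finset.instSetLike x1) x4))) (@Semifield.toDivisionSemiring (↥(@IntermediateField.adjoin (↥x3) (@Subfield.toField x1 x2 x3) x1 x2 (@Subfield.toAlgebra x1 x2 x3) (@SetLike.coe (Finset x1) x1 (@Finset.instSetLike x1) x4))) (@Field.toSemifield (↥(@IntermediateField.adjoin (↥x3) (@Subfield.toField x1 x2 x3) x1 x2 (@Subfield.toAlgebra x1 x2 x3) (@SetLike.coe (Finset x1) x1 (@Finset.instSetLike x1) x4))) (@IntermediateField.toField (↥x3) x1 (@Subfield.toField x1 x2 x3) x2 (@Subfield.toAlgebra x1 x2 x3) (@IntermediateField.adjoin (↥x3) (@Subfield.toField x1 x2 x3) x1 x2 (@Subfield.toAlgebra x1 x2 x3) (@SetLike.coe (Finset x1) x1 (@Finset.instSetLike x1) x4)))))) := inferInstance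
@[reducible] def a8.{u1} {x1 : Type u1} [x2 : Field x1] {x3 : Subfield x1} {x4 : IntermediateField (↥x3) x1} : Algebra ↥x3 ↥x4 := inferInstance
end AFast06608dx17b
attribute [local instance] AFast06608dx17b.a0 AFast06608dx17b.a1 AFast06608dx17b.a2
  AFast06608dx17b.a3 AFast06608dx17b.a4 AFast06608dx17b.a5 AFast06608dx17b.a6 AFast06608dx17b.a7
  AFast06608dx17b.a8
attribute [local instance] O19.fr O19.tf O19.pj O19.fl

section

end

section

end

section

end

section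

end

section

section

/-!
# Step A: a special element
-/

namespace Vale.Agent.P019P

open Vale.Agent.P019

set_option linter.style.haveILetI false
set_option linter.unusedSectionVars false

open Polynomial Filter

variable {L : Type*} [Field L] [PerfectField L] {I : Type*} {U : Ultrafilter I}
  {O : I → ValuationSubring L} {l : Subfield L}

theorem FG.refl' {Ω : Type*} [Field Ω] {B : Subfield Ω} [PerfectField B] : FG B B :=
  ⟨∅, by rw [Finset.coe_empty, Subfield.closure_empty, sup_bot_eq, pf_eq]⟩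

theorem isAlgClosed_equiv {A B : Type*} [Field A] [Field B] (e : A ≃+* B) (h : IsAlgClosed A) :
    IsAlgClosed B := by
  apply IsAlgClosed.of_exists_root
  intro p hp hirr
  obtain ⟨c, hc⟩ := IsAlgClosed.exists_root (p.map (e.symm : B →+* A)) (by
    rw [degree_map]
    exact (degree_pos_of_irreducible hirr).ne')
  refine ⟨e c, ?_⟩
  have h1 : e.symm (p.eval (e c)) = 0 := by
    rw [IsRoot.def, eval_map] at hc
    rw [← hc]
    have h2 := hom_eval₂ p (RingHom.id _) (e.symm : B →+* A) (e c)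
    rw [RingHom.comp_id] at h2
    simpa using h2
  rwa [map_eq_zero] at h1

theorem isAlgClosed_map {K Ω : Type*} [Field K] [Field Ω] (j : K →+* Ω) {l : Subfield K}
    (hl : IsAlgClosed l) : IsAlgClosed (l.map j) := by
  let e : l →+* l.map j := (j.comp l.subtype).codRestrict (l.map j) fun x => ⟨x, x.2, rfl⟩
  refine isAlgClosed_equiv (RingEquiv.ofBijective e ⟨e.injective, ?_⟩) hl
  rintro ⟨_, ⟨x, hx, rfl⟩⟩
  exact ⟨⟨x, hx⟩, rfl⟩

end Vale.Agent.P019P
end
end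

section

section

/-!
# A special element of an ultraproduct
-/

namespace Vale.Agent.P019P

open Vale.Agent.P019

set_option linter.style.haveILetI false
set_option linter.unusedSectionVars false

open Polynomial Filter

attribute [local irreducible] DGm.field

variable {I : Type*} {U : Ultrafilter I} {κ : I → Type*} [∀ i, Field (κ i)]
  [∀ i, PerfectField (κ i)]

omit [∀ i, PerfectField (κ i)] in
/-- degrees of minimal polynomials and embeddings. -/
theorem natDegree_minpoly_map_le {K Ω : Type*} [Field K] [Field Ω] (j : K →+* Ω)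
    {E : Subfield K} {M : Subfield Ω} (hM : E.map j ≤ M) {w : K} (hw : IsAlgebraic E w) :
    (minpoly M (j w)).natDegree ≤ (minpoly E w).natDegree := by
  let e : E →+* M := (j.comp E.subtype).codRestrict M fun x => hM ⟨x, x.2, rfl⟩
  have hint : IsIntegral E w := hw.isIntegral
  have h1 : aeval (j w) ((minpoly E w).map e) = 0 := by
    rw [aeval_def, eval₂_map]
    have h2 : (algebraMap M Ω).comp e = j.comp (algebraMap E K) := RingHom.ext fun _ => rfl
    rw [h2, ← hom_eval₂]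
    have h3 : eval₂ (algebraMap E K) w (minpoly E w) = 0 := minpoly.aeval E w
    rw [h3, map_zero]
  refine (natDegree_le_of_dvd (minpoly.dvd M (j w) h1) ?_).trans natDegree_map_le
  exact ((minpoly.monic hint).map e).ne_zero

/-- the main case: infinitely many classes die in almost all fields of bounded degree. -/
theorem dspecial {L : Type*} [Field L] [PerfectField L] {ℓ : ℕ} [Fact ℓ.Prime] [NeZero (ℓ : L)]
    (j : L →+* DGm U κ) {l : Subfield L} (hl : IsAlgClosed l) (hfg : FG l (⊤ : Subfield L))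
    {E : ∀ i, Subfield (κ i)} (hE : ∀ i, IsAlgClosed (E i)) (hlE : ∀ x ∈ l, j x ∈ dSub U E)
    {y1 y2 : L} (h1 : ¬ IsAlgebraic l y1) (h2 : ¬ IsAlgebraic (adj l y1) y2)
    (halg : ∀ z : L, IsAlgebraic (adj (adj l y1) y2) z) {g1 g2 : ∀ i, κ i}
    (hg1 : j y1 = dgm U κ g1) (hg2 : j y2 = dgm U κ g2) {d : ℕ}
    (hd : ∀ᶠ i in (U : Filter I), g1 i ∉ E i → Module.Finite (adj (E i) (g1 i)) (κ i) ∧
      Module.finrank (adj (E i) (g1 i)) (κ i) ≤ d) {d' : ℕ}
    (hrel : ∀ᶠ i in (U : Filter I), BRel (E i) d' (g1 i) (g2 i)) {X : Set L}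
    (hX : ∀ x ∈ X, x ≠ 0 ∧ ∃ w : DGm U κ, w ^ ℓ = j x)
    (hinf : ∀ n : ℕ, ∃ x : Fin n → L, (∀ i, x i ∈ X) ∧ ∀ i j, i ≠ j → cl ℓ (x i) ≠ cl ℓ (x j)) :
    ∃ h : L, h ∉ l ∧ j h ∈ dSub U E := by
  classical
  have hℓ : 0 < ℓ := (Fact.out : ℓ.Prime).pos
  haveI : PerfectField l := perfect_of_RAC (RAC_of_isAlgClosed l hl)
  by_cases hy : j y1 ∈ dSub U E
  · exact ⟨y1, fun h => h1 (isAlgebraic_of_mem h), hy⟩
  have hy' : dgm U κ g1 ∉ dSub U E := by rwa [← hg1]
  have hd' : ∀ᶠ i in (U : Filter I), Module.Finite (adj (E i) (g1 i)) (κ i) ∧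
      Module.finrank (adj (E i) (g1 i)) (κ i) ≤ d := by
    have h4 := hy'
    rw [dgm_mem_dSub, ← Ultrafilter.eventually_not] at h4
    exact (h4.and hd).mono fun i hi => hi.2 hi.1
  have h3' := dgm_alg_of_brel hE hy' hrel
  set D := dSub U E with hDdef
  have hDac : IsAlgClosed D := isAlgClosed_dSub hE
  set Ω := AlgebraicClosure (DGm U κ) with hΩ
  set c : DGm U κ →+* Ω := algebraMap (DGm U κ) Ω with hc
  set J : L →+* Ω := c.comp j with hJ
  haveI : NeZero (ℓ : Ω) := ⟨by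
    rw [← map_natCast J, Ne, map_eq_zero]
    exact NeZero.ne (ℓ : L)⟩
  set Bs := D.map c with hBs
  have hBsac : IsAlgClosed Bs := isAlgClosed_map c hDac
  have hBsR : RAC Bs := RAC_of_isAlgClosed Bs hBsac
  haveI : PerfectField Bs := perfect_of_RAC hBsR
  set M := adj Bs (J y1) with hM
  have hJy1 : J y1 = c (dgm U κ g1) := by rw [← hg1]; rfl
  have hJy2 : J y2 = c (dgm U κ g2) := by rw [← hg2]; rfl
  have hmapM : (adj D (dgm U κ g1)).map c ≤ M := by
    refine (map_adj_le c _ _).trans ?_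
    rw [hM, hJy1]
  have h3 : IsAlgebraic M (J y2) := by
    rw [hJy2]
    exact isAlgebraic_mono hmapM (isAlgebraic_map c h3')
  haveI : PerfectField c.fieldRange := perfect_fieldRange _
  have hBR : Bs ≤ c.fieldRange := by
    rintro _ ⟨x, -, rfl⟩
    exact ⟨x, rfl⟩
  have hjR : ∀ x, J x ∈ c.fieldRange := fun x => ⟨j x, rfl⟩
  set κ' := c.fieldRange ⊓ rac M with hκ
  have hMκ : M ≤ κ' := le_inf (adj_le hBR (hjR y1)) (le_rac _)
  have hκalg : ∀ r ∈ κ', IsAlgebraic M r := fun r hr => mem_rac.1 (Subfield.mem_inf.1 hr).2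
  have hMmap : M ≤ (adj D (dgm U κ g1)).map c := by
    rw [hM, hJy1]
    exact adj_map_le c D (dgm U κ g1)
  obtain ⟨γ, hγ, hγκ⟩ := bd_prim hMκ hκalg (d := d) (by
    intro r hr
    obtain ⟨w, rfl⟩ := (Subfield.mem_inf.1 hr).1
    have h5 : IsAlgebraic (adj D (dgm U κ g1)) w :=
      isAlgebraic_of_map c (isAlgebraic_mono hMmap (hκalg _ hr))
    exact (natDegree_minpoly_map_le c hmapM h5).trans (dgm_deg_le hE hy' hd' h5))
  have hκeq : κ' = adj M γ := le_antisymm (hγκ.trans (adj0_le_adj _ _)) (adj_le hMκ hγ)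
  have hfgκ : FG Bs κ' := by
    rw [hκeq]
    exact (FG.refl'.adj_right _).adj_right _
  have hlB : l.map J ≤ Bs := by
    rintro _ ⟨x, hx, rfl⟩
    exact ⟨j x, hlE x hx, rfl⟩
  have hLM : ∀ x, IsAlgebraic M (J x) := by
    intro x
    have h5 : adj (adj (l.map J) (J y1)) (J y2) ≤ rac M := by
      haveI : PerfectField (rac M) := perfect_rac M
      exact adj_le ((adj_mono hlB _).trans (le_rac _)) (mem_rac.2 h3)
    have h6 : IsAlgebraic (adj (adj (l.map J) (J y1)) (J y2)) (J x) :=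
      isAlgebraic_mono ((map_adj_le J _ _).trans (adj_mono (map_adj_le J _ _) _))
        (isAlgebraic_map J (halg x))
    exact isAlgebraic_rac (isAlgebraic_mono h5 h6)
  have hLκ : (⊤ : Subfield L).map J ≤ κ' := by
    rintro _ ⟨x, -, rfl⟩
    exact Subfield.mem_inf.2 ⟨hjR x, mem_rac.2 (hLM x)⟩
  obtain ⟨_, ⟨h, -, rfl⟩, hhB, hhl⟩ := ft_sub ℓ (l := l.map J) (L := (⊤ : Subfield L).map J)
    (Bs := Bs) (κ := κ') (y1 := J y1) (y2 := J y2) (isAlgClosed_map J hl) (fg_map J hfg) hlB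
    hBsac ⟨y1, Subfield.mem_top _, rfl⟩ ⟨y2, Subfield.mem_top _, rfl⟩ (by
      rintro _ ⟨x, -, rfl⟩
      exact isAlgebraic_mono ((map_adj_le J _ _).trans (adj_mono (map_adj_le J _ _) _))
        (isAlgebraic_map J (halg x)))
    (fun h => by
      obtain ⟨x, hx, hxy⟩ := hBsR _ h
      apply hy
      have h7 : x = j y1 := c.injective hxy
      rwa [← h7])
    (fun h => h2 (isAlgebraic_of_map J (isAlgebraic_mono (adj_map_le J l y1) h)))
    h3 hfgκ hLκ (J '' X) (by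
      rintro _ ⟨x, hx, rfl⟩
      exact ⟨⟨x, Subfield.mem_top x, rfl⟩, by rw [Ne, map_eq_zero]; exact (hX x hx).1⟩) (by
      intro n
      obtain ⟨x, hxX, hx⟩ := hinf n
      refine ⟨fun i => J (x i), fun i => ⟨x i, hxX i, rfl⟩, ?_⟩
      rintro a b hab ⟨_, ⟨w, -, rfl⟩, hw⟩
      refine hx a b hab ?_
      rw [← map_pow, ← map_mul] at hw
      have hw' := J.injective hw
      have hw0 : w ≠ 0 := by
        rintro rfl
        rw [zero_pow hℓ.ne', mul_zero] at hw'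
        exact (hX _ (hxX a)).1 hw'
      rw [cl_eq_iff ℓ (hX _ (hxX a)).1 (hX _ (hxX b)).1]
      exact ⟨w, hw0, hw'⟩) (by
      rintro _ ⟨x, hx, rfl⟩
      obtain ⟨w, hw⟩ := (hX x hx).2
      have h5 : c w ^ ℓ = J x := by
        rw [← map_pow, hw]
        rfl
      refine ⟨c w, Subfield.mem_inf.2 ⟨⟨w, rfl⟩, ?_⟩, h5⟩
      rw [mem_rac]
      refine IsAlgebraic.of_pow hℓ ?_
      rw [h5]
      exact hLM x)
  refine ⟨h, fun hh => hhl ⟨h, hh, rfl⟩, ?_⟩
  obtain ⟨x, hx, hxh⟩ := hhB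
  have h7 : x = j h := c.injective hxh
  rwa [← h7]

end Vale.Agent.P019P
end
end

section

section

/-!
# Transfer of places of the residue curve
-/

namespace Vale.Agent.P019P

open Vale.Agent.P019

set_option linter.style.haveILetI false
set_option linter.unusedSectionVars false

open Polynomial Filter

section apc

variable {F : Type*} [Field F]

theorem apc_val_one {O : ValuationSubring F} {z : F} :
    O.valuation z = 1 ↔ z ≠ 0 ∧ z ∈ O ∧ z⁻¹ ∈ O := by
  constructor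
  · intro h
    refine ⟨?_, mem_of_val h, mem_of_val (by rw [map_inv₀, h, inv_one])⟩
    rintro rfl
    rw [map_zero] at h
    exact zero_ne_one h
  · rintro ⟨h0, h1, h2⟩
    rw [← O.valuation_le_one_iff] at h1 h2
    rw [map_inv₀] at h2
    have h3 : 0 < O.valuation z := zero_lt_iff.2 ((Valuation.ne_zero_iff _).2 h0)
    exact le_antisymm h1 ((inv_le_one₀ h3).1 h2)

theorem apc_inv_notMem {O : ValuationSubring F} {z : F} (h0 : z ≠ 0) (hz : O.valuation z < 1) :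
    z⁻¹ ∉ O := by
  intro h
  have h1 : O.valuation z = 1 :=
    apc_val_one.2 ⟨h0, (O.valuation_le_one_iff z).1 hz.le, h⟩
  exact hz.ne h1

/-- functionals killing `U1` induce functionals on the classes of the residue field. -/
theorem apc_exists_ind {ℓ : ℕ} [Fact ℓ.Prime] (W : ValuationSubring F)
    (f : V ℓ F →ₗ[ZMod ℓ] ZMod ℓ) (hf : ∀ v ∈ U1 ℓ W, f v = 0) :
    ∃ h : V ℓ (IsLocalRing.ResidueField W) →ₗ[ZMod ℓ] ZMod ℓ,
      ∀ z : F, W.valuation z = 1 → h (cl ℓ (rs W z)) = f (cl ℓ z) := by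
  obtain ⟨r, hr1, hrs, hrk⟩ := exists_resmap (ℓ := ℓ) W
  obtain ⟨s, hs⟩ := LinearMap.exists_rightInverse_of_surjective r (LinearMap.range_eq_top.2 hrs)
  refine ⟨f ∘ₗ (UC ℓ W).subtype ∘ₗ s, fun z hz => ?_⟩
  rw [← hr1 z hz]
  have h1 : r (s (r ⟨cl ℓ z, cl_mem_UC hz⟩) - ⟨cl ℓ z, cl_mem_UC hz⟩) = 0 := by
    rw [map_sub, sub_eq_zero]
    exact LinearMap.congr_fun hs _
  have h2 := hf _ ((hrk _).1 h1)
  have h3 : f ((s (r ⟨cl ℓ z, cl_mem_UC hz⟩) - ⟨cl ℓ z, cl_mem_UC hz⟩ : UC ℓ W) : V ℓ F) =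
      f (s (r ⟨cl ℓ z, cl_mem_UC hz⟩) : V ℓ F) - f (cl ℓ z) := by
    rw [← map_sub]; rfl
  rw [h3, sub_eq_zero] at h2
  exact h2

theorem apc_ker_of_unif [PerfectField F] {ℓ : ℕ} [Fact ℓ.Prime] [NeZero (ℓ : F)]
    {P : ValuationSubring F} {ϖ : F} (hP : IsUnif P ϖ) (h : V ℓ F →ₗ[ZMod ℓ] ZMod ℓ)
    (h0 : ∀ z, P.valuation z = 1 → h (cl ℓ z) = 0) (hne : h ≠ 0) (v : V ℓ F) :
    v ∈ UC ℓ P ↔ h v = 0 := by
  have h1 := hP.eq_smul_fn ℓ h h0
  have h2 : h (cl ℓ ϖ) ≠ 0 := by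
    intro h3
    apply hne
    ext w
    rw [h1 w, h3, zero_mul, LinearMap.zero_apply]
  rw [hP.mem_UC_iff, h1 v, mul_eq_zero, or_iff_right h2]

/-- the image of a smaller valuation ring in the residue field. -/
noncomputable def apc_resVal {O O' : ValuationSubring F} (hO : O' ≤ O) :
    ValuationSubring (IsLocalRing.ResidueField O) where
  carrier := {c | ∃ z ∈ O', rs O z = c}
  mul_mem' := by
    rintro _ _ ⟨x, hx, rfl⟩ ⟨y, hy, rfl⟩
    exact ⟨x * y, mul_mem hx hy, rs_mul (hO hx) (hO hy)⟩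
  one_mem' := ⟨1, one_mem _, rs_one⟩
  add_mem' := by
    rintro _ _ ⟨x, hx, rfl⟩ ⟨y, hy, rfl⟩
    exact ⟨x + y, add_mem hx hy, rs_add (hO hx) (hO hy)⟩
  zero_mem' := ⟨0, zero_mem _, rs_zero⟩
  neg_mem' := by
    rintro _ ⟨x, hx, rfl⟩
    exact ⟨-x, neg_mem hx, rs_neg (hO hx)⟩
  mem_or_inv_mem' := by
    intro c
    obtain ⟨z, hz, rfl⟩ := rs_surj c
    by_cases h0 : rs O z = 0
    · exact Or.inl ⟨0, zero_mem _, by rw [h0, rs_zero]⟩
    have hz1 : O.valuation z = 1 := (rs_ne_zero hz).1 h0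
    rcases O'.mem_or_inv_mem z with h | h
    · exact Or.inl ⟨z, h, rfl⟩
    · exact Or.inr ⟨z⁻¹, h, rs_inv hz1⟩

theorem apc_max_le {O O' : ValuationSubring F} (hO : O' ≤ O) {x : F} (hx : O.valuation x < 1) :
    x ∈ O' := by
  by_contra h
  have h1 : x ≠ 0 := by
    rintro rfl
    exact h (zero_mem _)
  have h2 : x⁻¹ ∈ O' := (O'.mem_or_inv_mem x).resolve_left h
  exact apc_inv_notMem h1 hx (hO h2)

theorem apc_mem_resVal {O O' : ValuationSubring F} (hO : O' ≤ O) {z : F} (hz : z ∈ O) :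
    rs O z ∈ apc_resVal hO ↔ z ∈ O' := by
  constructor
  · rintro ⟨w, hw, hwz⟩
    have h1 := (rs_eq (hO hw) hz).1 hwz
    have h2 := apc_max_le hO h1
    have h3 := sub_mem hw h2
    rwa [sub_sub_cancel] at h3
  · intro h
    exact ⟨z, h, rfl⟩

end apc

variable {K L : Type*} [Field K] [Field L] [PerfectField K] [PerfectField L] {ℓ : ℕ}
  [Fact ℓ.Prime] [NeZero (ℓ : K)] [NeZero (ℓ : L)] {Θ : V ℓ K ≃ₗ[ZMod ℓ] V ℓ L}

end Vale.Agent.P019P
end
end

section

end

section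

end

section

section

/-!
# The number of rational effective divisors in a class
-/

namespace Vale.Agent.P019P

open Polynomial IntermediateField

variable {k F : Type*} [Field k] [Field F] [Algebra k F] [CFF k F] {p m : ℕ} [Fact p.Prime]
  [CharP k p]

/-- the semilinear map of a Riemann-Roch space. -/
theorem fcount_mem {s : F ≃+* F} {s₀ : k ≃+* k}
    {h : ∀ a, s (algebraMap k F a) = algebraMap k F (s₀ a)} {D : Plk k F →₀ ℤ} {u : F}
    (hu : u ≠ 0) (hD : D.mapDomain (plEquiv s s₀ h) - D = dv k u) {z : F} (hz : z ≠ 0) :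
    D + dv k (u * s z) = (D + dv k z).mapDomain (plEquiv s s₀ h) := by
  have hsz : s z ≠ 0 := by simpa using hz
  rw [dv_mul hu hsz, ← hD, dv_plEquiv s s₀ h, Finsupp.mapDomain_add]
  abel

omit [CFF k F] in
theorem fcount_nonneg (σ : Plk k F ≃ Plk k F) {E : Plk k F →₀ ℤ} (hE : 0 ≤ E) :
    0 ≤ E.mapDomain σ := by
  intro P
  rw [Finsupp.mapDomain_equiv_apply]
  exact hE _

/-- the number of rational effective divisors in a class. -/
theorem count_eff (hm : 0 < m) (s : F ≃+* F) (s₀ : k ≃+* k) (h0 : ∀ a : k, s₀ a = a ^ p ^ m)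
    (h : ∀ a, s (algebraMap k F a) = algebraMap k F (s₀ a)) (D : Plk k F →₀ ℤ)
    (hD : D.mapDomain (plEquiv s s₀ h) - D ∈ prn k F) :
    Nat.card {E : Plk k F →₀ ℤ // 0 ≤ E ∧ E.mapDomain (plEquiv s s₀ h) = E ∧
      E - D ∈ prn k F} * (p ^ m - 1) = (p ^ m) ^ Module.finrank k (LL k D) - 1 := by
  have : IsAlgClosed k := CFF.ac F
  obtain ⟨u, hu, hDu⟩ := hD
  have hmem : ∀ z ∈ LL k D, u * s z ∈ LL k D := by
    intro z hz
    by_cases hz0 : z = 0
    · rw [hz0, map_zero, mul_zero]; exact Submodule.zero_mem _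
    · have hsz : s z ≠ 0 := by simpa using hz0
      rw [mem_LL_dv (mul_ne_zero hu hsz), fcount_mem hu hDu hz0]
      exact fcount_nonneg _ ((mem_LL_dv hz0).1 hz)
  let φ : LL k D →+ LL k D :=
    { toFun := fun z => ⟨u * s z, hmem z z.2⟩
      map_zero' := by ext; simp
      map_add' := fun z w => by ext; simp [mul_add] }
  have hφv : ∀ z : LL k D, ((φ z : LL k D) : F) = u * s z := fun z => rfl
  have hinj : Function.Injective φ := by
    intro z w hzw
    have h1 : u * s (z : F) = u * s (w : F) := congrArg Subtype.val hzw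
    exact Subtype.ext (s.injective (mul_left_cancel₀ hu h1))
  have hφ : ∀ (a : k) (v : LL k D), φ (a • v) = a ^ (p ^ m) • φ v := by
    intro a v
    apply Subtype.ext
    rw [hφv, Submodule.coe_smul, Submodule.coe_smul, hφv, Algebra.smul_def, Algebra.smul_def,
      map_mul, h, h0]
    ring
  have hne : ∀ {v : LL k D}, v ≠ 0 → (v : F) ≠ 0 := fun {v} hv hv' => hv (Subtype.ext hv')
  have he : ∀ v w : LL k D, v ≠ 0 → w ≠ 0 →
      (D + dv k (v : F) = D + dv k (w : F) ↔ ∃ a : k, a ≠ 0 ∧ w = a • v) := by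
    intro v w hv hw
    rw [add_right_inj, dv_eq_iff (hne hv) (hne hw)]
    constructor
    · rintro ⟨a, ha, h1⟩; exact ⟨a, ha, Subtype.ext h1⟩
    · rintro ⟨a, ha, h1⟩; exact ⟨a, ha, congrArg Subtype.val h1⟩
  have key := lang_count (p := p) (n := m) hm φ hinj hφ
    (fun z : LL k D => D + dv k (z : F)) he
  rw [← key]
  congr 1
  apply Nat.card_congr
  apply Equiv.subtypeEquivRight
  intro E
  have hφ0 : ∀ {v : LL k D}, v ≠ 0 → φ v ≠ 0 := fun {v} hv h1 =>
    hv (hinj (h1.trans (map_zero φ).symm))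
  have hcrit : ∀ {v : LL k D}, v ≠ 0 →
      ((D + dv k (v : F)).mapDomain (plEquiv s s₀ h) = D + dv k (v : F) ↔
        ∃ c : k, φ v = c • v) := by
    intro v hv
    rw [← fcount_mem hu hDu (hne hv), ← hφv, add_right_inj]
    constructor
    · intro h1
      obtain ⟨a, ha, h2⟩ := (dv_eq_iff (hne hv) (hne (hφ0 hv))).1 h1.symm
      exact ⟨a, Subtype.ext h2⟩
    · rintro ⟨c, hc⟩
      have hc0 : c ≠ 0 := by
        rintro rfl
        rw [zero_smul] at hc
        exact hφ0 hv hc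
      exact ((dv_eq_iff (hne hv) (hne (hφ0 hv))).2
        ⟨c, hc0, congrArg Subtype.val hc⟩).symm
  constructor
  · rintro ⟨h1, h2, h3⟩
    obtain ⟨z, hz, hz0, rfl⟩ := eff_iff.1 ⟨h1, h3⟩
    have hv : (⟨z, hz⟩ : LL k D) ≠ 0 := fun h4 => hz0 (congrArg Subtype.val h4)
    exact ⟨⟨z, hz⟩, hv, (hcrit hv).1 h2, rfl⟩
  · rintro ⟨v, hv, hc, rfl⟩
    obtain ⟨h1, h2⟩ := eff_iff.2 ⟨(v : F), v.2, hne hv, rfl⟩
    exact ⟨h1, (hcrit hv).2 hc, h2⟩

end Vale.Agent.P019P
end
end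

section

section

/-!
# The zeta data of a curve over the algebraic closure of a finite field
-/

namespace Vale.Agent.P019P

set_option linter.style.haveILetI false

open Polynomial IntermediateField

variable {k F : Type*} [Field k] [Field F] [Algebra k F] [CFF k F]

/-- the action on principal divisors. -/
theorem mapDomain_mem_prn (s : F ≃+* F) (s₀ : k ≃+* k)
    (h : ∀ a, s (algebraMap k F a) = algebraMap k F (s₀ a)) (D : Plk k F →₀ ℤ) :
    D ∈ prn k F ↔ D.mapDomain (plEquiv s s₀ h) ∈ prn k F := by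
  constructor
  · rintro ⟨z, hz, rfl⟩
    exact ⟨s z, (map_ne_zero s).2 hz, (dv_plEquiv s s₀ h z).symm⟩
  · rintro ⟨w, hw, hD⟩
    obtain ⟨z, rfl⟩ := s.surjective w
    refine ⟨z, (map_ne_zero s).1 hw, ?_⟩
    rw [dv_plEquiv s s₀ h z] at hD
    exact Finsupp.mapDomain_injective (plEquiv s s₀ h).injective hD

/-- the zeta data of a curve. -/
theorem exists_zdat (k F : Type*) [Field k] [Field F] [Algebra k F] [CFF k F]
    (hf : ∀ a : k, a ≠ 0 → ∃ n : ℕ, 0 < n ∧ a ^ n = 1) {p : ℕ} [hp : Fact p.Prime] [CharP k p] :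
    ∃ Z : ZDat (Plk k F), Z.prin = prn k F ∧ Z.g = gen k F ∧ ∃ m : ℕ, 0 < m ∧ Z.q = p ^ m := by
  haveI : IsAlgClosed k := CFF.ac F
  obtain ⟨m, σ, x, hm, hσ, hx, hσx⟩ := exists_frob k F hf (p := p)
  haveI : PerfectRing k p := PerfectField.toPerfectRing p
  let σ₀ : k ≃+* k := iterateFrobeniusEquiv k p m
  have h0 : ∀ a : k, σ₀ a = a ^ p ^ m := fun a => iterateFrobeniusEquiv_def k p m a
  have h : ∀ a, σ (algebraMap k F a) = algebraMap k F (σ₀ a) := fun a => by rw [hσ, h0]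
  obtain ⟨P0⟩ := exists_place_cff k F
  obtain ⟨N, hN, hP0⟩ := pl_per hf σ σ₀ h0 h hx hσx P0
  have hpow : ∀ (n : ℕ) (a : k), (σ₀ ^ n) a = a ^ p ^ (m * n) := by
    intro n
    induction n with
    | zero => intro a; simp
    | succ n ih =>
      intro a
      rw [pow_succ, RingAut.mul_apply, ih, h0, ← pow_mul, ← pow_add, mul_add, mul_one, add_comm]
  have hx' : ∀ n : ℕ, (σ ^ n) x = x := by
    intro n
    induction n with
    | zero => simp
    | succ n ih => rw [pow_succ, RingAut.mul_apply, hσx, ih]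
  have hmN : 0 < m * N := Nat.mul_pos hm hN
  have hpow2 : ∀ (n : ℕ) (a : k), ((σ₀ ^ N) ^ n) a = a ^ p ^ (m * N * n) := by
    intro n a
    rw [← pow_mul, hpow, mul_assoc]
  refine ⟨{ σ := plEquiv (σ ^ N) (σ₀ ^ N) (semi_pow h N)
            q := p ^ (m * N)
            g := gen k F
            prin := prn k F
            l := fun D => Module.finrank k (LL k D)
            κ := can k F
            P0 := P0
            two_le := ?_
            fix0 := ?_
            per := ?_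
            fin := ?_
            deg_prin := ?_
            sig_prin := ?_
            rr := ?_
            l_neg := ?_
            l_prin := ?_
            l_zero := ?_
            count := ?_ }, rfl, rfl, m * N, hmN, rfl⟩
  · exact hp.out.two_le.trans (Nat.le_self_pow hmN.ne' p)
  · rw [← plEquiv_pow]
    exact hP0
  · intro P
    exact pl_per hf (σ ^ N) (σ₀ ^ N) (hpow N) (semi_pow h N) hx (hx' N) P
  · intro n hn
    exact pl_fin hmN (σ ^ N) (σ₀ ^ N) (hpow N) (semi_pow h N) hx (hx' N) hn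
  · rintro _ ⟨z, _, rfl⟩
    exact dg_dv z
  · intro D
    exact mapDomain_mem_prn _ _ _ D
  · intro D
    exact RR D
  · intro D hD
    exact LL_neg hD
  · intro D hD
    exact LL_prin hD
  · intro D hD hD'
    exact LL_zero hD hD'
  · intro n hn D hD
    have e1 := plEquiv_pow (σ ^ N) (σ₀ ^ N) (semi_pow h N) n
    rw [e1] at hD ⊢
    have := count_eff (p := p) (m := m * N * n) (Nat.mul_pos hmN hn) ((σ ^ N) ^ n)
      ((σ₀ ^ N) ^ n) (hpow2 n) (semi_pow (semi_pow h N) n) D hD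
    have e2 : (p ^ (m * N)) ^ n = p ^ (m * N * n) := (pow_mul p (m * N) n).symm
    have e3 : (p ^ (m * N)) ^ (n * Module.finrank k (LL k D)) =
        (p ^ (m * N * n)) ^ Module.finrank k (LL k D) := by
      rw [pow_mul (p ^ (m * N)), e2]
    rw [e2, e3]
    exact this

/-- `ℓ`-torsion and divisibility of the class group over the closure of a finite field. -/
theorem pic_fin' (hf : ∀ a : k, a ≠ 0 → ∃ n : ℕ, 0 < n ∧ a ^ n = 1) {ℓ : ℕ} (hℓ : ℓ.Prime)
    (hℓk : (ℓ : k) ≠ 0) :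
    (∀ D : Plk k F →₀ ℤ, dg D = 0 → ∃ E : Plk k F →₀ ℤ, dg E = 0 ∧ D - ℓ • E ∈ prn k F) ∧
    Nat.card {x : (Plk k F →₀ ℤ) ⧸ prn k F // ℓ • x = 0} = ℓ ^ (2 * gen k F) := by
  obtain ⟨p, hp, hc⟩ := exists_prime_char hf
  haveI : Fact p.Prime := ⟨hp⟩
  obtain ⟨Z, hZ, hg, m, hm, hq⟩ := exists_zdat k F hf (p := p)
  have hlq : ¬ ℓ ∣ Z.q := by
    rw [hq]
    intro h
    have h1 := (Nat.prime_dvd_prime_iff_eq hℓ hp).1 (hℓ.dvd_of_dvd_pow h)
    rw [h1] at hℓk
    exact hℓk (CharP.cast_eq_zero k p)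
  constructor
  · intro D hD
    obtain ⟨E, hE, hE'⟩ := Z.divisible hℓ hlq D hD
    exact ⟨E, hE, hZ ▸ hE'⟩
  · have h9 : Nat.card {x : (Plk k F →₀ ℤ) ⧸ Z.prin // ℓ • x = 0} = ℓ ^ (2 * Z.g) :=
      Z.card_tors hℓ hlq
    rw [hZ, hg] at h9
    exact h9

end Vale.Agent.P019P
end
end

section

section

/-!
# Missing functions
-/

namespace Vale.Agent.P019P

open Polynomial IntermediateField TensorProduct

section

variable {K R : Type*} [Field K] [CommRing R] [Algebra K R] {S : Set ℕ}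

/-- elements of the bounded part with the same coordinates are equal. -/
theorem h4NA_ext {b : Module.Basis S K R} {D : ℕ} {z w : R} (hz : z ∈ fil b D)
    (hw : w ∈ fil b D) (h : ∀ d : SD S D, b.repr z d.ix = b.repr w d.ix) : z = w := by
  apply b.ext_elem
  intro f
  by_cases hf : (f : ℕ) ≤ D
  · exact h ⟨⟨f, by omega⟩, f.2⟩
  · rw [hz f (by omega), hw f (by omega)]

theorem h4NA_repr_mul_el (b : Module.Basis S K R) {D : ℕ} (q : R) (x : SD S D → K) (f : S) :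
    b.repr (q * el b x) f = ∑ e : SD S D, x e * b.repr (q * b e.ix) f := by
  rw [el, Finset.mul_sum, map_sum, Finsupp.finsetSum_apply]
  refine Finset.sum_congr rfl fun e _ => ?_
  rw [mul_smul_comm, map_smul, Finsupp.smul_apply, smul_eq_mul]

/-- the coordinates of the data. -/
noncomputable def h4NA_t (b : Module.Basis S K R) {g D : ℕ} (a q : R) (ρ : Fin (g + 1) → R)
    (u : SD S (2 * D) → K) : IN S g D → K
  | Sum.inl x => b.repr (if h : (x.1 : ℕ) < g + 1 then ρ ⟨x.1, h⟩ else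
      if (x.1 : ℕ) = g + 1 then a else q) x.2.ix
  | Sum.inr d => u d

theorem h4NA_uN (b : Module.Basis S K R) {g D : ℕ} (a q : R) (ρ : Fin (g + 1) → R)
    (u : SD S (2 * D) → K) (m : Fin (g + 3)) {z : R} (hz : z ∈ fil b D)
    (h : (if h : (m : ℕ) < g + 1 then ρ ⟨m, h⟩ else
      if (m : ℕ) = g + 1 then a else q) = z) : uN b (h4NA_t b a q ρ u) m = z := by
  refine h4NA_ext (el_mem b _) hz fun d => ?_
  rw [uN, repr_el, h4NA_t]
  simp only
  rw [h]

end

variable {K R F : Type*} [Field K] [IsAlgClosed K] [CommRing R] [Algebra K R] [Field F]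
  [Algebra R F] [IsFractionRing R F] [Algebra K F] [IsScalarTower K R F] {S : Set ℕ} {g : ℕ}
  {b : Module.Basis S K R} [CFF K F] {P₀ : Plk K F}

/-- if functions are missing there is a solution. -/
theorem QN_of_notFull (h : IsDB b) (hS : Sgp g S)
    (hP₀ : ∀ z : R, z ≠ 0 → ord P₀ (algebraMap R F z) = -(dgr b z : ℤ)) {D : ℕ}
    (hD : D = 2 * g * (g + 1) + 4 * g)
    (hn : ¬ ∀ w : F, w ∈ RO P₀ → ∃ z : R, algebraMap R F z = w) :
    ∃ t : IN S g D → K, QN b t := by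
  obtain ⟨a, q, ρ, ha, hq, hρ, heq, hne⟩ := h4_notFull h hS hP₀ hn
  have ha' : a ∈ fil b D := fil_mono b (by omega) ha
  have hq' : q ∈ fil b D := fil_mono b (by omega) hq
  have hρ' : ∀ t, ρ t ∈ fil b D := fun t => fil_mono b (by omega) (hρ t)
  have hnot : (fun d : SD S (2 * D) => b.repr a d.ix) ∉ Submodule.span K (Set.range
      fun e : SD S D => fun d : SD S (2 * D) => b.repr (q * b e.ix) d.ix) := by
    intro hmem
    rw [Submodule.mem_span_range_iff_exists_fun] at hmem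
    obtain ⟨x, hx⟩ := hmem
    refine hne (el b x) (h4NA_ext (D := 2 * D) (fil_mono b (by omega) ha') ?_ fun d => ?_)
    · rw [two_mul]
      exact fil_mul h hq' (el_mem b x)
    · rw [h4NA_repr_mul_el, ← congrFun hx d, Finset.sum_apply]
      rfl
  obtain ⟨u, hu, hu1⟩ := h4_sep hnot
  have e1 : uN b (h4NA_t b (D := D) a q ρ u) ⟨g + 1, by omega⟩ = a :=
    h4NA_uN b a q ρ u _ ha' (by simp)
  have e2 : uN b (h4NA_t b (D := D) a q ρ u) ⟨g + 2, by omega⟩ = q :=
    h4NA_uN b a q ρ u _ hq' (by simp)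
  have e3 : ∀ m : Fin (g + 1), uN b (h4NA_t b (D := D) a q ρ u) ⟨m, by omega⟩ = ρ m := fun m =>
    h4NA_uN b a q ρ u _ (hρ' m) (by simp [m.2])
  refine ⟨h4NA_t b a q ρ u, ?_, ?_, ?_⟩
  · rw [e1, e2, ← heq]
    congr 1
    exact Finset.sum_congr rfl fun m _ => by rw [e3]
  · intro e
    rw [e2]
    exact hu e
  · rw [e1]
    exact hu1

/-- models have no solution. -/
theorem not_QN (h : HM b g P₀) {D : ℕ} (t : IN S g D → K) : ¬ QN b t := by
  intro hQ
  have hS := h.sg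
  have hdom : IsDomain R := h4_domain h.db hS
  obtain ⟨w, hw⟩ := h4_full_of h.db hS h.ord h.full (a := uN b t ⟨g + 1, by omega⟩)
    (q := uN b t ⟨g + 2, by omega⟩) (ρ := fun m => uN b t ⟨m, by omega⟩) hQ.eq
  set a := uN b t ⟨g + 1, by omega⟩ with ha
  set q := uN b t ⟨g + 2, by omega⟩ with hq
  have ha0 : a ≠ 0 := by
    intro h0
    have h1 := hQ.one
    rw [← ha, h0, map_zero] at h1
    simp at h1
  have hq0 : q ≠ 0 := by
    intro h0
    exact ha0 (by rw [hw, h0, zero_mul])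
  have hw0 : w ≠ 0 := by
    intro h0
    exact ha0 (by rw [hw, h0, mul_zero])
  have haD : dgr b a ≤ D := mem_fil_iff.1 (el_mem b _)
  have hwD : w ∈ fil b D := by
    refine mem_fil_iff.2 ?_
    have h1 := (dgr_mul h.db hS hq0 hw0).2
    rw [← hw] at h1
    omega
  obtain ⟨x, hx⟩ := exists_el hwD
  have h1 := hQ.one
  rw [← ha] at h1
  have h2 : ∑ d : SD S (2 * D), t (Sum.inr d) * b.repr a d.ix = 0 := by
    have h3 : ∀ d : SD S (2 * D), t (Sum.inr d) * b.repr a d.ix =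
        ∑ e : SD S D, x e * (t (Sum.inr d) * b.repr (q * b e.ix) d.ix) := by
      intro d
      rw [hw, hx, h4NA_repr_mul_el, Finset.mul_sum]
      exact Finset.sum_congr rfl fun e _ => by ring
    rw [Finset.sum_congr rfl fun d _ => h3 d, Finset.sum_comm]
    refine Finset.sum_eq_zero fun e _ => ?_
    rw [← Finset.mul_sum, hQ.ann e, mul_zero]
  rw [h2] at h1
  exact zero_ne_one h1

end Vale.Agent.P019P
end
end

section

section

/-!
# The torsion and the divisibility of the class group, arbitrary constants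
-/

universe u

namespace Vale.Agent.P019P

open Polynomial IntermediateField TensorProduct

section

variable {A₀ : Type u} [CommRing A₀] {R₀ : Type u} [CommRing R₀] [Algebra A₀ R₀] {S : Set ℕ}
  {b : Module.Basis S A₀ R₀} {g : ℕ}

/-- models over a field. -/
theorem exists_HM_gen {g : ℕ} {S : Set ℕ} {κ R : Type u} [Field κ] [IsAlgClosed κ]
    [CommRing R] [Algebra κ R] {b : Module.Basis S κ R} (h : IsDB b) (hS : Sgp g S) {D : ℕ}
    (hD : D = 2 * g * (g + 1) + 4 * g) (hn : ¬ ∃ t : IN S g D → κ, QN b t) :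
    ∃ (Fκ : Type u) (_ : Field Fκ) (_ : Algebra R Fκ)
      (_ : IsFractionRing R Fκ) (_ : Algebra κ Fκ)
      (_ : IsScalarTower κ R Fκ) (_ : CFF κ Fκ) (P : Plk κ Fκ),
      HM b g P := by
  haveI : IsDomain R := h4_domain h hS
  haveI hc : CFF κ (FractionRing R) := h4_cff h hS
  obtain ⟨P, hP⟩ := h4_place (F := FractionRing R) h hS
  refine ⟨FractionRing R, inferInstance, inferInstance, inferInstance, inferInstance,
    inferInstance, hc, P, h, hS, hP, ?_⟩
  by_contra hcon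
  exact hn (QN_of_notFull h hS hP hD hcon)

/-- models over other fields. -/
theorem exists_HM (h : IsDB b) (hS : Sgp g S) (κ : Type u) [Field κ] [IsAlgClosed κ]
    [Algebra A₀ κ] {D : ℕ} (hD : D = 2 * g * (g + 1) + 4 * g)
    (hn : ¬ ∃ t : IN S g D → κ, QN (b.baseChange κ) t) :
    ∃ (Fκ : Type u) (_ : Field Fκ) (_ : Algebra (κ ⊗[A₀] R₀) Fκ)
      (_ : IsFractionRing (κ ⊗[A₀] R₀) Fκ) (_ : Algebra κ Fκ)
      (_ : IsScalarTower κ (κ ⊗[A₀] R₀) Fκ) (_ : CFF κ Fκ) (P : Plk κ Fκ),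
      HM (b.baseChange κ) g P :=
  exists_HM_gen (h.baseChange κ) hS hD hn

/-- models over closures of finite fields. -/
theorem exists_HM_fin (h : IsDB b) (hS : Sgp g S) (κ : Type u) [Field κ] [IsAlgClosed κ]
    [Algebra A₀ κ] (hf : ∀ a : κ, a ≠ 0 → ∃ n : ℕ, 0 < n ∧ a ^ n = 1) {ℓ : ℕ} (hℓ : ℓ.Prime)
    (hℓκ : (ℓ : κ) ≠ 0) {D : ℕ} (hD : D = 2 * g * (g + 1) + 4 * g)
    (hn : ¬ ∃ t : IN S g D → κ, QN (b.baseChange κ) t) :
    ∃ (Fκ : Type u) (_ : Field Fκ) (_ : Algebra (κ ⊗[A₀] R₀) Fκ)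
      (_ : IsFractionRing (κ ⊗[A₀] R₀) Fκ) (_ : Algebra κ Fκ)
      (_ : IsScalarTower κ (κ ⊗[A₀] R₀) Fκ) (_ : CFF κ Fκ) (P : Plk κ Fκ),
      HM (b.baseChange κ) g P ∧
      (∀ D : Plk κ Fκ →₀ ℤ, dg D = 0 →
        ∃ E : Plk κ Fκ →₀ ℤ, dg E = 0 ∧ D - ℓ • E ∈ prn κ Fκ) ∧
      NC ℓ κ Fκ (ℓ ^ (2 * g)) ∧ ¬ NC ℓ κ Fκ (ℓ ^ (2 * g) + 1) := by
  obtain ⟨Fκ, _, _, _, _, _, _, P, hHM⟩ := exists_HM h hS κ hD hn
  obtain ⟨h1, h2⟩ := pic_fin' (k := κ) (F := Fκ) hf hℓ hℓκ
  rw [hHM.gen_eq] at h2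
  obtain ⟨h3, h4⟩ := h4_nc_of_card hℓ.ne_zero (pow_pos hℓ.pos _) h2
  exact ⟨Fκ, _, _, inferInstance, _, inferInstance, inferInstance, P, hHM, h1, h3, h4⟩

end

section

variable {k F : Type u} [Field k] [Field F] [Algebra k F] [CFF k F]

/-- the number of torsion classes. -/
theorem h4_card_tors {ℓ : ℕ} (hℓ : ℓ.Prime) (hℓk : (ℓ : k) ≠ 0) :
    Nat.card {x : (Plk k F →₀ ℤ) ⧸ prn k F // ℓ • x = 0} = ℓ ^ (2 * gen k F) := by
  haveI : IsAlgClosed k := CFF.ac F
  obtain ⟨P₀⟩ := exists_place_cff k F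
  obtain ⟨A₀, _, _, _, _, R₀, _, _, S, b, _, _, _, hinj, hdb, hHM, -⟩ :=
    h4_model P₀ (∅ : Finset F) (by simp)
  have hS : Sgp (gen k F) S := hHM.sg
  have hℓ2 : 2 ≤ ℓ := hℓ.two_le
  obtain ⟨δ₀, hδ₀, hgen⟩ := (isSys_QN b (gen k F)
    (2 * gen k F * (gen k F + 1) + 4 * gen k F)).gen hinj (fun ⟨t, ht⟩ => not_QN hHM t ht)
  have hℓA : ((ℓ : ℕ) : A₀) ≠ 0 := by
    intro h0
    apply hℓk
    rw [← map_natCast (algebraMap A₀ k), h0, map_zero]
  have hδ : δ₀ * (ℓ : A₀) ≠ 0 := mul_ne_zero hδ₀ hℓA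
  apply h4_card_of_nc hℓ.ne_zero
  · obtain ⟨t, ht⟩ := (isSys_QT b ℓ (ℓ ^ (2 * gen k F)) _ _ _ _).low hinj hδ
      (fun κ _ _ _ hf hκ => by
        rw [map_mul, map_natCast] at hκ
        obtain ⟨Fκ, _, _, _, _, _, _, P, h1, -, h2, -⟩ := exists_HM_fin hdb hS κ hf hℓ
          (right_ne_zero_of_mul hκ) rfl (hgen κ (left_ne_zero_of_mul hκ))
        exact QT_of_NC h1 hℓ2 rfl rfl rfl rfl h2)
    exact NC_of_QT hHM hℓ2 rfl rfl rfl rfl ht
  · intro hcon
    obtain ⟨κ, _, _, _, hf, hκ, t, ht⟩ := (isSys_QT b ℓ (ℓ ^ (2 * gen k F) + 1) _ _ _ _).up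
      hinj hδ (QT_of_NC hHM hℓ2 rfl rfl rfl rfl hcon)
    rw [map_mul, map_natCast] at hκ
    obtain ⟨Fκ, _, _, _, _, _, _, P, h1, -, -, h2⟩ := exists_HM_fin hdb hS κ hf hℓ
      (right_ne_zero_of_mul hκ) rfl (hgen κ (left_ne_zero_of_mul hκ))
    exact h2 (NC_of_QT h1 hℓ2 rfl rfl rfl rfl ht)

/-- a function with prescribed orders modulo `ℓ`. -/
theorem h4_div_fun {ℓ : ℕ} (hℓ : ℓ.Prime) (hℓk : (ℓ : k) ≠ 0) {P₀ P : Plk k F} (hP : P ≠ P₀) :
    ∃ f : F, f ≠ 0 ∧ ∀ Q : Plk k F, Q ≠ P₀ →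
      (ℓ : ℤ) ∣ ord Q f - Finsupp.single P (1 : ℤ) Q := by
  classical
  haveI : IsAlgClosed k := CFF.ac F
  obtain ⟨a, ha, ha'⟩ := h4_gens P₀ (E := Finsupp.single P (1 : ℤ))
    (Finsupp.single_nonneg.2 zero_le_one) (Finsupp.single_eq_of_ne' hP)
    (n := 1 + 2 * gen k F) (by rw [dg_sgl]; push_cast; exact le_rfl)
  obtain ⟨A₀, _, _, _, _, R₀, _, _, S, b, _, _, _, hinj, hdb, hHM, hZ⟩ :=
    h4_model P₀ {a 0, a 1} (by
      intro z hz
      rw [Finset.mem_insert, Finset.mem_singleton] at hz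
      rcases hz with rfl | rfl
      · exact (mem_LP.1 (ha 0).2).1
      · exact (mem_LP.1 (ha 1).2).1)
  have hr : ∀ j : Fin 2, ∃ r : R₀, algebraMap (k ⊗[A₀] R₀) F (1 ⊗ₜ r) = a j := by
    intro j
    apply hZ
    fin_cases j
    · simp
    · simp
  choose r hr using hr
  have hS : Sgp (gen k F) S := hHM.sg
  have hℓ2 : 2 ≤ ℓ := hℓ.two_le
  obtain ⟨δ₀, hδ₀, hgen⟩ := (isSys_QN b (gen k F)
    (2 * gen k F * (gen k F + 1) + 4 * gen k F)).gen hinj (fun ⟨t, ht⟩ => not_QN hHM t ht)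
  have hℓA : ((ℓ : ℕ) : A₀) ≠ 0 := by
    intro h0
    apply hℓk
    rw [← map_natCast (algebraMap A₀ k), h0, map_zero]
  have hr0 : r 0 ≠ 0 := by
    intro h0
    apply (ha 0).1
    rw [← hr 0, h0, TensorProduct.tmul_zero, map_zero]
  obtain ⟨d₀, hd₀⟩ : ∃ d₀ : S, b.repr (r 0) d₀ ≠ 0 := by
    by_contra hcon
    push Not at hcon
    apply hr0
    apply b.repr.map_eq_zero_iff.1
    ext d
    exact hcon d
  have hδ : δ₀ * (ℓ : A₀) * b.repr (r 0) d₀ ≠ 0 := mul_ne_zero (mul_ne_zero hδ₀ hℓA) hd₀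
  obtain ⟨t, ht⟩ := (isSys_QD b ℓ (max (dgr b (r 0)) (dgr b (r 1)) + ℓ * (4 * gen k F) +
      2 * gen k F) r).low hinj hδ
    (fun κ _ _ _ hf hκ => by
      rw [map_mul, map_mul, map_natCast] at hκ
      have hκ1 := left_ne_zero_of_mul hκ
      obtain ⟨Fκ, _, _, _, _, _, _, P', h1, h2, -, -⟩ := exists_HM_fin hdb hS κ hf hℓ
        (right_ne_zero_of_mul hκ1) rfl (hgen κ (left_ne_zero_of_mul hκ1))
      refine QD_of h1 hℓ.ne_zero h2 (M := max (dgr b (r 0)) (dgr b (r 1))) ?_ ⟨0, ?_⟩ rfl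
      · intro i f hf'
        rw [Module.Basis.baseChange_repr_tmul]
        have h3 : b.repr (r i) f = 0 := by
          by_contra h4
          have h5 : (f : ℕ) ≤ dgr b (r i) :=
            Finset.le_sup (f := fun f : S => (f : ℕ)) (Finsupp.mem_support_iff.2 h4)
          have h6 : dgr b (r i) ≤ max (dgr b (r 0)) (dgr b (r 1)) := by
            fin_cases i
            · exact le_max_left _ _
            · exact le_max_right _ _
          omega
        rw [h3, zero_smul]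
      · intro h0
        apply right_ne_zero_of_mul hκ
        have h3 := congrArg (fun z => (b.baseChange κ).repr z d₀) h0
        simp only [Module.Basis.baseChange_repr_tmul, map_zero, Finsupp.coe_zero,
          Pi.zero_apply] at h3
        rw [← h3, Algebra.smul_def, mul_one])
  obtain ⟨f, hf0, hf⟩ := of_QD hHM hℓ.ne_zero ht
  refine ⟨f, hf0, fun Q hQ => ?_⟩
  obtain ⟨i, hi0, hmin, hdvd⟩ := hf Q hQ
  obtain ⟨h1, j, hj⟩ := ha' Q hQ
  simp only [hr] at hmin hdvd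
  have h2 : ord Q (a i) = Finsupp.single P (1 : ℤ) Q := by
    apply le_antisymm _ (h1 i)
    rw [← hj]
    apply hmin
    intro h0
    apply (ha j).1
    rw [← hr j, h0, map_zero]
  rwa [h2] at hdvd

/-- divisibility for one place. -/
theorem h4_div_place {ℓ : ℕ} (hℓ : ℓ.Prime) (hℓk : (ℓ : k) ≠ 0) {P₀ P : Plk k F}
    (hP : P ≠ P₀) : ∃ E : Plk k F →₀ ℤ, dg E = 0 ∧
      Finsupp.single P 1 - Finsupp.single P₀ 1 - ℓ • E ∈ prn k F := by
  classical
  obtain ⟨f, hf0, hf⟩ := h4_div_fun hℓ hℓk hP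
  set v : Plk k F →₀ ℤ := dv k f - (Finsupp.single P 1 - Finsupp.single P₀ 1) with hv
  have hv0 : dg v = 0 := by
    rw [hv, map_sub, map_sub, dg_dv, dg_sgl, dg_sgl]
    ring
  have h1 : ∀ Q, Q ≠ P₀ → (ℓ : ℤ) ∣ v Q := by
    intro Q hQ
    have h2 := hf Q hQ
    rw [hv, Finsupp.sub_apply, Finsupp.sub_apply, dv_apply, Finsupp.single_eq_of_ne' hQ.symm,
      sub_zero]
    exact h2
  have h2 : (ℓ : ℤ) ∣ v P₀ := by
    rw [dg_apply, Finsupp.sum, ← Finset.sum_insert_of_eq_zero_if_notMem (a := P₀)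
      (fun h => Finsupp.notMem_support_iff.1 h),
      ← Finset.add_sum_erase _ _ (Finset.mem_insert_self P₀ _)] at hv0
    have h3 : v P₀ = -∑ x ∈ (insert P₀ v.support).erase P₀, v x := by omega
    rw [h3]
    refine (Finset.dvd_sum fun Q hQ => h1 Q (Finset.ne_of_mem_erase hQ)).neg_right
  have h3 : ∀ Q, (ℓ : ℤ) ∣ v Q := by
    intro Q
    by_cases hQ : Q = P₀
    · rw [hQ]
      exact h2
    · exact h1 Q hQ
  have hℓ0 : (ℓ : ℤ) ≠ 0 := by exact_mod_cast hℓ.ne_zero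
  have h4 : ℓ • v.mapRange (fun n : ℤ => n / ℓ) (Int.zero_ediv _) = v := by
    ext Q
    rw [Finsupp.smul_apply, Finsupp.mapRange_apply, nsmul_eq_mul]
    exact Int.mul_ediv_cancel' (h3 Q)
  refine ⟨-v.mapRange (fun n : ℤ => n / ℓ) (Int.zero_ediv _), ?_, ?_⟩
  · have h5 := congrArg dg h4
    rw [map_nsmul, hv0, nsmul_eq_mul] at h5
    rw [map_neg, neg_eq_zero]
    exact (mul_eq_zero.1 h5).resolve_left hℓ0
  · rw [smul_neg, h4, hv]
    have h6 : Finsupp.single P 1 - Finsupp.single P₀ 1 -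
        -(dv k f - (Finsupp.single P 1 - Finsupp.single P₀ 1)) = dv k f := by abel
    rw [h6]
    exact ⟨f, hf0, rfl⟩

/-- the structure of the class group, arbitrary constants. -/
theorem pic_any {ℓ : ℕ} (hℓ : ℓ.Prime) (hℓk : (ℓ : k) ≠ 0) :
    (∀ D : Plk k F →₀ ℤ, dg D = 0 → ∃ E : Plk k F →₀ ℤ, dg E = 0 ∧ D - ℓ • E ∈ prn k F) ∧
    Nat.card {x : (Plk k F →₀ ℤ) ⧸ prn k F // ℓ • x = 0} = ℓ ^ (2 * gen k F) := by
  refine ⟨?_, h4_card_tors hℓ hℓk⟩
  obtain ⟨P₀⟩ := exists_place_cff k F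
  have key : ∀ P : Plk k F, ∃ E : Plk k F →₀ ℤ, dg E = 0 ∧
      Finsupp.single P 1 - Finsupp.single P₀ 1 - ℓ • E ∈ prn k F := by
    intro P
    by_cases hP : P = P₀
    · refine ⟨0, map_zero _, ?_⟩
      rw [hP, sub_self, smul_zero, sub_zero]
      exact (prn k F).zero_mem
    · exact h4_div_place hℓ hℓk hP
  choose E hE0 hE using key
  intro D hD
  refine ⟨D.sum fun P n => n • E P, ?_, ?_⟩
  · rw [map_finsuppSum]
    refine Finset.sum_eq_zero fun P _ => ?_
    change dg (D P • E P) = 0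
    rw [map_zsmul, hE0, smul_zero]
  · have h1 : D - ℓ • (D.sum fun P n => n • E P) =
        D.sum fun P n => n • (Finsupp.single P 1 - Finsupp.single P₀ 1 - ℓ • E P) := by
      have h2 : (D.sum fun P n => n • (Finsupp.single P (1 : ℤ))) = D := by
        simp
      have h3 : (D.sum fun P n => n • (Finsupp.single P₀ (1 : ℤ))) = 0 := by
        rw [dg_apply] at hD
        rw [Finsupp.sum, ← Finset.sum_smul]
        rw [Finsupp.sum] at hD
        rw [hD, zero_smul]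
      simp only [smul_sub]
      rw [Finsupp.sum_sub, Finsupp.sum_sub, h2, h3, sub_zero, Finsupp.smul_sum]
      congr 1
      apply Finsupp.sum_congr
      intro P _
      rw [smul_comm]
    rw [h1]
    exact AddSubgroup.sum_mem _ fun P _ => AddSubgroup.zsmul_mem _ (hE P) _

end

end Vale.Agent.P019P
end
end

section

end

section

section

/-!
# Non-rigid elements
-/

namespace Vale.Agent.P019P

open Vale.Agent.P019

set_option linter.unusedSectionVars false
set_option linter.style.haveILetI false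

variable {L : Type*} [Field L]

/-- elements with linearly independent residues are linearly independent: a relation over `M`
is divided by its coefficient of largest value. -/
theorem mon_resind {M : Subfield L} {q : ValuationSubring L} {n : ℕ} (y : Fin n → L)
    (hy : ∀ i, y i ∈ q)
    (h : ∀ a : Fin n → L, (∀ i, a i ∈ M ∧ a i ∈ q) → q.valuation (∑ i, a i * y i) < 1 →
      ∀ i, q.valuation (a i) < 1) : LinearIndependent M y := by
  rw [Fintype.linearIndependent_iff]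
  intro g hg
  by_contra hcon
  push Not at hcon
  obtain ⟨i₁, hi₁⟩ := hcon
  have hi₁' : (g i₁ : L) ≠ 0 := fun h0 => hi₁ (Subtype.ext h0)
  obtain ⟨i₀, -, hmax⟩ := Finset.exists_max_image Finset.univ
    (fun i => q.valuation (g i : L)) ⟨i₁, Finset.mem_univ _⟩
  have hg0 : (g i₀ : L) ≠ 0 := by
    intro h0
    have h1 : q.valuation (g i₁ : L) ≤ q.valuation (g i₀ : L) := hmax i₁ (Finset.mem_univ _)
    rw [h0, map_zero] at h1
    exact ((_root_.map_ne_zero _).2 hi₁') (le_antisymm h1 zero_le)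
  have hv0 : q.valuation (g i₀ : L) ≠ 0 := (_root_.map_ne_zero _).2 hg0
  have h2 : ∑ i, (g i : L) / g i₀ * y i = 0 := by
    have h3 : ∑ i, (g i : L) / g i₀ * y i = (g i₀ : L)⁻¹ * ∑ i, g i • y i := by
      rw [Finset.mul_sum]
      refine Finset.sum_congr rfl fun i _ => ?_
      rw [Subfield.smul_def, smul_eq_mul]
      ring
    rw [h3, hg, mul_zero]
  have h1 := h (fun i => (g i : L) / g i₀) (fun i => ⟨M.div_mem (g i).2 (g i₀).2, by
    rw [← q.valuation_le_one_iff, map_div₀]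
    exact div_le_one_of_le₀ (hmax i (Finset.mem_univ _)) zero_le⟩) (by
      rw [h2, map_zero]
      exact zero_lt_one) i₀
  rw [div_self hg0, map_one] at h1
  exact lt_irrefl _ h1

/-- constants are `ℓ`-th powers. -/
theorem mong_cl {l : Subfield L} (hl : IsAlgClosed l) {ℓ : ℕ} [Fact ℓ.Prime] {x : L}
    (hx : x ∈ l) (hx0 : x ≠ 0) : cl ℓ x = 0 := by
  haveI := hl
  obtain ⟨z, hz⟩ := IsAlgClosed.exists_pow_nat_eq (⟨x, hx⟩ : l) (Fact.out : ℓ.Prime).pos
  have h1 : (z : L) ^ ℓ = x := congrArg Subtype.val hz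
  refine (cl_eq_zero_iff ℓ hx0).2 ⟨z, ?_, h1⟩
  intro h2
  rw [h2, zero_pow (Fact.out : ℓ.Prime).ne_zero] at h1
  exact hx0 h1.symm

theorem mong_pick {l : Subfield L} (hl : IsAlgClosed l) {ℓ : ℕ} [Fact ℓ.Prime]
    {q : ValuationSubring L} {u c c' : L} (hc : c ∈ l) (hc' : c' ∈ l) (hcc : c ≠ c')
    (h1 : q.valuation (u - c) = 1) (h2 : q.valuation (u - c') = 1) {i j : ZMod ℓ}
    (h : i • cl ℓ ((u - c) / (c' - c)) + j • cl ℓ (1 - (u - c) / (c' - c)) ∈ U1 ℓ q) :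
    ∃ y : L, q.valuation y = 1 ∧
      q.valuation (y ^ ℓ - (u - c) ^ i.val * (u - c') ^ j.val) < 1 := by
  have hu1 : u - c ≠ 0 := by
    intro h0
    rw [h0, map_zero] at h1
    exact zero_ne_one h1
  have hu2 : u - c' ≠ 0 := by
    intro h0
    rw [h0, map_zero] at h2
    exact zero_ne_one h2
  have e0 : c' - c ≠ 0 := sub_ne_zero.2 hcc.symm
  have e0' : c - c' ≠ 0 := sub_ne_zero.2 hcc
  have e1 : 1 - (u - c) / (c' - c) = (u - c') / (c - c') := by
    have e2 : c - c' = -(c' - c) := by ring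
    rw [e2]
    field_simp
    ring
  rw [e1, cl_div ℓ hu1 e0, cl_div ℓ hu2 e0', mong_cl hl (l.sub_mem hc' hc) e0,
    mong_cl hl (l.sub_mem hc hc') e0', sub_zero, sub_zero] at h
  obtain ⟨m, hm, hmv⟩ := mem_U1.1 h
  have e3 : cl ℓ ((u - c) ^ i.val * (u - c') ^ j.val) = cl ℓ (1 + m) := by
    rw [cl_mul ℓ (pow_ne_zero _ hu1) (pow_ne_zero _ hu2), cl_pow, cl_pow, ← hmv,
      ← Nat.cast_smul_eq_nsmul (ZMod ℓ), ← Nat.cast_smul_eq_nsmul (ZMod ℓ),
      ZMod.natCast_zmod_val, ZMod.natCast_zmod_val]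
  obtain ⟨w, hw0, hw⟩ := (cl_eq_iff ℓ (mul_ne_zero (pow_ne_zero _ hu1) (pow_ne_zero _ hu2))
    (one_add_ne_zero hm)).1 e3
  have e4 : q.valuation w = 1 := by
    have e5 := congrArg q.valuation hw
    rw [map_mul, map_pow, map_pow, h1, h2, one_pow, one_pow, mul_one, map_mul, map_pow,
      val_one_add hm, one_mul] at e5
    exact (pow_eq_one_iff_of_nonneg zero_le (Fact.out : ℓ.Prime).ne_zero).1 e5.symm
  refine ⟨w, e4, ?_⟩
  have e6 : w ^ ℓ - (u - c) ^ i.val * (u - c') ^ j.val = -m * w ^ ℓ := by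
    rw [hw]
    ring
  rw [e6, map_mul, Valuation.map_neg, map_pow, e4, one_pow, mul_one]
  exact hm

/-- many constants with different residues. -/
theorem mong_const {l : Subfield L} (hl : IsAlgClosed l) {ℓ : ℕ} [Fact ℓ.Prime] [NeZero (ℓ : L)]
    {q : ValuationSubring L} (hℓ : q.valuation (ℓ : L) = 1) (k : ℕ) :
    ∃ c : ℕ → L, (∀ m, c m ∈ l ∧ c m ∈ q) ∧
      ∀ m n, m < k → n < k → m ≠ n → q.valuation (c m - c n) = 1 := by
  haveI := hl
  haveI hN0 : NeZero (ℓ ^ k) := ⟨pow_ne_zero _ (Fact.out : ℓ.Prime).ne_zero⟩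
  haveI : NeZero ((ℓ ^ k : ℕ) : l) := ⟨by
    intro h
    have h2 := congrArg (Subtype.val : l → L) h
    push_cast at h2
    have h3 : (ℓ : L) ^ k = 0 := h2
    exact NeZero.ne (ℓ : L) (eq_zero_of_pow_eq_zero h3)⟩
  obtain ⟨ζ, hζ⟩ := HasEnoughRootsOfUnity.exists_primitiveRoot l (ℓ ^ k)
  have hζL : IsPrimitiveRoot (ζ : L) (ℓ ^ k) :=
    hζ.map_of_injective (f := algebraMap l L) (algebraMap l L).injective
  have hv : q.valuation (ζ : L) = 1 := by
    have h2 := congrArg q.valuation hζL.pow_eq_one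
    rw [map_pow, map_one] at h2
    exact (pow_eq_one_iff_of_nonneg zero_le hN0.out).1 h2
  have hN : q.valuation ((ℓ ^ k : ℕ) : L) = 1 := by
    rw [Nat.cast_pow, map_pow, hℓ, one_pow]
  have key : ∀ m n, m < n → n < k → q.valuation ((ζ : L) ^ m - (ζ : L) ^ n) = 1 := by
    intro m n hmn hn
    have h1 : (ζ : L) ^ m - (ζ : L) ^ n = (ζ : L) ^ m * (1 - (ζ : L) ^ (n - m)) := by
      rw [mul_sub, mul_one, ← pow_add, Nat.add_sub_cancel' hmn.le]
    rw [h1, map_mul, map_pow, hv, one_pow, one_mul]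
    refine mong_root (N := ℓ ^ k) ?_ ?_ hN
    · rw [← pow_mul, mul_comm, pow_mul, hζL.pow_eq_one, one_pow]
    · refine hζL.pow_ne_one_of_pos_of_lt (by omega) ?_
      have h2 : k < ℓ ^ k := Nat.lt_pow_self (Fact.out : ℓ.Prime).one_lt
      omega
  refine ⟨fun m => (ζ : L) ^ m, fun m => ⟨l.pow_mem ζ.2 m, ?_⟩, ?_⟩
  · rw [← q.valuation_le_one_iff, map_pow, hv, one_pow]
  · intro m n hm hn hmn
    rcases lt_or_gt_of_ne hmn with h1 | h1
    · exact key m n h1 hn
    · rw [Valuation.map_sub_swap]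
      exact key n m h1 hm

/-- Proof. Let `M = gsp l {u, ϖ}`, `d = [L : M]` (finite, `L` is finitely generated and algebraic
over the perfect field `M`). Assume there is no such `g₀`. Choose `r` with `d < 2 ^ r` and
`c 1, …, c (2 r)` in `l ∩ q` with pairwise differences of value `1` (the residue field of `l` is
algebraically closed, hence infinite). For each `s` take `g₀ = (u - c (2 s - 1)) / (c (2 s) -
c (2 s - 1))`, `1 - g₀ = (c (2 s) - u) / (c (2 s) - c (2 s - 1))`; constants are `ℓ`-th powers, so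
there are `0 ≤ i s, j s < ℓ`, not both `0`, and `y s` with `q.valuation (y s) = 1` such that
`(u - c (2 s - 1)) ^ i s * (u - c (2 s)) ^ j s ≡ (y s) ^ ℓ` modulo the maximal ideal. For
`T ⊆ {1, …, r}` let `Y T = ∏ s ∈ T, y s`. In the residue field `κ` of `q`, with
`κ₀` = residues of `M ∩ q`: `(Y T) ^ ℓ ∈ κ₀`, and `Y T / Y T' ∉ κ₀` for `T ≠ T'`: otherwise a
power of `p = ringExpChar κ` of
`∏ s ∈ T \ T', (u - c (2 s - 1)) ^ i s * (u - c (2 s)) ^ j s / ∏ s ∈ T' \ T, …` would be an `ℓ`-th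
power in `κ_l(u)` (`κ_l` = residues of `l ∩ q`; every unit of `M` has a power `z ^ (p ^ m)` with
residue in `κ_l(u)`, as in `QMon.rep`), where the residue of `u` is transcendental over `κ_l`:
contradiction by the multiplicity of the zero `c k` with exponent prime to `ℓ`.
By Kummer theory (`linearIndependent_roots`, P019P/FK.lean, over the perfect closure of `κ₀`) the
`2 ^ r` residues of the `Y T` are linearly independent over `κ₀`, so by `mon_resind` the `Y T` are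
linearly independent over `M`: contradiction. -/
theorem mon_nr [PerfectField L] [DecidableEq L] {l : Subfield L} (hl : IsAlgClosed l)
    (hfg : FG l (⊤ : Subfield L)) {ℓ : ℕ} [Fact ℓ.Prime] [NeZero (ℓ : L)]
    {w q : ValuationSubring L} {u ϖ : L} (h : QMon l w q u ϖ)
    (halg : ∀ z : L, IsAlgebraic (gsp l {u, ϖ}) z) (hℓ : q.valuation (ℓ : L) = 1) :
    ∃ g₀ : L, ∀ i j : ZMod ℓ, i • cl ℓ g₀ + j • cl ℓ (1 - g₀) ∈ U1 ℓ q → i = 0 ∧ j = 0 := by
  haveI := hl
  by_contra hcon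
  push Not at hcon
  set M := gsp l {u, ϖ} with hMdef
  haveI hM : PerfectField M := gsp_perfect _ _
  have hlM : l ≤ M := le_gsp l {u, ϖ}
  have huM : u ∈ M := mem_gsp (by simp)
  haveI hfin : Module.Finite M (algebraicClosure M L) :=
    finite_algebraicClosure (hfg.mono hlM le_top)
  set d := Module.finrank M (algebraicClosure M L) with hd
  obtain ⟨c, hc, hcd⟩ := mong_const hl (q := q) hℓ (2 * (d + 1))
  have hex : ∀ s : Fin (d + 1), ∃ (i j : ZMod ℓ) (y : L), ¬ (i = 0 ∧ j = 0) ∧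
      q.valuation y = 1 ∧ q.valuation (y ^ ℓ - (u - c (2 * s)) ^ i.val *
        (u - c (2 * s + 1)) ^ j.val) < 1 := by
    intro s
    have hs := s.2
    obtain ⟨i, j, hij, hne⟩ := hcon ((u - c (2 * s)) / (c (2 * s + 1) - c (2 * s)))
    have hcc : c (2 * s) ≠ c (2 * s + 1) := by
      intro h1
      have h2 := hcd (2 * s) (2 * s + 1) (by omega) (by omega) (by omega)
      rw [h1, sub_self, map_zero] at h2
      exact zero_ne_one h2
    obtain ⟨y, hy1, hy2⟩ := mong_pick hl (hc _).1 (hc _).1 hcc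
      (h.ures _ (hc _).1 (hc _).2) (h.ures _ (hc _).1 (hc _).2) hij
    exact ⟨i, j, y, fun h3 => hne h3.1 h3.2, hy1, hy2⟩
  choose i j y hij hy hyf using hex
  let f : Fin (d + 1) → L := fun s => (u - c (2 * s)) ^ (i s).val * (u - c (2 * s + 1)) ^ (j s).val
  have hfv : ∀ s, q.valuation (f s) = 1 := by
    intro s
    change q.valuation ((u - c (2 * s)) ^ (i s).val * (u - c (2 * s + 1)) ^ (j s).val) = 1
    rw [map_mul, map_pow, map_pow, h.ures _ (hc _).1 (hc _).2, h.ures _ (hc _).1 (hc _).2,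
      one_pow, one_pow, one_mul]
  have hfM : ∀ s, f s ∈ M := fun s =>
    M.mul_mem (M.pow_mem (M.sub_mem huM (hlM (hc _).1)) _)
      (M.pow_mem (M.sub_mem huM (hlM (hc _).1)) _)
  obtain ⟨ζ, hζl, hζ⟩ := finK_prim hl ℓ
  have hprime : ℓ.Prime := Fact.out
  have hli : LinearIndependent M y := by
    refine mon_resind y (fun s => (q.valuation_le_one_iff _).1 (hy s).le) ?_
    refine mong_kummer M (hlM hζl) hζ hℓ hy hfM hfv hyf ?_
    intro s t hst N hN z hz hz1 hlt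
    have hs := s.2
    have ht := t.2
    have hst' : (s : ℕ) ≠ t := fun h1 => hst (Fin.ext h1)
    obtain ⟨m, hm⟩ := mem_pf.1 hz
    rw [Finset.coe_insert, Finset.coe_singleton] at hm
    have hlt' := mong_pow (q := q) (x := f s ^ N) (y := f t ^ N * z ^ ℓ)
      (by rw [map_pow, hfv, one_pow])
      (by rw [map_mul, map_pow, map_pow, hfv, hz1, one_pow, one_pow, one_mul]) hlt
      (ringExpChar L ^ m)
    have hN' : ¬ ℓ ∣ N * ringExpChar L ^ m := by
      intro h1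
      rcases hprime.dvd_mul.1 h1 with h2 | h2
      · exact hN h2
      · exact q_pow_ne_zero ℓ L m ((ZMod.natCast_eq_zero_iff _ ℓ).2 h2)
    have e1 : ∀ (A B : L) (P : ℕ), (A ^ N) ^ P - (B ^ N * z ^ ℓ) ^ P =
        A ^ (N * P) - B ^ (N * P) * (z ^ P) ^ ℓ := by
      intro A B P
      rw [mul_pow, ← pow_mul, ← pow_mul, ← pow_mul, ← pow_mul, mul_comm ℓ]
    rw [e1] at hlt'
    have hzv : q.valuation (z ^ ringExpChar L ^ m) = 1 := by rw [map_pow, hz1, one_pow]
    have h3 : (i s).val = 0 :=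
      mong_final h.uq h.ures h.pne h.plt h.inf hprime hN' (hc (2 * s)) (hc (2 * s + 1))
        (hc (2 * t)) (hc (2 * t + 1)) (hcd _ _ (by omega) (by omega) (by omega))
        (hcd _ _ (by omega) (by omega) (by omega)) (hcd _ _ (by omega) (by omega) (by omega))
        (ZMod.val_lt _) hm hzv hlt'
    have h4 : (j s).val = 0 := by
      refine mong_final (j := (i s).val) (i' := (i t).val) (j' := (j t).val) h.uq h.ures h.pne h.plt h.inf hprime hN'
        (hc (2 * s + 1)) (hc (2 * s))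
        (hc (2 * t)) (hc (2 * t + 1)) (hcd _ _ (by omega) (by omega) (by omega))
        (hcd _ _ (by omega) (by omega) (by omega)) (hcd _ _ (by omega) (by omega) (by omega))
        (ZMod.val_lt _) hm hzv ?_
      rw [mul_comm ((u - c (2 * s + 1)) ^ (j s).val)]
      exact hlt'
    exact hij s ⟨(ZMod.val_eq_zero _).1 h3, (ZMod.val_eq_zero _).1 h4⟩
  let y' : Fin (d + 1) → algebraicClosure M L := fun s =>
    ⟨y s, mem_algebraicClosure_iff.2 (halg (y s))⟩
  have hli' : LinearIndependent M y' :=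
    LinearIndependent.of_comp (algebraicClosure M L).val.toLinearMap hli
  have h5 := hli'.fintype_card_le_finrank
  rw [Fintype.card_fin, ← hd] at h5
  omega

end Vale.Agent.P019P
end
end

section

section

/-!
# Approximation of a valuation ring of maximal rank by transferable ones
-/

namespace Vale.Agent.P019P

open Vale.Agent.P019

set_option linter.unusedSectionVars false
set_option linter.style.haveILetI false

open Filter

variable {L : Type*} [Field L]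

theorem monh_finite [PerfectField L] {M : Subfield L} [PerfectField M]
    (h : FG M (⊤ : Subfield L)) (halg : ∀ z : L, IsAlgebraic M z) : FiniteDimensional M L := by
  obtain ⟨S, hS⟩ := h
  have hint : ∀ x ∈ (S : Set L), IsIntegral M x := fun x _ => (halg x).isIntegral
  haveI : FiniteDimensional M (IntermediateField.adjoin M (S : Set L)) :=
    IntermediateField.finiteDimensional_adjoin hint
  haveI : Algebra.IsAlgebraic M (IntermediateField.adjoin M (S : Set L)) := inferInstance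
  haveI : PerfectField (IntermediateField.adjoin M (S : Set L)) :=
    Algebra.IsAlgebraic.perfectField (K := M)
  haveI : PerfectField (IntermediateField.adjoin M (S : Set L)).toSubfield :=
    inferInstanceAs (PerfectField (IntermediateField.adjoin M (S : Set L)))
  have htop : (IntermediateField.adjoin M (S : Set L)) = ⊤ := by
    rw [eq_top_iff]
    intro z _
    have h1 : z ∈ pf (M ⊔ Subfield.closure (S : Set L)) := by
      rw [← hS]
      exact Subfield.mem_top z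
    have h2 : pf (M ⊔ Subfield.closure (S : Set L)) ≤
        (IntermediateField.adjoin M (S : Set L)).toSubfield := by
      refine pf_le (sup_le ?_ (Subfield.closure_le.2 fun x hx => ?_))
      · intro x hx
        exact (IntermediateField.adjoin M (S : Set L)).algebraMap_mem (⟨x, hx⟩ : M)
      · exact IntermediateField.subset_adjoin M _ hx
    exact h2 h1
  exact Module.Finite.of_surjective
    ((IntermediateField.adjoin M (S : Set L)).val.toLinearMap) (fun z => by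
      have hz : z ∈ IntermediateField.adjoin M (S : Set L) := by
        rw [htop]
        trivial
      exact ⟨⟨z, hz⟩, rfl⟩)

/-- the residue field of the restriction is algebraically closed. -/
theorem monh_ac {l M : Subfield L} (hl : IsAlgClosed l) (hlM : l ≤ M) {w : ValuationSubring L}
    (hres : ∀ z : L, w.valuation z = 1 → ∃ c ∈ l, w.valuation (z - c) < 1) :
    IsAlgClosed (IsLocalRing.ResidueField (w.comap M.subtype)) := by
  classical
  set v := w.comap M.subtype with hv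
  have hsmall : ∀ x : M, ∀ hx : x ∈ v, w.valuation (x : L) < 1 →
      IsLocalRing.residue v ⟨x, hx⟩ = 0 := by
    intro x hx h1
    rw [IsLocalRing.residue_eq_zero_iff]
    by_contra hcon
    rw [IsLocalRing.mem_maximalIdeal, mem_nonunits_iff, not_not] at hcon
    obtain ⟨y, hy⟩ := hcon.exists_right_inv
    have h2 : (x : L) * ((y : M) : L) = 1 := by
      have h3 := congrArg (fun a : v => ((a : M) : L)) hy
      simpa using h3
    have h4 : w.valuation ((y : M) : L) ≤ 1 := (w.valuation_le_one_iff _).2 y.2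
    have h5 : w.valuation ((x : L) * ((y : M) : L)) < 1 := by
      rw [map_mul]
      exact mul_lt_one_of_lt_of_le h1 h4
    rw [h2, map_one] at h5
    exact lt_irrefl _ h5
  have hlift : ∀ a : IsLocalRing.ResidueField v, ∃ c ∈ l, ∃ hc : ∃ h : c ∈ M, (⟨c, h⟩ : M) ∈ v,
      IsLocalRing.residue v ⟨⟨c, hc.1⟩, hc.2⟩ = a := by
    intro a
    obtain ⟨⟨x, hx⟩, rfl⟩ := IsLocalRing.residue_surjective a
    have hxw : w.valuation (x : L) ≤ 1 := (w.valuation_le_one_iff _).2 hx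
    rcases hxw.lt_or_eq with h1 | h1
    · refine ⟨0, l.zero_mem, ⟨M.zero_mem, ?_⟩, ?_⟩
      · exact w.zero_mem
      · rw [hsmall x hx h1]
        exact map_zero _
    · obtain ⟨c, hc, h2⟩ := hres _ h1
      have hcw : c ∈ w := by
        have h3 : c = (x : L) - ((x : L) - c) := by ring
        rw [h3]
        exact sub_mem hx ((w.valuation_le_one_iff _).1 h2.le)
      refine ⟨c, hc, ⟨hlM hc, hcw⟩, ?_⟩
      have hcv : (⟨c, hlM hc⟩ : M) ∈ v := hcw
      have h4 := hsmall (x - ⟨c, hlM hc⟩) (sub_mem hx hcv) h2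
      have h5 : (⟨x - ⟨c, hlM hc⟩, sub_mem hx hcv⟩ : v) = ⟨x, hx⟩ - ⟨⟨c, hlM hc⟩, hcv⟩ := rfl
      rw [h5, map_sub, sub_eq_zero] at h4
      exact h4.symm
  refine IsAlgClosed.of_exists_root _ fun p hp hirr => ?_
  choose c hcl hcM hc using hlift
  haveI := hl
  have hdeg : 0 < p.natDegree := hirr.natDegree_pos
  -- lift the polynomial
  let P : Polynomial l := Polynomial.X ^ p.natDegree + ∑ i ∈ Finset.range p.natDegree,
    Polynomial.C (⟨c (p.coeff i), hcl _⟩ : l) * Polynomial.X ^ i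
  have hlt : (∑ i ∈ Finset.range p.natDegree,
      Polynomial.C (⟨c (p.coeff i), hcl _⟩ : l) * Polynomial.X ^ i).degree <
        ((p.natDegree : ℕ) : WithBot ℕ) := by
    refine (Polynomial.degree_sum_le _ _).trans_lt ?_
    rw [Finset.sup_lt_iff (WithBot.bot_lt_coe _)]
    intro i hi
    exact (Polynomial.degree_C_mul_X_pow_le _ _).trans_lt
      (WithBot.coe_lt_coe.2 (Finset.mem_range.1 hi))
  have hPdeg : P.degree = ((p.natDegree : ℕ) : WithBot ℕ) := by
    rw [Polynomial.degree_add_eq_left_of_degree_lt, Polynomial.degree_X_pow]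
    rwa [Polynomial.degree_X_pow]
  obtain ⟨r, hr⟩ := IsAlgClosed.exists_root P (by
    rw [hPdeg]
    exact_mod_cast hdeg.ne')
  have hr' : (r : L) ^ p.natDegree + ∑ i ∈ Finset.range p.natDegree,
      c (p.coeff i) * (r : L) ^ i = 0 := by
    have h1 := congrArg Subtype.val (Polynomial.IsRoot.def.1 hr)
    simpa [P, Polynomial.eval_add, Polynomial.eval_finset_sum] using h1
  have hrw : (r : L) ∈ w := by
    by_contra hcon
    have h1 : 1 < w.valuation (r : L) := by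
      rw [← not_le, w.valuation_le_one_iff]
      exact hcon
    have h2 : w.valuation (∑ i ∈ Finset.range p.natDegree, c (p.coeff i) * (r : L) ^ i) <
        w.valuation ((r : L) ^ p.natDegree) := by
      refine Valuation.map_sum_lt _ ?_ fun i hi => ?_
      · exact (_root_.map_ne_zero _).2 (pow_ne_zero _ fun h0 => by
          rw [h0, map_zero] at h1
          exact not_lt_zero' h1)
      · rw [map_mul, map_pow, map_pow]
        calc w.valuation (c (p.coeff i)) * w.valuation (r : L) ^ i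
            ≤ 1 * w.valuation (r : L) ^ i := by
              gcongr
              exact (w.valuation_le_one_iff _).2 (hcM _).2
          _ = w.valuation (r : L) ^ i := one_mul _
          _ < w.valuation (r : L) ^ p.natDegree :=
            pow_lt_pow_right₀ h1 (Finset.mem_range.1 hi)
    have h3 := Valuation.map_add_eq_of_lt_left w.valuation h2
    rw [hr', map_zero] at h3
    exact (_root_.map_ne_zero w.valuation).2 (pow_ne_zero p.natDegree fun h0 => by
      rw [h0, map_zero] at h1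
      exact not_lt_zero' h1) h3.symm
  refine ⟨IsLocalRing.residue v ⟨⟨r, hlM r.2⟩, hrw⟩, ?_⟩
  set x : v := ⟨⟨r, hlM r.2⟩, hrw⟩ with hx
  have h1 : x ^ p.natDegree + ∑ i ∈ Finset.range p.natDegree,
      (⟨⟨c (p.coeff i), (hcM _).1⟩, (hcM _).2⟩ : v) * x ^ i = 0 := by
    apply Subtype.ext
    apply Subtype.ext
    push_cast
    exact hr'
  have h2 := congrArg (IsLocalRing.residue v) h1
  rw [map_add, map_sum, map_zero, map_pow] at h2
  simp only [map_mul, map_pow, hc] at h2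
  rw [Polynomial.eval_eq_sum_range, Finset.sum_range_succ, hp.coeff_natDegree, one_mul, add_comm]
  exact h2

theorem monh_gsp [PerfectField L] [DecidableEq L] {l : Subfield L} {ρ ϖ c₀ : L} (hϖ : ϖ ≠ 0)
    (hc₀ : c₀ ∈ l) (hc₀0 : c₀ ≠ 0) (n : ℤ) :
    gsp l {ρ * (c₀ * ϖ ^ n)⁻¹, ϖ} = gsp l {ρ, ϖ} := by
  have hne : c₀ * ϖ ^ n ≠ 0 := mul_ne_zero hc₀0 (zpow_ne_zero _ hϖ)
  haveI := gsp_perfect l {ρ, ϖ}
  haveI := gsp_perfect l {ρ * (c₀ * ϖ ^ n)⁻¹, ϖ}
  have key : ∀ (B : Finset L), ϖ ∈ B → c₀ * ϖ ^ n ∈ gsp l B := fun B hB =>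
    Subfield.mul_mem _ (le_gsp l B hc₀) (Subfield.zpow_mem _ (mem_gsp hB) _)
  apply le_antisymm
  · refine gsp_le (le_gsp _ _) fun x hx => ?_
    rw [Finset.mem_insert, Finset.mem_singleton] at hx
    rcases hx with rfl | rfl
    · exact Subfield.mul_mem _ (mem_gsp (Finset.mem_insert_self _ _))
        (Subfield.inv_mem _ (key _ (by simp)))
    · exact mem_gsp (by simp)
  · refine gsp_le (le_gsp _ _) fun x hx => ?_
    rw [Finset.mem_insert, Finset.mem_singleton] at hx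
    rcases hx with rfl | rfl
    · have h1 : x = (x * (c₀ * ϖ ^ n)⁻¹) * (c₀ * ϖ ^ n) := by
        rw [mul_assoc, inv_mul_cancel₀ hne, mul_one]
      rw [h1]
      exact Subfield.mul_mem _ (mem_gsp (by rw [← h1]; exact Finset.mem_insert_self _ _))
        (key _ (by simp))
    · exact mem_gsp (by simp)

theorem QMon.congr {l M : Subfield L} (hlM : l ≤ M) {w q q' : ValuationSubring L} {u ϖ : L}
    (h : QMon l w q u ϖ) (hu : u ∈ M) (hϖ : ϖ ∈ M) (hq : ∀ x ∈ M, x ∈ q ↔ x ∈ q') :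
    QMon l w q' u ϖ := by
  have hle : ∀ x ∈ M, ∀ y ∈ M, y ≠ 0 → (q.valuation x ≤ q.valuation y ↔
      q'.valuation x ≤ q'.valuation y) := by
    intro x hx y hy hy0
    have h1 : ∀ v : ValuationSubring L, v.valuation x ≤ v.valuation y ↔ x / y ∈ v := by
      intro v
      rw [← v.valuation_le_one_iff, map_div₀, div_le_one₀]
      exact zero_lt_iff.2 ((_root_.map_ne_zero _).2 hy0)
    rw [h1, h1]
    exact hq _ (M.div_mem hx hy)
  have hlt : ∀ x ∈ M, ∀ y ∈ M, x ≠ 0 → (q.valuation x < q.valuation y ↔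
      q'.valuation x < q'.valuation y) := by
    intro x hx y hy hx0
    rw [← not_le, ← not_le, hle y hy x hx hx0]
  have hlt1 : ∀ x ∈ M, x ≠ 0 → (q.valuation x < 1 ↔ q'.valuation x < 1) := by
    intro x hx hx0
    have h1 := hlt x hx 1 M.one_mem hx0
    rwa [map_one, map_one] at h1
  have heq1 : ∀ x ∈ M, x ≠ 0 → (q.valuation x = 1 ↔ q'.valuation x = 1) := by
    intro x hx hx0
    have h1 := hlt1 x hx hx0
    have h2 := hq x hx
    rw [← q.valuation_le_one_iff, ← q'.valuation_le_one_iff] at h2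
    constructor
    · intro h3
      exact le_antisymm (h2.1 h3.le) (not_lt.1 fun h4 => (h1.2 h4).ne h3)
    · intro h3
      exact le_antisymm (h2.2 h3.le) (not_lt.1 fun h4 => (h1.1 h4).ne h3)
  refine ⟨fun c hc => ?_, h.pne, (hlt1 _ hϖ h.pne).1 h.plt, fun c hc hc0 hc1 b => ?_, (hq _ hu).1 h.uq,
    fun c hc hcq => ?_⟩
  · rw [← hq c (hlM hc)]
    exact h.cst c hc
  · have h1 := h.inf c hc hc0 ((hlt1 _ (hlM hc) hc0).2 hc1) b
    rw [← map_zpow₀] at h1 ⊢
    exact (hlt _ (hlM hc) _ (M.zpow_mem hϖ _) hc0).1 h1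
  · have h1 := h.ures c hc ((hq _ (hlM hc)).2 hcq)
    have h2 : u - c ≠ 0 := by
      intro h0
      rw [h0, map_zero] at h1
      exact zero_ne_one h1
    exact (heq1 _ (M.sub_mem hu (hlM hc)) h2).1 h1

/-- approximation of a valuation ring of maximal rank by transferable valuation rings. -/
theorem appr_mon {ℓ : ℕ} [Fact ℓ.Prime] [NeZero (ℓ : L)] [PerfectField L] [DecidableEq L]
    {l : Subfield L} (hl : IsAlgClosed l) (hfg : FG l (⊤ : Subfield L)) {w : ValuationSubring L}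
    {ρ ϖ : L} (hw : Mon l w ρ ϖ) (halg : ∀ z : L, IsAlgebraic (gsp l {ρ, ϖ}) z)
    (hres : ∀ z : L, w.valuation z = 1 → ∃ c ∈ l, w.valuation (z - c) < 1)
    (hval : ∀ z : L, z ≠ 0 → ∃ m : ℕ, ¬ ℓ ∣ m ∧ ∃ c ∈ l, c ≠ 0 ∧ ∃ a b : ℤ,
      w.valuation (z ^ m * c * ρ ^ a * ϖ ^ b) = 1)
    (hℓ : w.valuation (ℓ : L) = 1) :
    ∃ (U : Ultrafilter (Finset (gsp l {ρ, ϖ} : Subfield L)))
      (Q : Finset (gsp l {ρ, ϖ} : Subfield L) → ValuationSubring L)
      (h : Finset (gsp l {ρ, ϖ} : Subfield L) → V ℓ L →ₗ[ZMod ℓ] ZMod ℓ), (∀ x, x ∈ w ↔ ∀ᶠ j in U, x ∈ Q j) ∧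
      ∀ᶠ j in U, (∀ z, (Q j).valuation z = 1 → h j (cl ℓ z) = 0) ∧ h j (cl ℓ ϖ) = 1 ∧
        ∃ g₀ : L, ∀ i i' : ZMod ℓ, i • cl ℓ g₀ + i' • cl ℓ (1 - g₀) ∈ U1 ℓ (Q j) →
          i = 0 ∧ i' = 0 := by
  classical
  set M := gsp l {ρ, ϖ} with hM
  have hlM : l ≤ M := le_gsp _ _
  have hρM : ρ ∈ M := mem_gsp (by simp)
  have hϖM : ϖ ∈ M := mem_gsp (by simp)
  haveI : PerfectField M := gsp_perfect _ _
  haveI : FiniteDimensional M L := monh_finite (hfg.mono hlM le_top) halg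
  haveI : Algebra.IsSeparable M L := inferInstance
  obtain ⟨ζ, hζl, hζ⟩ := finK_prim (Ω := L) hl ℓ
  have hζM : ∃ ζ : M, IsPrimitiveRoot ζ ℓ := by
    refine ⟨⟨ζ, hlM hζl⟩, ?_⟩
    exact (IsPrimitiveRoot.map_iff_of_injective (f := M.subtype) M.subtype.injective).1 hζ
  have hpt : ∀ S : Finset M, ∃ (q : ValuationSubring L) (c₀ : L) (n : ℤ), c₀ ∈ l ∧ c₀ ≠ 0 ∧
      QMon l w q (ρ * (c₀ * ϖ ^ n)⁻¹) ϖ ∧ ∀ z ∈ S, (z : L) ∈ w ↔ (z : L) ∈ q := by
    intro S
    obtain ⟨q, c₀, n, h1, h2, h3, h4⟩ := mon_point hl hw (S.image (fun z : M => (z : L)))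
      (by
        intro z hz
        obtain ⟨y, -, rfl⟩ := Finset.mem_image.1 hz
        exact y.2)
    exact ⟨q, c₀, n, h1, h2, h3, fun z hz => h4 _ (Finset.mem_image_of_mem _ hz)⟩
  choose q c₀ n hc₀ hc₀0 hq hqS using hpt
  let U : Ultrafilter (Finset M) := Ultrafilter.of atTop
  have hU : (U : Filter (Finset M)) ≤ atTop := Ultrafilter.of_le _
  have hlim : ∀ x : M, (x : L) ∈ w ↔ ∀ᶠ S in (U : Filter (Finset M)), x ∈ (q S).comap M.subtype := by
    intro x
    have h1 : ∀ᶠ S in (U : Filter (Finset M)), ((x : L) ∈ w ↔ (x : L) ∈ q S) := by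
      refine hU ?_
      rw [Filter.mem_atTop_sets]
      exact ⟨{x}, fun S hS => hqS S x (hS (Finset.mem_singleton_self x))⟩
    constructor
    · intro h2
      exact h1.mono fun S hS => hS.1 h2
    · intro h2
      obtain ⟨S, hS1, hS2⟩ := (h1.and h2).exists
      exact hS1.2 hS2

  obtain ⟨Q, hQ1, hQ2, hQ3⟩ := Vale.Agent.P019R.ext_val ℓ M hζM U (fun S => (q S).comap M.subtype) w hlim
    (monh_ac hl hlM hres) hℓ (by
      intro x hx
      obtain ⟨m, hm, c, hc, hc0, a, b, h1⟩ := hval x hx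
      refine ⟨m, hm, ⟨(c * ρ ^ a * ϖ ^ b)⁻¹, M.inv_mem (M.mul_mem (M.mul_mem (hlM hc)
        (M.zpow_mem hρM _)) (M.zpow_mem hϖM _))⟩, ?_⟩
      have h2 : x ^ m * c * ρ ^ a * ϖ ^ b = x ^ m * (c * ρ ^ a * ϖ ^ b) := by ring
      rw [h2, map_mul] at h1
      rw [map_inv₀]
      exact eq_inv_of_mul_eq_one_left h1)
  have hQM : ∀ S : Finset M, ∀ x ∈ M, x ∈ q S ↔ x ∈ Q S := by
    intro S x hx
    have h1 := congrArg (fun v : ValuationSubring M => (⟨x, hx⟩ : M) ∈ v) (hQ1 S)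
    simp only [ValuationSubring.mem_comap, eq_iff_iff] at h1
    exact h1.symm
  have hQq : ∀ S : Finset M, QMon l w (Q S) (ρ * (c₀ S * ϖ ^ n S)⁻¹) ϖ := fun S =>
    (hq S).congr hlM (M.mul_mem hρM (M.inv_mem (M.mul_mem (hlM (hc₀ S)) (M.zpow_mem hϖM _)))) hϖM
      (hQM S)
  have hgsp : ∀ S : Finset M, gsp l {ρ * (c₀ S * ϖ ^ n S)⁻¹, ϖ} = M := fun S =>
    monh_gsp hw.pne (hc₀ S) (hc₀0 S) _
  have hℓp : ∀ m : ℕ, ¬ ℓ ∣ (ringExpChar L) ^ m := by
    intro m hm
    exact q_pow_ne_zero ℓ L m ((ZMod.natCast_eq_zero_iff _ _).2 hm)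
  -- the functionals
  have hfn : ∀ S : Finset M, (∀ x : L, x ≠ 0 → ∃ m : ℕ, ¬ ℓ ∣ m ∧ ∃ y : M,
      (Q S).valuation (x ^ m) = (Q S).valuation (y : L)) →
      ∃ h : V ℓ L →ₗ[ZMod ℓ] ZMod ℓ, (∀ z, (Q S).valuation z = 1 → h (cl ℓ z) = 0) ∧
        h (cl ℓ ϖ) = 1 := by
    intro S hS
    refine mon_fn (l := l) hw.pne (fun x hx => ?_) (fun c hc hc0 b h1 => ?_)
    · obtain ⟨m, hm, y, hy⟩ := hS x hx
      have hy0 : (y : L) ≠ 0 := by
        intro h0
        rw [h0, map_zero] at hy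
        exact (_root_.map_ne_zero _).2 (pow_ne_zero _ hx) hy
      obtain ⟨m', c, b, hc, hc0, h1⟩ := QMon.rep hl (hQq S) hy0 (by rw [hgsp]; exact y.2)
      refine ⟨m * (ringExpChar L) ^ m', ?_, c, hc, hc0, b, ?_⟩
      · rw [(Fact.out : ℓ.Prime).dvd_mul]
        exact not_or.2 ⟨hm, hℓp m'⟩
      · rw [pow_mul]
        rw [map_mul, map_mul, map_pow] at h1 ⊢
        rwa [hy]
    · have h2 := ((hQq S).one_iff (u := ρ * (c₀ S * ϖ ^ n S)⁻¹) hc hc0 0 b).1 (by
        rw [zpow_zero, mul_one]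
        exact h1)
      exact h2.2
  have hfn' : ∀ S : Finset M, ∃ h : V ℓ L →ₗ[ZMod ℓ] ZMod ℓ, (∀ x : L, x ≠ 0 → ∃ m : ℕ, ¬ ℓ ∣ m ∧
      ∃ y : M, (Q S).valuation (x ^ m) = (Q S).valuation (y : L)) →
      (∀ z, (Q S).valuation z = 1 → h (cl ℓ z) = 0) ∧ h (cl ℓ ϖ) = 1 := by
    intro S
    by_cases hS : ∀ x : L, x ≠ 0 → ∃ m : ℕ, ¬ ℓ ∣ m ∧
      ∃ y : M, (Q S).valuation (x ^ m) = (Q S).valuation (y : L)
    · obtain ⟨h, hh⟩ := hfn S hS
      exact ⟨h, fun _ => hh⟩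
    · exact ⟨0, fun h => absurd h hS⟩
  choose h hh using hfn'
  refine ⟨U, Q, h, hQ2, ?_⟩
  have hℓ0 : (ℓ : L) ≠ 0 := NeZero.ne _
  have hℓl : (ℓ : L) ∈ l := natCast_mem l ℓ
  filter_upwards [hQ3] with S hS
  obtain ⟨h1, h2⟩ := hh S hS
  refine ⟨h1, h2, mon_nr hl hfg (hQq S) (by rw [hgsp]; exact halg) ?_⟩
  exact ((hQq S).val_iff hℓl hℓ0).2.2 hℓ

end Vale.Agent.P019P
end
end

section

section

/-!
# The composite of an Abhyankar valuation with a place of its residue curve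
-/

namespace Vale.Agent.P019P

open Vale.Agent.P019

set_option linter.style.haveILetI false
set_option linter.unusedSectionVars false
set_option linter.unusedVariables false

open Polynomial Filter

section comP

variable {K : Type*} [Field K] {W : ValuationSubring K} {Q : ValuationSubring (RFP W)} {z : K}

theorem r6_rsP_inv {x : K} (hx : W.valuation x = 1) : rsP W x⁻¹ = (rsP W x)⁻¹ := by
  unfold rsP
  rw [rs_inv hx, map_inv₀]

theorem r6_rsP_zpow {x : K} (hx : W.valuation x = 1) (n : ℤ) : rsP W (x ^ n) = rsP W x ^ n := by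
  have h1 : ∀ m : ℕ, rsP W (x ^ m) = rsP W x ^ m := fun m => rsP_pow (mem_of_val hx) m
  obtain ⟨m, rfl | rfl⟩ := n.eq_nat_or_neg
  · rw [zpow_natCast, zpow_natCast, h1]
  · rw [zpow_neg, zpow_neg, zpow_natCast, zpow_natCast, r6_rsP_inv, h1]
    rw [map_pow, hx, one_pow]

theorem comP_one : (comP W Q).valuation z = 1 ↔
    W.valuation z = 1 ∧ Q.valuation (rsP W z) = 1 := by
  constructor
  · intro h
    obtain ⟨h0, h1, h2⟩ := apc_val_one.1 h
    rw [mem_comP] at h1 h2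
    have h3 : W.valuation z = 1 := apc_val_one.2 ⟨h0, h1.1, h2.1⟩
    refine ⟨h3, apc_val_one.2 ⟨(rsP_ne_zero h1.1).2 h3, h1.2, ?_⟩⟩
    rw [← r6_rsP_inv h3]
    exact h2.2
  · rintro ⟨h3, h4⟩
    obtain ⟨h0, h1, h2⟩ := apc_val_one.1 h3
    obtain ⟨-, h5, h6⟩ := apc_val_one.1 h4
    refine apc_val_one.2 ⟨h0, mem_comP.2 ⟨h1, h5⟩, mem_comP.2 ⟨h2, ?_⟩⟩
    rwa [r6_rsP_inv h3]

theorem comP_lt : (comP W Q).valuation z < 1 ↔ z ∈ W ∧ Q.valuation (rsP W z) < 1 := by
  have h1 : (comP W Q).valuation z < 1 ↔ z ∈ comP W Q ∧ ¬ (comP W Q).valuation z = 1 := by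
    rw [← (comP W Q).valuation_le_one_iff]
    exact lt_iff_le_and_ne
  rw [h1, comP_one, mem_comP]
  constructor
  · rintro ⟨⟨h2, h3⟩, h4⟩
    refine ⟨h2, lt_of_le_of_ne ((Q.valuation_le_one_iff _).2 h3) fun h5 => h4 ⟨?_, h5⟩⟩
    rw [← rsP_ne_zero h2]
    intro h6
    rw [h6, map_zero] at h5
    exact zero_ne_one h5
  · rintro ⟨h2, h3⟩
    exact ⟨⟨h2, (Q.valuation_le_one_iff _).1 h3.le⟩, fun h4 => h3.ne h4.2⟩

theorem comP_le (h : (comP W Q).valuation z ≤ 1) : W.valuation z ≤ 1 :=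
  (W.valuation_le_one_iff _).2 (mem_comP.1 (((comP W Q).valuation_le_one_iff _).1 h)).1

theorem comP_lt_of_lt (h : W.valuation z < 1) : (comP W Q).valuation z < 1 := by
  have h1 : z ∈ W := (W.valuation_le_one_iff _).1 h.le
  rw [comP_lt]
  refine ⟨h1, ?_⟩
  rw [(rsP_eq_zero h1).2 h, map_zero]
  exact zero_lt_one

end comP

universe u

variable {L : Type u} [Field L] [PerfectField L] {l : Subfield L}

/-- the values modulo `UC` and the values of `ρ`. -/
theorem r6_val (hl : IsAlgClosed l) (htd : Td l 2) {ℓ : ℕ} [Fact ℓ.Prime] {O : ValuationSubring L}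
    {o : V ℓ L →ₗ[ZMod ℓ] ZMod ℓ} (ho : ∀ v, o v = 0 ↔ v ∈ UC ℓ O) {ρ : L} (hρ0 : ρ ≠ 0)
    (hoρ : o (cl ℓ ρ) ≠ 0)
    (hρ : ∀ a ∈ l, a ≠ 0 → ∀ i : ℤ, O.valuation (a * ρ ^ i) = 1 → i = 0)
    {y : IsLocalRing.ResidueField O} (hy : y ∉ rbar l O) {z : L} (hz : z ≠ 0) :
    ∃ N : ℕ, ¬ ℓ ∣ N ∧ ∃ c ∈ l, c ≠ 0 ∧ ∃ a : ℤ, O.valuation (z ^ N * c * ρ ^ a) = 1 := by
  classical
  have hℓ : 0 < ℓ := (Fact.out : ℓ.Prime).pos
  have hex : ∃ N : ℕ, 0 < N ∧ ∃ c ∈ l, c ≠ 0 ∧ ∃ a : ℤ, O.valuation (z ^ N * c * ρ ^ a) = 1 :=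
    r6_tors hl htd hρ0 hρ hy hz
  set N := Nat.find hex with hN
  obtain ⟨hN0, c, hc, hc0, a, h1⟩ := Nat.find_spec hex
  have hmin := fun m (hm : m < N) => Nat.find_min hex hm
  refine ⟨N, fun hdvd => ?_, c, hc, hc0, a, h1⟩
  obtain ⟨N', hN'⟩ := hdvd
  have hN'0 : 0 < N' := Nat.pos_of_ne_zero fun h0 => by
    rw [h0, mul_zero] at hN'
    omega
  have hℓ2 : 2 ≤ ℓ := (Fact.out : ℓ.Prime).two_le
  have hlt : N' < N := by
    rw [hN']
    nlinarith
  -- `ℓ` does not divide `a`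
  have ha : ¬ (ℓ : ℤ) ∣ a := by
    rintro ⟨a', ha'⟩
    haveI := hl
    obtain ⟨d', hd'⟩ := IsAlgClosed.exists_pow_nat_eq (⟨c, hc⟩ : l) hℓ
    have hd'' : (d' : L) ^ ℓ = c := congrArg Subtype.val hd'
    have hd0 : (d' : L) ≠ 0 := by
      intro h0
      rw [h0, zero_pow hℓ.ne'] at hd''
      exact hc0 hd''.symm
    apply hmin N' hlt
    refine ⟨hN'0, d', d'.2, hd0, a', ?_⟩
    have h2 : (z ^ N' * d' * ρ ^ a') ^ ℓ = z ^ N * c * ρ ^ a := by
      rw [mul_pow, mul_pow, ← pow_mul, hd'', hN', ha', mul_comm N' ℓ, zpow_mul', zpow_natCast]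
    have h3 : O.valuation (z ^ N' * d' * ρ ^ a') ^ ℓ = 1 := by
      rw [← map_pow, h2]
      exact h1
    exact (pow_eq_one_iff_of_nonneg zero_le hℓ.ne').1 h3
  -- the functional
  have h2 : o (cl ℓ (z ^ N * c * ρ ^ a)) = 0 := (ho _).2 (mem_UC.2 ⟨_, h1, rfl⟩)
  have h3 : cl ℓ (z ^ N * c * ρ ^ a) = (N : ZMod ℓ) • cl ℓ z + (a : ZMod ℓ) • cl ℓ ρ := by
    rw [cl_mul ℓ (mul_ne_zero (pow_ne_zero _ hz) hc0) (zpow_ne_zero _ hρ0),
      cl_mul ℓ (pow_ne_zero _ hz) hc0, cl_const hl hℓ hc, add_zero, cl_pow, cl_zpow,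
      ← Nat.cast_smul_eq_nsmul (ZMod ℓ), ← Int.cast_smul_eq_zsmul (ZMod ℓ)]
  have h4 : (N : ZMod ℓ) = 0 := (ZMod.natCast_eq_zero_iff _ _).2 ⟨N', hN'⟩
  rw [h3, h4, zero_smul, zero_add, map_smul, smul_eq_mul, mul_eq_zero] at h2
  rcases h2 with h2 | h2
  · exact ha ((ZMod.intCast_zmod_eq_zero_iff_dvd _ _).1 h2)
  · exact hoρ h2

/-- a uniformizer of a place of the residue curve. -/
theorem r6_unif {O : ValuationSubring L} {ℓ : ℕ} [Fact ℓ.Prime] (hOℓ : O.valuation (ℓ : L) = 1)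
    (hCv : Cv (rbarP l O)) {Q : ValuationSubring (RFP O)} (hQ : Q ∈ Plc (rbarP l O)) :
    ∃ ϖ : L, O.valuation ϖ = 1 ∧ Q.valuation (rsP O ϖ) < 1 ∧ ∀ x : RFP O, x ≠ 0 →
      ∃ N : ℕ, ¬ ℓ ∣ N ∧ ∃ b : ℤ, Q.valuation (x ^ N * rsP O ϖ ^ b) = 1 := by
  haveI : NeZero (ℓ : RFP O) := rfp_neZero hOℓ
  obtain ⟨⟨π, hπ⟩, -⟩ := hCv.place hQ
  obtain ⟨m₀, y₀, hy₀⟩ := rf_pow O π
  obtain ⟨ϖ, hϖO, rfl⟩ := rs_surj y₀
  have hchar : ringExpChar (IsLocalRing.ResidueField O) = ringExpChar (RFP O) := by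
    haveI : ExpChar (RFP O) (ringExpChar (IsLocalRing.ResidueField O)) :=
      expChar_of_injective_ringHom (rf O).injective _
    exact (ringExpChar.eq _ _).symm
  have hrs : rsP O ϖ = π ^ ringExpChar (RFP O) ^ m₀ := by
    rw [← hchar]
    exact hy₀
  have hϖ1 : O.valuation ϖ = 1 := by
    rw [← rsP_ne_zero hϖO, hrs]
    exact pow_ne_zero _ hπ.ne
  refine ⟨ϖ, hϖ1, ?_, fun x hx => ?_⟩
  · rw [hrs, map_pow]
    exact pow_lt_one₀ zero_le hπ.lt (qpow_pos _ _).ne'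
  · obtain ⟨m, b, h1⟩ := hπ.rep x hx
    refine ⟨ringExpChar (RFP O) ^ (m + m₀), fun h2 =>
      q_pow_ne_zero ℓ (RFP O) (m + m₀) ((ZMod.natCast_eq_zero_iff _ _).2 h2), b, ?_⟩
    have h2 : x ^ ringExpChar (RFP O) ^ (m + m₀) * rsP O ϖ ^ b =
        (x ^ ringExpChar (RFP O) ^ m * π ^ b) ^ ringExpChar (RFP O) ^ m₀ := by
      rw [mul_pow, ← pow_mul, ← pow_add, hrs, ← zpow_natCast (π ^ b), ← zpow_mul,
        ← zpow_natCast π, ← zpow_mul, mul_comm b]
    rw [h2, map_pow, h1, one_pow]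

/-- for every place `Q` of the residue curve of `O`, trivial on the residues of `l`, there is a
family of valuation rings of `L` with functionals, with limit `comP O Q`. -/
theorem appr_main (hl : IsAlgClosed l) (hfg : FG l (⊤ : Subfield L)) (htd : Td l 2) {ℓ : ℕ}
    [Fact ℓ.Prime] [NeZero (ℓ : L)] {O : ValuationSubring L} (hOℓ : O.valuation (ℓ : L) = 1)
    (hCv : Cv (rbarP l O)) {o : V ℓ L →ₗ[ZMod ℓ] ZMod ℓ} (ho : ∀ v, o v = 0 ↔ v ∈ UC ℓ O)
    (hone : o ≠ 0) {Q : ValuationSubring (RFP O)} (hQ : Q ∈ Plc (rbarP l O)) :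
    ∃ (J : Type u) (𝒱 : Ultrafilter J) (Qn : J → ValuationSubring L)
      (qn : J → V ℓ L →ₗ[ZMod ℓ] ZMod ℓ) (ϖ : L),
      O.valuation ϖ = 1 ∧ Q.valuation (rsP O ϖ) < 1 ∧
      (∀ z ∈ comP O Q, ∀ᶠ j in 𝒱, z ∈ Qn j) ∧
      ∀ᶠ j in 𝒱, (∀ z, (Qn j).valuation z = 1 → qn j (cl ℓ z) = 0) ∧ qn j (cl ℓ ϖ) = 1 ∧
        ∃ g₀ : L, ∀ i j' : ZMod ℓ, i • cl ℓ g₀ + j' • cl ℓ (1 - g₀) ∈ U1 ℓ (Qn j) →
          i = 0 ∧ j' = 0 := by
  classical
  haveI : NeZero (ℓ : RFP O) := rfp_neZero hOℓ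
  have hℓ : 0 < ℓ := (Fact.out : ℓ.Prime).pos
  obtain ⟨ρ, hρ0, hoρ⟩ : ∃ ρ : L, ρ ≠ 0 ∧ o (cl ℓ ρ) ≠ 0 := by
    by_contra hcon
    push Not at hcon
    apply hone
    refine LinearMap.ext fun v => ?_
    obtain ⟨z, hz, rfl⟩ := cl_surj ℓ v
    exact hcon z hz
  have hρ := not_torsion hl (ℓ := ℓ) (O := O) hρ0 fun h => hoρ ((ho _).2 h)
  obtain ⟨y, hy⟩ : ∃ y : IsLocalRing.ResidueField O, y ∉ rbar l O := by
    obtain ⟨x, hx, -⟩ := hCv.ex
    obtain ⟨m, y, hy⟩ := rf_pow O x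
    refine ⟨y, fun h => hx ?_⟩
    rw [← rf_mem_rbarP, hy] at h
    haveI : PerfectField (rbarP l O) := perfect_of_RAC (RAC_of_isAlgClosed _ hCv.ac)
    have hchar : ringExpChar (IsLocalRing.ResidueField O) = ringExpChar (RFP O) := by
      haveI : ExpChar (RFP O) (ringExpChar (IsLocalRing.ResidueField O)) :=
        expChar_of_injective_ringHom (rf O).injective _
      exact (ringExpChar.eq _ _).symm
    rw [hchar] at h
    exact mem_of_pow_q h
  obtain ⟨ϖ, hϖ1, hϖQ, hϖ⟩ := r6_unif hOℓ hCv hQ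
  have hϖ0 : ϖ ≠ 0 := by
    rintro rfl
    rw [map_zero] at hϖ1
    exact zero_ne_one hϖ1
  set w := comP O Q with hw
  have hplt : w.valuation ϖ < 1 := comP_lt.2 ⟨mem_of_val hϖ1, hϖQ⟩
  have hconst : ∀ c ∈ l, O.valuation c = 1 → w.valuation c = 1 := by
    intro c hc h1
    have h2 : rsP O c ∈ rbarP l O := mem_rbarP.2 ⟨c, hc, mem_of_val h1, rfl⟩
    exact comP_one.2 ⟨h1, hQ.1.eq_one h2 ((rsP_ne_zero (mem_of_val h1)).2 h1)⟩
  have hmon : Mon l w ρ ϖ := by
    refine ⟨hρ0, hϖ0, hplt, fun c hc hc0 a h1 b => ?_, fun c hc hc0 a h1 => ?_⟩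
    · have h2 : O.valuation (c * ρ ^ a) < 1 := by
        refine lt_of_le_of_ne (comP_le h1.le) fun h3 => ?_
        have h4 := hρ c hc hc0 a h3
        rw [h4, zpow_zero, mul_one] at h1 h3
        exact h1.ne (hconst c hc h3)
      have h3 : O.valuation (c * ρ ^ a * ϖ ^ (-b)) < 1 := by
        rw [map_mul, map_zpow₀, hϖ1, one_zpow, mul_one]
        exact h2
      have h4 : w.valuation (c * ρ ^ a * ϖ ^ (-b)) < 1 := comP_lt_of_lt h3
      rw [map_mul, map_zpow₀, zpow_neg, ← div_eq_mul_inv, div_lt_one₀] at h4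
      · exact h4
      · exact zpow_pos (zero_lt_iff.2 ((_root_.map_ne_zero _).2 hϖ0)) _
    · exact hρ c hc hc0 a (comP_one.1 h1).1
  have hind := hmon.indep (c₀ := 1) l.one_mem one_ne_zero 0
  rw [zpow_zero, mul_one, inv_one, mul_one] at hind
  have halg : ∀ z : L, IsAlgebraic (gsp l {ρ, ϖ}) z := r6_alg hl htd hind
  have hres : ∀ z : L, w.valuation z = 1 → ∃ c ∈ l, w.valuation (z - c) < 1 := by
    intro z hz
    obtain ⟨h1, h2⟩ := comP_one.1 hz
    obtain ⟨-, h3⟩ := hCv.place hQ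
    obtain ⟨c', hc', h4⟩ := (mem_bar hQ.1).1 (h3 (rs Q (rsP O z)))
    obtain ⟨c, hc, hcO, rfl⟩ := mem_rbarP.1 hc'
    refine ⟨c, hc, comP_lt.2 ⟨sub_mem (mem_of_val h1) hcO, ?_⟩⟩
    rw [rsP_sub (mem_of_val h1) hcO]
    rw [eq_comm, rs_eq (mem_of_val h2) (hQ.1 _ hc')] at h4
    exact h4
  have hval : ∀ z : L, z ≠ 0 → ∃ m : ℕ, ¬ ℓ ∣ m ∧ ∃ c ∈ l, c ≠ 0 ∧ ∃ a b : ℤ,
      w.valuation (z ^ m * c * ρ ^ a * ϖ ^ b) = 1 := by
    intro z hz
    obtain ⟨N, hN, c, hc, hc0, a, h1⟩ := r6_val hl htd ho hρ0 hoρ hρ hy hz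
    obtain ⟨N₂, hN₂, b, h2⟩ := hϖ _ ((rsP_ne_zero (mem_of_val h1)).2 h1)
    refine ⟨N * N₂, ?_, c ^ N₂, l.pow_mem hc _, pow_ne_zero _ hc0, a * N₂, b, ?_⟩
    · rw [(Fact.out : ℓ.Prime).dvd_mul]
      exact not_or.2 ⟨hN, hN₂⟩
    · have h3 : z ^ (N * N₂) * c ^ N₂ * ρ ^ (a * N₂) * ϖ ^ b =
          (z ^ N * c * ρ ^ a) ^ N₂ * ϖ ^ b := by
        rw [mul_pow, mul_pow, ← pow_mul, zpow_mul, zpow_natCast]
      rw [h3]
      refine comP_one.2 ⟨?_, ?_⟩
      · rw [map_mul, map_pow, h1, one_pow, one_mul, map_zpow₀, hϖ1, one_zpow]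
      · rw [rsP_mul (pow_mem (mem_of_val h1) _) (mem_of_val (by
          rw [map_zpow₀, hϖ1, one_zpow])), rsP_pow (mem_of_val h1), r6_rsP_zpow hϖ1]
        exact h2
  have hwℓ : w.valuation (ℓ : L) = 1 := hconst _ (natCast_mem l ℓ) hOℓ
  obtain ⟨U, Qn, qn, h1, h2⟩ := appr_mon hl hfg hmon halg hres hval hwℓ
  exact ⟨_, U, Qn, qn, ϖ, hϖ1, hϖQ, fun z hz => (h1 z).1 hz, h2⟩

end Vale.Agent.P019P
end
end

section

section

/-!
# Transfer of places
-/

namespace Vale.Agent.P019P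

open Vale.Agent.P019

set_option linter.style.haveILetI false
set_option linter.unusedSectionVars false
set_option linter.unusedVariables false

open Polynomial Filter

section r7

variable {F : Type*} [Field F] {ℓ : ℕ} [Fact ℓ.Prime]

theorem r7_neZero {W : ValuationSubring F} (h : W.valuation (ℓ : F) = 1) :
    NeZero (ℓ : IsLocalRing.ResidueField W) := by
  haveI := rfp_neZero h
  refine ⟨fun h0 => ?_⟩
  have h1 := congrArg (rf W) h0
  rw [map_natCast, map_zero] at h1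
  exact NeZero.ne (ℓ : RFP W) h1

/-- functionals killing `U1` induce functionals on the classes of the perfect closure of the
residue field. -/
theorem r7_ind {W : ValuationSubring F} (hℓ : W.valuation (ℓ : F) = 1)
    (g : V ℓ F →ₗ[ZMod ℓ] ZMod ℓ) (hg : ∀ v ∈ U1 ℓ W, g v = 0) :
    ∃ h : V ℓ (RFP W) →ₗ[ZMod ℓ] ZMod ℓ,
      ∀ z : F, W.valuation z = 1 → h (cl ℓ (rsP W z)) = g (cl ℓ z) := by
  obtain ⟨h, hh⟩ := apc_exists_ind W g hg
  have hsurj : Function.Surjective (Vmap ℓ (rf W)) := by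
    intro v
    obtain ⟨z, hz, rfl⟩ := rfp_cl hℓ v
    exact ⟨cl ℓ (rs W z), Vmap_cl ℓ _ _⟩
  obtain ⟨s, hs⟩ := LinearMap.exists_rightInverse_of_surjective (Vmap ℓ (rf W))
    (LinearMap.range_eq_top.2 hsurj)
  have hker : ∀ x : V ℓ (IsLocalRing.ResidueField W), Vmap ℓ (rf W) x = 0 → h x = 0 := by
    intro x hx
    obtain ⟨c, hc0, rfl⟩ := cl_surj ℓ x
    obtain ⟨z, hz, rfl⟩ := rs_surj c
    have hz1 : W.valuation z = 1 := (rs_ne_zero hz).1 hc0
    rw [Vmap_cl] at hx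
    rw [hh z hz1]
    exact hg _ ((rfp_cl_zero hℓ hz1).1 hx)
  refine ⟨h ∘ₗ s, fun z hz => ?_⟩
  have h1 : Vmap ℓ (rf W) (s (cl ℓ (rsP W z)) - cl ℓ (rs W z)) = 0 := by
    rw [map_sub, Vmap_cl, sub_eq_zero]
    exact LinearMap.congr_fun hs _
  have h2 := hker _ h1
  rw [map_sub, sub_eq_zero] at h2
  rw [LinearMap.comp_apply, h2, hh z hz]

/-- a functional on the classes of the perfect closure of the residue field kills the units of
a valuation ring if it kills the classes of the units which are residues. -/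
theorem r7_units {W : ValuationSubring F} (hℓ : W.valuation (ℓ : F) = 1)
    {h : V ℓ (RFP W) →ₗ[ZMod ℓ] ZMod ℓ} {P : ValuationSubring (RFP W)}
    (h1 : ∀ z : F, W.valuation z = 1 → P.valuation (rsP W z) = 1 → h (cl ℓ (rsP W z)) = 0)
    (c : RFP W) (hc : P.valuation c = 1) : h (cl ℓ c) = 0 := by
  haveI := r7_neZero hℓ
  obtain ⟨m, y, hy⟩ := rf_pow W c
  obtain ⟨z, hz, rfl⟩ := rs_surj y
  have hc' : P.valuation (rf W (rs W z)) = 1 := by rw [hy, map_pow, hc, one_pow]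
  have hz1 : W.valuation z = 1 := by
    refine (rs_ne_zero hz).1 fun h0 => ?_
    rw [h0, map_zero, map_zero] at hc'
    exact zero_ne_one hc'
  have h2 := h1 z hz1 hc'
  rw [rsP, hy, cl_pow, map_nsmul, ← Nat.cast_smul_eq_nsmul (ZMod ℓ), smul_eq_mul,
    mul_eq_zero] at h2
  exact h2.resolve_left (q_pow_ne_zero ℓ _ m)

theorem r7_rsP_inv {W : ValuationSubring F} {z : F} (hz : W.valuation z = 1) :
    rsP W z⁻¹ = (rsP W z)⁻¹ := by
  rw [rsP, rs_inv hz, map_inv₀]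
  rfl

/-- units of the composite ring. -/
theorem r7_comP_unit {W : ValuationSubring F} {P : ValuationSubring (RFP W)} {z : F}
    (hz : W.valuation z = 1) (hz' : P.valuation (rsP W z) = 1) :
    (comP W P).valuation z = 1 := by
  obtain ⟨h0, h1, h2⟩ := apc_val_one.1 hz
  obtain ⟨-, h3, h4⟩ := apc_val_one.1 hz'
  exact apc_val_one.2 ⟨h0, mem_comP.2 ⟨h1, h3⟩, mem_comP.2 ⟨h2, by rwa [r7_rsP_inv hz]⟩⟩

/-- ultralimit of functionals. -/
theorem r7_ulim {J M : Type*} [AddCommGroup M] [Module (ZMod ℓ) M] (𝒱 : Ultrafilter J)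
    (f : J → M →ₗ[ZMod ℓ] ZMod ℓ) :
    ∃ g : M →ₗ[ZMod ℓ] ZMod ℓ, ∀ v, ∀ᶠ n in (𝒱 : Filter J), f n v = g v := by
  haveI : NeZero ℓ := ⟨(Fact.out : ℓ.Prime).ne_zero⟩
  choose g hg using fun v : M => Vale.Agent.P019R.ext_const 𝒱 fun n => f n v
  refine ⟨{ toFun := g, map_add' := ?_, map_smul' := ?_ }, hg⟩
  · intro v w
    obtain ⟨n, hn, hn1, hn2⟩ := ((hg (v + w)).and ((hg v).and (hg w))).exists
    rw [← hn, ← hn1, ← hn2, map_add]
  · intro c v
    obtain ⟨n, hn, hn1⟩ := ((hg (c • v)).and (hg v)).exists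
    rw [← hn, ← hn1, map_smul, RingHom.id_apply]

theorem r7_extLim_unit {J : Type*} {𝒱 : Ultrafilter J} {O : J → ValuationSubring F} {z : F}
    (hz : (Vale.Agent.P019R.extLim 𝒱 O).valuation z = 1) :
    ∀ᶠ n in (𝒱 : Filter J), (O n).valuation z = 1 := by
  obtain ⟨h0, h1, h2⟩ := apc_val_one.1 hz
  filter_upwards [Vale.Agent.P019R.mem_extLim.1 h1, Vale.Agent.P019R.mem_extLim.1 h2] with n h3 h4
  exact apc_val_one.2 ⟨h0, h3, h4⟩

/-- the elements of the perfect closure of the residue field which are residues of constants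
are roots of unity. -/
theorem r7_fin {k : Subfield F} {W : ValuationSubring F} (h : Fin' (rbar k W)) :
    Fin' (rbarP k W) := by
  rintro _ ⟨a, ha, rfl⟩ h0
  have ha0 : a ≠ 0 := by
    rintro rfl
    exact h0 (map_zero _)
  obtain ⟨n, hn, h1⟩ := h a ha ha0
  exact ⟨n, hn, by rw [← map_pow, h1, map_one]⟩

end r7

variable {K L : Type*} [Field K] [Field L] [PerfectField K] [PerfectField L] {ℓ : ℕ}
  [Fact ℓ.Prime] [NeZero (ℓ : K)] [NeZero (ℓ : L)] {Θ : V ℓ K ≃ₗ[ZMod ℓ] V ℓ L}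

/-- every place of the residue curve of `O` trivial on the residues of `l` comes from a place
of the residue curve of `W`, if the residue field of `k` is algebraic over a finite field. -/
theorem place_back {k : Subfield K} (hk : IsAlgClosed k)
    {l : Subfield L} (hl : IsAlgClosed l) (hfgl : FG l (⊤ : Subfield L)) (htd : Td l 2)
    (hΘ : Compatible Θ) {W : ValuationSubring K} {f : V ℓ K →ₗ[ZMod ℓ] ZMod ℓ}
    (hW : Adp W f) (hWℓ : W.valuation (ℓ : K) = 1) (hfin : Fin' (rbar k W))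
    (hCvW : Cv (rbarP k W)) {O : ValuationSubring L} (hT : TrA Θ W f O)
    (hOℓ : O.valuation (ℓ : L) = 1) (hCvO : Cv (rbarP l O))
    {ΘP : V ℓ (RFP W) ≃ₗ[ZMod ℓ] V ℓ (RFP O)}
    (hΘP : ResMapP ℓ Θ W O ΘP) {Q : ValuationSubring (RFP O)}
    (hQ : Q ∈ Plc (rbarP l O)) :
    ∃ P ∈ Plc (rbarP k W), ∀ v, ΘP v ∈ UC ℓ Q ↔ v ∈ UC ℓ P := by
  have hnegK : ∃ i : K, i ^ ℓ = -1 := exists_neg hk
  have hnegL : ∃ i : L, i ^ ℓ = -1 := exists_neg hl
  haveI : NeZero (ℓ : RFP W) := rfp_neZero hWℓ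
  haveI : NeZero (ℓ : RFP O) := rfp_neZero hOℓ
  obtain ⟨xc, hxc, -⟩ := hCvW.ex
  have hNC : NoCtr ℓ (IsLocalRing.ResidueField W) :=
    noCtr_rfp hWℓ (noCtr hCvW.ac hCvW.fg hxc)
  have hUC : ∀ v, v ∈ UC ℓ O ↔ f (Θ.symm v) = 0 := fun v =>
    hT.uc hΘ hnegK hnegL hW hNC v
  -- the functional of `O`
  have hone : f ∘ₗ Θ.symm.toLinearMap ≠ 0 := by
    intro h0
    apply hW.ne
    refine LinearMap.ext fun v => ?_
    have h1 := LinearMap.congr_fun h0 (Θ v)
    rw [LinearMap.comp_apply, LinearEquiv.coe_coe, LinearEquiv.symm_apply_apply] at h1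
    exact h1
  obtain ⟨J, 𝒱, Qn, qn, ϖ, hϖ, hϖQ, hlim, hev⟩ :=
    appr_main hl hfgl htd hOℓ hCvO (fun v => (hUC v).symm) hone hQ
  obtain ⟨q, hq⟩ := r7_ulim 𝒱 qn
  have hqϖ : q (cl ℓ ϖ) = 1 := by
    obtain ⟨j, h1, h2⟩ := ((hq (cl ℓ ϖ)).and hev).exists
    rw [← h1]
    exact h2.2.1
  -- transfer back
  have hback : ∀ j, ∃ A : ValuationSubring K,
      ((∀ z, (Qn j).valuation z = 1 → qn j (cl ℓ z) = 0) ∧ qn j (cl ℓ ϖ) = 1 ∧
        ∃ g₀ : L, ∀ i j' : ZMod ℓ, i • cl ℓ g₀ + j' • cl ℓ (1 - g₀) ∈ U1 ℓ (Qn j) →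
          i = 0 ∧ j' = 0) → ∀ z, A.valuation z = 1 → qn j (Θ (cl ℓ z)) = 0 := by
    intro j
    by_cases hj : (∀ z, (Qn j).valuation z = 1 → qn j (cl ℓ z) = 0) ∧ qn j (cl ℓ ϖ) = 1 ∧
        ∃ g₀ : L, ∀ i j' : ZMod ℓ, i • cl ℓ g₀ + j' • cl ℓ (1 - g₀) ∈ U1 ℓ (Qn j) →
          i = 0 ∧ j' = 0
    · obtain ⟨h1, -, g₀, h2⟩ := hj
      obtain ⟨A, hA, -⟩ := exists_transfer hΘ.symm hnegK (qn j) g₀ fun i j' hij =>
        h2 i j' (H_le_U1 hnegL (Qn j) (qn j) h1 hij)
      exact ⟨A, fun _ z hz => hA z hz⟩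
    · exact ⟨⊤, fun h => absurd h hj⟩
  choose A hA using hback
  set B : ValuationSubring K := Vale.Agent.P019R.extLim 𝒱 A with hB
  have hBu : ∀ z, B.valuation z = 1 → q (Θ (cl ℓ z)) = 0 := by
    intro z hz
    obtain ⟨j, h1, h2, h3⟩ := ((r7_extLim_unit hz).and ((hq (Θ (cl ℓ z))).and hev)).exists
    rw [← h2]
    exact hA j h3 z h1
  -- the limit functional kills the units of the composite ring
  have hqR : ∀ z : L, (comP O Q).valuation z = 1 → q (cl ℓ z) = 0 := by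
    intro z hz
    obtain ⟨h0, h1, h2⟩ := apc_val_one.1 hz
    obtain ⟨j, h4, h5, h6, h7⟩ :=
      ((hlim z h1).and ((hlim _ h2).and ((hq (cl ℓ z)).and hev))).exists
    rw [← h6]
    exact h7.1 z (apc_val_one.2 ⟨h0, h4, h5⟩)
  have hqU1 : ∀ v ∈ U1 ℓ O, q v = 0 := by
    rintro _ ⟨m, hm, rfl⟩
    apply hqR
    have h1 : rs O (1 + m) = 1 := by
      have h2 : m ∈ O := (O.valuation_le_one_iff m).1 hm.le
      rw [rs_add (one_mem _) h2, rs_one, (rs_eq_zero h2).2 hm, add_zero]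
    exact r7_comP_unit (val_one_add hm) (by rw [rsP, h1, map_one, map_one])
  obtain ⟨qP, hqP⟩ := r7_ind hOℓ q hqU1
  have hqPu : ∀ c, Q.valuation c = 1 → qP (cl ℓ c) = 0 :=
    r7_units hOℓ fun z hz hz' => by
      rw [hqP z hz]
      exact hqR z (r7_comP_unit hz hz')
  have hqPne : qP ≠ 0 := by
    intro h0
    have h1 := hqP ϖ hϖ
    rw [h0, LinearMap.zero_apply, hqϖ] at h1
    exact zero_ne_one h1
  obtain ⟨⟨πQ, hπQ⟩, -⟩ := hCvO.place hQ
  have hkerQ := apc_ker_of_unif hπQ qP hqPu hqPne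
  -- the functional on `K`
  set g : V ℓ K →ₗ[ZMod ℓ] ZMod ℓ := q ∘ₗ Θ.toLinearMap with hg
  have hga : ∀ v, g v = q (Θ v) := fun v => rfl
  have hgU1 : ∀ v ∈ U1 ℓ W, g v = 0 := fun v hv => hqU1 _ ((hT.iff v).2 hv)
  obtain ⟨z₀, hz₀, hz₀'⟩ : ∃ z, W.valuation z = 1 ∧ g (cl ℓ z) = 1 := by
    have h1 : f (Θ.symm (cl ℓ ϖ)) = 0 := (hUC _).1 (cl_mem_UC hϖ)
    obtain ⟨z, hz, hz'⟩ := mem_UC.1 ((hW.ker _).1 h1)
    refine ⟨z, hz, ?_⟩
    rw [hga, ← hz', LinearEquiv.apply_symm_apply, hqϖ]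
  have hlt : B < W := cmp_le g hgU1 hBu ⟨z₀, hz₀, by rw [hz₀']; exact one_ne_zero⟩
  have hle : B ≤ W := hlt.le
  obtain ⟨P, hP⟩ := Vale.Agent.P019R.ext_exists (rf W) (apc_resVal hle)
  have hPmem : P ∈ Plc (rbarP k W) := by
    refine ⟨(r7_fin hfin).triv P, ?_⟩
    intro htop
    apply hlt.not_ge
    intro z hz
    rw [← apc_mem_resVal hle hz, ← hP, ValuationSubring.mem_comap, htop]
    exact ValuationSubring.mem_top _
  obtain ⟨gP, hgP⟩ := r7_ind hWℓ g hgU1
  have hgPu : ∀ c, P.valuation c = 1 → gP (cl ℓ c) = 0 := by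
    refine r7_units hWℓ fun z hz hz' => ?_
    rw [hgP z hz]
    apply hBu
    have h1 : (apc_resVal hle).valuation (rs W z) = 1 := by
      rw [← hP, Vale.Agent.P019R.ext_comap_eq_one]
      exact hz'
    obtain ⟨-, h2, h3⟩ := apc_val_one.1 h1
    obtain ⟨h4, h5, h6⟩ := apc_val_one.1 hz
    rw [← rs_inv hz] at h3
    exact apc_val_one.2 ⟨h4, (apc_mem_resVal hle h5).1 h2, (apc_mem_resVal hle h6).1 h3⟩
  have hgPne : gP ≠ 0 := by
    intro h0
    have h1 := hgP z₀ hz₀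
    rw [h0, LinearMap.zero_apply, hz₀'] at h1
    exact zero_ne_one h1
  obtain ⟨⟨πP, hπP⟩, -⟩ := hCvW.place hPmem
  have hkerP := apc_ker_of_unif hπP gP hgPu hgPne
  refine ⟨P, hPmem, fun v => ?_⟩
  rw [hkerQ, hkerP]
  have hcomp : qP (ΘP v) = gP v := by
    obtain ⟨z, hz, rfl⟩ := rfp_cl hWℓ v
    have h1 : Θ (cl ℓ z) ∈ UC ℓ O := by
      rw [hUC, LinearEquiv.symm_apply_apply]
      exact (hW.ker _).2 (cl_mem_UC hz)
    obtain ⟨z', hz', hzz⟩ := mem_UC.1 h1
    rw [hΘP z z' hz hz' hzz, hqP z' hz', hgP z hz, hga, hzz]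
  rw [hcomp]

end Vale.Agent.P019P
end
end

section

section

/-!
# The theorem on curves, arbitrary algebraically closed constants
-/

namespace Vale.Agent.P019P

open Vale.Agent.P019

set_option linter.style.haveILetI false
set_option linter.unusedSectionVars false

open Polynomial IntermediateField

variable {F : Type*} [Field F] {ℓ : ℕ} [Fact ℓ.Prime] [NeZero (ℓ : F)] {k : Subfield F}

/-- the number of classes unramified outside a finite set of places, arbitrary constants. -/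
theorem curveCard_any (F0 : IntermediateField k F) [CFF k F0]
    [IsPurelyInseparable F0 F] : CurveCard ℓ k (gen k F0) := by
  classical
  intro T hT
  have hℓ : ℓ.Prime := Fact.out
  have hℓk : (ℓ : k) ≠ 0 := by
    intro h
    apply NeZero.ne (ℓ : F)
    have h1 := congrArg (algebraMap k F) h
    rwa [map_natCast, map_zero] at h1
  obtain ⟨hdiv, hcard⟩ := pic_any (k := k) (F := F0) hℓ hℓk
  obtain ⟨f, hfz, hsurj, hker⟩ := exists_clHom F0 ℓ
  let T' : Finset (Plk k F0) := T.attach.image fun O => plRes F0 ⟨O.1, hT O.1 O.2⟩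
  have hT' : T'.card = T.card := by
    rw [Finset.card_image_of_injective, Finset.card_attach]
    intro O O' h
    have h1 := congrArg Subtype.val ((plRes F0).injective h)
    exact Subtype.ext h1
  have hmem : ∀ O : Plc k, plRes F0 O ∈ T' ↔ O.1 ∈ T := by
    intro O
    rw [Finset.mem_image]
    constructor
    · rintro ⟨O', _, h⟩
      rw [← (plRes F0).injective h]
      exact O'.2
    · intro h
      exact ⟨⟨O.1, h⟩, Finset.mem_attach _ _, rfl⟩
  have hc := card_abs (prn k F0) (by rintro _ ⟨z, _, rfl⟩; exact dg_dv z) hℓ hdiv hcard f hsurj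
    hker T'
  rw [hT'] at hc
  rw [← hc]
  refine Nat.card_congr (Equiv.subtypeEquivRight fun v => ?_)
  constructor
  · intro hv
    obtain ⟨z, hz, rfl⟩ := exists_cl F0 v
    refine ⟨⟨dv k z, z, hz, rfl⟩, hfz z hz, ?_⟩
    intro P hP
    have h1 : (plRes F0) ((plRes F0).symm P) = P := (plRes F0).apply_symm_apply P
    have h2 := hv ((plRes F0).symm P).1 ((plRes F0).symm P).2 (fun h => hP (by
      rw [← h1]
      exact (hmem _).2 h))
    rw [cl_mem_UC_iff F0 _ hz, h1] at h2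
    change (ℓ : ℤ) ∣ dv k z P
    rw [dv_apply]
    exact h2
  · rintro ⟨⟨_, z, hz, rfl⟩, rfl, hD⟩ O hO hOT
    rw [hfz z hz, cl_mem_UC_iff F0 ⟨O, hO⟩ hz]
    have h1 := hD (plRes F0 ⟨O, hO⟩) (fun h => hOT ((hmem ⟨O, hO⟩).1 h))
    change (ℓ : ℤ) ∣ dv k z _ at h1
    rw [dv_apply] at h1
    exact h1

/-- the theorem on curves for arbitrary algebraically closed constants. -/
theorem exists_curve_any [PerfectField F] (h : Cv k) :
    ∃ g : ℕ, CurveRH ℓ k g ∧ CurveCard ℓ k g := by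
  obtain ⟨F0, hFG, hcff, hpi⟩ := exists_model h
  exact ⟨gen k F0, curveRH_of h F0, curveCard_any F0⟩

end Vale.Agent.P019P
end
end

section

section

/-!
# The degree bound for a single valuation
-/

namespace Vale.Agent.P019P

open Vale.Agent.P019

set_option linter.style.haveILetI false
set_option linter.unusedSectionVars false
set_option linter.unusedVariables false

open Polynomial Filter

variable {K L : Type*} [Field K] [Field L] [PerfectField K] [PerfectField L] {ℓ : ℕ}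
  [Fact ℓ.Prime] [NeZero (ℓ : K)] [NeZero (ℓ : L)] {Θ : V ℓ K ≃ₗ[ZMod ℓ] V ℓ L}

/-- the residue field of the transferred valuation is a curve and the degree bound. -/
theorem deg_point {k : Subfield K} (hk : IsAlgClosed k)
    {l : Subfield L} (hl : IsAlgClosed l) (hfgl : FG l (⊤ : Subfield L)) (htd : Td l 2)
    (hΘ : Compatible Θ) {W : ValuationSubring K} {f : V ℓ K →ₗ[ZMod ℓ] ZMod ℓ}
    (hW : Adp W f) (hWℓ : W.valuation (ℓ : K) = 1) (hfin : Fin' (rbar k W))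
    (hcv : Cv (rbarP k W)) {O : ValuationSubring L} (hT : TrA Θ W f O)
    (hOℓ : O.valuation (ℓ : L) = 1) {g : L} (hOg : O.valuation g = 1)
    (hgO : rsP O g ∉ rbarP l O) {G M : ℕ}
    (hG : ∀ g : ℕ, CurveRH ℓ (rbarP k W) g → g ≤ G) (s₀ : Finset L)
    (hs₀ : ∀ c ∈ s₀, c ∈ l ∧ c ∈ O) (hinj : Set.InjOn (rsP O) (s₀ : Set L))
    (hs5 : s₀.card = 5) (hy : ∀ c ∈ s₀, ∃ y : K, W.valuation y = 1 ∧
      Θ (cl ℓ y) = cl ℓ (g - c) ∧ (rsP W y ∉ rbarP k W →
        Module.finrank (adj (rbarP k W) (rsP W y)) (RFP W) ≤ M)) :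
    Cv (rbarP l O) ∧
      Module.finrank (adj (rbarP l O) (rsP O g)) (RFP O) ≤ 4 * G + 5 * (2 * M) := by
  classical
  haveI := rfp_neZero hWℓ
  haveI := rfp_neZero hOℓ
  have hnegK : ∃ i : K, i ^ ℓ = -1 := exists_neg hk
  have hnegL : ∃ i : L, i ^ ℓ = -1 := exists_neg hl
  obtain ⟨x₁, hx₁, -⟩ := hcv.ex
  have hNCP : NoCtr ℓ (RFP W) := noCtr hcv.ac hcv.fg hx₁
  have hNC : NoCtr ℓ (IsLocalRing.ResidueField W) := noCtr_rfp hWℓ hNCP
  have huc := hT.uc hΘ hnegK hnegL hW hNC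
  have hgO' : rs O g ∉ rbar l O := fun h => hgO (rf_mem_rbarP.2 h)
  -- an element which is not a unit
  obtain ⟨ρ, hρ0, hρ⟩ : ∃ ρ : L, ρ ≠ 0 ∧ cl ℓ ρ ∉ UC ℓ O := by
    obtain ⟨v, hv⟩ : ∃ v, f v ≠ 0 := by
      by_contra hcon
      push Not at hcon
      exact hW.ne (LinearMap.ext hcon)
    obtain ⟨ρ, hρ0, hρ⟩ := cl_surj ℓ (Θ v)
    refine ⟨ρ, hρ0, fun h => hv ?_⟩
    have h1 := (huc _).1 h
    rwa [hρ, LinearEquiv.symm_apply_apply] at h1
  have hcvO : Cv (rbarP l O) := abh_cv hl hfgl htd hρ0 (not_torsion hl hρ0 hρ) hgO'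
  refine ⟨hcvO, ?_⟩
  obtain ⟨ΘP, hΘP, hres⟩ := TrA.resP hΘ hnegK hnegL hW hT hWℓ hOℓ hNCP
  obtain ⟨g₁, hrh1, hcc1⟩ := exists_curve_any (ℓ := ℓ) hcv
  obtain ⟨g₂, hrh2, hcc2⟩ := exists_curve_any (ℓ := ℓ) hcvO
  have hQ : ∀ Q ∈ Plc (rbarP l O), ∃ P ∈ Plc (rbarP k W), ∀ v, ΘP v ∈ UC ℓ Q ↔ v ∈ UC ℓ P :=
    fun Q hQ => place_back hk hl hfgl htd hΘ hW hWℓ hfin hcv hT hOℓ hcvO hres hQ
  have key := deg_abs (Θ' := ΘP) hcv hcvO hcc1 hcc2 hrh2 hQ hgO (s₀.image (rsP O))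
    (fun c hc => by
      obtain ⟨c', hc', rfl⟩ := Finset.mem_image.1 hc
      exact rsP_mem_rbarP (hs₀ c' hc').1 (hs₀ c' hc').2)
    (by rw [Finset.card_image_of_injOn hinj, hs5]) (M := M)
    (fun c hc => by
      obtain ⟨c', hc', rfl⟩ := Finset.mem_image.1 hc
      obtain ⟨z, hz, hzc, hzM⟩ := hy c' hc'
      have hc'O : c' ∈ O := (hs₀ c' hc').2
      have hgc : O.valuation (g - c') = 1 := by
        rw [← rsP_ne_zero (sub_mem (mem_of_val hOg) hc'O), rsP_sub (mem_of_val hOg) hc'O,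
          sub_ne_zero]
        intro h
        exact hgO (h ▸ rsP_mem_rbarP (hs₀ c' hc').1 hc'O)
      refine ⟨rsP W z, (rsP_ne_zero (mem_of_val hz)).2 hz, ?_, hzM⟩
      rw [hres z (g - c') hz hgc hzc, rsP_sub (mem_of_val hOg) hc'O])
  have hg₁ := hG g₁ hrh1
  omega

end Vale.Agent.P019P
end
end

section

section

/-!
# Only classes of `k(t)` die in almost all residue fields of the bottom valuations
-/

namespace Vale.Agent.P019P

open Vale.Agent.P019

set_option linter.style.haveILetI false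
set_option linter.unusedSectionVars false
set_option linter.unusedVariables false

open Polynomial Filter

section one

variable {K : Type*} [Field K] {W : ValuationSubring K}

theorem r11_char (W : ValuationSubring K) :
    ringExpChar K = 1 ∨ ringExpChar (RFP W) = ringExpChar K := by
  rcases expChar_is_prime_or_one K (ringExpChar K) with h | h
  · right
    have h1 : ((ringExpChar K : ℕ) : IsLocalRing.ResidueField W) = 0 := by
      rw [← rs_natCast, natCast_expChar_eq_zero K _ h, rs_zero]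
    haveI : CharP (IsLocalRing.ResidueField W) (ringExpChar K) :=
      (CharP.charP_iff_prime_eq_zero h).2 h1
    haveI : ExpChar (IsLocalRing.ResidueField W) (ringExpChar K) := ExpChar.prime h
    rw [← ringExpChar_eq_of_hom (rf W)]
    exact ringExpChar.eq _ _
  · exact Or.inl h

theorem r11_root {F : Subfield (RFP W)} [PerfectField F] {y : RFP W} {m : ℕ}
    (h : y ^ ringExpChar K ^ m ∈ F) : y ∈ F := by
  rcases r11_char W with h1 | h1
  · rwa [h1, one_pow, pow_one] at h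
  · rw [← h1] at h
    exact mem_of_pow_q h

/-- the residue field is generated by the residue of `θ`. -/
theorem r11_gen {k : Subfield K} {t s θ c : K} (h : Bot k t s θ W c) (y : RFP W) :
    y ∈ adj (adj (rbarP k W) (rsP W s)) (rsP W θ) := by
  obtain ⟨m, y', hy'⟩ := rf_pow W y
  obtain ⟨n, hn⟩ := h.gen y'
  have h1 : rf W (y' ^ ringExpChar K ^ n) ∈ adj (adj (rbarP k W) (rsP W s)) (rsP W θ) := by
    have h2 : rf W (y' ^ ringExpChar K ^ n) ∈ (Vale.Agent.P019.adj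
        (Vale.Agent.P019.adj (rbar k W) (rs W s)) (rs W θ)).map (rf W) := ⟨_, hn, rfl⟩
    rw [map_adj0, map_adj0] at h2
    refine (Vale.Agent.P019.adj_mono ?_ _ : _ ≤ _) h2 |> adj0_le_adj _ _
    exact adj0_le_adj _ _
  rw [map_pow] at h1
  have h2 := r11_root h1
  rw [hy', ringExpChar_eq_of_hom (rf W)] at h2
  exact mem_of_pow_q h2

/-- elements of a simple algebraic extension of a perfect field. -/
theorem r11_poly {Ω : Type*} [Field Ω] [PerfectField Ω] {F : Subfield Ω} [PerfectField F] {θ : Ω}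
    {p : F[X]} (hp : p.Monic) (h0 : aeval θ p = 0) {w : Ω} (hw : w ∈ adj F θ) :
    ∃ b : ℕ → Ω, (∀ j, b j ∈ F) ∧ w = ∑ j ∈ Finset.range p.natDegree, b j * θ ^ j := by
  have hint : IsIntegral F θ := ⟨p, hp, h0⟩
  haveI : FiniteDimensional F (IntermediateField.adjoin F {θ}) :=
    IntermediateField.adjoin.finiteDimensional hint
  haveI : PerfectField (IntermediateField.adjoin F {θ}) := Algebra.IsAlgebraic.perfectField (K := F)
  have h1 : w ∈ IntermediateField.adjoin F {θ} := by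
    haveI : PerfectField (IntermediateField.adjoin F {θ}).toSubfield :=
      inferInstanceAs (PerfectField (IntermediateField.adjoin F {θ}))
    refine (adj_le (F := (IntermediateField.adjoin F {θ}).toSubfield) ?_ ?_ : adj F θ ≤ _) hw
    · exact fun x hx => (IntermediateField.adjoin F {θ}).algebraMap_mem ⟨x, hx⟩
    · exact IntermediateField.mem_adjoin_simple_self F θ
  have h2 : w ∈ (IntermediateField.adjoin F {θ}).toSubalgebra := h1
  rw [IntermediateField.adjoin_simple_toSubalgebra_of_isAlgebraic hint.isAlgebraic,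
    Algebra.adjoin_singleton_eq_range_aeval] at h2
  obtain ⟨P, hP⟩ := h2
  have hP' : aeval θ P = w := hP
  have hp1 : p ≠ 1 := by
    rintro rfl
    rw [map_one] at h0
    exact one_ne_zero h0
  refine ⟨fun j => (((P %ₘ p).coeff j : F) : Ω), fun j => ((P %ₘ p).coeff j).2, ?_⟩
  have h3 : aeval θ (P %ₘ p) = w := by
    rw [aeval_modByMonic_eq_self_of_root h0]
    exact hP'
  rw [← h3, aeval_eq_sum_range' (natDegree_modByMonic_lt P hp hp1)]
  rfl

end one

section fam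

variable {K : Type*} [Field K] [PerfectField K] {k : Subfield K} {t s θ : K}
  {I : Type*} {U : Ultrafilter I} {W : I → ValuationSubring K} {c : I → K}

/-- the minimal polynomial of `θ` reduces. -/
theorem r11_red (hu : Ulu U W) {M : Subfield K} (hM : IsAlgebraic M θ)
    (hres : ∀ᶠ i in U, ∀ z ∈ M, z ∈ W i → rsP (W i) z ∈ adj (rbarP k (W i)) (rsP (W i) s)) :
    ∃ d : ℕ, ∀ᶠ i in U, ∃ p : (adj (rbarP k (W i)) (rsP (W i) s))[X],
      p.Monic ∧ p.natDegree = d ∧ aeval (rsP (W i) θ) p = 0 := by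
  classical
  set m := minpoly M θ with hm
  have hmm : m.Monic := minpoly.monic hM.isIntegral
  refine ⟨m.natDegree, ?_⟩
  have h1 : ∀ᶠ i in U, ∀ j ∈ Finset.range m.natDegree, ((m.coeff j : M) : K) ∈ W i := by
    rw [Filter.eventually_all_finset]
    exact fun j _ => hu.mem _
  filter_upwards [hres, h1, hu.mem θ] with i h2 h3 h4
  set F := adj (rbarP k (W i)) (rsP (W i) s) with hF
  have h5 : ∀ j ∈ Finset.range m.natDegree, rsP (W i) ((m.coeff j : M) : K) ∈ F := fun j hj =>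
    h2 _ (m.coeff j).2 (h3 j hj)
  set r : F[X] := ∑ j ∈ (Finset.range m.natDegree).attach,
    C (⟨rsP (W i) ((m.coeff j.1 : M) : K), h5 j.1 j.2⟩ : F) * X ^ j.1 with hr
  have hdeg : r.degree < (m.natDegree : WithBot ℕ) := by
    refine (degree_sum_le _ _).trans_lt ?_
    rw [Finset.sup_lt_iff (WithBot.bot_lt_coe _)]
    intro j _
    refine (degree_C_mul_X_pow_le _ _).trans_lt ?_
    exact_mod_cast Finset.mem_range.1 j.2
  refine ⟨X ^ m.natDegree + r, monic_X_pow_add hdeg, ?_, ?_⟩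
  · refine natDegree_eq_of_degree_eq_some ?_
    rw [degree_add_eq_left_of_degree_lt (by rw [degree_X_pow]; exact hdeg), degree_X_pow]
  have h6 : aeval (rsP (W i) θ) r =
      ∑ j ∈ Finset.range m.natDegree, rsP (W i) (((m.coeff j : M) : K) * θ ^ j) := by
    rw [hr, map_sum, ← Finset.sum_attach (Finset.range m.natDegree)]
    refine Finset.sum_congr rfl fun j _ => ?_
    rw [map_mul, map_pow, aeval_X, aeval_C, rsP_mul (h3 j.1 j.2) (pow_mem h4 _), rsP_pow h4]
    rfl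
  rw [map_add, map_pow, aeval_X, h6, ← rsP_pow h4,
    ← rsP_sum _ _ (fun j hj => mul_mem (h3 j hj) (pow_mem h4 _)),
    ← rsP_add (pow_mem h4 _) (sum_mem fun j hj => mul_mem (h3 j hj) (pow_mem h4 _))]
  have h7 : θ ^ m.natDegree + ∑ j ∈ Finset.range m.natDegree, ((m.coeff j : M) : K) * θ ^ j
      = 0 := by
    have h8 := minpoly.aeval M θ
    rw [← hm, aeval_eq_sum_range, Finset.sum_range_succ, hmm.coeff_natDegree, one_smul,
      add_comm] at h8
    exact h8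
  rw [h7, rsP_zero]

/-- powers of `t - c` are not values of constants. -/
theorem r11_zero {W : ValuationSubring K} {c : K} (h : Bot0 k t s W c) {a : K} (ha : a ∈ k)
    {n : ℤ} (h1 : W.valuation ((t - c) ^ n * a) = 1) : n = 0 := by
  by_cases h0 : t - c = 0
  · by_contra hn
    rw [h0, zero_zpow n hn, zero_mul, map_zero] at h1
    exact zero_ne_one h1
  have hx0 : 0 < W.valuation (t - c) := zero_lt_iff.2 ((Valuation.ne_zero_iff _).2 h0)
  rw [map_mul, map_zpow₀] at h1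
  -- constants of value smaller than one
  have key : ∀ b ∈ k, ∀ m : ℤ, W.valuation (t - c) ^ m * W.valuation b = 1 →
      ¬ W.valuation b < 1 := by
    intro b hb m hm hb1
    have h2 : W.valuation b = W.valuation (t - c) ^ (-m) := by
      rw [zpow_neg]
      exact eq_inv_of_mul_eq_one_right hm
    have h3 := h.inf b hb hb1 (-m).toNat
    rw [h2] at h3
    by_cases hm0 : 0 ≤ -m
    · rw [← zpow_natCast, Int.toNat_of_nonneg hm0] at h3
      exact lt_irrefl _ h3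
    · rw [h2] at hb1
      exact absurd ((zpow_lt_one_iff_right_of_lt_one₀ hx0 h.tc).1 hb1) (by omega)
  rcases lt_trichotomy (W.valuation a) 1 with h2 | h2 | h2
  · exact absurd h2 (key a ha n h1)
  · rw [h2, mul_one] at h1
    exact (zpow_eq_one_iff_right₀ hx0.le h.tc.ne).1 h1
  · exfalso
    refine key a⁻¹ (k.inv_mem ha) (-n) ?_ ?_
    · rw [zpow_neg, map_inv₀, ← mul_inv, h1, inv_one]
    · rw [map_inv₀]
      exact inv_lt_one_of_one_lt₀ h2

/-- units of `k(t, s)` have residues in the residue field of `k(s)`. -/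
theorem r11_res {W : ValuationSubring K} {c : K} (h : Bot0 k t s W c) {z : K}
    (hz : z ∈ adj (adj k s) t) (hzW : z ∈ W) : rsP W z ∈ adj (rbarP k W) (rsP W s) := by
  by_cases h0 : rsP W z = 0
  · rw [h0]
    exact Subfield.zero_mem _
  have h1 : W.valuation z = 1 := (rsP_ne_zero hzW).1 h0
  have hz0 : z ≠ 0 := by
    rintro rfl
    exact h0 rsP_zero
  obtain ⟨m, n, a, ha, ha0, h2, h3⟩ := h.rep z hz hz0
  have h4 : W.valuation ((t - c) ^ n * a) = 1 := by
    rw [mul_assoc, map_mul, map_pow, h1, one_pow, one_mul] at h2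
    exact h2
  have hn := r11_zero h ha h4
  subst hn
  rw [zpow_zero, mul_one] at h2 h3
  rw [zpow_zero, one_mul] at h4
  have haW : a ∈ W := (W.valuation_le_one_iff a).1 h4.le
  have h5 : rsP W (z ^ ringExpChar K ^ m * a) ∈ adj (rbarP k W) (rsP W s) := by
    have h6 : rf W (rs W (z ^ ringExpChar K ^ m * a)) ∈
        (Vale.Agent.P019.adj (rbar k W) (rs W s)).map (rf W) := ⟨_, h3, rfl⟩
    rw [map_adj0] at h6
    exact adj0_le_adj _ _ h6
  rw [rsP_mul (pow_mem hzW _) haW, rsP_pow hzW] at h5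
  have h7 : rsP W a ∈ adj (rbarP k W) (rsP W s) := le_adj _ _ (rsP_mem_rbarP ha haW)
  have h8 : rsP W a ≠ 0 := (rsP_ne_zero haW).2 h4
  have h9 : rsP W z ^ ringExpChar K ^ m =
      rsP W z ^ ringExpChar K ^ m * rsP W a / rsP W a := by
    field_simp
  refine r11_root (m := m) ?_
  rw [h9]
  exact Subfield.div_mem _ h5 h7

/-- the ultraproduct of the residue fields. -/
theorem r11_sup (hu : Ulu U W) (hW : ∀ᶠ i in U, Bot k t s θ (W i) (c i))
    {d : ℕ} (hd : ∀ᶠ i in U, ∃ p : (adj (rbarP k (W i)) (rsP (W i) s))[X],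
      p.Monic ∧ p.natDegree = d ∧ aeval (rsP (W i) θ) p = 0)
    (w : DGm U (fun i => RFP (W i))) :
    w ∈ dF U W k s ⊔ (⊤ : Subfield K).map hu.dj := by
  classical
  obtain ⟨f, rfl⟩ := dgm_surj U _ w
  have h1 : ∀ i, ∃ b : ℕ → RFP (W i), (∀ j, b j ∈ adj (rbarP k (W i)) (rsP (W i) s)) ∧
      ((Bot k t s θ (W i) (c i)) → (∃ p : (adj (rbarP k (W i)) (rsP (W i) s))[X],
      p.Monic ∧ p.natDegree = d ∧ aeval (rsP (W i) θ) p = 0) →
      f i = ∑ j ∈ Finset.range d, b j * rsP (W i) θ ^ j) := by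
    intro i
    by_cases hi : (Bot k t s θ (W i) (c i)) ∧ (∃ p : (adj (rbarP k (W i)) (rsP (W i) s))[X],
      p.Monic ∧ p.natDegree = d ∧ aeval (rsP (W i) θ) p = 0)
    · obtain ⟨hb, p, hp, rfl, h0⟩ := hi
      obtain ⟨b, hb1, hb2⟩ := r11_poly hp h0 (r11_gen hb (f i))
      exact ⟨b, hb1, fun _ _ => hb2⟩
    · exact ⟨fun _ => 0, fun _ => Subfield.zero_mem _, fun h2 h3 => absurd ⟨h2, h3⟩ hi⟩
  choose b hb hbf using h1
  have h2 : dgm U _ f = ∑ j ∈ Finset.range d,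
      dgm U (fun i => RFP (W i)) (fun i => b i j) * hu.dj θ ^ j := by
    have h3 : dgm U _ f = dgm U (fun i => RFP (W i))
        (fun i => ∑ j ∈ Finset.range d, b i j * rsP (W i) θ ^ j) := by
      rw [dgm_eq]
      filter_upwards [hW, hd] with i h4 h5
      exact hbf i h4 h5
    rw [h3, dgm_sum (Finset.range d) (fun j i => b i j * rsP (W i) θ ^ j)]
    refine Finset.sum_congr rfl fun j _ => ?_
    rw [dgm_mul, dgm_pow]
    rfl
  rw [h2]
  refine Subfield.sum_mem _ fun j _ => Subfield.mul_mem _ ?_ ?_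
  · exact (le_sup_left : dF U W k s ≤ _) ⟨_, rfl, fun i => hb i j⟩
  · refine (le_sup_right : (⊤ : Subfield K).map hu.dj ≤ _) ?_
    rw [← map_pow]
    exact ⟨_, Subfield.mem_top _, rfl⟩

end fam

variable {K : Type*} [Field K] [PerfectField K] {k : Subfield K} {t s θ : K}
  {I : Type*} {U : Ultrafilter I} {W : I → ValuationSubring K} {c : I → K}

theorem bot_mem {ℓ : ℕ} [Fact ℓ.Prime] [NeZero (ℓ : K)] (hk : IsAlgClosed k)
    (hfg : FG k (⊤ : Subfield K)) (ht : Good k t) (hS : Srf k t s)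
    (hW : ∀ᶠ i in U, Bot k t s θ (W i) (c i)) (hu : Ulu U W) {v : V ℓ K} (hv : ∀ᶠ i in U, v ∈ U1 ℓ (W i)) : v ∈ VS ℓ (adj k t) := by
  classical
  set D := DGm U (fun i => RFP (W i)) with hD
  obtain ⟨z, hz0, rfl⟩ := cl_surj ℓ v
  obtain ⟨w, hw⟩ := (hu.dj_root hz0).2 hv
  obtain ⟨d, hd⟩ := r11_red (s := s) (k := k) hu (hS.alg θ)
    (hW.mono fun i hi z hz hzW => r11_res hi.toBot0 hz hzW)
  have hsup := r11_sup hu hW hd w
  -- everything in an algebraically closed field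
  let ι : D →+* AlgebraicClosure D := algebraMap D (AlgebraicClosure D)
  let j : K →+* AlgebraicClosure D := ι.comp hu.dj
  have hjι : ∀ x, j x = ι (hu.dj x) := fun x => rfl
  haveI : PerfectField k := inferInstance
  haveI : PerfectField (adj k t) := perfect_adj _ _
  haveI hdR := dR_ac (U := U) (O := W) hk
  haveI : PerfectField (dR U W k) := inferInstance
  haveI : NeZero (ℓ : AlgebraicClosure D) := ⟨by
    rw [← map_natCast j, Ne, map_eq_zero]
    exact NeZero.ne (ℓ : K)⟩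
  -- `t` is a constant of the limit
  have htR : hu.dj t ∈ dR U W k := by
    rw [hu.dj_mem_dR]
    refine ⟨fun i => if c i ∈ k then c i else 0, fun i => ?_, ?_⟩
    · dsimp only
      split_ifs with h
      · exact h
      · exact k.zero_mem
    · filter_upwards [hW] with i hi
      rw [if_pos hi.ck]
      exact hi.tc
  have hER0 : (adj k t).map hu.dj ≤ dR U W k :=
    (map_adj_le hu.dj k t).trans (adj_le (hu.map_le k) htR)
  have hst : ∀ᶠ i in U, ¬ IsAlgebraic (rbarP k (W i)) (rsP (W i) s) := by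
    filter_upwards [hW] with i hi h
    exact hi.sb (rf_mem_rbarP.1 (RAC_of_isAlgClosed _ (rbarP_ac hk (W i)) _ h))
  haveI : PerfectField ((adj k t).map j) := perfect_map j _
  haveI : PerfectField ((⊤ : Subfield K).map j) := perfect_map j _
  obtain ⟨ζ, hζk, hζ⟩ := finK_prim hk ℓ
  have hadj : adj ((dR U W k).map ι) (ι (hu.dj s)) = (adj (dR U W k) (hu.dj s)).map ι :=
    le_antisymm (adj_map_le ι _ _) (map_adj_le ι _ _)
  have halg : ∀ x : K, IsAlgebraic (adj ((adj k t).map j) (j s)) (j x) := by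
    intro x
    have h1 : IsAlgebraic (adj (adj k t) s) x := adj_comm_alg (hS.alg x)
    exact isAlgebraic_mono (map_adj_le j _ _) (isAlgebraic_map j h1)
  have key := ld_pow (Ω := AlgebraicClosure D) ℓ (E := (adj k t).map j)
    (K := (⊤ : Subfield K).map j) (R := (dR U W k).map ι) (F := (dF U W k s).map ι)
    (sub_map_mono j le_top) ?_ (isAlgClosed_map ι hdR) ?_ (ζ := j ζ) ⟨ζ, le_adj k t hζk, rfl⟩
    (hζ.map_of_injective j.injective) (s := j s) ⟨s, Subfield.mem_top s, rfl⟩ ?_ ?_ ?_ ?_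
    (w := ι w) (z := j z) ?_ ⟨z, Subfield.mem_top z, rfl⟩ ?_ ?_
  · obtain ⟨_, ⟨e, he, rfl⟩, _, ⟨u, -, rfl⟩, h1⟩ := key
    rw [← map_pow, ← map_mul] at h1
    have h2 := j.injective h1
    have he0 : e ≠ 0 := by
      rintro rfl
      rw [zero_mul] at h2
      exact hz0 h2
    have hu0 : u ≠ 0 := by
      rintro rfl
      rw [zero_pow (Fact.out : ℓ.Prime).ne_zero, mul_zero] at h2
      exact hz0 h2
    have h3 : cl ℓ z = cl ℓ e := (cl_eq_iff ℓ hz0 he0).2 ⟨u, hu0, h2⟩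
    rw [h3]
    exact cl_mem_VS he
  · rintro _ ⟨x, hx, rfl⟩
    exact ⟨hu.dj x, hER0 ⟨x, hx, rfl⟩, rfl⟩
  · rintro _ ⟨x, -, rfl⟩ hx
    exact ⟨x, ht.2 x (isAlgebraic_of_map j hx), rfl⟩
  · intro h1
    exact hu.dj_transc hst (isAlgebraic_of_map ι h1)
  · rintro _ ⟨x, -, rfl⟩
    exact halg x
  · rw [hjι, hadj]
    exact sub_map_mono ι hu.adj_le_dF
  · rintro _ ⟨x, hx, rfl⟩ h1
    rw [hjι, hadj] at h1 ⊢
    exact ⟨x, hu.dF_rac hst x hx (isAlgebraic_of_map ι h1), rfl⟩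
  · have h1 : ι w ∈ (dF U W k s ⊔ (⊤ : Subfield K).map hu.dj).map ι := ⟨w, hsup, rfl⟩
    rw [Subfield.map_sup, Subfield.map_map, sup_comm] at h1
    exact h1
  · rw [Ne, map_eq_zero]
    exact hz0
  · rw [← map_pow, hw]
    rfl

end Vale.Agent.P019P
end
end

section

section

/-!
# Bottom valuations are unramified at almost all members
-/

namespace Vale.Agent.P019P

open Vale.Agent.P019

set_option linter.style.haveILetI false
set_option linter.unusedSectionVars false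
set_option linter.unusedVariables false

open Polynomial Filter

section aux

/-- degrees over the image of a field. -/
theorem r10_map_ge {K Ω : Type*} [Field K] [Field Ω] (j : K →+* Ω) {E : Subfield K} {w : K}
    (hw : IsAlgebraic E w) :
    (minpoly E w).natDegree ≤ (minpoly (E.map j) (j w)).natDegree := by
  let e0 : E →+* E.map j := (j.comp E.subtype).codRestrict (E.map j) fun x => ⟨x, x.2, rfl⟩
  have he0 : Function.Surjective e0 := by
    rintro ⟨_, x, hx, rfl⟩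
    exact ⟨⟨x, hx⟩, rfl⟩
  let e : E ≃+* E.map j := RingEquiv.ofBijective e0 ⟨e0.injective, he0⟩
  have hint : IsIntegral (E.map j) (j w) := (isAlgebraic_map j hw).isIntegral
  set P := (minpoly (E.map j) (j w)).map (e.symm : E.map j →+* E) with hP
  have h1 : aeval w P = 0 := by
    apply j.injective
    rw [map_zero, ← minpoly.aeval (E.map j) (j w), aeval_def, hP, eval₂_map, hom_eval₂,
      aeval_def]
    congr 1
    ext x
    obtain ⟨y, rfl⟩ := e.surjective x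
    simp only [RingHom.coe_comp, Function.comp_apply, RingHom.coe_coe, RingEquiv.symm_apply_apply]
    rfl
  have h2 : P ≠ 0 := ((minpoly.monic hint).map _).ne_zero
  have h3 := natDegree_le_of_dvd (minpoly.dvd E w h1) h2
  rwa [hP, natDegree_map] at h3

theorem r10_mono {Ω : Type*} [Field Ω] {E M : Subfield Ω} (h : E ≤ M) {w : Ω}
    (hw : IsAlgebraic E w) : (minpoly M w).natDegree ≤ (minpoly E w).natDegree :=
  natDegree_minpoly_map_le (RingHom.id Ω) (E := E) (M := M) (by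
    rintro _ ⟨x, hx, rfl⟩
    exact h hx) hw

/-- a relation of small degree vanishes. -/
theorem r10_indep {Ω : Type*} [Field Ω] {A : Subfield Ω} {θ : Ω} {d : ℕ}
    (hd : d ≤ (minpoly A θ).natDegree) {a : ℕ → Ω} (ha : ∀ j, a j ∈ A) {j₀ : ℕ} (hj₀ : j₀ < d)
    (h0 : a j₀ ≠ 0) : ∑ j ∈ Finset.range d, a j * θ ^ j ≠ 0 := by
  intro h
  obtain ⟨H, rfl⟩ : ∃ H, d = H + 1 := ⟨d - 1, by omega⟩
  rw [← aeval_mkPol (hα := ha)] at h
  have h1 : mkPol A H a ha ≠ 0 := by
    intro h2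
    have h3 := congrArg (fun p => ((p.coeff j₀ : A) : Ω)) h2
    simp only [coeff_zero] at h3
    rw [coeff_mkPol (Nat.lt_succ_iff.1 hj₀)] at h3
    exact h0 h3
  have h2 := natDegree_le_of_dvd (minpoly.dvd A θ h) h1
  have h3 : (mkPol A H a ha).natDegree ≤ H := natDegree_mkPol
  omega

end aux

variable {K : Type*} [Field K] [PerfectField K] {k : Subfield K} {t s θ : K}
  {I : Type*} {U : Ultrafilter I} {W : I → ValuationSubring K} {c : I → K}

/-- the degree of `θ` does not drop. -/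
theorem r10_deg (hk : IsAlgClosed k) (ht : Good k t) (hS : Srf k t s)
    (hW : ∀ᶠ i in U, Bot0 k t s (W i) (c i)) (hu : Ulu U W) (θ : K) :
    ∀ᶠ i in U, (minpoly (adj (adj k s) t) θ).natDegree ≤
      (minpoly (adj (rbarP k (W i)) (rsP (W i) s)) (rsP (W i) θ)).natDegree := by
  classical
  set d := (minpoly (adj (adj k s) t) θ).natDegree with hd
  have hd0 : 0 < d := minpoly.natDegree_pos (hS.alg θ).isIntegral
  by_contra hcon
  rw [← Ultrafilter.eventually_not] at hcon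
  set D := DGm U (fun i => RFP (W i)) with hD
  have hred := bot_red hk hS hW hu θ
  haveI : PerfectField k := inferInstance
  haveI : PerfectField (adj k t) := perfect_adj _ _
  haveI hdR := dR_ac (U := U) (O := W) hk
  haveI : PerfectField (dR U W k) := inferInstance
  -- `t` is a constant of the limit
  have htR : hu.dj t ∈ dR U W k := by
    rw [hu.dj_mem_dR]
    refine ⟨fun i => if c i ∈ k then c i else 0, fun i => ?_, ?_⟩
    · dsimp only
      split_ifs with h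
      · exact h
      · exact k.zero_mem
    · filter_upwards [hW] with i hi
      rw [if_pos hi.ck]
      exact hi.tc
  have hER : (adj k t).map hu.dj ≤ dR U W k :=
    (map_adj_le hu.dj k t).trans (adj_le (hu.map_le k) htR)
  have hst : ∀ᶠ i in U, ¬ IsAlgebraic (rbarP k (W i)) (rsP (W i) s) :=
    hW.mono fun i hi => hi.transc hk
  haveI : PerfectField ((adj k t).map hu.dj) := perfect_map hu.dj _
  haveI : PerfectField ((⊤ : Subfield K).map hu.dj) := perfect_map hu.dj _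
  have halg : ∀ x : K, IsAlgebraic (adj (adj k t) s) x := fun x => adj_comm_alg (hS.alg x)
  have halg' : ∀ x : K, IsAlgebraic (adj ((adj k t).map hu.dj) (hu.dj s)) (hu.dj x) := fun x =>
    isAlgebraic_mono (map_adj_le hu.dj _ _) (isAlgebraic_map hu.dj (halg x))
  have h1 : d ≤ (minpoly ((adj (adj k t) s).map hu.dj) (hu.dj θ)).natDegree := by
    rw [hd, adj_comm k s t]
    exact r10_map_ge hu.dj (halg θ)
  have h2 : (minpoly ((adj (adj k t) s).map hu.dj) (hu.dj θ)).natDegree ≤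
      (minpoly (adj ((adj k t).map hu.dj) (hu.dj s)) (hu.dj θ)).natDegree :=
    r10_mono (adj_map_le hu.dj _ _) (halg' θ)
  have h3 : (minpoly (adj ((adj k t).map hu.dj) (hu.dj s)) (hu.dj θ)).natDegree ≤
      (minpoly (adj (dR U W k) (hu.dj s)) (hu.dj θ)).natDegree := by
    refine ld_deg (Ω := D) (E := (adj k t).map hu.dj) (K := (⊤ : Subfield K).map hu.dj)
      (R := dR U W k) (sub_map_mono hu.dj le_top) hER hdR ?_ (s := hu.dj s)
      ⟨s, Subfield.mem_top s, rfl⟩ (hu.dj_transc hst) ?_ ⟨θ, Subfield.mem_top θ, rfl⟩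
    · rintro _ ⟨x, -, rfl⟩ hx
      exact ⟨x, ht.2 x (isAlgebraic_of_map hu.dj hx), rfl⟩
    · rintro _ ⟨x, -, rfl⟩
      exact halg' x
  have halgR : IsAlgebraic (adj (dR U W k) (hu.dj s)) (hu.dj θ) :=
    isAlgebraic_mono (adj_mono hER _) (halg' θ)
  have h4 : (minpoly (adj (dR U W k) (hu.dj s)) (hu.dj θ)).natDegree ≤
      (minpoly (dF U W k s) (hu.dj θ)).natDegree :=
    ul1_natDegree hu.adj_le_dF (hu.dF_rac hst) halgR
  -- the small relation
  have hle : d ≤ (minpoly (dF U W k s) (hu.dj θ)).natDegree := h1.trans (h2.trans (h3.trans h4))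
  let a : ℕ → (∀ i, RFP (W i)) := fun j i =>
    (((minpoly (adj (rbarP k (W i)) (rsP (W i) s)) (rsP (W i) θ)).coeff j :
      adj (rbarP k (W i)) (rsP (W i) s)) : RFP (W i))
  have haF : ∀ j, dgm U (fun i => RFP (W i)) (a j) ∈ dF U W k s := fun j =>
    ⟨a j, rfl, fun i => ((minpoly (adj (rbarP k (W i)) (rsP (W i) s)) (rsP (W i) θ)).coeff j).2⟩
  have hsum : ∑ j ∈ Finset.range d, dgm U (fun i => RFP (W i)) (a j) * hu.dj θ ^ j = 0 := by
    have h5 : ∑ j ∈ Finset.range d, dgm U (fun i => RFP (W i)) (a j) * hu.dj θ ^ j =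
        dgm U (fun i => RFP (W i)) (fun i => ∑ j ∈ Finset.range d, a j i * rsP (W i) θ ^ j) := by
      rw [dgm_sum (Finset.range d) (fun j i => a j i * rsP (W i) θ ^ j)]
      refine Finset.sum_congr rfl fun j _ => ?_
      rw [dgm_mul, dgm_pow]
      rfl
    rw [h5, dgm_eq_zero]
    filter_upwards [hcon] with i hi
    have h6 := minpoly.aeval (adj (rbarP k (W i)) (rsP (W i) s)) (rsP (W i) θ)
    rw [aeval_eq_sum_range' (not_le.1 hi)] at h6
    exact h6
  have hne : ∃ j₀ < d, dgm U (fun i => RFP (W i)) (a j₀) ≠ 0 := by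
    by_contra h5
    push Not at h5
    have h6 : ∀ᶠ i in U, ∀ j ∈ Finset.range d, a j i = 0 := by
      rw [Filter.eventually_all_finset]
      intro j hj
      exact dgm_eq_zero.1 (h5 j (Finset.mem_range.1 hj))
    obtain ⟨i, hi1, hi2, hi3⟩ := (h6.and (hcon.and hred)).exists
    have h7 := hi1 _ (Finset.mem_range.2 (not_le.1 hi2))
    change (((minpoly (adj (rbarP k (W i)) (rsP (W i) s)) (rsP (W i) θ)).coeff _ :
      adj (rbarP k (W i)) (rsP (W i) s)) : RFP (W i)) = 0 at h7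
    rw [coeff_natDegree, (minpoly.monic hi3.1.isIntegral).leadingCoeff] at h7
    exact one_ne_zero h7
  obtain ⟨j₀, hj₀, h5⟩ := hne
  exact r10_indep hle haF hj₀ h5 hsum

/-- residues of the elements of `k(s, t)`. -/
theorem PBot.res_mem0 {W : ValuationSubring K} {c : K} (hk : IsAlgClosed k)
    (h : PBot k t s W c) {z : K} (hz : z ∈ adj (adj k s) t) (hzW : z ∈ W) :
    ∃ m : ℕ, rs W z ^ ringExpChar K ^ m ∈ Vale.Agent.P019.adj (rbar k W) (rs W s) := by
  by_cases hz1 : W.valuation z = 1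
  · have hz0 : z ≠ 0 := by rintro rfl; rw [map_zero] at hz1; exact zero_ne_one hz1
    obtain ⟨m, n, a, ha, ha0, h1, h2⟩ := h.rep hk hz hz0
    have h3 : W.valuation (a * (t - c) ^ n) = 1 := by
      rw [map_mul, map_mul, map_pow, hz1, one_pow, one_mul] at h1
      rw [map_mul, mul_comm]
      exact h1
    obtain ⟨hn, hva⟩ := h.inf' ha ha0 h3
    rw [hn, zpow_zero, mul_one, rs_mul (pow_mem hzW _) (mem_of_val hva), rs_pow hzW] at h2
    refine ⟨m, ?_⟩
    have h5 : rs W a ≠ 0 := (rs_ne_zero (mem_of_val hva)).2 hva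
    have h6 := Subfield.div_mem _ h2
      (Vale.Agent.P019.le_adj _ (rs W s) (rs_mem_rbar ha (mem_of_val hva)))
    rwa [mul_div_cancel_right₀ _ h5] at h6
  · have h1 : W.valuation z < 1 := lt_of_le_of_ne ((W.valuation_le_one_iff z).2 hzW) hz1
    refine ⟨0, ?_⟩
    rw [(rs_eq_zero hzW).2 h1, pow_zero, pow_one]
    exact Subfield.zero_mem _

/-- powers of sums in the residue field. -/
theorem r10_sum_pow {W : ValuationSubring K} {ι : Type*} (S : Finset ι)
    (f : ι → IsLocalRing.ResidueField W) (m : ℕ) :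
    (∑ i ∈ S, f i) ^ ringExpChar K ^ m = ∑ i ∈ S, f i ^ ringExpChar K ^ m := by
  rcases expChar_is_prime_or_one K (ringExpChar K) with h | h
  · have h1 : ((ringExpChar K : ℕ) : IsLocalRing.ResidueField W) = 0 := by
      rw [← rs_natCast, natCast_expChar_eq_zero K _ h, rs_zero]
    haveI : CharP (IsLocalRing.ResidueField W) (ringExpChar K) :=
      (CharP.charP_iff_prime_eq_zero h).2 h1
    haveI : ExpChar (IsLocalRing.ResidueField W) (ringExpChar K) := ExpChar.prime h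
    exact sum_pow_char_pow _ _ _ _
  · rw [h, one_pow]
    simp only [pow_one]

/-- values of the elements of the field. -/
theorem r10_val {W : ValuationSubring K} {c : K} (hk : IsAlgClosed k) (h : PBot k t s W c)
    (hθW : θ ∈ W) {d : ℕ}
    (hd : d ≤ (minpoly (adj (rbarP k W) (rsP W s)) (rsP W θ)).natDegree) {b : ℕ → K}
    (hb : ∀ j, b j ∈ adj (adj k s) t) (hz : ∑ j ∈ Finset.range d, b j * θ ^ j ≠ 0) :
    ∃ j₀, b j₀ ≠ 0 ∧ (∀ j ∈ Finset.range d, W.valuation (b j) ≤ W.valuation (b j₀)) ∧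
      W.valuation (∑ j ∈ Finset.range d, b j * θ ^ j) = W.valuation (b j₀) := by
  classical
  obtain ⟨j₁, hj₁, hbj₁⟩ : ∃ j ∈ Finset.range d, b j ≠ 0 := by
    by_contra hcon
    push Not at hcon
    exact hz (Finset.sum_eq_zero fun j hj => by rw [hcon j hj, zero_mul])
  obtain ⟨j₀, hj₀, hmax⟩ := (Finset.range d).exists_max_image (fun j => W.valuation (b j))
    ⟨j₁, hj₁⟩
  have hv1 : 0 < W.valuation (b j₁) := zero_lt_iff.2 ((Valuation.ne_zero_iff _).2 hbj₁)
  have hv0 : 0 < W.valuation (b j₀) := hv1.trans_le (hmax j₁ hj₁)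
  have hb0 : b j₀ ≠ 0 := (Valuation.ne_zero_iff W.valuation).1 hv0.ne'
  refine ⟨j₀, hb0, hmax, ?_⟩
  have he : ∀ j ∈ Finset.range d, b j / b j₀ ∈ W := by
    intro j hj
    rw [← W.valuation_le_one_iff, map_div₀]
    exact (div_le_one₀ hv0).2 (hmax j hj)
  have h1 : (∑ j ∈ Finset.range d, b j * θ ^ j) / b j₀ =
      ∑ j ∈ Finset.range d, b j / b j₀ * θ ^ j := by
    rw [Finset.sum_div]
    refine Finset.sum_congr rfl fun j _ => ?_
    rw [div_mul_eq_mul_div]
  have hmem : ∀ j ∈ Finset.range d, b j / b j₀ * θ ^ j ∈ W := fun j hj =>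
    mul_mem (he j hj) (pow_mem hθW j)
  let a : ℕ → RFP W := fun j => if j ∈ Finset.range d then rsP W (b j / b j₀) else 0
  have ha : ∀ j, a j ∈ adj (rbarP k W) (rsP W s) := by
    intro j
    by_cases hj : j ∈ Finset.range d
    · simp only [a, if_pos hj]
      exact h.res_mem hk (Subfield.div_mem _ (hb j) (hb j₀)) (he j hj)
    · simp only [a, if_neg hj]
      exact Subfield.zero_mem _
  have h2 : rsP W (∑ j ∈ Finset.range d, b j / b j₀ * θ ^ j) =
      ∑ j ∈ Finset.range d, a j * rsP W θ ^ j := by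
    rw [rsP_sum _ _ hmem]
    refine Finset.sum_congr rfl fun j hj => ?_
    rw [rsP_mul (he j hj) (pow_mem hθW j), rsP_pow hθW]
    simp only [a, if_pos hj]
  have h3 : rsP W (∑ j ∈ Finset.range d, b j / b j₀ * θ ^ j) ≠ 0 := by
    rw [h2]
    refine r10_indep hd ha (Finset.mem_range.1 hj₀) ?_
    simp only [a, if_pos hj₀]
    rw [div_self hb0, rsP_one]
    exact one_ne_zero
  rw [rsP_ne_zero (sum_mem hmem), ← h1, map_div₀, div_eq_one_iff_eq hv0.ne'] at h3
  exact h3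

/-- bottom valuations with a generator of the residue field. -/
theorem r10_bot {W : ValuationSubring K} {c : K} (hk : IsAlgClosed k) (h : Bot0 k t s W c)
    (hθW : θ ∈ W) {d : ℕ}
    (hd : d ≤ (minpoly (adj (rbarP k W) (rsP W s)) (rsP W θ)).natDegree)
    (hθ : ∀ z : K, ∃ b : ℕ → K, (∀ j, b j ∈ adj (adj k s) t) ∧
      z = ∑ j ∈ Finset.range d, b j * θ ^ j) : Bot k t s θ W c := by
  classical
  have hp := h.pbot
  refine { h with repT := fun z hz => ?_, θW := hθW, gen := fun y => ?_ }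
  · obtain ⟨b, hb, rfl⟩ := hθ z
    obtain ⟨j₀, hb0, -, hv⟩ := r10_val hk hp hθW hd hb hz
    obtain ⟨m, n, a, ha, ha0, h1, -⟩ := hp.rep hk (hb j₀) hb0
    refine ⟨m, n, a, ha, ha0, ?_⟩
    rw [map_mul, map_mul, map_pow, hv, ← map_pow, ← map_mul, ← map_mul]
    exact h1
  · obtain ⟨z, hzW, rfl⟩ := rs_surj y
    by_cases hz : z = 0
    · refine ⟨0, ?_⟩
      rw [hz, rs_zero, pow_zero, pow_one]
      exact Subfield.zero_mem _
    obtain ⟨b, hb, hzb⟩ := hθ z
    have hz' : ∑ j ∈ Finset.range d, b j * θ ^ j ≠ 0 := hzb ▸ hz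
    obtain ⟨j₀, hb0, hmax, hv⟩ := r10_val hk hp hθW hd hb hz'
    have hbW : ∀ j ∈ Finset.range d, b j ∈ W := by
      intro j hj
      rw [← W.valuation_le_one_iff]
      refine (hmax j hj).trans ?_
      rw [← hv, ← hzb]
      exact (W.valuation_le_one_iff z).2 hzW
    have h1 : ∀ j, ∃ m : ℕ, j ∈ Finset.range d →
        rs W (b j) ^ ringExpChar K ^ m ∈ Vale.Agent.P019.adj (rbar k W) (rs W s) := by
      intro j
      by_cases hj : j ∈ Finset.range d
      · obtain ⟨m, hm⟩ := hp.res_mem0 hk (hb j) (hbW j hj)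
        exact ⟨m, fun _ => hm⟩
      · exact ⟨0, fun h' => absurd h' hj⟩
    choose m hm using h1
    refine ⟨(Finset.range d).sup m, ?_⟩
    have h2 : rs W z = ∑ j ∈ Finset.range d, rs W (b j) * rs W θ ^ j := by
      rw [hzb, rs_sum' _ _ fun j hj => mul_mem (hbW j hj) (pow_mem hθW j)]
      refine Finset.sum_congr rfl fun j hj => ?_
      rw [rs_mul (hbW j hj) (pow_mem hθW j), rs_pow hθW]
    rw [h2, r10_sum_pow]
    refine sum_mem fun j hj => ?_
    rw [mul_pow]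
    refine mul_mem (Vale.Agent.P019.le_adj _ _ ?_)
      (pow_mem (pow_mem (Vale.Agent.P019.mem_adj _ _) _) _)
    obtain ⟨r, hr⟩ := Nat.exists_eq_add_of_le (Finset.le_sup (f := m) hj)
    rw [hr, pow_add, pow_mul]
    exact pow_mem (hm j hj) _

theorem exists_botT (hk : IsAlgClosed k) (hfg : FG k (⊤ : Subfield K)) (ht : Good k t)
    (hS : Srf k t s) (hW : ∀ i, Bot0 k t s (W i) (c i)) (hu : Ulu U W) :
    ∃ θ : K, ∀ᶠ i in U, Bot k t s θ (W i) (c i) := by
  haveI : PerfectField (adj (adj k s) t) := perfect_adj _ _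
  obtain ⟨θ, hθ⟩ := exists_prim ((le_adj k s).trans (le_adj _ t)) hfg hS.alg
  have hint : IsIntegral (adj (adj k s) t) θ := (hS.alg θ).isIntegral
  refine ⟨θ, ?_⟩
  have hW' : ∀ᶠ i in U, Bot0 k t s (W i) (c i) := Eventually.of_forall hW
  filter_upwards [hW', hu.mem θ, r10_deg hk ht hS hW' hu θ] with i h1 h2 h3
  exact r10_bot hk h1 h2 h3 fun z =>
    r11_poly (minpoly.monic hint) (minpoly.aeval _ _) (adj0_le_adj _ _ (hθ z))

end Vale.Agent.P019P
end
end

section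

section

/-!
# Bounded relations with a Frobenius twist
-/

namespace Vale.Agent.P019P

open Vale.Agent.P019

set_option linter.style.haveILetI false
set_option linter.unusedSectionVars false

open Polynomial Filter

section e3t

variable {κ : Type*} [Field κ] {l : Subfield κ}

/-- the degree of the swapped polynomial. -/
theorem e3t_swap_le {R : Type*} [CommRing R] {Φ : R[X][X]} {b : ℕ} :
    (Bivariate.swap Φ).natDegree ≤ b ↔ ∀ j, (Φ.coeff j).natDegree ≤ b := by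
  constructor
  · intro h j
    rw [natDegree_le_iff_coeff_eq_zero]
    intro i hi
    rw [← urel_coeff_swap, coeff_eq_zero_of_natDegree_lt (lt_of_le_of_lt h hi), coeff_zero]
  · intro h
    rw [natDegree_le_iff_coeff_eq_zero]
    intro i hi
    ext j
    rw [urel_coeff_swap, coeff_eq_zero_of_natDegree_lt (lt_of_le_of_lt (h j) hi), coeff_zero]

/-- contraction of an irreducible polynomial with vanishing derivative. -/
theorem e3t_contract {R : Type*} [CommRing R] [IsDomain R] (p : ℕ) [ExpChar R p]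
    {Φ : R[X][X]} (hΦ : Irreducible Φ) (h0 : Φ.natDegree ≠ 0) (hd : derivative Φ = 0) :
    ∃ Ψ : R[X][X], Irreducible Ψ ∧ expand R[X] p Ψ = Φ ∧ Ψ.natDegree < Φ.natDegree ∧
      (Bivariate.swap Ψ).natDegree ≤ (Bivariate.swap Φ).natDegree := by
  haveI : ExpChar R[X] p := inferInstance
  have h1 := expand_contract' (p := p) hd
  have hp0 : p ≠ 0 := (expChar_pos R p).ne'
  refine ⟨contract p Φ, ?_, h1, ?_, ?_⟩
  · rw [← h1] at hΦ
    exact of_irreducible_expand hp0 hΦ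
  · have h2 : Φ.natDegree = (contract p Φ).natDegree * p := by
      conv_lhs => rw [← h1]
      exact natDegree_expand p _
    have h3 : (contract p Φ).natDegree ≠ 0 := by
      intro h
      rw [h, zero_mul] at h2
      exact h0 h2
    have h4 : 2 ≤ p := by
      rcases (inferInstance : ExpChar R p) with _ | ⟨hprime⟩
      · exact (h0 (derivative_eq_zero.1 hd)).elim
      · exact hprime.two_le
    have h5 := Nat.mul_le_mul_left (contract p Φ).natDegree h4
    omega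
  · rw [e3t_swap_le]
    intro j
    rw [coeff_contract hp0]
    exact e3t_swap_le.1 le_rfl _

theorem e3t_eval_expand (p : ℕ) (x y : κ) (Ψ : l[X][X]) :
    aevalAeval x y (expand l[X] p Ψ) = aevalAeval x (y ^ p) Ψ := by
  rw [urel_eval, urel_eval, expand_eq_comp_X_pow, eval₂_comp, eval₂_X_pow]

/-- the Frobenius twist of the evaluation -/
theorem e3t_eval_frob (p : ℕ) [ExpChar κ p] [ExpChar l p] (x y : κ) (Ψ : l[X][X]) :
    aevalAeval (x ^ p) (y ^ p) (Ψ.map (mapRingHom (frobenius l p))) =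
      (aevalAeval x y Ψ) ^ p := by
  induction Ψ using Polynomial.induction_on' with
  | add f g hf hg => rw [Polynomial.map_add, map_add, hf, hg, map_add, add_pow_expChar]
  | monomial n a =>
    rw [map_monomial, urel_eval, urel_eval, eval₂_monomial, eval₂_monomial, mul_pow]
    congr 1
    · induction a using Polynomial.induction_on' with
      | add f g hf hg =>
        rw [map_add, map_add, hf, hg, map_add, add_pow_expChar]
      | monomial m b =>
        rw [coe_mapRingHom, map_monomial, RingHom.coe_coe, RingHom.coe_coe, aeval_monomial,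
          aeval_monomial, mul_pow]
        congr 1
        ring
    · ring

/-- the p-th root of the coefficients -/
theorem e3t_root (p : ℕ) [ExpChar κ p] [ExpChar l p] [PerfectRing l p] {x y : κ}
    {Ψ : l[X][X]} (hΨ : Irreducible Ψ) (h0 : aevalAeval (x ^ p) (y ^ p) Ψ = 0) :
    ∃ Ψ' : l[X][X], Irreducible Ψ' ∧ aevalAeval x y Ψ' = 0 ∧ Ψ'.natDegree = Ψ.natDegree ∧
      (Bivariate.swap Ψ').natDegree ≤ (Bivariate.swap Ψ).natDegree := by
  let e : l[X] ≃+* l[X] := Polynomial.mapEquiv (frobeniusEquiv l p).symm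
  have he : (mapRingHom (frobenius l p)).comp (e : l[X] →+* l[X]) = RingHom.id _ := by
    ext a
    · simp [e]
    · simp [e]
  refine ⟨Ψ.map (e : l[X] →+* l[X]), ?_, ?_, ?_, ?_⟩
  · exact (MulEquiv.irreducible_iff (Polynomial.mapEquiv e)).2 hΨ
  · have h1 := e3t_eval_frob p x y (Ψ.map (e : l[X] →+* l[X]))
    rw [Polynomial.map_map, he, Polynomial.map_id, h0] at h1
    exact pow_eq_zero_iff (expChar_pos l p).ne' |>.1 h1.symm
  · exact natDegree_map_eq_of_injective e.injective _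
  · rw [e3t_swap_le]
    intro j
    rw [coeff_map]
    have h2 : ((e : l[X] →+* l[X]) (Ψ.coeff j)).natDegree ≤ (Ψ.coeff j).natDegree :=
      natDegree_map_le
    exact h2.trans (e3t_swap_le.1 le_rfl j)

theorem e3t_natDegree {X Y : κ} (hX : ¬ IsAlgebraic l X) {Φ : l[X][X]} (hΦ : Irreducible Φ)
    (h0 : aevalAeval X Y Φ = 0) : Φ.natDegree ≠ 0 := by
  intro h
  obtain ⟨a, ha⟩ := natDegree_eq_zero.1 h
  rw [← ha, aevalAeval_C] at h0
  have ha0 : a ≠ 0 := by
    rintro rfl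
    rw [C_0] at ha
    exact hΦ.ne_zero ha.symm
  exact hX ⟨a, ha0, h0⟩

theorem e3t_adj_pow [PerfectField κ] (E : Subfield κ) (t : κ) (n : ℕ) :
    adj E (t ^ (ringExpChar κ) ^ n) = adj E t := by
  apply le_antisymm
  · exact adj_le (le_adj E t) ((adj E t).pow_mem (mem_adj E t) _)
  · exact adj_le (le_adj E _) (mem_of_pow_q (n := n) (mem_adj E _))

/-- the main induction -/
theorem e3t_main [PerfectField κ] (hl : IsAlgClosed l) (N : ℕ) :
    ∀ (X Y : κ) (Φ : l[X][X]), ¬ IsAlgebraic l X → ¬ IsAlgebraic l Y → Irreducible Φ →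
      aevalAeval X Y Φ = 0 → Φ.natDegree + (Bivariate.swap Φ).natDegree ≤ N →
      ∃ (i j : ℕ) (σ : κ), σ ^ (ringExpChar κ) ^ i = Y ^ (ringExpChar κ) ^ j ∧
        IsSeparable (Vale.Agent.P019.adj l X) σ ∧ IsSeparable (Vale.Agent.P019.adj l σ) X := by
  induction N with
  | zero =>
    intro X Y Φ hX hY hΦ h0 hN
    exact (e3t_natDegree hX hΦ h0 (by omega)).elim
  | succ N ih =>
    intro X Y Φ hX hY hΦ h0 hN
    haveI : PerfectRing l (ringExpChar κ) := PerfectField.toPerfectRing _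
    have hΦ' : Irreducible (Bivariate.swap Φ) := (MulEquiv.irreducible_iff _).2 hΦ
    have h0' : aevalAeval Y X (Bivariate.swap Φ) = 0 := by
      rw [Bivariate.aevalAeval_swap]
      exact h0
    by_cases h1 : derivative Φ = 0
    · obtain ⟨Ψ, p1, p2, p3, p4⟩ := e3t_contract (ringExpChar κ) hΦ (e3t_natDegree hX hΦ h0) h1
      have h2 : aevalAeval X (Y ^ ringExpChar κ) Ψ = 0 := by
        rw [← e3t_eval_expand, p2, h0]
      have h3 : ¬ IsAlgebraic l (Y ^ ringExpChar κ) := fun h => hY (h.of_pow (expChar_pos κ _))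
      obtain ⟨i, j, σ, e1, e2, e3⟩ := ih X _ Ψ hX h3 p1 h2 (by omega)
      refine ⟨i, j + 1, σ, ?_, e2, e3⟩
      rw [e1, ← pow_mul, ← pow_succ']
    · by_cases h2 : derivative (Bivariate.swap Φ) = 0
      · obtain ⟨Ψ, p1, p2, p3, p4⟩ := e3t_contract (ringExpChar κ) hΦ'
          (e3t_natDegree hY hΦ' h0') h2
        rw [Bivariate.swap_swap_apply] at p4
        have h3 : aevalAeval Y (X ^ ringExpChar κ) Ψ = 0 := by
          rw [← e3t_eval_expand, p2, h0']
        haveI : PerfectRing κ (ringExpChar κ) := PerfectField.toPerfectRing _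
        obtain ⟨Z, hZ⟩ : ∃ Z : κ, Z ^ ringExpChar κ = Y :=
          ⟨(frobeniusEquiv κ (ringExpChar κ)).symm Y,
            frobenius_apply_frobeniusEquiv_symm κ (ringExpChar κ) Y⟩
        rw [← hZ] at h3
        obtain ⟨Ψ', q1, q2, q3, q4⟩ := e3t_root (ringExpChar κ) p1 h3
        have hZa : ¬ IsAlgebraic l Z := fun h => hY (hZ ▸ h.pow _)
        have q5 : aevalAeval X Z (Bivariate.swap Ψ') = 0 := by
          rw [Bivariate.aevalAeval_swap]
          exact q2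
        obtain ⟨i, j, σ, e1, e2, e3⟩ := ih X Z (Bivariate.swap Ψ') hX hZa
          ((MulEquiv.irreducible_iff _).2 q1) q5 (by
            rw [Bivariate.swap_swap_apply]
            omega)
        refine ⟨i + 1, j, σ, ?_, e2, e3⟩
        rw [pow_succ, pow_mul, e1, ← pow_mul, ← pow_succ, pow_succ', pow_mul, hZ]
      · exact ⟨0, 0, Y, rfl, urel_sep hX hΦ h0 h1, urel_sep hY hΦ' h0' h2⟩

end e3t

/-- bounded relations in a perfect field of transcendence degree one, with a Frobenius twist. -/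
theorem exists_twb {κ : Type*} [Field κ] [PerfectField κ] {l : Subfield κ} (hl : IsAlgClosed l)
    {X Y : κ} {d : ℕ}
    (hX : X ∉ l ∧ Module.Finite (adj l X) κ ∧ Module.finrank (adj l X) κ ≤ d)
    (hY : Y ∉ l ∧ Module.Finite (adj l Y) κ ∧ Module.finrank (adj l Y) κ ≤ d) :
    ∃ (i j : ℕ) (σ : κ), σ ^ (ringExpChar κ) ^ i = Y ^ (ringExpChar κ) ^ j ∧ BRel l d X σ := by
  obtain ⟨hX0, hXf, hXd⟩ := hX
  obtain ⟨hY0, hYf, hYd⟩ := hY
  have htr : ∀ z : κ, z ∉ l → ¬ IsAlgebraic l z := fun z hz h =>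
    hz (RAC_of_isAlgClosed l hl z h)
  have tX := htr X hX0
  have tY := htr Y hY0
  have h : IsAlgebraic (Vale.Agent.P019.adj l X) Y := by
    rw [← isAlgebraic_adj]
    exact Algebra.IsAlgebraic.isAlgebraic Y
  obtain ⟨Φ, hΦ, h0⟩ := urel_exists tX h
  obtain ⟨i, j, σ, e1, e2, e3⟩ := e3t_main hl _ X Y Φ tX tY hΦ h0 le_rfl
  refine ⟨i, j, σ, e1, ?_⟩
  have hadj : adj l σ = adj l Y := by
    rw [← e3t_adj_pow l σ i, e1, e3t_adj_pow]
  have tσ : ¬ IsAlgebraic l σ := fun h2 => tY (by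
    have h3 : IsAlgebraic l (Y ^ (ringExpChar κ) ^ j) := e1 ▸ h2.pow _
    exact h3.of_pow (Nat.pos_of_ne_zero (pow_ne_zero _ (expChar_pos κ _).ne')))
  have hσf : Module.Finite (adj l σ) κ := by rw [hadj]; exact hYf
  have hσd : Module.finrank (adj l σ) κ ≤ d := by rw [hadj]; exact hYd
  exact urel_brel tX tσ e2 e3 hXf hXd hσf hσd

end Vale.Agent.P019P
end
end

section

section

/-!
# Bounds on curves over algebraically closed fields
-/

namespace Vale.Agent.P019P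

open Vale.Agent.P019

set_option linter.style.haveILetI false
set_option linter.unusedSectionVars false

open Polynomial Filter

/-- the condition at five points. -/
def Five' (ℓ : ℕ) {Ω : Type*} [Field Ω] (E R : Subfield Ω) (m : ℕ) (s Z : Ω) : Prop :=
  ∃ S : Finset Ω, S.card = 5 ∧ ∀ c ∈ S, c ∈ E ∧ c ∈ R ∧ ∃ y ∈ R, y ≠ 0 ∧ BRel E m s y ∧
    ∃ (e : ℕ), ∃ h ∈ R, Z - c = y ^ e * h ^ ℓ

section e3gen

variable {Ω : Type*} [Field Ω]

theorem e3_up {C E : Subfield Ω} {d : ℕ} {x y : C}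
    (h : BRel (E.comap C.subtype) d x y) : BRel E d (x : Ω) (y : Ω) := by
  obtain ⟨c, hc, ⟨a, ha, b, hb, hab⟩, hcs⟩ := h
  refine ⟨fun a b => (c a b : Ω), fun a b => hc a b, ⟨a, ha, b, hb, ?_⟩, ?_⟩
  · exact fun h0 => hab (Subtype.ext h0)
  · have h1 := congrArg C.subtype hcs
    simpa only [map_sum, map_mul, map_pow, map_zero, Subfield.subtype_apply] using h1

theorem e3_down {C E : Subfield Ω} (hEC : E ≤ C) {d : ℕ} {x y : C}
    (h : BRel E d (x : Ω) (y : Ω)) : BRel (E.comap C.subtype) d x y := by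
  obtain ⟨c, hc, ⟨a, ha, b, hb, hab⟩, hcs⟩ := h
  refine ⟨fun a b => ⟨c a b, hEC (hc a b)⟩, fun a b => hc a b, ⟨a, ha, b, hb, ?_⟩, ?_⟩
  · exact fun h0 => hab (congrArg Subtype.val h0)
  · apply C.subtype.injective
    rw [map_zero, ← hcs]
    simp only [map_sum, map_mul, map_pow, Subfield.subtype_apply]

theorem e3_closed {C E : Subfield Ω} (hEC : E ≤ C) (hE : IsAlgClosed E) :
    IsAlgClosed (E.comap C.subtype) := by
  let f : E →+* (E.comap C.subtype) :=
    ((Subfield.inclusion hEC).codRestrict (E.comap C.subtype) (fun x => x.2))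
  have hf : Function.Bijective f := by
    refine ⟨f.injective, fun y => ⟨⟨(y : C), y.2⟩, ?_⟩⟩
    exact Subtype.ext (Subtype.ext rfl)
  exact IsAlgClosed.of_ringEquiv E _ (RingEquiv.ofBijective f hf)

theorem e3_top [PerfectField Ω] {C E : Subfield Ω} [PerfectField C] (hEC : E ≤ C) (s θ : C)
    (hC : C ≤ adj (adj E (s : Ω)) (θ : Ω)) :
    adj (adj (E.comap C.subtype) s) θ = ⊤ := by
  have hmap : E ≤ (E.comap C.subtype).map C.subtype := fun z hz => ⟨⟨z, hEC hz⟩, hz, rfl⟩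
  have key : ∀ (F : Subfield C) (y : C),
      adj (F.map C.subtype) (y : Ω) ≤ (adj F y).map C.subtype := by
    intro F y
    have h1 : Vale.Agent.P019.adj (F.map C.subtype) (y : Ω) ≤ (adj F y).map C.subtype := by
      refine Vale.Agent.P019.adj_le ?_ ⟨y, mem_adj F y, rfl⟩
      rintro _ ⟨x, hx, rfl⟩
      exact ⟨x, le_adj F y hx, rfl⟩
    haveI : PerfectField ((adj F y).map C.subtype : Subfield Ω) := by
      refine perfect_of_root ?_
      rintro _ ⟨x, hx, rfl⟩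
      obtain ⟨z, hz, hzx⟩ := exists_root_q (adj F y) hx 1
      refine ⟨C.subtype z, ⟨z, hz, rfl⟩, ?_⟩
      have h2 : ringExpChar Ω = ringExpChar C := by
        haveI : ExpChar C (ringExpChar Ω) := expChar_sub C
        exact (ringExpChar.eq C (ringExpChar Ω)).symm
      rw [← map_pow, h2, ← hzx, pow_one]
    exact pf_le h1
  have h4 : adj E (s : Ω) ≤ (adj (E.comap C.subtype) s).map C.subtype :=
    (adj_mono hmap _).trans (key _ s)
  have h3 : C ≤ (adj (adj (E.comap C.subtype) s) θ).map C.subtype :=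
    hC.trans ((adj_mono h4 _).trans (key _ θ))
  rw [eq_top_iff]
  intro z _
  obtain ⟨y, hy, hyz⟩ := h3 z.2
  have h7 : y = z := Subtype.ext hyz
  exact h7 ▸ hy

theorem e3_mono {E : Subfield Ω} {d D : ℕ} (hD : d ≤ D) {x y : Ω} (h : BRel E d x y) :
    BRel E D x y := by
  classical
  obtain ⟨c, hc, ⟨a, ha, b, hb, hab⟩, hcs⟩ := h
  have hsub : Finset.range (d + 1) ⊆ Finset.range (D + 1) := by
    intro i hi
    rw [Finset.mem_range] at hi ⊢
    omega
  refine ⟨fun a b => if a ∈ Finset.range (d + 1) ∧ b ∈ Finset.range (d + 1) then c a b else 0,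
    fun a b => ?_, ⟨a, hsub ha, b, hsub hb, ?_⟩, ?_⟩
  · dsimp only
    split_ifs
    exacts [hc a b, E.zero_mem]
  · dsimp only
    rwa [if_pos ⟨ha, hb⟩]
  · refine Eq.trans ?_ hcs
    rw [← Finset.sum_subset hsub]
    · refine Finset.sum_congr rfl fun a ha => ?_
      rw [← Finset.sum_subset hsub]
      · refine Finset.sum_congr rfl fun b hb => ?_
        dsimp only
        rw [if_pos ⟨ha, hb⟩]
      · intro b _ hb
        dsimp only
        rw [if_neg (fun h => hb h.2), zero_mul, zero_mul]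
    · intro a _ ha
      refine Finset.sum_eq_zero fun b _ => ?_
      dsimp only
      rw [if_neg (fun h => ha h.1), zero_mul, zero_mul]

/-- a relation of bidegree `(1, 1)` for an element of `E`. -/
theorem e3_const {E : Subfield Ω} {y : Ω} (x : Ω) (hy : y ∈ E) : BRel E 1 x y := by
  refine ⟨fun i j => if i = 0 then (if j = 0 then -y else 1) else 0, fun i j => ?_,
    ⟨0, by simp, 1, by simp, by simp⟩, ?_⟩
  · dsimp only
    split_ifs
    exacts [E.neg_mem hy, E.one_mem, E.zero_mem]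
  · simp [Finset.sum_range_succ]

theorem e3_const_add {E : Subfield Ω} {x y : Ω} (hy : x + y ∈ E) : BRel E 1 x y := by
  refine ⟨fun i j => if i = 0 then (if j = 0 then -(x + y) else 1) else (if j = 0 then 1 else 0),
    fun i j => ?_, ⟨0, by simp, 1, by simp, by simp⟩, ?_⟩
  · dsimp only
    split_ifs
    exacts [E.neg_mem hy, E.one_mem, E.one_mem, E.zero_mem]
  · simp [Finset.sum_range_succ]

/-- relations from polynomials. -/
theorem e3_ofPoly {E : Subfield Ω} {x y : Ω} {D : ℕ} {Φ : E[X][X]} (hΦ : Φ ≠ 0)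
    (h1 : Φ.natDegree ≤ D) (h3 : ∀ j, (Φ.coeff j).natDegree ≤ D)
    (h0 : aevalAeval x y Φ = 0) : BRel E D x y := by
  refine ⟨fun i j => (((Φ.coeff j).coeff i : E) : Ω), fun i j => ((Φ.coeff j).coeff i).2, ?_, ?_⟩
  · by_contra hcon
    push Not at hcon
    apply hΦ
    ext j i
    rw [coeff_zero, coeff_zero]
    by_cases hj : j ∈ Finset.range (D + 1)
    · by_cases hi : i ∈ Finset.range (D + 1)
      · exact hcon i hi j hj
      · have h4 : D < i := by
          rw [Finset.mem_range] at hi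
          omega
        rw [coeff_eq_zero_of_natDegree_lt (lt_of_le_of_lt (h3 j) h4)]
    · have h4 : D < j := by
        rw [Finset.mem_range] at hj
        omega
      rw [coeff_eq_zero_of_natDegree_lt (lt_of_le_of_lt h1 h4), coeff_zero]
  · rw [urel_eval, eval₂_eq_sum_range' _ (Nat.lt_succ_of_le h1)] at h0
    rw [Finset.sum_comm, ← h0]
    refine Finset.sum_congr rfl fun j _ => ?_
    rw [RingHom.coe_coe, aeval_eq_sum_range' (Nat.lt_succ_of_le (h3 j)), Finset.sum_mul]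
    rfl

/-- polynomials from relations. -/
theorem e3_toPoly {E : Subfield Ω} {x y : Ω} {d : ℕ} (h : BRel E d x y) :
    ∃ Φ : E[X][X], Φ ≠ 0 ∧ Φ.natDegree ≤ d ∧ (∀ j, (Φ.coeff j).natDegree ≤ d) ∧
      aevalAeval x y Φ = 0 := by
  classical
  obtain ⟨c, hc, ⟨a, ha, b, hb, hab⟩, hcs⟩ := h
  let A : ℕ → E[X] := fun j => ∑ i ∈ Finset.range (d + 1), C (⟨c i j, hc i j⟩ : E) * X ^ i
  have hA : ∀ j i, (A j).coeff i = if i ∈ Finset.range (d + 1) then (⟨c i j, hc i j⟩ : E)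
      else 0 := by
    intro j i
    simp only [A, finsetSum_coeff, coeff_C_mul, coeff_X_pow, mul_ite, mul_one, mul_zero]
    rw [Finset.sum_ite_eq]
  let Φ : E[X][X] := ∑ j ∈ Finset.range (d + 1), C (A j) * X ^ j
  have hΦ : ∀ j, Φ.coeff j = if j ∈ Finset.range (d + 1) then A j else 0 := by
    intro j
    simp only [Φ, finsetSum_coeff, coeff_C_mul, coeff_X_pow, mul_ite, mul_one, mul_zero]
    rw [Finset.sum_ite_eq]
  refine ⟨Φ, ?_, ?_, ?_, ?_⟩
  · intro h0
    apply hab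
    have h1 : (Φ.coeff b).coeff a = 0 := by rw [h0, coeff_zero, coeff_zero]
    rw [hΦ, if_pos hb, hA, if_pos ha] at h1
    exact congrArg Subtype.val h1
  · rw [natDegree_le_iff_coeff_eq_zero]
    intro j hj
    rw [hΦ, if_neg]
    rw [Finset.mem_range]
    omega
  · intro j
    rw [natDegree_le_iff_coeff_eq_zero]
    intro i hi
    rw [hΦ]
    split_ifs
    · rw [hA, if_neg]
      rw [Finset.mem_range]
      omega
    · exact coeff_zero _
  · simp only [Φ, map_sum, map_mul, map_pow, aevalAeval_C, aevalAeval_Y]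
    rw [← hcs, Finset.sum_comm]
    refine Finset.sum_congr rfl fun j _ => ?_
    simp only [A, map_sum, map_mul, map_pow, aeval_C, aeval_X]
    rw [Finset.sum_mul]
    rfl

/-- the substitution `y := x + y`. -/
theorem e3_shift {E : Subfield Ω} {x y : Ω} {d : ℕ} (h : BRel E d x (x + y)) :
    BRel E (2 * d) x y := by
  obtain ⟨Φ, h0, h1, h2, h3⟩ := e3_toPoly h
  refine e3_ofPoly (Φ := taylor X Φ) ?_ ?_ ?_ ?_
  · rwa [Ne, map_eq_zero_iff _ (taylor_injective _)]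
  · rw [natDegree_taylor]
    omega
  · intro j
    rw [taylor_coeff, eval_eq_sum_range]
    refine natDegree_sum_le_of_forall_le _ _ fun i hi => ?_
    rw [Finset.mem_range] at hi
    refine (natDegree_mul_le).trans ?_
    have h4 : ((hasseDeriv j Φ).coeff i).natDegree ≤ d := by
      rw [hasseDeriv_coeff]
      refine (natDegree_mul_le).trans ?_
      rw [natDegree_natCast, zero_add]
      exact h2 _
    have h5 : (X ^ i : E[X]).natDegree ≤ i := by
      rw [natDegree_X_pow]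
    have h6 : (hasseDeriv j Φ).natDegree ≤ d :=
      (natDegree_hasseDeriv_le Φ j).trans (by omega)
    omega
  · have h4 : aevalAeval x y (taylor X Φ) = aevalAeval x (x + y) Φ := by
      rw [urel_eval, urel_eval, taylor_apply, eval₂_comp, eval₂_add, eval₂_X, eval₂_C,
        RingHom.coe_coe, aeval_X, add_comm]
    rw [h4, h3]

theorem e3_swap {E : Subfield Ω} {x y : Ω} {d : ℕ} (h : BRel E d x y) : BRel E d y x := by
  obtain ⟨c, hc, ⟨a, ha, b, hb, hab⟩, hcs⟩ := h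
  refine ⟨fun i j => c j i, fun i j => hc j i, ⟨b, hb, a, ha, hab⟩, ?_⟩
  rw [← hcs, Finset.sum_comm]
  refine Finset.sum_congr rfl fun i _ => Finset.sum_congr rfl fun j _ => ?_
  ring

end e3gen

section e3main

variable {Ω : Type*} [Field Ω] {ℓ : ℕ} [Fact ℓ.Prime] [NeZero (ℓ : Ω)]
  {E R : Subfield Ω} {m : ℕ}

/-- the degree bound inside the curve. -/
theorem e3_deg {C : Subfield Ω} [PerfectField C] (hEC : E ≤ C) (hRC : R ≤ C)
    (hE : IsAlgClosed E) {s θ Z : C} (hsE : (s : Ω) ∉ E)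
    (htop : adj (adj (E.comap C.subtype) s) θ = ⊤) (hθ : BRel E m (s : Ω) (θ : Ω))
    (hZE : (Z : Ω) ∉ E) (hZ5 : Five' ℓ E R m (s : Ω) (Z : Ω)) :
    Z ∉ E.comap C.subtype ∧ Module.Finite (adj (E.comap C.subtype) Z) C ∧
      Module.finrank (adj (E.comap C.subtype) Z) C ≤ 14 * m ^ 2 := by
  classical
  refine ⟨hZE, ?_⟩
  obtain ⟨S, hS, hP⟩ := hZ5
  haveI : NeZero (ℓ : C) := ⟨fun h => NeZero.ne (ℓ : Ω) (by
    have h1 := congrArg C.subtype h
    simpa using h1)⟩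
  have hS' : (S.subtype (· ∈ C)).card = 5 := by
    rw [Finset.card_subtype, Finset.filter_true_of_mem, hS]
    exact fun c hc => hEC (hP c hc).1
  refine deg5 ℓ (S := (S.subtype (· ∈ C))) (e3_closed hEC hE) hsE htop (e3_down hEC hθ) hZE hS' ?_
  intro c hc
  obtain ⟨h1, -, y, hy, hy0, hyr, e, h, hh, heq⟩ := hP c (Finset.mem_subtype.1 hc)
  refine ⟨h1, ⟨y, hRC hy⟩, fun h0 => hy0 (congrArg Subtype.val h0), e3_down hEC hyr, e,
    ⟨h, hRC hh⟩, Subtype.ext ?_⟩
  exact heq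

end e3main

/-- two elements with the condition at five points are related. -/
theorem dirb {Ω : Type*} [Field Ω] [PerfectField Ω] (ℓ : ℕ) [Fact ℓ.Prime] [NeZero (ℓ : Ω)]
    {E R : Subfield Ω} (hE : IsAlgClosed E) [PerfectField R] {s θ : Ω} (hs : s ∈ R)
    (hθR : θ ∈ R) (hsE : s ∉ E) (hRθ : R ≤ adj (adj E s) θ) {m : ℕ} (hθ : BRel E m s θ)
    {X Y : Ω} (hX : X ∈ R) (hY : Y ∈ R) (hX5 : Five' ℓ E R m s X) (hY5 : Five' ℓ E R m s Y)
    (hXY5 : Five' ℓ E R m s (X + Y)) : X ∈ E ∨ BRel E (28 * m ^ 2 + 1) X Y := by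
  by_cases hXE : X ∈ E
  · exact Or.inl hXE
  right
  by_cases hYE : Y ∈ E
  · exact e3_mono (by omega) (e3_const X hYE)
  by_cases hZE : X + Y ∈ E
  · exact e3_mono (by omega) (e3_const_add hZE)
  have hEC : E ≤ adj (adj E s) θ := (le_adj E s).trans (le_adj _ θ)
  obtain ⟨C, hC⟩ : ∃ C : Subfield Ω, C = adj (adj E s) θ := ⟨_, rfl⟩
  haveI : PerfectField C := by
    rw [hC]
    exact perfect_adj _ _
  have hC' : C ≤ adj (adj E s) θ := hC.le
  rw [← hC] at hRθ hEC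
  obtain ⟨s', rfl⟩ : ∃ s' : C, (s' : Ω) = s := ⟨⟨s, hRθ hs⟩, rfl⟩
  obtain ⟨θ', rfl⟩ : ∃ θ' : C, (θ' : Ω) = θ := ⟨⟨θ, hRθ hθR⟩, rfl⟩
  obtain ⟨X', rfl⟩ : ∃ X' : C, (X' : Ω) = X := ⟨⟨X, hRθ hX⟩, rfl⟩
  obtain ⟨Y', rfl⟩ : ∃ Y' : C, (Y' : Ω) = Y := ⟨⟨Y, hRθ hY⟩, rfl⟩
  have htop := e3_top hEC s' θ' hC'
  have h1 := e3_deg (ℓ := ℓ) hEC hRθ hE hsE htop hθ hXE hX5
  have h2 := e3_deg (ℓ := ℓ) hEC hRθ hE hsE htop hθ hYE hY5
  rw [← Subfield.coe_add] at hZE hXY5
  have h3 := e3_deg (ℓ := ℓ) hEC hRθ hE hsE htop hθ hZE hXY5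
  rcases exists_brel (e3_closed hEC hE) h1 h2 h3 with h | h | h
  · exact e3_mono (by omega) (e3_up h)
  · have h4 := e3_up h
    rw [Subfield.coe_add] at h4
    exact e3_mono (by omega) (e3_shift h4)
  · have h4 := e3_up h
    rw [Subfield.coe_add, add_comm] at h4
    exact e3_mono (by omega) (e3_swap (e3_shift h4))

/-- an element with the condition at five points is related to a twist of `s`. -/
theorem dirb_tw {Ω : Type*} [Field Ω] [PerfectField Ω] (ℓ : ℕ) [Fact ℓ.Prime] [NeZero (ℓ : Ω)]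
    {E R : Subfield Ω} (hE : IsAlgClosed E) [PerfectField R] {s θ : Ω} (hs : s ∈ R)
    (hθR : θ ∈ R) (hsE : s ∉ E) (hRθ : R ≤ adj (adj E s) θ) {m : ℕ} (hθ : BRel E m s θ)
    {X : Ω} (hX : X ∈ R) (hXE : X ∉ E) (hX5 : Five' ℓ E R m s X) :
    ∃ (i j : ℕ) (σ : Ω), σ ^ (ringExpChar Ω) ^ i = s ^ (ringExpChar Ω) ^ j ∧
      BRel E (28 * m ^ 2 + 1) X σ := by
  have hEC : E ≤ adj (adj E s) θ := (le_adj E s).trans (le_adj _ θ)
  obtain ⟨C, hC⟩ : ∃ C : Subfield Ω, C = adj (adj E s) θ := ⟨_, rfl⟩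
  haveI : PerfectField C := by
    rw [hC]
    exact perfect_adj _ _
  have hC' : C ≤ adj (adj E s) θ := hC.le
  rw [← hC] at hRθ hEC
  obtain ⟨s', rfl⟩ : ∃ s' : C, (s' : Ω) = s := ⟨⟨s, hRθ hs⟩, rfl⟩
  obtain ⟨θ', rfl⟩ : ∃ θ' : C, (θ' : Ω) = θ := ⟨⟨θ, hRθ hθR⟩, rfl⟩
  obtain ⟨X', rfl⟩ : ∃ X' : C, (X' : Ω) = X := ⟨⟨X, hRθ hX⟩, rfl⟩
  have htop := e3_top hEC s' θ' hC'
  have h1 := e3_deg (ℓ := ℓ) hEC hRθ hE hsE htop hθ hXE hX5
  have hac := e3_closed hEC hE
  have hθ' := e3_down hEC hθ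
  have hcv := e3d_cv hac hsE htop hθ'
  have hs0 : s' ∉ E.comap C.subtype := hsE
  have hm : 1 ≤ m := by
    rcases Nat.eq_zero_or_pos m with rfl | h
    · exfalso
      obtain ⟨c, -, ⟨a, ha, b, hb, hab⟩, hcs⟩ := hθ
      simp only [zero_add, Finset.range_one, Finset.mem_singleton] at ha hb
      simp only [zero_add, Finset.range_one, Finset.sum_singleton, pow_zero, mul_one] at hcs
      subst ha hb
      exact hab hcs
    · exact h
  have h2 : Module.finrank (adj (E.comap C.subtype) s') C ≤ 1 * m := by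
    obtain ⟨d, hd, hd0, hdr⟩ := hθ'
    refine apd_deg (RAC_of_isAlgClosed _ hac) hs0 hs0 htop
      (c := fun i j => if i = 0 then (if j = 1 then -1 else 0) else (if j = 0 then 1 else 0))
      (fun i j => ?_) hd ⟨0, by simp, 1, by simp, by simp⟩ hd0 ?_ hdr
    · split_ifs
      exacts [neg_mem (one_mem _), zero_mem _, one_mem _, zero_mem _]
    · simp [Finset.sum_range_succ]
  have h5 : 1 * m ≤ 14 * m ^ 2 := by nlinarith
  obtain ⟨i, j, σ, hσ, hr⟩ := exists_twb hac h1 ⟨hs0, hcv.finite hs0, h2.trans h5⟩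
  have hq : ringExpChar C = ringExpChar Ω := by
    haveI : ExpChar C (ringExpChar Ω) := expChar_sub C
    exact ringExpChar.eq C (ringExpChar Ω)
  rw [hq] at hσ
  refine ⟨i, j, (σ : Ω), ?_, e3_mono (by omega) (e3_up hr)⟩
  have h4 := congrArg Subtype.val hσ
  simpa using h4

end Vale.Agent.P019P
end
end

section

section

/-!
# Degrees and genera of the residue curves of bottom valuations
-/

namespace Vale.Agent.P019P

open Vale.Agent.P019

set_option linter.style.haveILetI false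
set_option linter.unusedSectionVars false
set_option linter.unusedVariables false

open Polynomial Filter

variable {K : Type*} [Field K] [PerfectField K] {k : Subfield K} {t s θ : K}
  {I : Type*} {U : Ultrafilter I} {W : I → ValuationSubring K} {c : I → K}

/-- residues are algebraic over the residues of `k(s)`. -/
theorem Bot0.res_alg (hk : IsAlgClosed k) (hS : Srf k t s) {W : ValuationSubring K} {c : K}
    (h : Bot0 k t s W c) {z : K} (hz : z ∈ W) :
    IsAlgebraic (adj (rbarP k W) (rsP W s)) (rsP W z) := by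
  classical
  set F := adj (adj k s) t with hF
  have hint : IsIntegral F z := (hS.alg z).isIntegral
  set d := (minpoly F z).natDegree with hd
  let b : ℕ → K := fun j => (((minpoly F z).coeff j : F) : K)
  have hsum : ∑ j ∈ Finset.range (d + 1), b j * z ^ j = 0 := by
    rw [← aeval_eq_sum_le hd.symm.le]
    exact minpoly.aeval F z
  have hbd : b d = 1 := by
    simp only [b]
    rw [hd, coeff_natDegree, (minpoly.monic hint).leadingCoeff]
    rfl
  obtain ⟨j₀, hj₀, hmax⟩ := (Finset.range (d + 1)).exists_max_image (fun j => W.valuation (b j))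
    ⟨0, Finset.mem_range.2 (Nat.succ_pos d)⟩
  have hv0 : 0 < W.valuation (b j₀) := by
    refine lt_of_lt_of_le ?_ (hmax d (Finset.mem_range.2 (Nat.lt_succ_self d)))
    rw [hbd, map_one]
    exact zero_lt_one
  have hb0 : b j₀ ≠ 0 := (Valuation.ne_zero_iff W.valuation).1 hv0.ne'
  have he : ∀ j ∈ Finset.range (d + 1), b j / b j₀ ∈ W := by
    intro j hj
    rw [← W.valuation_le_one_iff, map_div₀]
    exact (div_le_one₀ hv0).2 (hmax j hj)
  let a : ℕ → RFP W := fun j => if j ∈ Finset.range (d + 1) then rsP W (b j / b j₀) else 0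
  have ha : ∀ j, a j ∈ adj (rbarP k W) (rsP W s) := by
    intro j
    by_cases hj : j ∈ Finset.range (d + 1)
    · simp only [a, if_pos hj]
      exact h.res_mem hk (Subfield.div_mem _ ((minpoly F z).coeff j).2
        ((minpoly F z).coeff j₀).2) (he j hj)
    · simp only [a, if_neg hj]
      exact Subfield.zero_mem _
  have h1 : ∑ j ∈ Finset.range (d + 1), b j / b j₀ * z ^ j = 0 := by
    have h2 := congrArg (fun x => x / b j₀) hsum
    simp only [zero_div, Finset.sum_div] at h2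
    rw [← h2]
    refine Finset.sum_congr rfl fun j _ => ?_
    rw [div_mul_eq_mul_div]
  have h2 : ∑ j ∈ Finset.range (d + 1), a j * rsP W z ^ j = 0 := by
    have h3 := congrArg (rsP W) h1
    rw [rsP_zero, rsP_sum _ _ fun j hj => mul_mem (he j hj) (pow_mem hz j)] at h3
    rw [← h3]
    refine Finset.sum_congr rfl fun j hj => ?_
    rw [rsP_mul (he j hj) (pow_mem hz j), rsP_pow hz]
    simp only [a, if_pos hj]
  refine ⟨mkPol _ d a ha, ?_, by rw [aeval_mkPol]; exact h2⟩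
  intro h3
  have h4 := congrArg (fun p => ((p.coeff j₀ : adj (rbarP k W) (rsP W s)) : RFP W)) h3
  simp only [coeff_zero] at h4
  rw [coeff_mkPol (Nat.lt_succ_iff.1 (Finset.mem_range.1 hj₀))] at h4
  change a j₀ = 0 at h4
  simp only [a, if_pos hj₀] at h4
  rw [div_self hb0, rsP_one] at h4
  exact one_ne_zero h4

/-- relations in the ultraproduct. -/
theorem brel_dgm {κ : I → Type*} [∀ i, Field (κ i)] {E : ∀ i, Subfield (κ i)} {m : ℕ}
    {X Y : ∀ i, κ i} (h : BRel (dSub U E) m (dgm U κ X) (dgm U κ Y)) :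
    ∀ᶠ i in U, BRel (E i) m (X i) (Y i) := by
  obtain ⟨c, hc, ⟨a, ha, b, hb, hab⟩, hsum⟩ := h
  choose f hf hfE using hc
  have h1 : dgm U κ (fun i => ∑ p ∈ Finset.range (m + 1), ∑ q ∈ Finset.range (m + 1),
      f p q i * X i ^ p * Y i ^ q) = 0 := by
    rw [← hsum, dgm_sum (Finset.range (m + 1)) (fun p i => ∑ q ∈ Finset.range (m + 1),
      f p q i * X i ^ p * Y i ^ q)]
    refine Finset.sum_congr rfl fun p _ => ?_
    rw [dgm_sum (Finset.range (m + 1)) (fun q i => f p q i * X i ^ p * Y i ^ q)]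
    refine Finset.sum_congr rfl fun q _ => ?_
    rw [dgm_mul, dgm_mul, dgm_pow, dgm_pow, hf]
  have h2 : dgm U κ (f a b) ≠ 0 := by rw [hf]; exact hab
  filter_upwards [dgm_eq_zero.1 h1, dgm_ne_zero.1 h2] with i h3 h4
  exact ⟨fun p q => f p q i, fun p q => hfE p q i, ⟨a, ha, b, hb, h4⟩, h3⟩

/-- reduction of an algebraic relation. -/
theorem bot_rel (hk : IsAlgClosed k) (hS : Srf k t s)
    (hW : ∀ i, Bot0 k t s (W i) (c i)) (hu : Ulu U W) (w : K) :
    ∃ m : ℕ, ∀ᶠ i in U, ∃ a : ℕ → ℕ → IsLocalRing.ResidueField (W i),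
      (∀ i' j, a i' j ∈ rbar k (W i)) ∧
      (∃ i' ∈ Finset.range (m + 1), ∃ j ∈ Finset.range (m + 1), a i' j ≠ 0) ∧
      ∑ i' ∈ Finset.range (m + 1), ∑ j ∈ Finset.range (m + 1),
        a i' j * rs (W i) s ^ i' * rs (W i) w ^ j = 0 := by
  classical
  haveI : PerfectField k := inferInstance
  haveI hdR := dR_ac (U := U) (O := W) hk
  haveI : PerfectField (dR U W k) := inferInstance
  have htR : hu.dj t ∈ dR U W k := by
    rw [hu.dj_mem_dR]
    exact ⟨c, fun i => (hW i).ck, Eventually.of_forall fun i => (hW i).tc⟩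
  have hER : (adj k t).map hu.dj ≤ dR U W k :=
    (map_adj_le hu.dj k t).trans (adj_le (hu.map_le k) htR)
  have hst : ∀ᶠ i in U, ¬ IsAlgebraic (rbarP k (W i)) (rsP (W i) s) :=
    Eventually.of_forall fun i => (hW i).transc hk
  have halg : IsAlgebraic (adj (dR U W k) (hu.dj s)) (hu.dj w) := by
    refine isAlgebraic_mono (adj_mono hER _) ?_
    exact isAlgebraic_mono (map_adj_le hu.dj _ _)
      (isAlgebraic_map hu.dj (adj_comm_alg (hS.alg w)))
  obtain ⟨Φ, hΦ, h0⟩ := urel_exists (hu.dj_transc hst) (isAlgebraic_adj.1 halg)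
  let m := max Φ.natDegree ((Finset.range (Φ.natDegree + 1)).sup fun j => (Φ.coeff j).natDegree)
  have hrel : BRel (dR U W k) m (hu.dj s) (hu.dj w) := by
    refine e3_ofPoly hΦ.ne_zero (le_max_left _ _) (fun j => ?_) h0
    by_cases hj : j ∈ Finset.range (Φ.natDegree + 1)
    · exact (Finset.le_sup (f := fun j => (Φ.coeff j).natDegree) hj).trans (le_max_right _ _)
    · rw [coeff_eq_zero_of_natDegree_lt (by rw [Finset.mem_range] at hj; omega), natDegree_zero]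
      exact Nat.zero_le _
  refine ⟨m, ?_⟩
  filter_upwards [brel_dgm hrel] with i hi
  obtain ⟨a, ha, ⟨i', hi', j, hj, hij⟩, hsum⟩ := hi
  choose a' ha' haa using ha
  refine ⟨a', ha', ⟨i', hi', j, hj, fun h2 => hij ?_⟩, ?_⟩
  · rw [← haa, h2, map_zero]
  · apply rf_injective (W i)
    rw [map_zero, ← hsum, map_sum]
    refine Finset.sum_congr rfl fun p _ => ?_
    rw [map_sum]
    refine Finset.sum_congr rfl fun q _ => ?_
    rw [map_mul, map_mul, map_pow, map_pow, haa]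
    rfl

theorem bg_exp_rf (W : ValuationSubring K) :
    ringExpChar (RFP W) = ringExpChar (IsLocalRing.ResidueField W) :=
  haveI := expChar_of_injective_ringHom (rf_injective W)
    (ringExpChar (IsLocalRing.ResidueField W))
  ringExpChar.eq (RFP W) _

theorem bg_exp (W : ValuationSubring K) (h : ringExpChar K ≠ 1) :
    ringExpChar (RFP W) = ringExpChar K := by
  have hp : (ringExpChar K).Prime :=
    (expChar_is_prime_or_one K (ringExpChar K)).resolve_right h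
  have h0 : ((ringExpChar K : ℕ) : RFP W) = 0 := by
    have h1 : rsP W ((ringExpChar K : ℕ) : K) = ((ringExpChar K : ℕ) : RFP W) := by
      rw [rsP, rs_natCast, map_natCast]
    rw [← h1, natCast_expChar_eq_zero K _ hp, rsP_zero]
  haveI : CharP (RFP W) (ringExpChar K) := (CharP.charP_iff_prime_eq_zero hp).2 h0
  haveI : ExpChar (RFP W) (ringExpChar K) := ExpChar.prime hp
  exact ringExpChar.eq (RFP W) _

theorem bg_adj {F F' : Type*} [Field F] [Field F'] (f : F →+* F') {k : Subfield F} {a b x : F}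
    (hx : x ∈ Vale.Agent.P019.adj (Vale.Agent.P019.adj k a) b) :
    f x ∈ adj (adj (k.map f) (f a)) (f b) := by
  have h1 : Vale.Agent.P019.adj (Vale.Agent.P019.adj k a) b ≤
      (adj (adj (k.map f) (f a)) (f b)).comap f := by
    refine Vale.Agent.P019.adj_le (Vale.Agent.P019.adj_le ?_ ?_) ?_
    · intro y hy
      rw [Subfield.mem_comap]
      exact le_adj _ _ (le_adj _ _ (Subfield.mem_map.2 ⟨y, hy, rfl⟩))
    · rw [Subfield.mem_comap]
      exact le_adj _ _ (mem_adj _ _)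
    · rw [Subfield.mem_comap]
      exact mem_adj _ _
  exact h1 hx

theorem bg_root {F : Type*} [Field F] {E : Subfield F} {b x : F} {n : ℕ}
    (h : x ^ ringExpChar F ^ n ∈ adj E b) : x ∈ adj E b := by
  have h1 : x ∈ pf (adj E b) := mem_pf.2 ⟨n, h⟩
  rwa [adj, pf_pf] at h1

/-- the residue field is generated by the residues of `s` and `θ`. -/
theorem bg_top {W : ValuationSubring K} {c : K} (h : Bot k t s θ W c) :
    adj (adj (rbarP k W) (rsP W s)) (rsP W θ) = ⊤ := by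
  rw [eq_top_iff]
  intro z _
  obtain ⟨m, y, hy⟩ := rf_pow W z
  obtain ⟨m', hm'⟩ := h.gen y
  have h1 := bg_adj (rf W) hm'
  rw [map_pow, hy, ← bg_exp_rf] at h1
  by_cases hK : ringExpChar K = 1
  · rw [hK, one_pow, pow_one] at h1
    exact bg_root h1
  · rw [← bg_exp W hK, ← pow_mul, ← pow_add] at h1
    exact bg_root h1

/-- the residue curve. -/
theorem Bot.cv (hk : IsAlgClosed k) (hfg : FG k (⊤ : Subfield K)) (hS : Srf k t s)
    {W : ValuationSubring K} {c : K} (h : Bot k t s θ W c) : Cv (rbarP k W) := by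
  refine ⟨rbarP_ac hk W, ?_, rsP W s, fun hcon => h.sb (rf_mem_rbarP.1 hcon), fun z => ?_⟩
  · haveI := rbarP_ac hk W
    haveI : PerfectField (rbarP k W) := inferInstance
    have h0 : FG (rbarP k W) (rbarP k W) :=
      ⟨∅, by rw [Finset.coe_empty, Subfield.closure_empty, sup_bot_eq, pf_eq]⟩
    rw [← bg_top h]
    exact (h0.adj_right _).adj_right _
  · obtain ⟨m, y, hy⟩ := rf_pow W z
    obtain ⟨z', hz', rfl⟩ := rs_surj y
    have h1 := h.toBot0.res_alg hk hS hz'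
    change IsAlgebraic (adj (rbarP k W) (rsP W s)) (rf W (rs W z')) at h1
    rw [hy] at h1
    exact IsAlgebraic.of_pow (qpow_pos (IsLocalRing.ResidueField W) m) h1

/-- the relations in the perfect closure of the residue field. -/
theorem bg_rel (hk : IsAlgClosed k) (hS : Srf k t s)
    (hW : ∀ᶠ i in U, Bot k t s θ (W i) (c i)) (hu : Ulu U W) (w : K) :
    ∃ m : ℕ, ∀ᶠ i in U, ∃ a : ℕ → ℕ → RFP (W i),
      (∀ i' j, a i' j ∈ rbarP k (W i)) ∧
      (∃ i' ∈ Finset.range (m + 1), ∃ j ∈ Finset.range (m + 1), a i' j ≠ 0) ∧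
      ∑ i' ∈ Finset.range (m + 1), ∑ j ∈ Finset.range (m + 1),
        a i' j * rsP (W i) s ^ i' * rsP (W i) w ^ j = 0 := by
  classical
  obtain ⟨i₀, hi₀⟩ := hW.exists
  set W' : I → ValuationSubring K := fun i => if Bot k t s θ (W i) (c i) then W i else W i₀
    with hW'
  set c' : I → K := fun i => if Bot k t s θ (W i) (c i) then c i else c i₀ with hc'
  have h1 : ∀ i, Bot k t s θ (W' i) (c' i) := by
    intro i
    simp only [hW', hc']
    split_ifs with h
    · exact h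
    · exact hi₀
  have h2 : ∀ᶠ i in U, W' i = W i := by
    filter_upwards [hW] with i hi
    simp only [hW', if_pos hi]
  have h3 : Ulu U W' := by
    intro x hx
    filter_upwards [hu x hx, h2] with i hi hi2
    rw [hi2]
    exact hi
  obtain ⟨m, hm⟩ := bot_rel hk hS (fun i => (h1 i).toBot0) h3 w
  refine ⟨m, ?_⟩
  filter_upwards [hm, h2] with i hi hi2
  rw [hi2] at hi
  obtain ⟨a, ha, ⟨i', hi', j, hj, hij⟩, hsum⟩ := hi
  refine ⟨fun p q => rf (W i) (a p q), fun p q => rf_mem_rbarP.2 (ha p q),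
    ⟨i', hi', j, hj, fun hcon => hij ((map_eq_zero _).1 hcon)⟩, ?_⟩
  have h4 := congrArg (rf (W i)) hsum
  rw [map_zero, map_sum] at h4
  rw [← h4]
  refine Finset.sum_congr rfl fun p _ => ?_
  rw [map_sum]
  refine Finset.sum_congr rfl fun q _ => ?_
  rw [map_mul, map_mul, map_pow, map_pow]
  rfl

/-- the degrees are bounded. -/
theorem bot_deg (hk : IsAlgClosed k) (hfg : FG k (⊤ : Subfield K)) (hS : Srf k t s)
    (hW : ∀ᶠ i in U, Bot k t s θ (W i) (c i)) (hu : Ulu U W) {z : K} (hz : z ≠ 0) :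
    ∃ M : ℕ, ∀ᶠ i in U, (W i).valuation z = 1 ∧ (rsP (W i) z ∉ rbarP k (W i) →
      Module.finrank (adj (rbarP k (W i)) (rsP (W i) z)) (RFP (W i)) ≤ M) := by
  obtain ⟨m, hm⟩ := bg_rel hk hS hW hu z
  obtain ⟨n, hn⟩ := bg_rel hk hS hW hu θ
  refine ⟨m * n, ?_⟩
  filter_upwards [hm, hn, hW, hu z hz] with i h1 h2 h3 h4
  refine ⟨h4, fun h5 => ?_⟩
  obtain ⟨a, ha, ha0, har⟩ := h1
  obtain ⟨b, hb, hb0, hbr⟩ := h2
  exact apd_deg (RAC_of_isAlgClosed _ (rbarP_ac hk _)) (fun hcon => h3.sb (rf_mem_rbarP.1 hcon))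
    h5 (bg_top h3) ha hb ha0 hb0 har hbr

/-- the genera are bounded. -/
theorem bot_gen {ℓ : ℕ} (hk : IsAlgClosed k)
    (hfg : FG k (⊤ : Subfield K)) (hS : Srf k t s)
    (hW : ∀ᶠ i in U, Bot k t s θ (W i) (c i)) (hu : Ulu U W) :
    ∃ G : ℕ, ∀ᶠ i in U, ∀ g : ℕ, CurveRH ℓ (rbarP k (W i)) g → g ≤ G := by
  obtain ⟨n, hn⟩ := bg_rel hk hS hW hu θ
  refine ⟨n * n, ?_⟩
  filter_upwards [hn, hW] with i h2 h3 g hC
  obtain ⟨b, hb, hb0, hbr⟩ := h2
  exact hC.gb (rsP (W i) s) (rsP (W i) θ) (fun hcon => h3.sb (rf_mem_rbarP.1 hcon)) (bg_top h3)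
    n n b hb hb0 hbr

end Vale.Agent.P019P
end
end

section

section

/-!
# Classes of `k(t)` die in almost all residue fields of the bottom valuations
-/

namespace Vale.Agent.P019P

open Vale.Agent.P019

set_option linter.style.haveILetI false
set_option linter.unusedSectionVars false
set_option linter.unusedVariables false

open Polynomial Filter

variable {K : Type*} [Field K] [PerfectField K] {k : Subfield K} {t s θ : K}
  {I : Type*} {U : Ultrafilter I} {W : I → ValuationSubring K} {c : I → K}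

theorem bot_of_mem {ℓ : ℕ} [Fact ℓ.Prime] [NeZero (ℓ : K)] (hk : IsAlgClosed k)
    (ht : t ∉ k) (hW : ∀ i, Bot0 k t s (W i) (c i)) (hu : Ulu U W) {v : V ℓ K}
    (hv : v ∈ VS ℓ (adj k t)) : ∀ᶠ i in U, v ∈ U1 ℓ (W i) := by
  classical
  have hℓ : 0 < ℓ := (Fact.out : ℓ.Prime).pos
  obtain ⟨s', n, hs, hv⟩ := adj_factor hk ht hv
  have h1 : ∀ᶠ i in U, ∀ b ∈ s', (W i).valuation (t - b) = 1 := by
    rw [Filter.eventually_all_finset]
    intro b hb
    refine hu (t - b) fun h0 => ?_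
    rw [sub_eq_zero] at h0
    exact ht (h0 ▸ hs b hb)
  refine h1.mono fun i hi => ?_
  rw [hv]
  refine Submodule.sum_mem _ fun b hb => Submodule.smul_mem _ _ ?_
  have hic : c i - b ∈ k := k.sub_mem (hW i).ck (hs b hb)
  have e1 : t - b - (c i - b) = t - c i := by ring
  have h2 : (W i).valuation (c i - b) = 1 := by
    have e2 : c i - b = (t - b) - (t - c i) := by ring
    rw [e2, Valuation.map_sub_eq_of_lt_left]
    · exact hi b hb
    · rw [hi b hb]
      exact (hW i).tc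
  have h3 := cl_sub_cl_mem_U1 (ℓ := ℓ) (x := t - b) h2 (by rw [e1]; exact (hW i).tc)
  rwa [cl_const hk hℓ hic, sub_zero] at h3

end Vale.Agent.P019P
end
end

section

section

/-!
# Limits of transferred valuations which may be nontrivial on the constants
-/

namespace Vale.Agent.P019P

open Vale.Agent.P019

set_option linter.style.haveILetI false
set_option linter.unusedSectionVars false
set_option linter.unusedVariables false

open Polynomial Filter

section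

variable {L : Type*} [Field L] {I : Type*} {U : Ultrafilter I} {O : I → ValuationSubring L}

theorem r12a_closed_map {K Ω : Type*} [Field K] [Field Ω] (j : K →+* Ω) {l : Subfield K}
    (hl : IsAlgClosed l) : IsAlgClosed (l.map j) := by
  let e0 : l →+* l.map j := (j.comp l.subtype).codRestrict (l.map j) fun x => ⟨x, x.2, rfl⟩
  let e : l ≃+* l.map j := RingEquiv.ofBijective e0 ⟨e0.injective, by
    rintro ⟨_, ⟨x, hx, rfl⟩⟩
    exact ⟨⟨x, hx⟩, rfl⟩⟩
  refine IsAlgClosed.of_exists_root _ fun p hp hirr => ?_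
  obtain ⟨c, hc⟩ := IsAlgClosed.exists_root (p.map (e.symm : l.map j →+* l)) (by
    rw [Polynomial.degree_map]
    exact hirr.degree_pos.ne')
  refine ⟨e c, ?_⟩
  have h1 : e (eval c (p.map (e.symm : l.map j →+* l))) = 0 := by
    rw [hc, map_zero]
  rw [eval_map] at h1
  have h2 := hom_eval₂ p (e.symm : l.map j →+* l) (e : l →+* l.map j) c
  have h3 : (e : l →+* l.map j).comp (e.symm : l.map j →+* l) = RingHom.id _ := by
    ext x
    simp
  rw [h3] at h2
  exact h2.symm.trans h1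

/-- evaluation is the residue class. -/
theorem r12a_ev {z : Gm U L} (hz : z ∈ uVal U O) :
    (ulP U O).ev z = algebraMap (IsLocalRing.ResidueField (uVal U O))
      (AlgebraicClosure (IsLocalRing.ResidueField (uVal U O))) (rs (uVal U O) z) := by
  rw [Pl.ev_of_mem (P := ulP U O) hz]
  unfold rs
  rw [dif_pos hz]
  rfl

end

variable {K L : Type*} [Field K] [Field L] [PerfectField K] [PerfectField L] {ℓ : ℕ}
  [Fact ℓ.Prime] [NeZero (ℓ : K)] [NeZero (ℓ : L)] {Θ : V ℓ K ≃ₗ[ZMod ℓ] V ℓ L}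
  {k : Subfield K} {l : Subfield L} {t : K} {I : Type*} {U : Ultrafilter I}
  {O : I → ValuationSubring L}

/-- if only classes of `k(t)` die in almost all residue fields, the limit is trivial. -/
theorem ulu_gen (hk : IsAlgClosed k) (hfgk : FG k (⊤ : Subfield K)) (hl : IsAlgClosed l)
    (hfgl : FG l (⊤ : Subfield L)) (hΘ : Compatible Θ)
    (htrl : ∃ x y : L, x ∉ l ∧ ¬ IsAlgebraic (adj l x) y) (ht : Good k t)
    (hker : ∀ v, (∀ᶠ i in U, Θ v ∈ U1 ℓ (O i)) → v ∈ VS ℓ (adj k t)) : Ulu U O := by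
  intro z hz
  by_contra hcon
  let v := (uVal U O).valuation.comap (gc U : L →+* Gm U L)
  have hv : ∀ w : L, v w = (uVal U O).valuation (gm U fun _ => w) := fun w => rfl
  have hv1 : v z ≠ 1 := by
    intro h
    rw [hv, uVal_eq_one] at h
    exact hcon h
  have hcls : ∀ y : L, v y < 1 → Θ.symm (cl ℓ (1 + y)) ∈ VS ℓ (adj k t) := by
    intro y hy
    rw [hv, uVal_lt_one] at hy
    refine hker _ (hy.mono fun i hi => ?_)
    rw [LinearEquiv.apply_symm_apply]
    exact cl_mem_U1 hi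
  have horth : ∀ y y' : L, v y < 1 → v y' < 1 → Orth (cl ℓ (1 + y)) (cl ℓ (1 + y')) := by
    intro y y' hy hy'
    have h3 := adj_isotropic (ℓ := ℓ) hk ht.1 _ (hcls y hy) _ (hcls y' hy')
    have h4 := hΘ.orth h3
    rwa [LinearEquiv.apply_symm_apply, LinearEquiv.apply_symm_apply] at h4
  rcases lt_or_gt_of_ne hv1 with h | h
  · exact aeu_main hl hfgl htrl v horth hz h
  · refine aeu_main hl hfgl htrl v horth (inv_ne_zero hz) ?_
    rw [map_inv₀]
    exact inv_lt_one_of_one_lt₀ h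

/-- an element `h` which is constant modulo almost all `O i`. -/
theorem case_gen (hk : IsAlgClosed k) (hfgk : FG k (⊤ : Subfield K)) (hl : IsAlgClosed l)
    (hfgl : FG l (⊤ : Subfield L)) (hΘ : Compatible Θ)
    (htrl : ∃ x y : L, x ∉ l ∧ ¬ IsAlgebraic (adj l x) y) (ht : Good k t) (hu : Ulu U O)
    (hker : ∀ v, (∀ᶠ i in U, Θ v ∈ U1 ℓ (O i)) → v ∈ VS ℓ (adj k t))
    {h : L} (hh : h ∉ l) {c : I → L} (hc : ∀ i, c i ∈ l)
    (hhc : ∀ᶠ i in U, (O i).valuation (h - c i) < 1) :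
    ∃ E : Subfield L, Crv l E ∧ ∀ v, Θ v ∈ VS ℓ E ↔ v ∈ VS ℓ (adj k t) := by
  classical
  have hℓ : 0 < ℓ := (Fact.out : ℓ.Prime).pos
  set P := ulP U O with hP
  set j := hu.j with hj
  set A : Subfield (Gm U L) := uSub U (fun _ => l) with hA
  set Bs := (rbar A (uVal U O)).map (algebraMap (IsLocalRing.ResidueField (uVal U O))
      (AlgebraicClosure (IsLocalRing.ResidueField (uVal U O)))) with hBs
  have hBsac : IsAlgClosed Bs :=
    r12a_closed_map _ (rbar_ac (isAlgClosed_uSub (E := fun _ => l) fun _ => hl :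
      IsAlgClosed (uSub U (fun _ => l))) (uVal U O))
  have hBsR : RAC Bs := RAC_of_isAlgClosed Bs hBsac
  haveI : PerfectField Bs := perfect_of_RAC hBsR
  have hmem : ∀ z : Gm U L, z ∈ A → z ∈ uVal U O → P.ev z ∈ Bs := by
    intro z hz hz'
    rw [hP, r12a_ev hz']
    exact ⟨_, rs_mem_rbar hz hz', rfl⟩
  have hlB : l.map j ≤ Bs := by
    rintro _ ⟨x, hx, rfl⟩
    exact hmem _ (gc_mem_uSub hx) (hu.gc_mem x)
  have hval : ∀ x : L, ∀ᶠ i in U, x ∈ O i := by
    intro x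
    by_cases hx : x = 0
    · rw [hx]; exact Eventually.of_forall fun i => (O i).zero_mem
    · exact (hu x hx).mono fun i hi => ((O i).valuation_le_one_iff x).1 hi.le
  have hcO : ∀ᶠ i in U, c i ∈ O i := by
    filter_upwards [hval h, hhc] with i h1 h2
    have h3 : c i = h - (h - c i) := by ring
    rw [h3]
    exact (O i).sub_mem h1 (((O i).valuation_le_one_iff _).1 h2.le)
  have hhB : j h ∈ Bs := by
    have h2 : P.ev (gm U (fun _ => h)) = P.ev (gm U c) := by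
      rw [ulP_ev_eq (hval h) hcO]
      exact hhc
    have h3 : j h = P.ev (gm U c) := h2
    rw [h3]
    exact hmem _ ⟨_, rfl, hc⟩ (gm_mem_uVal.2 hcO)
  have hE : ∀ e ∈ rac (adj l h), j e ∈ Bs := by
    intro e he
    apply hBsR
    refine isAlgebraic_mono ?_ (isAlgebraic_map j (mem_rac.1 he))
    exact (map_adj_le j _ _).trans (adj_le hlB hhB)
  have hVE : ∀ v ∈ VS ℓ (rac (adj l h)), Θ.symm v ∈ VS ℓ (adj k t) := by
    rintro _ ⟨e, he, he0, rfl⟩
    refine hker _ ?_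
    rw [LinearEquiv.apply_symm_apply]
    obtain ⟨_, ⟨_, ⟨f, rfl, hf⟩, hfO, rfl⟩, hy⟩ := hE e he
    have hfO' := gm_mem_uVal.1 hfO
    have h2 : P.ev (gm U (fun _ => e)) = P.ev (gm U f) := by
      rw [hP, r12a_ev hfO]
      exact hy.symm
    rw [ulP_ev_eq (hval e) hfO'] at h2
    filter_upwards [h2, hu e he0] with i hi1 hi2
    have h4 : (O i).valuation (f i) = 1 := by
      have h5 : f i = e + -(e - f i) := by ring
      have h6 : (O i).valuation (-(e - f i)) < (O i).valuation e := by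
        rw [Valuation.map_neg, hi2]
        exact hi1
      rw [h5, Valuation.map_add_eq_of_lt_left _ h6, hi2]
    have h3 := cl_sub_cl_mem_U1 (ℓ := ℓ) h4 hi1
    rwa [cl_const hl hℓ (hf i), sub_zero] at h3
  obtain ⟨y, hy⟩ := aeu_indep hl htrl h
  refine ⟨rac (adj l h), ⟨(le_adj _ _).trans (le_rac _), RAC_rac _, h,
    le_rac _ (mem_adj _ _), hh, fun z hz => mem_rac.1 hz⟩, fun v => ⟨fun hv => ?_, fun hv => ?_⟩⟩
  · have h1 := hVE _ hv
    rwa [LinearEquiv.symm_apply_apply] at h1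
  · refine k2 hl hfgl hh hy ?_
    refine (infinite_of_isAlgClosed hl).mono fun β hβ => ⟨hβ, ?_⟩
    have h1 : cl ℓ (h - β) ∈ VS ℓ (rac (adj l h)) :=
      cl_mem_VS (Subfield.sub_mem _ (le_rac _ (mem_adj _ _))
        (le_rac _ (le_adj _ _ hβ)))
    have h2 := adj_isotropic (ℓ := ℓ) hk ht.1 _ hv _ (hVE _ h1)
    have h3 := hΘ.orth h2
    rwa [LinearEquiv.apply_symm_apply] at h3

end Vale.Agent.P019P
end
end

section

section

/-!
# Step A, the main case, valuations which may be nontrivial on the constants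
-/

namespace Vale.Agent.P019P

open Vale.Agent.P019

set_option linter.style.haveILetI false
set_option linter.unusedSectionVars false
set_option linter.unusedVariables false

open Polynomial Filter

variable {L : Type*} [Field L] [PerfectField L] {I : Type*} {U : Ultrafilter I}
  {O : I → ValuationSubring L} {l : Subfield L}

/-- constants of the limit. -/
theorem Ulu.const_iffG (hu : Ulu U O) {h : L} :
    (∀ᶠ i in U, rsP (O i) h ∈ rbarP l (O i)) ↔
      ∃ c : I → L, (∀ i, c i ∈ l) ∧ ∀ᶠ i in U, (O i).valuation (h - c i) < 1 := by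
  have h1 := hu.dj_mem_dR (l := l) (h := h)
  rwa [hu.dj_apply, dR, dgm_mem_dSub] at h1

/-- Step A, the main case: infinitely many classes die in almost all residue fields of bounded
degree. -/
theorem Ulu.specialG (hu : Ulu U O) {ℓ : ℕ} [Fact ℓ.Prime] [NeZero (ℓ : L)]
    (hl : IsAlgClosed l) (hfg : FG l (⊤ : Subfield L)) {y1 y2 : L}
    (h1 : ¬ IsAlgebraic l y1) (h2 : ¬ IsAlgebraic (adj l y1) y2)
    (halg : ∀ z : L, IsAlgebraic (adj (adj l y1) y2) z) {d : ℕ}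
    (hd : ∀ᶠ i in U, rsP (O i) y1 ∉ rbarP l (O i) →
      Module.Finite (adj (rbarP l (O i)) (rsP (O i) y1)) (RFP (O i)) ∧
      Module.finrank (adj (rbarP l (O i)) (rsP (O i) y1)) (RFP (O i)) ≤ d)
    {d' : ℕ} (hrel : ∀ᶠ i in U, BRel (rbarP l (O i)) d' (rsP (O i) y1) (rsP (O i) y2))
    {X : Set L} (hX : ∀ x ∈ X, x ≠ 0 ∧ ∀ᶠ i in U, cl ℓ x ∈ U1 ℓ (O i))
    (hinf : ∀ n : ℕ, ∃ x : Fin n → L, (∀ i, x i ∈ X) ∧ ∀ i j, i ≠ j → cl ℓ (x i) ≠ cl ℓ (x j)) :
    ∃ h : L, h ∉ l ∧ ∃ c : I → L, (∀ i, c i ∈ l) ∧ ∀ᶠ i in U, (O i).valuation (h - c i) < 1 := by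
  obtain ⟨h, hh, hj⟩ := dspecial (ℓ := ℓ) hu.dj hl hfg (E := fun i => rbarP l (O i))
    (fun i => rbarP_ac hl (O i)) (fun x hx => hu.dj_mem_of_mem hx) h1 h2 halg
    (g1 := fun i => rsP (O i) y1) (g2 := fun i => rsP (O i) y2) rfl rfl hd hrel (X := X)
    (fun x hx => ⟨(hX x hx).1, (hu.dj_root (hX x hx).1).2 (hX x hx).2⟩) hinf
  exact ⟨h, hh, hu.dj_mem_dR.1 hj⟩

end Vale.Agent.P019P
end
end

section

section

/-!
# Step A for surfaces over closures of finite fields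
-/

namespace Vale.Agent.P019P

open Vale.Agent.P019

set_option linter.style.haveILetI false
set_option linter.unusedSectionVars false

open Polynomial Filter

variable {K L : Type*} [Field K] [Field L] [PerfectField K] [PerfectField L] {ℓ : ℕ}
  [Fact ℓ.Prime] [NeZero (ℓ : K)] [NeZero (ℓ : L)] {Θ : V ℓ K ≃ₗ[ZMod ℓ] V ℓ L}

theorem sa_inf {k : Subfield K} (hk : IsAlgClosed k) {t : K} (ht : Good k t) (n : ℕ) :
    ∃ x : Fin n → L, (∀ i, x i ∈ {z : L | z ≠ 0 ∧ Θ.symm (cl ℓ z) ∈ VS ℓ (adj k t)}) ∧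
      ∀ i j, i ≠ j → cl ℓ (x i) ≠ cl ℓ (x j) := by
  classical
  haveI : Infinite (k : Set K) := (infinite_of_isAlgClosed hk).to_subtype
  let c : ℕ ↪ (k : Set K) := Infinite.natEmbedding _
  choose x hx0 hx using fun i : Fin n => cl_surj ℓ (Θ (cl ℓ (t - (c i : K))))
  refine ⟨x, fun i => ⟨hx0 i, ?_⟩, fun i j hij h => ?_⟩
  · rw [hx, LinearEquiv.symm_apply_apply]
    exact cl_mem_VS (Subfield.sub_mem _ (mem_adj k t) (le_adj k t (c i).2))
  · rw [hx, hx] at h
    have h1 := Θ.injective h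
    have hne : (c i : K) ≠ c j := by
      intro h2
      exact hij (Fin.ext (c.injective (Subtype.ext h2)))
    have h2 := good_independent (ℓ := ℓ) hk ht {(c i : K), (c j : K)} (by
      intro a ha
      rw [Finset.mem_insert, Finset.mem_singleton] at ha
      rcases ha with rfl | rfl
      · exact (c i).2
      · exact (c j).2) (fun a => if a = c i then (1 : ZMod ℓ) else -1) (by
      rw [Finset.sum_pair hne, if_pos rfl, if_neg hne.symm, one_smul, neg_smul, one_smul, h1,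
        add_neg_cancel]) (c i) (by simp)
    rw [if_pos rfl] at h2
    exact one_ne_zero h2

end Vale.Agent.P019P
end
end

section

section

/-!
# Step A for surfaces over arbitrary algebraically closed fields
-/

namespace Vale.Agent.P019P

open Vale.Agent.P019

set_option linter.style.haveILetI false
set_option linter.unusedSectionVars false
set_option linter.unusedVariables false

open Polynomial Filter

variable {K L : Type*} [Field K] [Field L] [PerfectField K] [PerfectField L] {ℓ : ℕ}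
  [Fact ℓ.Prime] [NeZero (ℓ : K)] [NeZero (ℓ : L)] {Θ : V ℓ K ≃ₗ[ZMod ℓ] V ℓ L}

/-- the transcendence degree of a surface. -/
theorem Srf.td {l : Subfield L} (hl : IsAlgClosed l) {x y : L} (hL : Srf l x y) : Td l 2 := by
  classical
  haveI := hl
  have hyl : y ∉ l := fun h => hL.ss (isAlgebraic_of_mem h)
  have hxy : ¬ IsAlgebraic (gsp l {y}) x := by
    intro h
    have h1 : gsp l {y} = adj (gsp l ∅) y := gsp_insert l ∅ y
    rw [h1, gsp_empty] at h
    exact hL.tt h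
  refine ⟨insert x {y}, ?_, (e1_indp_single hl hyl).insert hxy, fun z => ?_⟩
  · rw [Finset.card_insert_of_notMem, Finset.card_singleton]
    rw [Finset.mem_singleton]
    rintro rfl
    exact hxy (isAlgebraic_of_mem (mem_gsp (Finset.mem_singleton_self _)))
  · rw [gsp_insert, show gsp l {y} = adj (gsp l ∅) y from gsp_insert l ∅ y, gsp_empty]
    exact hL.alg z

theorem stepA2g {k : Subfield K} (hk : IsAlgClosed k) (hfgk : FG k (⊤ : Subfield K))
    {l : Subfield L} (hl : IsAlgClosed l) (hfgl : FG l (⊤ : Subfield L))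
    (hΘ : Compatible Θ) {t₀ s₀ : K} (hK : Srf k t₀ s₀) {x y : L} (hL : Srf l x y)
    {t : K} (ht : Good k t) : ∃ E : Subfield L, Crv l E ∧
      ∀ v, Θ v ∈ VS ℓ E ↔ v ∈ VS ℓ (adj k t) := by
  classical
  have htk : ¬ IsAlgebraic k t := fun h => ht.1 (RAC_of_isAlgClosed k hk t h)
  obtain ⟨s, hs, hs'⟩ := rsb_exch hK htk
  have hfr0 : Frame k k s t := ⟨le_rfl, hK.fg, hs, htk, hs'⟩
  have hfr : Frame k k t s := hfr0.swap
  have htrl : ∃ x y : L, x ∉ l ∧ ¬ IsAlgebraic (adj l x) y :=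
    ⟨y, x, fun h => hL.ss (isAlgebraic_of_mem h), hL.tt⟩
  have htd : Td l 2 := hL.td hl
  -- the bottom family
  obtain ⟨I, U, W, c, hB0, hu⟩ := exists_bot hk hfr
  obtain ⟨θ, hθ⟩ := exists_botT hk hfgk ht hfr hB0 hu
  have hWℓ : ∀ᶠ i in U, (W i).valuation (ℓ : K) = 1 := hu _ (NeZero.ne _)
  have hex : ∀ᶠ i in U, ∃ fO : (V ℓ K →ₗ[ZMod ℓ] ZMod ℓ) × ValuationSubring L,
      Adp (W i) fO.1 ∧ TrA Θ (W i) fO.1 fO.2 ∧ Cv (rbarP k (W i)) := by
    filter_upwards [hθ, hWℓ] with i h1 h2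
    obtain ⟨f, hf, -⟩ := h1.fn ℓ hk
    have hcv := h1.cv hk hfgk hfr
    obtain ⟨g₀, hg₀⟩ := exists_nrU h2 hcv
    obtain ⟨O, hO⟩ := exists_trA hΘ (exists_neg hk) (exists_neg hl) hf hg₀
    exact ⟨⟨f, O⟩, hf, hO, hcv⟩
  obtain ⟨fO, hfO⟩ := hex.choice
  set O : I → ValuationSubring L := fun i => (fO i).2 with hOdef
  have hker : ∀ v, (∀ᶠ i in U, Θ v ∈ U1 ℓ (O i)) → v ∈ VS ℓ (adj k t) := by
    intro v hv
    refine bot_mem hk hfgk ht hfr hθ hu ?_
    filter_upwards [hv, hfO] with i h1 h2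
    exact (h2.2.1.iff v).1 h1
  have huO : Ulu U O := ulu_gen hk hfgk hl hfgl hΘ htrl ht hker
  have hOℓ : ∀ᶠ i in U, (O i).valuation (ℓ : L) = 1 := huO _ (NeZero.ne _)
  by_cases hcase : ∃ h : L, h ∉ l ∧ ∃ c : I → L, (∀ i, c i ∈ l) ∧
      ∀ᶠ i in U, (O i).valuation (h - c i) < 1
  · obtain ⟨h, hh, c', hc, hhc⟩ := hcase
    exact case_gen hk hfgk hl hfgl hΘ htrl ht huO hker hh hc hhc
  exfalso
  apply hcase
  have hnot : ∀ g : L, g ∉ l → ∀ᶠ i in U, rsP (O i) g ∉ rbarP l (O i) := by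
    intro g hg
    rw [Ultrafilter.eventually_not]
    intro h
    obtain ⟨c', hc, hc'⟩ := huO.const_iffG.1 h
    exact hcase ⟨g, hg, c', hc, hc'⟩
  have hmem : ∀ g : L, ∀ᶠ i in U, g ∈ O i := by
    intro g
    by_cases h0 : g = 0
    · rw [h0]; exact Eventually.of_forall fun i => (O i).zero_mem
    · exact (huO g h0).mono fun i hi => mem_of_val hi
  -- five constants
  obtain ⟨S, hSl, hSc⟩ : ∃ S : Finset L, (∀ c ∈ S, c ∈ l) ∧ S.card = 5 := by
    obtain ⟨S, hS1, hS2⟩ := (infinite_of_isAlgClosed hl).exists_subset_card_eq 5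
    exact ⟨S, fun c hc => hS1 hc, hS2⟩
  have hSO : ∀ᶠ i in U, ∀ c ∈ S, c ∈ O i := by
    rw [Filter.eventually_all_finset]
    exact fun c _ => hmem c
  have hSinj : ∀ᶠ i in U, Set.InjOn (rsP (O i)) (S : Set L) := by
    have h1 : ∀ᶠ i in U, ∀ c ∈ S, ∀ c' ∈ S, c ≠ c' → (O i).valuation (c - c') = 1 := by
      rw [Filter.eventually_all_finset]
      intro c _
      rw [Filter.eventually_all_finset]
      intro c' _
      by_cases h : c = c'
      · exact Eventually.of_forall fun i h2 => absurd h h2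
      · exact (huO _ (sub_ne_zero.2 h)).mono fun i hi _ => hi
    filter_upwards [h1, hSO] with i h2 h3 c hc c' hc' hcc
    by_contra hne
    have h4 := (rsP_ne_zero (sub_mem (h3 c hc) (h3 c' hc'))).2 (h2 c hc c' hc' hne)
    rw [rsP_sub (h3 c hc) (h3 c' hc'), hcc, sub_self] at h4
    exact h4 rfl
  obtain ⟨G, hG⟩ := bot_gen (ℓ := ℓ) hk hfgk hfr hθ hu
  have hdeg : ∀ g : L, g ∉ l → ∃ d : ℕ, ∀ᶠ i in U, rsP (O i) g ∉ rbarP l (O i) ∧
      Module.Finite (adj (rbarP l (O i)) (rsP (O i) g)) (RFP (O i)) ∧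
      Module.finrank (adj (rbarP l (O i)) (rsP (O i) g)) (RFP (O i)) ≤ d := by
    intro g hg
    have hg0 : g ≠ 0 := fun h => hg (h ▸ l.zero_mem)
    choose z hz0 hz using fun c : L => cl_surj ℓ (Θ.symm (cl ℓ (g - c)))
    choose M hM using fun c : L => bot_deg hk hfgk hfr hθ hu (hz0 c)
    refine ⟨4 * G + 5 * (2 * S.sup M), ?_⟩
    have hM' : ∀ᶠ i in U, ∀ c ∈ S, (W i).valuation (z c) = 1 ∧
        (rsP (W i) (z c) ∉ rbarP k (W i) →
        Module.finrank (adj (rbarP k (W i)) (rsP (W i) (z c))) (RFP (W i)) ≤ M c) := by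
      rw [Filter.eventually_all_finset]
      exact fun c _ => hM c
    filter_upwards [hM', hnot g hg, huO g hg0, hfO, hWℓ, hOℓ, hSO, hSinj, hG]
      with i h1 h2 h3 h4 h5 h6 h7 h8 h9
    obtain ⟨hcvO, hdeg⟩ := deg_point (M := S.sup M) hk hl hfgl htd hΘ h4.1 h5 (hB0 i).fin
      h4.2.2 h4.2.1 h6 h3 h2 h9 S (fun c hc => ⟨hSl c hc, h7 c hc⟩) h8 hSc (fun c hc =>
        ⟨z c, (h1 c hc).1, by rw [hz, LinearEquiv.apply_symm_apply],
          fun h => ((h1 c hc).2 h).trans (Finset.le_sup hc)⟩)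
    exact ⟨h2, hcvO.finite h2, hdeg⟩
  -- the transcendence basis
  have hyl : y ∉ l := fun h => hL.ss (isAlgebraic_of_mem h)
  have hxy' : ∀ z, IsAlgebraic (adj l y) (y + z) → IsAlgebraic (adj l y) z := by
    intro z hz
    have h1 : IsAlgebraic (adj l y) (y + z - y) :=
      hz.sub (isAlgebraic_of_mem (mem_adj l y))
    rwa [add_sub_cancel_left] at h1
  have hxl : ¬ IsAlgebraic l x := fun h => hL.tt (isAlgebraic_mono (le_adj l y) h)
  have hyx : ¬ IsAlgebraic (adj l x) y := fun h => hL.tt (exchange hL.ss h)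
  have hsl : y + x ∉ l := fun h => hL.tt (hxy' x (isAlgebraic_of_mem (le_adj l y h)))
  have hxl' : x ∉ l := fun h => hxl (isAlgebraic_of_mem h)
  obtain ⟨d1, hd1⟩ := hdeg y hyl
  obtain ⟨d2, hd2⟩ := hdeg x hxl'
  obtain ⟨d3, hd3⟩ := hdeg (y + x) hsl
  set d := max d1 (max d2 d3) with hd
  have h1d : d1 ≤ d := le_max_left _ _
  have h2d : d2 ≤ d := (le_max_left _ _).trans (le_max_right _ _)
  have h3d : d3 ≤ d := (le_max_right _ _).trans (le_max_right _ _)
  have hrel : ∀ᶠ i in U, BRel (rbarP l (O i)) d (rsP (O i) y) (rsP (O i) x) ∨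
      (BRel (rbarP l (O i)) d (rsP (O i) y) (rsP (O i) (y + x)) ∨
        BRel (rbarP l (O i)) d (rsP (O i) x) (rsP (O i) (y + x))) := by
    filter_upwards [hd1, hd2, hd3, hmem y, hmem x] with i h1 h2 h3 h4 h5
    have h6 := rsP_add h4 h5
    rw [h6] at h3 ⊢
    exact exists_brel (rbarP_ac hl _) ⟨h1.1, h1.2.1, h1.2.2.trans h1d⟩
      ⟨h2.1, h2.2.1, h2.2.2.trans h2d⟩ ⟨h3.1, h3.2.1, h3.2.2.trans h3d⟩
  -- the classes
  have hX : ∀ z ∈ {z : L | z ≠ 0 ∧ Θ.symm (cl ℓ z) ∈ VS ℓ (adj k t)}, z ≠ 0 ∧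
      ∀ᶠ i in U, cl ℓ z ∈ U1 ℓ (O i) := by
    rintro z ⟨hz0, hz⟩
    refine ⟨hz0, ?_⟩
    have h1 := bot_of_mem hk ht.1 hB0 hu hz
    filter_upwards [h1, hfO] with i h2 h3
    have h4 := (h3.2.1.iff _).2 h2
    rwa [LinearEquiv.apply_symm_apply] at h4
  have hinf := sa_inf (Θ := Θ) hk ht
  have hspec : ∀ (y1 y2 : L) (d0 : ℕ), ¬ IsAlgebraic l y1 → ¬ IsAlgebraic (adj l y1) y2 →
      (∀ z : L, IsAlgebraic (adj (adj l y1) y2) z) →
      (∀ᶠ i in U, rsP (O i) y1 ∉ rbarP l (O i) ∧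
      Module.Finite (adj (rbarP l (O i)) (rsP (O i) y1)) (RFP (O i)) ∧
      Module.finrank (adj (rbarP l (O i)) (rsP (O i) y1)) (RFP (O i)) ≤ d0) →
      (∀ᶠ i in U, BRel (rbarP l (O i)) d (rsP (O i) y1) (rsP (O i) y2)) →
      ∃ h : L, h ∉ l ∧ ∃ c : I → L, (∀ i, c i ∈ l) ∧
        ∀ᶠ i in U, (O i).valuation (h - c i) < 1 := fun y1 y2 d0 h1 h2 halg h4 h5 =>
    huO.specialG hl hfgl h1 h2 halg (h4.mono fun i hi _ => hi.2) h5 hX hinf
  have hle1 : adj (adj l y) x ≤ adj (adj l y) (y + x) := by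
    refine adj_le (le_adj _ _) ?_
    have h1 := Subfield.sub_mem _ (mem_adj (adj l y) (y + x))
      (le_adj (adj l y) (y + x) (mem_adj l y))
    rwa [add_sub_cancel_left] at h1
  have hle2 : adj (adj l y) x ≤ adj (adj l x) (y + x) := by
    refine adj_le (adj_le ((le_adj l x).trans (le_adj _ _)) ?_) (le_adj _ _ (mem_adj l x))
    have h1 := Subfield.sub_mem _ (mem_adj (adj l x) (y + x))
      (le_adj (adj l x) (y + x) (mem_adj l x))
    rwa [add_sub_cancel_right] at h1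
  rw [Ultrafilter.eventually_or, Ultrafilter.eventually_or] at hrel
  rcases hrel with h | h | h
  · exact hspec y x d1 hL.ss hL.tt hL.alg hd1 h
  · exact hspec y (y + x) d1 hL.ss (fun h' => hL.tt (hxy' x h'))
      (fun z => isAlgebraic_mono hle1 (hL.alg z)) hd1 h
  · refine hspec x (y + x) d2 hxl (fun h' => hyx ?_)
      (fun z => isAlgebraic_mono hle2 (hL.alg z)) hd2 h
    have h1 : IsAlgebraic (adj l x) (y + x - x) :=
      h'.sub (isAlgebraic_of_mem (mem_adj l x))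
    rwa [add_sub_cancel_right] at h1

end Vale.Agent.P019P
end
end

section

section

/-!
# The transcendence degree does not drop
-/

namespace Vale.Agent.P019P

open Vale.Agent.P019

set_option linter.style.haveILetI false
set_option linter.unusedSectionVars false
set_option linter.unusedVariables false

open Polynomial Filter

universe u v

/-- an element whose class corresponds to a uniformizer is not commensurable with the values of
the constants. -/
theorem r14_rho {K : Type u} {M : Type v} [Field K] [Field M] [PerfectField K]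
    {ℓ : ℕ} [Fact ℓ.Prime] [NeZero (ℓ : K)] {Θ : V ℓ K ≃ₗ[ZMod ℓ] V ℓ M}
    {l : Subfield M} (hl : IsAlgClosed l) (hΘ : Compatible Θ)
    (hnegK : ∃ i : K, i ^ ℓ = -1) (hnegL : ∃ i : M, i ^ ℓ = -1)
    {W : ValuationSubring K} {π : K} (hW : IsUnif W π) {O : ValuationSubring M}
    (hT : TrA Θ W (hW.fn ℓ) O) (hNC : NoCtr ℓ (IsLocalRing.ResidueField W)) :
    ∃ ρ : M, ρ ≠ 0 ∧
      ∀ a ∈ l, a ≠ 0 → ∀ i : ℤ, O.valuation (a * ρ ^ i) = 1 → i = 0 := by
  obtain ⟨ρ, hρ0, hρ⟩ := cl_surj ℓ (Θ (cl ℓ π))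
  refine ⟨ρ, hρ0, not_torsion hl (ℓ := ℓ) hρ0 fun h => ?_⟩
  have h1 := (TrA.uc hΘ hnegK hnegL (hW.adp hnegK) hT hNC (cl ℓ ρ)).1 h
  rw [hρ, LinearEquiv.symm_apply_apply, hW.fn_self ℓ] at h1
  exact one_ne_zero h1

/-- the transcendence degree does not drop under compatible isomorphisms. -/
theorem dim_ge' {ℓ : ℕ} [Fact ℓ.Prime] (n : ℕ) : ∀ {K : Type u} {M : Type v} [Field K] [Field M]
    [PerfectField K] [NeZero (ℓ : K)] {k : Subfield K}
    (_ : IsAlgClosed k) (_ : FG k (⊤ : Subfield K)) {l : Subfield M} (_ : IsAlgClosed l)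
    {Θ : V ℓ K ≃ₗ[ZMod ℓ] V ℓ M} (_ : Compatible Θ) (_ : Td k n),
    ∃ B : Finset M, B.card = n ∧ Indp l B := by
  induction n with
  | zero =>
    intro K M _ _ _ _ k hk hfg l hl Θ hΘ hTd
    exact ⟨∅, Finset.card_empty, fun S _ v hv => absurd hv (Finset.notMem_empty v)⟩
  | succ n ih =>
    intro K M _ _ _ _ k hk hfg l hl Θ hΘ hTd
    classical
    haveI := hk
    haveI := hl
    obtain ⟨t, ht⟩ : ∃ t : K, t ∉ k := by
      obtain ⟨B, hBc, hB, -⟩ := id hTd
      obtain ⟨t, ht⟩ : B.Nonempty := by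
        rw [← Finset.card_pos, hBc]
        exact Nat.succ_pos n
      exact ⟨t, e1_notMem hB ht⟩
    rcases Nat.eq_zero_or_pos n with hn | hn
    · obtain ⟨y, hy⟩ := e1_exists hk hfg hl Θ ht
      exact ⟨{y}, by rw [Finset.card_singleton, hn], e1_indp_single hl hy⟩
    · obtain ⟨B, hBc, hB, htB, halg, -⟩ := hTd.exists_basis hk hfg ht
      have hBne : B.Nonempty := by
        rw [← Finset.card_pos, hBc]
        exact hn
      obtain ⟨θ, hθ⟩ := exists_over_nice hk hfg hB htB halg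
      haveI := ae_neBot_of_isAlgClosed hk
      obtain ⟨b, ⟨W, hWo⟩, hNb⟩ := hθ.exists
      have hN := hNb W hWo
      have hWk : TrivOn W k := hN.triv.mono (le_gsp k B)
      obtain ⟨y, hy⟩ := id hBne
      haveI := gsp_perfect k B
      have hnegK : ∃ i : K, i ^ ℓ = -1 := e1_neg_one hk (Fact.out : ℓ.Prime).pos
      have hnegL : ∃ i : M, i ^ ℓ = -1 := e1_neg_one hl (Fact.out : ℓ.Prime).pos
      have hyk : y ∉ k := e1_notMem hB hy
      have hyW : TrivOn W (adj k y) := hN.triv.mono (adj_le (le_gsp k B) (mem_gsp hy))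
      have hfin := hN.finite (ℓ := ℓ) hk (le_gsp k B) (gsp_fg k B) (le_adj k y) hyW
      obtain ⟨g₀, -, hg₀⟩ := exists_nr' hk hfg hyk hfin
      obtain ⟨O, hT⟩ := exists_trA hΘ hnegK hnegL (hN.unif.adp (ℓ := ℓ) hnegK) hg₀
      have hNC := e1_noCtr (ℓ := ℓ) hk hB hBne hN hWk
      obtain ⟨Θ', hΘ', -⟩ := TrA.res hΘ hnegK hnegL (hN.unif.adp (ℓ := ℓ) hnegK) hT hNC
      haveI := rs_perfect hWk
      haveI := rs_neZero (ℓ := ℓ) hWk
      have htd := Nice.td hB hN hWk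
      rw [hBc] at htd
      obtain ⟨B1, hB1c, hB1⟩ := ih (bar_isAlgClosed hWk hk) htd.2 (rbar_ac hl O) hΘ' htd.1
      obtain ⟨ρ, hρ0, hρ⟩ := r14_rho hl hΘ hnegK hnegL hN.unif hT hNC
      obtain ⟨B', hB'c, hB'⟩ := abh_lift hl hρ0 hρ hB1
      exact ⟨B', by rw [hB'c, hB1c], hB'⟩

/-- the residue fields of transferred valuations. -/
theorem res_td' {K : Type u} {L : Type v} [Field K] [Field L] [PerfectField K] [PerfectField L]
    {ℓ : ℕ} [Fact ℓ.Prime] [NeZero (ℓ : K)] [NeZero (ℓ : L)] {Θ : V ℓ K ≃ₗ[ZMod ℓ] V ℓ L}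
    {k : Subfield K} (hk : IsAlgClosed k) (hfgk : FG k (⊤ : Subfield K)) {l : Subfield L}
    (hl : IsAlgClosed l) (hfgl : FG l (⊤ : Subfield L)) (hΘ : Compatible Θ)
    {B : Finset K} (hB : Indp k B) (hBne : B.Nonempty) (hL : Td l (B.card + 1))
    {W : ValuationSubring K} {π θ : K} (hW : Nice W (gsp k B) π θ)
    {O : ValuationSubring L} (hT : Tr Θ W π O) :
    Td (rbarP l O) B.card ∧ FG (rbarP l O) (⊤ : Subfield (RFP O)) := by
  classical
  haveI := hk
  haveI := hl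
  have hWk : TrivOn W k := hW.triv.mono (le_gsp k B)
  have hnegK : ∃ i : K, i ^ ℓ = -1 := e1_neg_one hk (Fact.out : ℓ.Prime).pos
  have hnegL : ∃ i : L, i ^ ℓ = -1 := e1_neg_one hl (Fact.out : ℓ.Prime).pos
  have hTA : TrA Θ W (hW.unif.fn ℓ) O := ⟨hT.unit hW.unif, hT.iff⟩
  have hNC := e1_noCtr (ℓ := ℓ) hk hB hBne hW hWk
  obtain ⟨Θ', hΘ', -⟩ := TrA.res hΘ hnegK hnegL (hW.unif.adp (ℓ := ℓ) hnegK) hTA hNC
  haveI := rs_perfect hWk
  haveI := rs_neZero (ℓ := ℓ) hWk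
  have htd := Nice.td hB hW hWk
  obtain ⟨B1, hB1c, hB1⟩ := dim_ge' B.card (bar_isAlgClosed hWk hk) htd.2 (rbar_ac hl O) hΘ' htd.1
  obtain ⟨ρ, hρ0, hρ⟩ := r14_rho hl hΘ hnegK hnegL hW.unif hTA hNC
  exact abh_fg hl hfgl hL hρ0 hρ hB1c hB1

end Vale.Agent.P019P
end
end

section

section

/-!
# A ramification argument
-/

namespace Vale.Agent.P019P

open Vale.Agent.P019

set_option linter.style.haveILetI false
set_option linter.unusedSectionVars false

open Polynomial Filter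

/-- an element `σ` such that infinitely many `σ - c` have the classes of elements of `N` is
algebraic over `N`. -/
theorem ram_alg {κ : Type*} [Field κ] [PerfectField κ] (ℓ : ℕ) [Fact ℓ.Prime] [NeZero (ℓ : κ)]
    {Λ N : Subfield κ} (hΛ : IsAlgClosed Λ) (hfg : FG Λ (⊤ : Subfield κ)) (hΛN : Λ ≤ N) {σ : κ}
    (hinf : {c : κ | c ∈ Λ ∧ ∃ z ∈ N, ∃ h : κ, h ≠ 0 ∧ σ - c = z * h ^ ℓ}.Infinite) :
    IsAlgebraic N σ := by
  classical
  by_contra hσ
  have hN' : N ≤ pf N := le_pf N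
  have hσ' : ¬ IsAlgebraic (pf N) σ := fun h => hσ (isAlgebraic_pf.1 h)
  have hfg' : FG (pf N) (⊤ : Subfield κ) := hfg.mono (hΛN.trans hN') le_top
  have hind : Indp (pf N) {σ} := by
    intro S hS v hv hvS
    rw [Finset.mem_singleton] at hv
    subst hv
    have hS0 : S = ∅ := by
      rcases Finset.subset_singleton_iff.1 hS with h | h
      · exact h
      · exact absurd (by rw [h]; exact Finset.mem_singleton_self _) hvS
    subst hS0
    rw [gsp_empty]
    exact hσ'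
  obtain ⟨B, hσB, hB, hBalg⟩ := hind.extend hfg'
  have hσB' : σ ∈ B := hσB (Finset.mem_singleton_self σ)
  set G := gsp (pf N) (B.erase σ) with hG
  haveI : PerfectField G := gsp_perfect _ _
  have hNG : N ≤ G := hN'.trans (le_gsp _ _)
  have hσG : ¬ IsAlgebraic G σ :=
    hB _ (Finset.erase_subset σ B) σ hσB' (Finset.notMem_erase σ B)
  have halg : ∀ z : κ, IsAlgebraic (adj G σ) z := by
    intro z
    have h1 := hBalg z
    rw [← Finset.insert_erase hσB', gsp_insert] at h1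
    exact h1
  obtain ⟨θ, hθ, hθ'⟩ := lemX_gen (hΛN.trans hNG) hfg halg
  have hae := lemX_unif_ae hσG hθ hθ'
  rw [eventually_cofinite] at hae
  have hbad := hae.image (Subtype.val : G → κ)
  obtain ⟨c, ⟨hcΛ, z, hz, h, hh, hc⟩, hcbad⟩ := (hinf.sdiff hbad).nonempty
  have hcG : c ∈ G := hNG (hΛN hcΛ)
  obtain ⟨W, hW⟩ := exists_over hσG hcG
  have hU : IsUnif W (σ - c) := by
    by_contra hcon
    exact hcbad ⟨⟨c, hcG⟩, fun h1 => hcon (h1 W hW), rfl⟩
  have hz0 : z ≠ 0 := by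
    rintro rfl
    exact hU.ne (by rw [hc, zero_mul])
  have h1 : cl ℓ (σ - c) = cl ℓ z := by
    rw [hc, cl_mul ℓ hz0 (pow_ne_zero _ hh), cl_pow_self, add_zero]
  have h2 : hU.fn ℓ (cl ℓ (σ - c)) = 0 := by
    rw [h1]
    exact hU.fn_unit ℓ z (hW.triv.eq_one (hNG hz) hz0)
  rw [hU.fn_self ℓ] at h2
  exact one_ne_zero h2

end Vale.Agent.P019P
end
end

section

section

/-!
# The limit theorem
-/

namespace Vale.Agent.P019P

open Vale.Agent.P019

set_option linter.style.haveILetI false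
set_option linter.unusedSectionVars false

open Polynomial Filter

section e4tr

variable {G : Type*} [Field G] {κ : Subfield G}

theorem e4_map_comap {E : Subfield G} (h : E ≤ κ) :
    (E.comap κ.subtype).map κ.subtype = E := by
  ext x
  constructor
  · rintro ⟨y, hy, rfl⟩
    exact hy
  · intro hx
    exact ⟨⟨x, h hx⟩, hx, rfl⟩

theorem e4_isAlgClosed {E : Subfield G} (h : E ≤ κ) (hE : IsAlgClosed E) :
    IsAlgClosed (E.comap κ.subtype) := by
  let e : E →+* E.comap κ.subtype :=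
    (Subfield.inclusion h).codRestrict (E.comap κ.subtype) fun x => x.2
  refine isAlgClosed_equiv (RingEquiv.ofBijective e ⟨e.injective, ?_⟩) hE
  rintro ⟨⟨x, hx⟩, hxE⟩
  exact ⟨⟨x, hxE⟩, rfl⟩

theorem e4_map_gsp {K' : Type*} [Field K'] [PerfectField K'] [DecidableEq G]
    (j : K' →+* G) (E : Subfield K') (B : Finset K') :
    (gsp E B).map j = gsp (E.map j) (B.image j) := by
  have key : (E ⊔ Subfield.closure (B : Set K')).map j =
      E.map j ⊔ Subfield.closure ((B.image j : Finset G) : Set G) := by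
    rw [Subfield.map_sup, RingHom.map_field_closure, Finset.coe_image]
  apply le_antisymm
  · refine (map_pf_le j _).trans ?_
    rw [key]
    exact le_rfl
  · haveI := gsp_perfect E B
    haveI : PerfectField ((gsp E B).map j) := perfect_map j _
    refine pf_le ?_
    rw [← key]
    exact sub_map_mono j (le_pf _)

theorem e4_indp_map {K' : Type*} [Field K'] [PerfectField K'] [DecidableEq G]
    (j : K' →+* G) {E : Subfield K'} {B : Finset K'} :
    Indp (E.map j) (B.image j) ↔ Indp E B := by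
  constructor
  · intro h T hT v hv hvT halg
    refine h (T.image j) (Finset.image_subset_image hT) (j v) (Finset.mem_image_of_mem j hv) ?_ ?_
    · intro h1
      obtain ⟨y, hy, hyv⟩ := Finset.mem_image.1 h1
      rw [j.injective hyv] at hy
      exact hvT hy
    · rw [← e4_map_gsp]
      exact isAlgebraic_map j halg
  · intro h T hT v hv hvT halg
    obtain ⟨v, hvB, rfl⟩ := Finset.mem_image.1 hv
    have hT0 : T = (B.filter fun x => j x ∈ T).image j := by
      ext x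
      rw [Finset.mem_image]
      constructor
      · intro hx
        obtain ⟨y, hy, rfl⟩ := Finset.mem_image.1 (hT hx)
        exact ⟨y, Finset.mem_filter.2 ⟨hy, hx⟩, rfl⟩
      · rintro ⟨y, hy, rfl⟩
        exact (Finset.mem_filter.1 hy).2
    rw [hT0, ← e4_map_gsp] at halg
    exact h _ (Finset.filter_subset _ _) v hvB
      (fun h1 => hvT (Finset.mem_filter.1 h1).2) (isAlgebraic_of_map j halg)

theorem e4_lift [DecidableEq G] {S : Finset G} (hS : ∀ x ∈ S, x ∈ κ) :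
    ∃ S' : Finset κ, S'.image κ.subtype = S ∧ S'.card = S.card := by
  have hinj : Function.Injective fun x : {x // x ∈ S} => (⟨x.1, hS x.1 x.2⟩ : κ) := by
    intro x y h
    exact Subtype.ext (congrArg (fun z : κ => (z : G)) h)
  refine ⟨S.attach.map ⟨fun x : {x // x ∈ S} => (⟨x.1, hS x.1 x.2⟩ : κ), hinj⟩, ?_, ?_⟩
  · ext x
    rw [Finset.mem_image]
    constructor
    · rintro ⟨y, hy, rfl⟩
      obtain ⟨z, -, rfl⟩ := Finset.mem_map.1 hy
      exact z.2
    · intro hx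
      exact ⟨⟨x, hS x hx⟩, Finset.mem_map.2 ⟨⟨x, hx⟩, Finset.mem_attach _ _, rfl⟩, rfl⟩
  · rw [Finset.card_map, Finset.card_attach]

theorem e4_mem_gsp [DecidableEq G] [PerfectField κ] {E : Subfield G} (h : E ≤ κ)
    {S' : Finset κ} {z : κ} :
    z ∈ gsp (E.comap κ.subtype) S' ↔ (z : G) ∈ gsp E (S'.image κ.subtype) := by
  have h1 := e4_map_gsp κ.subtype (E.comap κ.subtype) S'
  rw [e4_map_comap h] at h1
  rw [← h1]
  constructor
  · intro hz
    exact ⟨z, hz, rfl⟩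
  · rintro ⟨y, hy, hyz⟩
    rw [← Subtype.ext (show (y : G) = z from hyz)]
    exact hy

theorem e4_alg_gsp [DecidableEq G] [PerfectField κ] {E : Subfield G} (h : E ≤ κ)
    {S' : Finset κ} {z : κ} :
    IsAlgebraic (gsp (E.comap κ.subtype) S') z ↔
      IsAlgebraic (gsp E (S'.image κ.subtype)) (z : G) := by
  have h1 := e4_map_gsp κ.subtype (E.comap κ.subtype) S'
  rw [e4_map_comap h] at h1
  rw [← h1]
  exact ⟨fun hz => isAlgebraic_map κ.subtype hz, fun hz => isAlgebraic_of_map κ.subtype hz⟩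

theorem e4_fg [PerfectField κ] {E : Subfield G} (h : FG E κ) (hE : E ≤ κ) :
    FG (E.comap κ.subtype) (⊤ : Subfield κ) := by
  classical
  obtain ⟨S, hS⟩ := h
  have hSκ : ∀ x ∈ S, x ∈ κ := by
    intro x hx
    rw [hS]
    exact mem_gsp (k := E) hx
  obtain ⟨S', hS', -⟩ := e4_lift hSκ
  refine ⟨S', le_antisymm ?_ le_top⟩
  intro z _
  change z ∈ gsp (E.comap κ.subtype) S'
  rw [e4_mem_gsp hE, hS']
  change (z : G) ∈ pf (E ⊔ Subfield.closure (S : Set G))
  rw [← hS]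
  exact z.2

end e4tr

/-- `f` is a twist of `v` by powers of Frobenius. -/
def Twi {Ω I : Type*} [Field Ω] (f : I → Ω) (v : Ω) : Prop :=
  ∀ i, ∃ a b : ℕ, (f i) ^ (ringExpChar Ω) ^ a = v ^ (ringExpChar Ω) ^ b

section e4a

variable {Ω : Type*} [Field Ω]

theorem e4_rcl_pow {k : Subfield Ω} {x y : Ω} {a b : ℕ}
    (h : x ^ ringExpChar Ω ^ a = y ^ ringExpChar Ω ^ b) : rcl k {x} ≤ rcl k {y} := by
  refine rcl_le (rcl_RAC _ _) (le_rcl _ _) ?_
  intro c hc
  rw [Finset.mem_singleton] at hc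
  subst hc
  apply rcl_RAC
  refine IsAlgebraic.of_pow (n := ringExpChar Ω ^ a) (pow_pos (expChar_pos Ω _) a) ?_
  rw [h]
  exact isAlgebraic_of_mem (pow_mem (mem_rcl (Finset.mem_singleton_self y)) _)

theorem e4_rcl_twi {I : Type*} {k : Subfield Ω} {f : I → Ω} {v : Ω} (h : Twi f v) (i : I) :
    rcl k {f i} = rcl k {v} := by
  obtain ⟨a, b, hab⟩ := h i
  exact le_antisymm (e4_rcl_pow hab) (e4_rcl_pow hab.symm)

theorem e4_gsp_twi {I : Type*} [PerfectField Ω] {k : Subfield Ω} {B : Finset Ω} {f : I → Ω}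
    {v : Ω} (hv : v ∈ B) (h : Twi f v) (i : I) : f i ∈ gsp k B := by
  haveI := gsp_perfect k B
  obtain ⟨a, b, hab⟩ := h i
  refine mem_of_pow_q (n := a) ?_
  rw [hab]
  exact pow_mem (mem_gsp hv) _

theorem e4_gsp_le_rcl (k : Subfield Ω) (B : Finset Ω) : gsp k B ≤ rcl k B := by
  unfold gsp rcl
  exact pf_le_rac _

theorem e4_bd_rcl {k : Subfield Ω} {B : Finset Ω} {c : Ω} {d : ℕ}
    (h : ∃ p : (gsp k B)[X], p.Monic ∧ p.natDegree ≤ d ∧ aeval c p = 0) : c ∈ rcl k B := by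
  obtain ⟨p, hp, -, hpc⟩ := h
  exact rcl_RAC k B c (isAlgebraic_mono (e4_gsp_le_rcl k B) ⟨p, hp.ne_zero, hpc⟩)

theorem e4_twist {ℓ : ℕ} [Fact ℓ.Prime] [NeZero (ℓ : Ω)] {R : Subfield Ω} {x w z h : Ω}
    {a b e : ℕ} (hw : w ∈ R) (hz : z ∈ R) (hh : h ∈ R) (hz0 : z ≠ 0) (hh0 : h ≠ 0)
    (hwx : w ^ ringExpChar Ω ^ a = x ^ ringExpChar Ω ^ b) (hx : x = z ^ e * h ^ ℓ) :
    ∃ e' ∈ Set.Iio ℓ, ∃ h' : Ω, h' ∈ R ∧ h' ≠ 0 ∧ w = z ^ e' * h' ^ ℓ := by
  have hℓ : 1 < ℓ := (Fact.out : ℓ.Prime).one_lt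
  have hq := q_pow_ne_zero ℓ Ω a
  obtain ⟨u, m, hum⟩ : ∃ u m : ℕ, ringExpChar Ω ^ a * u = 1 + ℓ * m := by
    refine ⟨(((ringExpChar Ω ^ a : ℕ) : ZMod ℓ)⁻¹).val,
      ringExpChar Ω ^ a * (((ringExpChar Ω ^ a : ℕ) : ZMod ℓ)⁻¹).val / ℓ, ?_⟩
    have h1 : ((ringExpChar Ω ^ a * (((ringExpChar Ω ^ a : ℕ) : ZMod ℓ)⁻¹).val : ℕ) : ZMod ℓ) =
        ((1 : ℕ) : ZMod ℓ) := by
      rw [Nat.cast_mul, ZMod.natCast_zmod_val, mul_inv_cancel₀ hq, Nat.cast_one]
    rw [ZMod.natCast_eq_natCast_iff'] at h1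
    rw [Nat.mod_eq_of_lt hℓ] at h1
    have h2 := Nat.mod_add_div
      (ringExpChar Ω ^ a * (((ringExpChar Ω ^ a : ℕ) : ZMod ℓ)⁻¹).val) ℓ
    rw [h1] at h2
    exact h2.symm
  have hx0 : x ≠ 0 := by
    rw [hx]
    exact mul_ne_zero (pow_ne_zero _ hz0) (pow_ne_zero _ hh0)
  have hw0 : w ≠ 0 := by
    rintro rfl
    rw [zero_pow (pow_pos (expChar_pos Ω _) a).ne'] at hwx
    exact pow_ne_zero _ hx0 hwx.symm
  set n := e * (ringExpChar Ω ^ b * u) with hn
  refine ⟨n % ℓ, Nat.mod_lt _ (by omega), z ^ (n / ℓ) * h ^ (ringExpChar Ω ^ b * u) / w ^ m,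
    R.div_mem (R.mul_mem (R.pow_mem hz _) (R.pow_mem hh _)) (R.pow_mem hw _),
    div_ne_zero (mul_ne_zero (pow_ne_zero _ hz0) (pow_ne_zero _ hh0)) (pow_ne_zero _ hw0), ?_⟩
  have h3 : w * (w ^ m) ^ ℓ = z ^ n * (h ^ (ringExpChar Ω ^ b * u)) ^ ℓ := by
    calc w * (w ^ m) ^ ℓ = w ^ (1 + ℓ * m) := by
          rw [pow_add, pow_one, ← pow_mul, mul_comm m ℓ]
      _ = (x ^ ringExpChar Ω ^ b) ^ u := by rw [← hum, pow_mul, hwx]
      _ = z ^ n * (h ^ (ringExpChar Ω ^ b * u)) ^ ℓ := by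
          rw [hx, ← pow_mul, mul_pow, ← pow_mul, ← pow_mul, ← pow_mul, mul_comm ℓ]
  have h4 : z ^ n = z ^ (n % ℓ) * (z ^ (n / ℓ)) ^ ℓ := by
    rw [← pow_mul, ← pow_add, mul_comm (n / ℓ) ℓ, Nat.mod_add_div]
  rw [div_pow, mul_pow, eq_comm, ← mul_div_assoc, div_eq_iff (pow_ne_zero _ (pow_ne_zero _ hw0)),
    h3, h4, mul_assoc]

end e4a

section e4b

variable {Ω : Type*} [Field Ω] {I : Type*} {U : Ultrafilter I}

theorem e4_ultra {ℓ : ℕ} [Fact ℓ.Prime] [NeZero (ℓ : Ω)] {R : I → Subfield Ω} {v c : Ω}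
    {f c' : I → Ω} (hf : ∀ i, ∃ a b : ℕ, f i ^ ringExpChar Ω ^ a = v ^ ringExpChar Ω ^ b ∧
      c' i ^ ringExpChar Ω ^ a = c ^ ringExpChar Ω ^ b) (hfR : ∀ i, f i - c' i ∈ R i)
    {z h : Gm U Ω} (hz : z ∈ uSub U R) (hz0 : z ≠ 0) (hh : h ∈ uSub U R) (hh0 : h ≠ 0) {e : ℕ}
    (hvc : gm U (fun _ => v - c) = z ^ e * h ^ ℓ) :
    ∃ e' : ℕ, ∃ h' ∈ uSub U R, h' ≠ 0 ∧ gm U f - gm U c' = z ^ e' * h' ^ ℓ := by
  obtain ⟨zf, rfl, hzR⟩ := hz
  obtain ⟨hf', rfl, hhR⟩ := hh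
  rw [← gm_pow, ← gm_pow, ← gm_mul, gm_eq] at hvc
  have hz1 : ∀ᶠ i in U, zf i ≠ 0 := by
    rw [Ultrafilter.eventually_not, ← gm_eq_zero]
    exact hz0
  have hh1 : ∀ᶠ i in U, hf' i ≠ 0 := by
    rw [Ultrafilter.eventually_not, ← gm_eq_zero]
    exact hh0
  have h1 : ∀ᶠ i in U, ∃ e' ∈ Set.Iio ℓ, ∃ h' : Ω, h' ∈ R i ∧ h' ≠ 0 ∧
      f i - c' i = zf i ^ e' * h' ^ ℓ := by
    filter_upwards [hvc, hz1, hh1] with i h2 h3 h4
    obtain ⟨a, b, ha, hb⟩ := hf i
    refine e4_twist (a := a) (b := b) (hfR i) (hzR i) (hhR i) h3 h4 ?_ h2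
    rw [sub_pow_expChar_pow, sub_pow_expChar_pow, ha, hb]
  rw [Ultrafilter.eventually_exists_mem_iff (Set.finite_Iio ℓ)] at h1
  obtain ⟨e', -, h2⟩ := h1
  obtain ⟨h', hh'⟩ := h2.choice
  refine ⟨e', gm U h', gm_mem_uSub.2 (hh'.mono fun i hi => hi.1), ?_, ?_⟩
  · rw [Ne, gm_eq_zero, ← Ultrafilter.eventually_not]
    exact hh'.mono fun i hi => hi.2.1
  · rw [← gm_sub, ← gm_pow, ← gm_pow, ← gm_mul, gm_eq]
    exact hh'.mono fun i hi => hi.2.2

theorem e4_perfect_uSub {R : I → Subfield Ω} (hR : ∀ i, PerfectField (R i)) :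
    PerfectField (uSub U R) := by
  refine perfect_of_root ?_
  rintro _ ⟨f, rfl, hf⟩
  have h : ∀ i, ∃ y ∈ R i, y ^ ringExpChar Ω = f i := by
    intro i
    haveI := hR i
    obtain ⟨y, hy, hyz⟩ := exists_root_q (R i) (hf i) 1
    exact ⟨y, hy, by rwa [pow_one] at hyz⟩
  choose y hy hyf using h
  refine ⟨gm U y, ⟨y, rfl, hy⟩, ?_⟩
  rw [ringExpChar_gm, ← gm_pow]
  exact congrArg _ (funext hyf)

/-- Steps 1 and 2: the choice of the twists. -/
theorem e4_choose [IsAlgClosed Ω] [DecidableEq Ω] {k : Subfield Ω} (hk : IsAlgClosed k)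
    {B : Finset Ω} (hB : Indp k B) {R : I → Subfield Ω} {d : ℕ}
    (hd : ∀ i, ∀ c ∈ R i, ∃ p : (gsp k B)[X], p.Monic ∧ p.natDegree ≤ d ∧ aeval c p = 0)
    {L : Type*} [Field L] (A : L →+* Gm U Ω) (hAR : ∀ z, A z ∈ uSub U R)
    (hdep : ∀ v ∈ B, ∀ x y : L, A x ∈ uSub U (fun _ => rcl k (B.erase v)) ∨
      IsAlgebraic (adj (uSub U (fun _ => rcl k (B.erase v))) (A x)) (A y))
    (htw : ∀ v ∈ B, ∀ x : L, A x ∉ uSub U (fun _ => rcl k (B.erase v)) →
      ∃ f : I → Ω, Twi f v ∧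
        IsAlgebraic (adj (uSub U (fun _ => rcl k (B.erase v))) (gm U f)) (A x)) :
    ∃ F : Ω → I → Ω, (∀ v ∈ B, Twi (F v) v) ∧ ∀ y : L, ∃ T : Finset (Gm U Ω),
      (∀ t ∈ T, ∃ v ∈ B, t = gm U (F v)) ∧
        IsAlgebraic (gsp (uSub U (fun _ => k)) T) (A y) := by
  have h1 : ∀ v : Ω, ∃ f : I → Ω, v ∈ B → Twi f v ∧
      ∀ y : L, IsAlgebraic (adj (uSub U (fun _ => rcl k (B.erase v))) (gm U f)) (A y) := by
    intro v
    by_cases hv : v ∈ B
    · by_cases hall : ∀ x : L, A x ∈ uSub U (fun _ => rcl k (B.erase v))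
      · exact ⟨fun _ => v, fun _ => ⟨fun _ => ⟨0, 0, rfl⟩,
          fun y => isAlgebraic_of_mem (le_adj _ _ (hall y))⟩⟩
      · push Not at hall
        obtain ⟨x0, hx0⟩ := hall
        obtain ⟨f, hf, hfx⟩ := htw v hv x0 hx0
        refine ⟨f, fun _ => ⟨hf, fun y => ?_⟩⟩
        have h2 := (hdep v hv x0 y).resolve_left hx0
        have h3 : adj (uSub U (fun _ => rcl k (B.erase v))) (A x0) ≤
            rac (adj (uSub U (fun _ => rcl k (B.erase v))) (gm U f)) :=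
          adj_le ((le_adj _ _).trans (le_rac _)) (mem_rac.2 hfx)
        exact isAlgebraic_rac (isAlgebraic_mono h3 h2)
    · exact ⟨fun _ => v, fun h => absurd h hv⟩
  choose F hF using h1
  refine ⟨F, fun v hv => (hF v hv).1, fun y => ?_⟩
  refine geo hk hB (σ := fun v => gm U (F v))
    (fun v hv => ⟨F v, rfl, fun i => e4_rcl_twi (hF v hv).1 i⟩) ?_ (fun v hv => (hF v hv).2 y)
  obtain ⟨g, hg, hgR⟩ := hAR y
  exact ⟨g, hg, fun i => e4_bd_rcl (hd i _ (hgR i))⟩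

end e4b

/-- the limit theorem: a function field `L` of transcendence degree `m + 1` over `l` inside a
limit of function fields of transcendence degree `m` over `k`. -/
theorem lim_main {Ω : Type*} [Field Ω] [IsAlgClosed Ω] (ℓ : ℕ) [Fact ℓ.Prime] [NeZero (ℓ : Ω)]
    [DecidableEq Ω] {I : Type*} {U : Ultrafilter I} {k : Subfield Ω} (hk : IsAlgClosed k)
    {B : Finset Ω} (hB : Indp k B) {R : I → Subfield Ω} (hR : ∀ i, gsp k B ≤ R i)
    (hRp : ∀ i, PerfectField (R i)) {d : ℕ}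
    (hd : ∀ i, ∀ c ∈ R i, ∃ p : (gsp k B)[X], p.Monic ∧ p.natDegree ≤ d ∧ aeval c p = 0)
    {L : Type*} [Field L] [PerfectField L] {l : Subfield L} (hl : IsAlgClosed l)
    (hfg : FG l (⊤ : Subfield L)) (htd : Td l (B.card + 1)) (A : L →+* Gm U Ω)
    (hAR : ∀ z, A z ∈ uSub U R) (hAl : ∀ c ∈ l, A c ∈ uSub U (fun _ => k))
    (hdep : ∀ v ∈ B, ∀ x y : L, A x ∈ uSub U (fun _ => rcl k (B.erase v)) ∨
      IsAlgebraic (adj (uSub U (fun _ => rcl k (B.erase v))) (A x)) (A y))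
    (htw : ∀ v ∈ B, ∀ x : L, A x ∉ uSub U (fun _ => rcl k (B.erase v)) →
      ∃ f : I → Ω, Twi f v ∧
        IsAlgebraic (adj (uSub U (fun _ => rcl k (B.erase v))) (gm U f)) (A x))
    (hdie : ∀ N : ℕ, ∃ x : Fin N → L, (∀ i, x i ≠ 0 ∧ ∃ h ∈ uSub U R, h ^ ℓ = A (x i)) ∧
      ∀ i j, i ≠ j → ¬ ∃ w : L, x i = x j * w ^ ℓ)
    (hram : ∀ v ∈ B, {c : Ω | c ∈ k ∧ ∃ z : L, z ≠ 0 ∧ ∃ e : ℕ, ∃ h ∈ uSub U R, h ≠ 0 ∧
      gm U (fun _ => v - c) = A z ^ e * h ^ ℓ}.Infinite) :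
    ∃ e : L, e ∉ l ∧ A e ∈ uSub U (fun _ => k) := by
  classical
  haveI : PerfectField k := by
    haveI := hk
    infer_instance
  have hℓ : 0 < ℓ := (Fact.out : ℓ.Prime).pos
  obtain ⟨F, hFB, hFalg⟩ := e4_choose hk hB hd A hAR hdep htw
  have hσ : ∀ v ∈ B, ∃ f : I → Ω, gm U f = gm U (F v) ∧
      ∀ i, ∃ a b : ℕ, (f i) ^ (ringExpChar Ω) ^ a = v ^ (ringExpChar Ω) ^ b :=
    fun v hv => ⟨F v, rfl, hFB v hv⟩
  obtain ⟨S, hS, hScard, hSind⟩ := gm_indp (U := U) hB (σ := fun v => gm U (F v)) hσ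
  have hfin := gm_fin (U := U) hB (σ := fun v => gm U (F v)) hσ hS hR hRp hd
  set Λ : Subfield (Gm U Ω) := uSub U (fun _ => k) with hΛdef
  have hΛac : IsAlgClosed Λ := isAlgClosed_uSub fun _ => hk
  set P := gsp Λ S with hP
  set κ : Subfield (Gm U Ω) := uSub U R ⊓ rac P with hκ
  haveI : PerfectField (uSub U R) := e4_perfect_uSub hRp
  haveI hκp : PerfectField κ := perfect_inf
  have hkR : ∀ i, k ≤ R i := fun i => (le_gsp k B).trans (hR i)
  have hΛR : Λ ≤ uSub U R := by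
    rintro _ ⟨f, rfl, hf⟩
    exact ⟨f, rfl, fun i => hkR i (hf i)⟩
  have hΛκ : Λ ≤ κ := le_inf hΛR ((le_gsp Λ S).trans (le_rac _))
  have hAκ : ∀ z : L, A z ∈ κ := by
    intro z
    refine Subfield.mem_inf.2 ⟨hAR z, mem_rac.2 ?_⟩
    obtain ⟨T, hT, hTz⟩ := hFalg z
    exact isAlgebraic_mono (gsp_mono Λ fun t ht => (hS t).2 (hT t ht)) hTz
  have hFR : ∀ v ∈ B, ∀ i, F v i ∈ R i := fun v hv i => hR i (e4_gsp_twi hv (hFB v hv) i)
  have hSκ : ∀ y ∈ S, y ∈ κ := by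
    intro y hy
    refine Subfield.mem_inf.2 ⟨?_, le_rac _ (mem_gsp hy)⟩
    obtain ⟨v, hv, rfl⟩ := (hS y).1 hy
    exact ⟨F v, rfl, hFR v hv⟩
  obtain ⟨S', hS', hS'card⟩ := e4_lift hSκ
  have hpow : ∀ h ∈ uSub U R, h ^ ℓ ∈ κ → h ∈ κ := fun h hh hhκ =>
    Subfield.mem_inf.2 ⟨hh, mem_rac.2 (isAlgebraic_rac
      (IsAlgebraic.of_pow hℓ (isAlgebraic_of_mem (Subfield.mem_inf.1 hhκ).2)))⟩
  let A' : L →+* κ := A.codRestrict κ hAκ
  have hA' : ∀ z, ((A' z : κ) : Gm U Ω) = A z := fun z => rfl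
  haveI : NeZero (ℓ : κ) := ⟨by
    intro h
    have h1 : gc U ((ℓ : ℕ) : Ω) = 0 := by
      rw [map_natCast, ← map_natCast κ.subtype, h, map_zero]
    rw [map_eq_zero] at h1
    exact NeZero.ne _ h1⟩
  set Λκ : Subfield κ := Λ.comap κ.subtype with hΛκdef
  set Lκ : Subfield κ := (⊤ : Subfield L).map A' with hLκ
  have hΛκac : IsAlgClosed Λκ := e4_isAlgClosed hΛκ hΛac
  have hfgκ : FG Λκ (⊤ : Subfield κ) := e4_fg hfin hΛκ
  -- the generators are algebraic over `Λ L`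
  have hS'alg : ∀ y ∈ S', IsAlgebraic (Λκ ⊔ Lκ : Subfield κ) y := by
    intro y hy
    have hyS : (y : Gm U Ω) ∈ S := by
      rw [← hS']
      exact Finset.mem_image_of_mem κ.subtype hy
    obtain ⟨v, hv, hyv⟩ := (hS _).1 hyS
    refine ram_alg ℓ hΛκac hfgκ le_sup_left ?_
    choose a b hab using hFB v hv
    have hC : ∀ c : Ω, ∃ g : I → Ω, c ∈ k → ∀ i, g i ∈ k ∧
        g i ^ ringExpChar Ω ^ a i = c ^ ringExpChar Ω ^ b i := by
      intro c
      by_cases hc : c ∈ k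
      · choose g hg hg' using fun i => exists_root_q k (pow_mem hc (ringExpChar Ω ^ b i)) (a i)
        exact ⟨g, fun _ i => ⟨hg i, hg' i⟩⟩
      · exact ⟨fun _ => 0, fun h => absurd h hc⟩
    choose C hC using hC
    refine Set.Infinite.of_image (fun z : κ => (z : Gm U Ω)) ?_
    refine ((hram v hv).image (f := fun c => gm U (C c)) ?_).mono ?_
    · rintro c ⟨hc, -⟩ c' ⟨hc', -⟩ hcc
      obtain ⟨i, hi⟩ := (gm_eq.1 hcc).exists
      have h1 := (hC c hc i).2
      rw [hi, (hC c' hc' i).2] at h1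
      exact (pow_q_injective (b i) h1).symm
    · rintro _ ⟨c, ⟨hc, z, hz0, e, h, hh, hh0, heq⟩, rfl⟩
      have hCR : ∀ i, C c i ∈ R i := fun i => hkR i (hC c hc i).1
      have hCΛ : gm U (C c) ∈ Λ := ⟨C c, rfl, fun i => (hC c hc i).1⟩
      have hAz0 : A z ≠ 0 := (map_ne_zero A).2 hz0
      obtain ⟨e', h', hh', hh'0, heq'⟩ := e4_ultra (ℓ := ℓ) (R := R) (v := v) (c := c) (f := F v)
        (c' := C c) (fun i => ⟨a i, b i, hab i, (hC c hc i).2⟩)
        (fun i => (R i).sub_mem (hFR v hv i) (hCR i)) (hAR z) hAz0 hh hh0 heq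
      have hh'κ : h' ∈ κ := by
        refine hpow h' hh' ?_
        have h1 : h' ^ ℓ = ((y : Gm U Ω) - gm U (C c)) / A z ^ e' := by
          rw [hyv, heq', mul_div_cancel_left₀ _ (pow_ne_zero _ hAz0)]
        rw [h1]
        exact κ.div_mem (κ.sub_mem y.2 (hΛκ hCΛ)) (κ.pow_mem (hAκ z) _)
      refine ⟨⟨gm U (C c), hΛκ hCΛ⟩, ⟨hCΛ, A' z ^ e', ?_, ⟨h', hh'κ⟩, ?_, ?_⟩, rfl⟩
      · have hzL : A' z ∈ Lκ := ⟨z, Subfield.mem_top z, rfl⟩
        exact (le_sup_right : Lκ ≤ Λκ ⊔ Lκ) (pow_mem hzL _)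
      · intro h1
        exact hh'0 (congrArg (fun z : κ => (z : Gm U Ω)) h1)
      · apply Subtype.ext
        change (y : Gm U Ω) - gm U (C c) = A z ^ e' * h' ^ ℓ
        rw [hyv, heq']
  have halg : ∀ z : κ, IsAlgebraic (Λκ ⊔ Lκ : Subfield κ) z := by
    intro z
    have h1 : IsAlgebraic (gsp Λκ S') z := by
      rw [hΛκdef, e4_alg_gsp hΛκ, hS']
      exact mem_rac.1 (Subfield.mem_inf.1 z.2).2
    have h2 : gsp Λκ S' ≤ rac (Λκ ⊔ Lκ) :=
      gsp_le (le_sup_left.trans (le_rac _)) fun y hy => mem_rac.2 (hS'alg y hy)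
    exact isAlgebraic_rac (isAlgebraic_mono h2 h1)
  have htd' : Td Λκ B.card := by
    refine ⟨S', hS'card.trans hScard, ?_, fun z => ?_⟩
    · rw [← e4_indp_map κ.subtype, hΛκdef, e4_map_comap hΛκ, hS']
      exact hSind
    · rw [hΛκdef, e4_alg_gsp hΛκ, hS']
      exact mem_rac.1 (Subfield.mem_inf.1 z.2).2
  obtain ⟨BL, hBLc, hBLi, hBLa⟩ := htd
  obtain ⟨e, he, heΛ, hel⟩ := ftn ℓ hΛκac hfgκ (l := l.map A') (L := Lκ) (isAlgClosed_map A' hl)
    (by
      rintro _ ⟨c, hc, rfl⟩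
      exact hAl c hc) (fg_map A' hfg) htd' (B := BL.image A') ((e4_indp_map A').2 hBLi)
    (by rw [Finset.card_image_of_injective _ A'.injective, hBLc])
    (fun x hx => by
      obtain ⟨y, -, rfl⟩ := Finset.mem_image.1 hx
      exact ⟨y, Subfield.mem_top y, rfl⟩)
    (by
      rintro _ ⟨x, -, rfl⟩
      rw [← e4_map_gsp]
      exact isAlgebraic_map A' (hBLa x)) halg
    (by
      intro N
      obtain ⟨x, hx, hne⟩ := hdie N
      refine ⟨fun i => A' (x i), fun i => ⟨⟨x i, Subfield.mem_top _, rfl⟩,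
        (map_ne_zero A').2 (hx i).1, ?_⟩, ?_⟩
      · obtain ⟨h, hh, hhx⟩ := (hx i).2
        exact ⟨⟨h, hpow h hh (by rw [hhx]; exact hAκ _)⟩, Subtype.ext hhx⟩
      · rintro i j hij ⟨_, ⟨w, -, rfl⟩, hw⟩
        refine hne i j hij ⟨w, A'.injective ?_⟩
        rw [map_mul, map_pow]
        exact hw)
  obtain ⟨e0, -, rfl⟩ := he
  exact ⟨e0, fun h => hel ⟨e0, h, rfl⟩, heΛ⟩

end Vale.Agent.P019P
end
end

section

section

/-!
# Step A in transcendence degree at least three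
-/

namespace Vale.Agent.P019P

open Vale.Agent.P019

set_option linter.style.haveILetI false
set_option linter.unusedSectionVars false

open Polynomial Filter

variable {K L : Type*} [Field K] [Field L] [PerfectField K] [PerfectField L] {ℓ : ℕ}
  [Fact ℓ.Prime] [NeZero (ℓ : K)] [NeZero (ℓ : L)] {Θ : V ℓ K ≃ₗ[ZMod ℓ] V ℓ L}

section e5map

variable {K Ω : Type*} [Field K] [Field Ω]

theorem e5_gsp_map [PerfectField K] (j : K →+* Ω) [DecidableEq Ω] (k : Subfield K)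
    (S : Finset K) : gsp (k.map j) (S.image j) = (gsp k S).map j := by
  haveI := gsp_perfect k S
  apply le_antisymm
  · refine gsp_le (sub_map_mono j (le_gsp k S)) fun x hx => ?_
    obtain ⟨y, hy, rfl⟩ := Finset.mem_image.1 hx
    exact ⟨y, mem_gsp hy, rfl⟩
  · refine (map_pf_le j _).trans (pf_mono ?_)
    rw [Subfield.map_sup, RingHom.map_field_closure, Finset.coe_image]

theorem e5_indp [PerfectField K] (j : K →+* Ω) [DecidableEq Ω] {k : Subfield K} {B : Finset K}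
    (hB : Indp k B) : Indp (k.map j) (B.image j) := by
  classical
  intro S hS v hv hvS h
  obtain ⟨v0, hv0, rfl⟩ := Finset.mem_image.1 hv
  have hS' : S = (B.filter (fun x => j x ∈ S)).image j := by
    ext x
    constructor
    · intro hx
      obtain ⟨y, hy, rfl⟩ := Finset.mem_image.1 (hS hx)
      exact Finset.mem_image_of_mem j (Finset.mem_filter.2 ⟨hy, hx⟩)
    · intro hx
      obtain ⟨y, hy, rfl⟩ := Finset.mem_image.1 hx
      exact (Finset.mem_filter.1 hy).2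
  rw [hS', e5_gsp_map] at h
  exact hB _ (Finset.filter_subset _ _) v0 hv0 (fun h1 => hvS (Finset.mem_filter.1 h1).2)
    (isAlgebraic_of_map j h)

theorem e5_notMem_rcl {k : Subfield Ω} {B : Finset Ω} [DecidableEq Ω] (hB : Indp k B) {v : Ω}
    (hv : v ∈ B) : v ∉ rcl k (B.erase v) := fun h =>
  hB _ (Finset.erase_subset _ _) v hv (Finset.notMem_erase _ _)
    (isAlgebraic_mono (le_pf _) (mem_rac.1 h))

theorem e5_rcl_ac [IsAlgClosed Ω] (k : Subfield Ω) (T : Finset Ω) : IsAlgClosed (rcl k T) := by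
  haveI : IsAlgClosed (⊤ : Subfield Ω) :=
    IsAlgClosed.of_ringEquiv _ _ (Subfield.topEquiv (K := Ω)).symm
  exact isAlgClosed_of_RAC (k := ⊤) inferInstance (rcl_RAC _ _) le_top

theorem e5_map_ac (j : K →+* Ω) {k : Subfield K} (hk : IsAlgClosed k) :
    IsAlgClosed (k.map j) := by
  let φ : k →+* k.map j := (j.comp k.subtype).codRestrict (k.map j) fun x => ⟨x, x.2, rfl⟩
  have hφ : Function.Bijective φ := by
    refine ⟨φ.injective, ?_⟩
    rintro ⟨_, x, hx, rfl⟩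
    exact ⟨⟨x, hx⟩, rfl⟩
  let e : k ≃+* k.map j := RingEquiv.ofBijective φ hφ
  refine IsAlgClosed.of_exists_root _ fun p _ hirr => ?_
  obtain ⟨x, hx⟩ := IsAlgClosed.exists_root (p.map (e.symm : k.map j →+* k)) (by
    rw [degree_map]
    exact (degree_pos_of_irreducible hirr).ne')
  refine ⟨e x, ?_⟩
  have h1 : e.symm (eval (e x) p) = 0 := by
    rw [← hx, eval_map, ← RingEquiv.coe_toRingHom, ← eval₂_at_apply, RingEquiv.coe_toRingHom,
      RingEquiv.symm_apply_apply]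
  exact (map_eq_zero_iff e.symm e.symm.injective).1 h1

/-- one of the values of a function to a finite type is attained almost everywhere. -/
theorem e5_const {I α : Type*} [Finite α] (U : Ultrafilter I) (f : I → α) :
    ∃ a, ∀ᶠ i in U, f i = a := by
  by_contra hcon
  push Not at hcon
  have h2 : ∀ᶠ i in U, ∀ a, f i ≠ a := eventually_all.2 hcon
  obtain ⟨i, hi⟩ := h2.exists
  exact hi _ rfl

end e5map

section e5pt

/-- the data at one point. -/
structure E5D (ℓ : ℕ) {K L : Type*} [Field K] [Field L] (k : Subfield K) (l : Subfield L)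
    (F : Subfield K) (Θ : V ℓ K ≃ₗ[ZMod ℓ] V ℓ L) (W : ValuationSubring K)
    (O : ValuationSubring L) (Ω : Type*) [Field Ω] [Algebra K Ω] where
  hF : TrivOn W F
  hW : TrivOn W k
  hO : TrivOn O l
  e : (ZMod ℓ)ˣ
  α : IsLocalRing.ResidueField W ≃+* IsLocalRing.ResidueField O
  hα : ∀ x, x ∈ bar hW ↔ α x ∈ bar hO
  hcl : ∀ (z : K) (y : L), W.valuation z = 1 → O.valuation y = 1 → Θ (cl ℓ z) = cl ℓ y →
    cl ℓ (rs O y) = (e : ZMod ℓ) • cl ℓ (α (rs W z))
  ι : IsLocalRing.ResidueField W →+* Ω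
  hι : ∀ z ∈ F, ι (rs W z) = algebraMap K Ω z

variable {K L : Type*} [Field K] [Field L] {ℓ : ℕ} {Θ : V ℓ K ≃ₗ[ZMod ℓ] V ℓ L}
  {k F : Subfield K} {l : Subfield L} {W : ValuationSubring K} {O : ValuationSubring L}
  {Ω : Type*} [Field Ω] [Algebra K Ω]

end e5pt

section e5ul

variable {I : Type*} {U : Ultrafilter I} {Ω : Type*} [Field Ω] [PerfectField Ω] {ℓ : ℕ}
  [Fact ℓ.Prime] [NeZero (ℓ : Ω)] {E : Subfield Ω} {R : I → Subfield Ω} {s : Ω} {θ X Y : I → Ω}
  {m : ℕ}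

theorem e5_five_mono {E R : Subfield Ω} {m m' : ℕ} (h : m ≤ m') {s Z : Ω}
    (hZ : Five' ℓ E R m s Z) : Five' ℓ E R m' s Z := by
  obtain ⟨S, hS, h1⟩ := hZ
  refine ⟨S, hS, fun c hc => ?_⟩
  obtain ⟨h2, h3, y, hy, hy0, hyr, h4⟩ := h1 c hc
  exact ⟨h2, h3, y, hy, hy0, hyr.mono le_rfl h, h4⟩

theorem e5_dep (hE : IsAlgClosed E) (hR : ∀ i, PerfectField (R i)) (hsR : ∀ i, s ∈ R i)
    (hsE : s ∉ E) (hθR : ∀ i, θ i ∈ R i)
    (hθ : ∀ᶠ i in U, BRel E m s (θ i) ∧ R i ≤ adj (adj E s) (θ i))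
    (hX : ∀ i, X i ∈ R i) (hY : ∀ i, Y i ∈ R i) (h5X : ∀ᶠ i in U, Five' ℓ E (R i) m s (X i))
    (h5Y : ∀ᶠ i in U, Five' ℓ E (R i) m s (Y i))
    (h5XY : ∀ᶠ i in U, Five' ℓ E (R i) m s (X i + Y i)) :
    gm U X ∈ uSub U (fun _ => E) ∨
      IsAlgebraic (adj (uSub U (fun _ => E)) (gm U X)) (gm U Y) := by
  by_cases h2 : gm U X ∈ uSub U (fun _ => E)
  · exact Or.inl h2
  right
  have h2' : ∀ᶠ i in U, X i ∉ E := by
    rw [Ultrafilter.eventually_not, ← gm_mem_uSub]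
    exact h2
  have h3 : ∀ᶠ i in U, BRel E (28 * m ^ 2 + 1) (X i) (Y i) := by
    filter_upwards [hθ, h5X, h5Y, h5XY, h2'] with i h1 h3 h4 h5 h6
    haveI := hR i
    exact (dirb ℓ hE (hsR i) (hθR i) hsE h1.2 h1.1 (hX i) (hY i) h3 h4 h5).resolve_left h6
  exact brel_alg' (isAlgClosed_uSub fun _ => hE) (brel_lim h3) h2

theorem e5_tw (hE : IsAlgClosed E) (hR : ∀ i, PerfectField (R i)) (hsR : ∀ i, s ∈ R i)
    (hsE : s ∉ E) (hθR : ∀ i, θ i ∈ R i)
    (hθ : ∀ᶠ i in U, BRel E m s (θ i) ∧ R i ≤ adj (adj E s) (θ i))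
    (hX : ∀ i, X i ∈ R i) (h5X : ∀ᶠ i in U, Five' ℓ E (R i) m s (X i))
    (hXE : gm U X ∉ uSub U (fun _ => E)) :
    ∃ f : I → Ω, Twi f s ∧ IsAlgebraic (adj (uSub U (fun _ => E)) (gm U f)) (gm U X) := by
  have h2 : ∀ᶠ i in U, X i ∉ E := by
    rw [Ultrafilter.eventually_not, ← gm_mem_uSub]
    exact hXE
  have h3 : ∀ᶠ i in U, ∃ σ : Ω, (∃ a b : ℕ, σ ^ ringExpChar Ω ^ a = s ^ ringExpChar Ω ^ b) ∧
      BRel E (28 * m ^ 2 + 1) (X i) σ := by
    filter_upwards [hθ, h5X, h2] with i h1 h3 h4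
    haveI := hR i
    obtain ⟨a, b, σ, h5, h6⟩ := dirb_tw ℓ hE (hsR i) (hθR i) hsE h1.2 h1.1 (hX i) h4 h3
    exact ⟨σ, ⟨a, b, h5⟩, h6⟩
  have h4 : ∀ i, ∃ σ : Ω, (∃ a b : ℕ, σ ^ ringExpChar Ω ^ a = s ^ ringExpChar Ω ^ b) ∧
      ((∃ σ : Ω, (∃ a b : ℕ, σ ^ ringExpChar Ω ^ a = s ^ ringExpChar Ω ^ b) ∧
        BRel E (28 * m ^ 2 + 1) (X i) σ) → BRel E (28 * m ^ 2 + 1) (X i) σ) := by
    intro i
    by_cases h : ∃ σ : Ω, (∃ a b : ℕ, σ ^ ringExpChar Ω ^ a = s ^ ringExpChar Ω ^ b) ∧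
        BRel E (28 * m ^ 2 + 1) (X i) σ
    · obtain ⟨σ, h1, h2⟩ := h
      exact ⟨σ, h1, fun _ => h2⟩
    · exact ⟨s, ⟨0, 0, rfl⟩, fun h' => absurd h' h⟩
  choose f hf hf' using h4
  refine ⟨f, hf, ?_⟩
  have h5 : BRel (uSub U (fun _ => E)) (28 * m ^ 2 + 1) (gm U X) (gm U f) :=
    brel_lim (h3.mono fun i hi => hf' i hi)
  have h6 := brel_alg' (isAlgClosed_uSub fun _ => hE) h5 hXE
  refine exchange ?_ h6
  intro h7
  have h8 := RAC_of_isAlgClosed _ (isAlgClosed_uSub fun _ => hE) _ h7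
  rw [gm_mem_uSub] at h8
  obtain ⟨i, hi⟩ := h8.exists
  obtain ⟨a, b, hab⟩ := hf i
  haveI : PerfectField E := inferInstance
  exact hsE (mem_of_pow_q (n := b) (by rw [← hab]; exact E.pow_mem hi _))

end e5ul

section e5fam

variable {K L : Type*} [Field K] [Field L] {ℓ : ℕ} [Fact ℓ.Prime]
  {Θ : V ℓ K ≃ₗ[ZMod ℓ] V ℓ L} {k F : Subfield K} {l : Subfield L} {Ω : Type*} [Field Ω]
  [Algebra K Ω] {I : Type*} {U : Ultrafilter I} {W : I → ValuationSubring K}
  {O : I → ValuationSubring L}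

end e5fam

section e5main

variable {K L : Type*} [Field K] [Field L] [PerfectField K] [PerfectField L] {ℓ : ℕ}
  [Fact ℓ.Prime] [NeZero (ℓ : K)] [NeZero (ℓ : L)] {Θ : V ℓ K ≃ₗ[ZMod ℓ] V ℓ L}
  {k : Subfield K} {l : Subfield L} {B : Finset K} {t : K}

/-- the data, with good points only. -/
theorem e5_dat (hk : IsAlgClosed k) {F : Subfield K} {θ : K}
    {q : ValuationSubring K → ValuationSubring L → Prop}
    (h : ∀ᶠ b in ae k, (∃ W : ValuationSubring K, Over W F t b) ∧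
      ∀ W : ValuationSubring K, Over W F t b → Nice W F (t - b) θ)
    (h' : ∀ᶠ b in ae k, ∀ W : ValuationSubring K, Over W F t b →
      ∃ O : ValuationSubring L, Tr Θ W (t - b) O ∧ q W O) :
    ∃ D : Dat k F t Θ, ∀ i, Nice (D.W i) F (t - i) θ ∧ q (D.W i) (D.O i) := by
  set S : Set K := {b | b ∈ k ∧ ∃ (W : ValuationSubring K) (O : ValuationSubring L),
    Over W F t b ∧ Tr Θ W (t - b) O ∧ Nice W F (t - b) θ ∧ q W O} with hS
  have hinf : S.Infinite := by
    have h2 := h.and h'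
    rw [ae_iff] at h2
    refine ((infinite_of_isAlgClosed hk).sdiff h2).mono ?_
    rintro b ⟨hb, hbad⟩
    refine ⟨hb, ?_⟩
    by_contra hcon
    refine hbad ⟨hb, ?_⟩
    rintro ⟨⟨⟨W, hW⟩, hN⟩, hT⟩
    obtain ⟨O, hO, hq⟩ := hT W hW
    exact hcon ⟨W, O, hW, hO, hN W hW, hq⟩
  choose W O hW hO hN hq using fun i : S => i.2.2
  exact ⟨⟨S, hinf.to_subtype, fun b hb => hb.1, W, O, hW, hO, fun i => (hN i).unif⟩,
    fun i => ⟨hN i, hq i⟩⟩

theorem e5_trl {n : ℕ} (hn : 0 < n) (h : Td l (n + 1)) :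
    ∃ x y : L, x ∉ l ∧ ¬ IsAlgebraic (adj l x) y := by
  classical
  obtain ⟨B, hB, hi, -⟩ := h
  obtain ⟨x, hx, y, hy, hxy⟩ := Finset.one_lt_card.1 (by omega : 1 < B.card)
  refine ⟨x, y, fun hxl => ?_, fun h => ?_⟩
  · exact hi ∅ (Finset.empty_subset _) x hx (Finset.notMem_empty _)
      (isAlgebraic_of_mem (le_gsp l ∅ hxl))
  · refine hi {x} (Finset.singleton_subset_iff.2 hx) y hy
      (by rw [Finset.mem_singleton]; exact fun h => hxy h.symm) ?_
    haveI := gsp_perfect l {x}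
    exact isAlgebraic_mono (adj_le (le_gsp l {x}) (mem_gsp (Finset.mem_singleton_self x))) h

variable {Ω : Type*} [Field Ω] [IsAlgClosed Ω] [Algebra K Ω]

theorem e5_erase {v : K} (j : K →+* Ω) [DecidableEq K] [DecidableEq Ω] :
    (B.image j).erase (j v) = (B.erase v).image j :=
  (Finset.image_erase j.injective B v).symm

theorem e5_notMem [DecidableEq K] [DecidableEq Ω] (hB : Indp k B) {v : K} (hv : v ∈ B) :
    algebraMap K Ω v ∉
      rcl (k.map (algebraMap K Ω)) ((B.erase v).image (algebraMap K Ω)) := by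
  rw [← e5_erase]
  exact e5_notMem_rcl (e5_indp _ hB) (Finset.mem_image_of_mem _ hv)

end e5main

section e5lim

variable {K L : Type*} [Field K] [Field L] [PerfectField K] [PerfectField L] {ℓ : ℕ}
  [Fact ℓ.Prime] [NeZero (ℓ : K)] [NeZero (ℓ : L)] {Θ : V ℓ K ≃ₗ[ZMod ℓ] V ℓ L}
  {k : Subfield K} {l : Subfield L} {B : Finset K} {t : K}
  {Ω : Type*} [Field Ω] [IsAlgClosed Ω] [Algebra K Ω] [DecidableEq K] [DecidableEq Ω]

end e5lim

end Vale.Agent.P019P
end
end

section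

section

/-!
# Step A by induction, transferred valuations possibly nontrivial on the constants
-/

namespace Vale.Agent.P019P

open Vale.Agent.P019

set_option linter.style.haveILetI false
set_option linter.unusedSectionVars false
set_option linter.unusedVariables false

open Polynomial Filter

/-- the residue fields of `W` and `O` correspond: `Θ` induces a multiple of an isomorphism. -/
def ResIsoG (ℓ : ℕ) {K L : Type*} [Field K] [Field L] (Θ : V ℓ K ≃ₗ[ZMod ℓ] V ℓ L)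
    (k : Subfield K) (l : Subfield L) (W : ValuationSubring K) (O : ValuationSubring L) : Prop :=
  ∃ (e : (ZMod ℓ)ˣ) (α : IsLocalRing.ResidueField W ≃+* RFP O),
    (∀ x, x ∈ rbar k W ↔ α x ∈ rbarP l O) ∧
    ∀ (z : K) (y : L), W.valuation z = 1 → O.valuation y = 1 → Θ (cl ℓ z) = cl ℓ y →
      cl ℓ (rsP O y) = (e : ZMod ℓ) • cl ℓ (α (rs W z))

section e5five

variable {K L : Type*} [Field K] [Field L] [PerfectField K] [PerfectField L] {ℓ : ℕ}
  [Fact ℓ.Prime] [NeZero (ℓ : K)] [NeZero (ℓ : L)]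

/-- bounds of the transferred functions in all directions. -/
theorem exists_fiveG {k : Subfield K} (hk : IsAlgClosed k) (hfgk : FG k (⊤ : Subfield K))
    {l : Subfield L} (hl : IsAlgClosed l) {B : Finset K} (hB : Indp k B) {t : K}
    (ht : ¬ IsAlgebraic (gsp k B) t) (halg : ∀ z : K, IsAlgebraic (adj (gsp k B) t) z)
    {Ω : Type*} [Field Ω] [IsAlgClosed Ω] [Algebra K Ω] [DecidableEq K] [DecidableEq Ω]
    (Θ : V ℓ K ≃ₗ[ZMod ℓ] V ℓ L) (g : L) (S0 : Finset L) (hS0l : ∀ c ∈ S0, c ∈ l)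
    (hS0c : S0.card = 5) : ∃ m : ℕ, ∀ᶠ b in ae k, ∀ W : ValuationSubring K,
      Over W (gsp k B) t b → ∀ O : ValuationSubring L, O.valuation g ≤ 1 →
      (∀ c ∈ S0, c ∈ O) → Set.InjOn (rsP O) (S0 : Set L) →
      ∀ (ι : IsLocalRing.ResidueField W →+* Ω),
      (∀ z ∈ gsp k B, ι (rs W z) = algebraMap K Ω z) →
      ∀ (hW : TrivOn W k)
        (α : IsLocalRing.ResidueField W ≃+* RFP O) (e : (ZMod ℓ)ˣ),
        (∀ x, x ∈ bar hW ↔ α x ∈ rbarP l O) →
        (∀ (z : K) (y : L), W.valuation z = 1 → O.valuation y = 1 → Θ (cl ℓ z) = cl ℓ y →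
          cl ℓ (rsP O y) = (e : ZMod ℓ) • cl ℓ (α (rs W z))) →
        ∀ v ∈ B, Five' ℓ (rcl (k.map (algebraMap K Ω)) ((B.erase v).image (algebraMap K Ω)))
          ι.fieldRange m (algebraMap K Ω v) (ι (α.symm (rsP O g))) := by
  classical
  have hy : ∀ c : L, ∃ y : K, y ≠ 0 ∧ Θ (cl ℓ y) = cl ℓ (g - c) := by
    intro c
    obtain ⟨y, hy0, hy⟩ := cl_surj ℓ (Θ.symm (cl ℓ (g - c)))
    exact ⟨y, hy0, by rw [hy, LinearEquiv.apply_symm_apply]⟩
  choose y hy0 hyΘ using hy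
  have hrel : ∀ c : L, _ := fun c => e5a_rel (Ω := Ω) halg (y c)
  choose m hm using hrel
  refine ⟨S0.sup m, ?_⟩
  have hE1 : ∀ᶠ b in ae k, ∀ c ∈ S0, ∀ W : ValuationSubring K, Over W (gsp k B) t b → y c ∈ W →
      ∀ ι : IsLocalRing.ResidueField W →+* Ω,
      (∀ z ∈ gsp k B, ι (rs W z) = algebraMap K Ω z) → ∀ v ∈ B,
      BRel (rcl (k.map (algebraMap K Ω)) ((B.erase v).image (algebraMap K Ω))) (m c)
        (algebraMap K Ω v) (ι (rs W (y c))) := by
    rw [Filter.eventually_all_finset]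
    exact fun c _ => hm c
  have hE2 : ∀ᶠ b in ae k, ∀ c ∈ S0, ∀ W : ValuationSubring K, Over W (gsp k B) t b →
      W.valuation (y c) = 1 := by
    rw [Filter.eventually_all_finset]
    exact fun c _ => ae_mono (le_gsp k B) (unit_over (hy0 c) (halg (y c)))
  filter_upwards [hE1, hE2] with b h1 h2 W hOv O hg hS0O hinj ι hι hW α e hbar htr v hv
  have hgO : g ∈ O := (O.valuation_le_one_iff g).1 hg
  refine ⟨S0.image (fun c => ι (α.symm (rsP O c))), ?_, ?_⟩
  · rw [Finset.card_image_of_injOn, hS0c]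
    intro c hc c' hc' hcc
    exact hinj hc hc' (α.symm.injective (ι.injective hcc))
  · intro c' hc'
    obtain ⟨c, hc, rfl⟩ := Finset.mem_image.1 hc'
    have hcl := hS0l c hc
    have hcO : c ∈ O := hS0O c hc
    have hyv := h2 c hc W hOv
    refine ⟨?_, ⟨_, rfl⟩, ι (rs W (y c)), ⟨_, rfl⟩, ?_, ?_, ?_⟩
    · have hb1 : α.symm (rsP O c) ∈ bar hW := by
        rw [hbar, RingEquiv.apply_symm_apply]
        exact rsP_mem_rbarP hcl hcO
      obtain ⟨a, ha, hae⟩ := (mem_bar hW).1 hb1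
      rw [← hae, hι a (le_gsp k B ha)]
      exact le_rcl _ _ ⟨a, ha, rfl⟩
    · exact (map_ne_zero ι).2 ((rs_ne_zero (mem_of_val hyv)).2 hyv)
    · exact e5a_brel_mono (Finset.le_sup hc) (h1 c hc W hOv (mem_of_val hyv) ι hι v hv)
    · have hZ : ι (α.symm (rsP O g)) - ι (α.symm (rsP O c)) = ι (α.symm (rsP O (g - c))) := by
        rw [rsP_sub hgO hcO, map_sub, map_sub]
      have hgc : g - c ∈ O := sub_mem hgO hcO
      rw [hZ]
      by_cases hv1 : O.valuation (g - c) = 1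
      · have h3 := htr (y c) (g - c) hyv hv1 (hyΘ c)
        have hx0 : rsP O (g - c) ≠ 0 := (rsP_ne_zero hgc).2 hv1
        have hx1 : α (rs W (y c)) ≠ 0 := by
          rw [Ne, EmbeddingLike.map_eq_zero_iff]
          exact (rs_ne_zero (mem_of_val hyv)).2 hyv
        have h4 : (e : ZMod ℓ) • cl ℓ (α (rs W (y c))) =
            cl ℓ (α (rs W (y c)) ^ (e : ZMod ℓ).val) := by
          rw [cl_pow, ← Nat.cast_smul_eq_nsmul (ZMod ℓ), ZMod.natCast_zmod_val]
        rw [h4, cl_eq_iff ℓ hx0 (pow_ne_zero _ hx1)] at h3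
        obtain ⟨w, -, hw⟩ := h3
        refine ⟨(e : ZMod ℓ).val, ι (α.symm w), ⟨_, rfl⟩, ?_⟩
        rw [hw, map_mul, map_mul, map_pow, map_pow, map_pow, map_pow, RingEquiv.symm_apply_apply]
      · refine ⟨0, 0, Subfield.zero_mem _, ?_⟩
        have h5 : rsP O (g - c) = 0 := by
          by_contra hne
          exact hv1 ((rsP_ne_zero hgc).1 hne)
        rw [h5, map_zero, map_zero, zero_pow (Fact.out : ℓ.Prime).ne_zero, mul_zero]

end e5five

section e5pt

/-- the data at one point. -/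
structure E5G (ℓ : ℕ) {K L : Type*} [Field K] [Field L] (k : Subfield K) (l : Subfield L)
    (F : Subfield K) (Θ : V ℓ K ≃ₗ[ZMod ℓ] V ℓ L) (W : ValuationSubring K)
    (O : ValuationSubring L) (Ω : Type*) [Field Ω] [Algebra K Ω] where
  hF : TrivOn W F
  hW : TrivOn W k
  e : (ZMod ℓ)ˣ
  α : IsLocalRing.ResidueField W ≃+* RFP O
  hα : ∀ x, x ∈ bar hW ↔ α x ∈ rbarP l O
  hcl : ∀ (z : K) (y : L), W.valuation z = 1 → O.valuation y = 1 → Θ (cl ℓ z) = cl ℓ y →
    cl ℓ (rsP O y) = (e : ZMod ℓ) • cl ℓ (α (rs W z))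
  ι : IsLocalRing.ResidueField W →+* Ω
  hι : ∀ z ∈ F, ι (rs W z) = algebraMap K Ω z

variable {K L : Type*} [Field K] [Field L] {ℓ : ℕ} {Θ : V ℓ K ≃ₗ[ZMod ℓ] V ℓ L}
  {k F : Subfield K} {l : Subfield L} {W : ValuationSubring K} {O : ValuationSubring L}
  {Ω : Type*} [Field Ω] [Algebra K Ω]

theorem e5g_exists [IsAlgClosed Ω] (hkF : k ≤ F) {π θ : K} (hN : Nice W F π θ)
    (h : ResIsoG ℓ Θ k l W O) : Nonempty (E5G ℓ k l F Θ W O Ω) := by
  obtain ⟨e, α, hα, hcl⟩ := h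
  obtain ⟨ι, hι⟩ := exists_emb hN.triv hN.alg_bar (Ω := Ω)
  have hW : TrivOn W k := hN.triv.mono hkF
  refine ⟨⟨hN.triv, hW, e, α, fun x => ?_, hcl, ι, hι⟩⟩
  rw [← rbar_eq_bar hW]
  exact hα x

/-- the embedding of the residue field. -/
noncomputable def E5G.ρ (P : E5G ℓ k l F Θ W O Ω) : RFP O →+* Ω :=
  P.ι.comp (P.α.symm : RFP O →+* IsLocalRing.ResidueField W)

theorem E5G.ρ_apply (P : E5G ℓ k l F Θ W O Ω) (c : RFP O) :
    P.ρ c = P.ι (P.α.symm c) := rfl

theorem E5G.ρ_mem (P : E5G ℓ k l F Θ W O Ω) (c : RFP O) :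
    P.ρ c ∈ P.ι.fieldRange := ⟨_, rfl⟩

theorem E5G.map_le (P : E5G ℓ k l F Θ W O Ω) : F.map (algebraMap K Ω) ≤ P.ι.fieldRange := by
  rintro _ ⟨x, hx, rfl⟩
  exact ⟨rs W x, P.hι x hx⟩

theorem e5g_rsP_mem {c : L} (hc : c ∈ l) : rsP O c ∈ rbarP l O := by
  by_cases hcO : c ∈ O
  · exact rsP_mem_rbarP hc hcO
  · have h1 : rsP O c = 0 := by
      rw [rsP, rs, dif_neg hcO, map_zero]
    rw [h1]
    exact (rbarP l O).zero_mem

theorem E5G.ρ_l (P : E5G ℓ k l F Θ W O Ω) (hkF : k ≤ F) {c : L} (hc : c ∈ l) :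
    P.ρ (rsP O c) ∈ k.map (algebraMap K Ω) := by
  have h1 : P.α.symm (rsP O c) ∈ bar P.hW := by
    rw [P.hα, RingEquiv.apply_symm_apply]
    exact e5g_rsP_mem hc
  obtain ⟨z, hz, hz'⟩ := (mem_bar P.hW).1 h1
  refine ⟨z, hz, ?_⟩
  rw [P.ρ_apply, ← hz']
  exact (P.hι z (hkF hz)).symm

theorem E5G.of_ρ (P : E5G ℓ k l F Θ W O Ω) (hkF : k ≤ F) {c : RFP O}
    (h : P.ρ c ∈ k.map (algebraMap K Ω)) : c ∈ rbarP l O := by
  obtain ⟨z, hz, hz'⟩ := h
  have h1 : P.α.symm c = rs W z := by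
    apply P.ι.injective
    rw [P.hι z (hkF hz)]
    exact hz'.symm
  have h2 : P.α.symm c ∈ bar P.hW := by
    rw [h1]
    exact rs_mem_bar P.hW hz
  rw [P.hα, RingEquiv.apply_symm_apply] at h2
  exact h2

/-- transport of monic polynomials. -/
theorem E5G.deg (P : E5G ℓ k l F Θ W O Ω) {G : Subfield Ω} (hG : G = F.map (algebraMap K Ω))
    {d : ℕ} (h : ∀ c : IsLocalRing.ResidueField W,
      ∃ p : (bar P.hF)[X], p.Monic ∧ p.natDegree ≤ d ∧ aeval c p = 0) {c : Ω}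
    (hc : c ∈ P.ι.fieldRange) : ∃ p : G[X], p.Monic ∧ p.natDegree ≤ d ∧ aeval c p = 0 := by
  subst hG
  obtain ⟨c, rfl⟩ := hc
  obtain ⟨p, hp, hpd, hpc⟩ := h c
  have hmem : ∀ x : bar P.hF, (P.ι.comp (bar P.hF).subtype) x ∈ F.map (algebraMap K Ω) := by
    rintro ⟨x, hx⟩
    obtain ⟨z, hz, rfl⟩ := (mem_bar P.hF).1 hx
    exact ⟨z, hz, (P.hι z hz).symm⟩
  let φ : bar P.hF →+* (F.map (algebraMap K Ω) : Subfield Ω) :=
    (P.ι.comp (bar P.hF).subtype).codRestrict _ hmem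
  refine ⟨p.map φ, hp.map φ, natDegree_map_le.trans hpd, ?_⟩
  rw [aeval_def, eval₂_map]
  have h1 : (algebraMap (F.map (algebraMap K Ω) : Subfield Ω) Ω).comp φ =
      P.ι.comp (algebraMap (bar P.hF) (IsLocalRing.ResidueField W)) := rfl
  rw [h1, ← hom_eval₂, ← aeval_def, hpc, map_zero]

theorem E5G.root (P : E5G ℓ k l F Θ W O Ω) [Fact ℓ.Prime] {z : L} (hz : O.valuation z = 1)
    (h : cl ℓ z ∈ U1 ℓ O) : ∃ w ∈ P.ι.fieldRange, w ^ ℓ = P.ρ (rsP O z) := by
  have h2 : rs O z ≠ 0 := (rs_ne_zero (mem_of_val hz)).2 hz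
  rw [cl_mem_U1_iff hz, cl_eq_zero_iff ℓ h2] at h
  obtain ⟨c, -, hc⟩ := h
  exact ⟨P.ρ (rf O c), P.ρ_mem _, by rw [← map_pow, ← map_pow, hc, rsP]⟩

theorem E5G.cl_eq (P : E5G ℓ k l F Θ W O Ω) [Fact ℓ.Prime] {x : K} (hx : x ∈ F) (hx0 : x ≠ 0)
    {z : L} (hz : O.valuation z = 1) (h : Θ (cl ℓ x) = cl ℓ z) {n : ℕ}
    (hn : (n : ZMod ℓ) * (P.e : ZMod ℓ) = 1) :
    ∃ w ∈ P.ι.fieldRange, w ≠ 0 ∧ algebraMap K Ω x = P.ρ (rsP O z) ^ n * w ^ ℓ := by
  have h1 := P.hcl x z (P.hF.eq_one hx hx0) hz h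
  have h2 : rsP O z ≠ 0 := (rsP_ne_zero (mem_of_val hz)).2 hz
  have h3 : rs W x ≠ 0 := (rs_ne_zero (P.hF _ hx)).2 (P.hF.eq_one hx hx0)
  have h4 : cl ℓ (P.α (rs W x)) = cl ℓ (rsP O z ^ n) := by
    rw [cl_pow, h1, ← Nat.cast_smul_eq_nsmul (ZMod ℓ), smul_smul, hn, one_smul]
  obtain ⟨w, hw0, hw⟩ := (cl_eq_iff ℓ ((map_ne_zero P.α).2 h3) (pow_ne_zero n h2)).1 h4
  refine ⟨P.ρ w, P.ρ_mem w, (map_ne_zero P.ρ).2 hw0, ?_⟩
  rw [← map_pow, ← map_pow, ← map_mul, ← hw, P.ρ_apply, RingEquiv.symm_apply_apply, P.hι x hx]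

end e5pt

section e5fam

variable {K L : Type*} [Field K] [Field L] {ℓ : ℕ} [Fact ℓ.Prime]
  {Θ : V ℓ K ≃ₗ[ZMod ℓ] V ℓ L} {k F : Subfield K} {l : Subfield L} {Ω : Type*} [Field Ω]
  [Algebra K Ω] {I : Type*} {U : Ultrafilter I} {W : I → ValuationSubring K}
  {O : I → ValuationSubring L}

theorem e5g_die (P : ∀ i, E5G ℓ k l F Θ (W i) (O i) Ω) {z : L}
    (hz : ∀ᶠ i in U, (O i).valuation z = 1) (h : ∀ᶠ i in U, cl ℓ z ∈ U1 ℓ (O i)) :
    ∃ h ∈ uSub U (fun i => (P i).ι.fieldRange),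
      h ^ ℓ = gm U (fun i => (P i).ρ (rsP (O i) z)) := by
  have h1 : ∀ i, ∃ w ∈ (P i).ι.fieldRange, ((O i).valuation z = 1 → cl ℓ z ∈ U1 ℓ (O i) →
      w ^ ℓ = (P i).ρ (rsP (O i) z)) := by
    intro i
    by_cases h : (O i).valuation z = 1 ∧ cl ℓ z ∈ U1 ℓ (O i)
    · obtain ⟨w, hw, hw'⟩ := (P i).root h.1 h.2
      exact ⟨w, hw, fun _ _ => hw'⟩
    · exact ⟨0, Subfield.zero_mem _, fun h1 h2 => absurd ⟨h1, h2⟩ h⟩
  choose w hw hw' using h1
  refine ⟨gm U w, ⟨w, rfl, hw⟩, ?_⟩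
  rw [← gm_pow, gm_eq]
  filter_upwards [hz, h] with i h1 h2
  exact hw' i h1 h2

theorem e5g_ram (P : ∀ i, E5G ℓ k l F Θ (W i) (O i) Ω) {x : K} (hx : x ∈ F) (hx0 : x ≠ 0)
    {z : L} (hzx : Θ (cl ℓ x) = cl ℓ z) (hz : ∀ᶠ i in U, (O i).valuation z = 1) :
    ∃ e : ℕ, ∃ h ∈ uSub U (fun i => (P i).ι.fieldRange), h ≠ 0 ∧
      gm U (fun _ => algebraMap K Ω x) = gm U (fun i => (P i).ρ (rsP (O i) z)) ^ e * h ^ ℓ := by
  obtain ⟨e0, he0⟩ := e5_const U (fun i => (P i).e)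
  have hn : (((((e0⁻¹ : (ZMod ℓ)ˣ) : ZMod ℓ).val : ℕ) : ZMod ℓ)) * (e0 : ZMod ℓ) = 1 := by
    rw [ZMod.natCast_zmod_val, ← Units.val_mul, inv_mul_cancel, Units.val_one]
  set n : ℕ := ((e0⁻¹ : (ZMod ℓ)ˣ) : ZMod ℓ).val
  have h1 : ∀ i, ∃ w ∈ (P i).ι.fieldRange, w ≠ 0 ∧ ((O i).valuation z = 1 → (P i).e = e0 →
      algebraMap K Ω x = (P i).ρ (rsP (O i) z) ^ n * w ^ ℓ) := by
    intro i
    by_cases h : (O i).valuation z = 1 ∧ (P i).e = e0
    · obtain ⟨w, hw, hw0, hw'⟩ := (P i).cl_eq hx hx0 h.1 hzx (n := n) (by rw [h.2]; exact hn)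
      exact ⟨w, hw, hw0, fun _ _ => hw'⟩
    · exact ⟨1, Subfield.one_mem _, one_ne_zero, fun h1 h2 => absurd ⟨h1, h2⟩ h⟩
  choose w hw hw0 hw' using h1
  refine ⟨n, gm U w, ⟨w, rfl, hw⟩, ?_, ?_⟩
  · rw [Ne, gm_eq_zero, ← Ultrafilter.eventually_not]
    exact Eventually.of_forall hw0
  · rw [← gm_pow, ← gm_pow, ← gm_mul, gm_eq]
    filter_upwards [hz, he0] with i h1 h2
    exact hw' i h1 h2

end e5fam

section e5main

variable {K L : Type*} [Field K] [Field L] [PerfectField K] [PerfectField L] {ℓ : ℕ}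
  [Fact ℓ.Prime] [NeZero (ℓ : K)] [NeZero (ℓ : L)] {Θ : V ℓ K ≃ₗ[ZMod ℓ] V ℓ L}
  {k : Subfield K} {l : Subfield L} {B : Finset K} {t : K}

variable {Ω : Type*} [Field Ω] [IsAlgClosed Ω] [Algebra K Ω]

/-- the five points condition for almost all members of the family. -/
theorem e5g_five [DecidableEq K] [DecidableEq Ω] (hk : IsAlgClosed k)
    (hfgk : FG k (⊤ : Subfield K)) (hl : IsAlgClosed l) (hB : Indp k B)
    (ht : ¬ IsAlgebraic (gsp k B) t) (halg : ∀ z : K, IsAlgebraic (adj (gsp k B) t) z)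
    (D : Dat k (gsp k B) t Θ) (hu : Ulu D.U D.O)
    (P : ∀ i, E5G ℓ k l (gsp k B) Θ (D.W i) (D.O i) Ω) (x : L) :
    ∃ m : ℕ, ∀ᶠ i in D.U, ∀ v ∈ B, Five' ℓ (rcl (k.map (algebraMap K Ω))
      ((B.erase v).image (algebraMap K Ω))) (P i).ι.fieldRange m (algebraMap K Ω v)
      ((P i).ρ (rsP (D.O i) x)) := by
  haveI : Infinite l := inferInstance
  obtain ⟨S0', hS0'⟩ := Infinite.exists_subset_card_eq l 5
  obtain ⟨S0, hS0l, hS0c⟩ : ∃ S0 : Finset L, (∀ c ∈ S0, c ∈ l) ∧ S0.card = 5 := by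
    refine ⟨S0'.map ⟨Subtype.val, Subtype.val_injective⟩, fun c hc => ?_, ?_⟩
    · rw [Finset.mem_map] at hc
      obtain ⟨c', -, rfl⟩ := hc
      exact c'.2
    · rw [Finset.card_map, hS0']
  obtain ⟨m, hm⟩ := exists_fiveG hk hfgk hl hB ht halg (Ω := Ω) Θ x S0 hS0l hS0c
  refine ⟨m, ?_⟩
  have hx : ∀ᶠ i in D.U, (D.O i).valuation x ≤ 1 := by
    by_cases hx : x = 0
    · refine Eventually.of_forall fun i => ?_
      rw [hx, map_zero]
      exact zero_le_one
    · exact (hu x hx).mono fun i hi => hi.le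
  have hSO : ∀ᶠ i in D.U, ∀ c ∈ S0, c ∈ D.O i := by
    rw [Filter.eventually_all_finset]
    exact fun c _ => hu.ev_mem c
  have hSd : ∀ᶠ i in D.U, ∀ c ∈ S0, ∀ c' ∈ S0, c ≠ c' → (D.O i).valuation (c - c') = 1 := by
    rw [Filter.eventually_all_finset]
    intro c _
    rw [Filter.eventually_all_finset]
    intro c' _
    by_cases h : c = c'
    · exact Eventually.of_forall fun i hi => absurd h hi
    · exact (hu _ (sub_ne_zero.2 h)).mono fun i hi _ => hi
  filter_upwards [D.ev hm, hx, hSO, hSd] with i h1 h2 h3 h4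
  refine h1 (D.W i) (D.ov i) (D.O i) h2 h3 (fun c hc c' hc' hcc => ?_) (P i).ι (P i).hι (P i).hW
    (P i).α (P i).e (P i).hα (P i).hcl
  by_contra hne
  exact ((rsP_eq (h3 c hc) (h3 c' hc')).1 hcc).ne (h4 c hc c' hc' hne)

theorem e5g_gen [DecidableEq K] [DecidableEq Ω] (hk : IsAlgClosed k)
    (hfgk : FG k (⊤ : Subfield K)) (hB : Indp k B)
    (ht : ¬ IsAlgebraic (gsp k B) t) (halg : ∀ z : K, IsAlgebraic (adj (gsp k B) t) z)
    (D : Dat k (gsp k B) t Θ) (P : ∀ i, E5G ℓ k l (gsp k B) Θ (D.W i) (D.O i) Ω) :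
    ∃ (m : ℕ) (θ : D.S → Ω), (∀ i, θ i ∈ (P i).ι.fieldRange) ∧ ∀ᶠ i in D.U, ∀ v ∈ B,
      BRel (rcl (k.map (algebraMap K Ω)) ((B.erase v).image (algebraMap K Ω))) m
        (algebraMap K Ω v) (θ i) ∧
      (P i).ι.fieldRange ≤ adj (adj (rcl (k.map (algebraMap K Ω))
        ((B.erase v).image (algebraMap K Ω))) (algebraMap K Ω v)) (θ i) := by
  obtain ⟨m, θ, h⟩ := exists_gen hk hfgk hB ht halg (Ω := Ω)
  refine ⟨m, fun i => (P i).ι (rs (D.W i) θ), fun i => ⟨_, rfl⟩, ?_⟩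
  filter_upwards [D.ev h] with i h1 v hv
  exact h1 (D.W i) (D.ov i) (P i).ι (P i).hι v hv

end e5main

section e5lim

variable {K L : Type*} [Field K] [Field L] [PerfectField K] [PerfectField L] {ℓ : ℕ}
  [Fact ℓ.Prime] [NeZero (ℓ : K)] [NeZero (ℓ : L)] {Θ : V ℓ K ≃ₗ[ZMod ℓ] V ℓ L}
  {k : Subfield K} {l : Subfield L} {B : Finset K} {t : K}
  {Ω : Type*} [Field Ω] [IsAlgClosed Ω] [Algebra K Ω] [DecidableEq K] [DecidableEq Ω]

theorem e5g_hdep [NeZero (ℓ : Ω)] (hk : IsAlgClosed k)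
    (hfgk : FG k (⊤ : Subfield K)) (hl : IsAlgClosed l) (hB : Indp k B)
    (ht : ¬ IsAlgebraic (gsp k B) t) (halg : ∀ z : K, IsAlgebraic (adj (gsp k B) t) z)
    (D : Dat k (gsp k B) t Θ) (hu : Ulu D.U D.O)
    (P : ∀ i, E5G ℓ k l (gsp k B) Θ (D.W i) (D.O i) Ω) {v : K} (hv : v ∈ B) (x y : L) :
    gm D.U (fun i => (P i).ρ (rsP (D.O i) x)) ∈ uSub D.U (fun _ =>
        rcl (k.map (algebraMap K Ω)) ((B.erase v).image (algebraMap K Ω))) ∨
      IsAlgebraic (adj (uSub D.U (fun _ =>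
        rcl (k.map (algebraMap K Ω)) ((B.erase v).image (algebraMap K Ω))))
          (gm D.U (fun i => (P i).ρ (rsP (D.O i) x))))
        (gm D.U (fun i => (P i).ρ (rsP (D.O i) y))) := by
  obtain ⟨m0, θ, hθR, hθ⟩ := e5g_gen hk hfgk hB ht halg D P
  obtain ⟨m1, h1⟩ := e5g_five hk hfgk hl hB ht halg D hu P x
  obtain ⟨m2, h2⟩ := e5g_five hk hfgk hl hB ht halg D hu P y
  obtain ⟨m3, h3⟩ := e5g_five hk hfgk hl hB ht halg D hu P (x + y)
  have e0 : m0 ≤ max (max m0 m1) (max m2 m3) := (le_max_left _ _).trans (le_max_left _ _)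
  have e1 : m1 ≤ max (max m0 m1) (max m2 m3) := (le_max_right _ _).trans (le_max_left _ _)
  have e2 : m2 ≤ max (max m0 m1) (max m2 m3) := (le_max_left _ _).trans (le_max_right _ _)
  have e3 : m3 ≤ max (max m0 m1) (max m2 m3) := (le_max_right _ _).trans (le_max_right _ _)
  refine e5_dep (ℓ := ℓ) (R := fun i => (P i).ι.fieldRange) (s := algebraMap K Ω v) (θ := θ)
    (m := max (max m0 m1) (max m2 m3)) (e5_rcl_ac _ _) (fun i => ?_)
    (fun i => (P i).map_le ⟨v, mem_gsp hv, rfl⟩) (e5_notMem hB hv) hθR ?_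
    (fun i => (P i).ρ_mem _) (fun i => (P i).ρ_mem _) ?_ ?_ ?_
  · haveI := rs_perfect (P i).hW
    exact perfect_fieldRange _
  · filter_upwards [hθ] with i hi
    exact ⟨(hi v hv).1.mono le_rfl e0, (hi v hv).2⟩
  · filter_upwards [h1] with i hi
    exact e5_five_mono e1 (hi v hv)
  · filter_upwards [h2] with i hi
    exact e5_five_mono e2 (hi v hv)
  · filter_upwards [h3, hu.ev_mem x, hu.ev_mem y] with i h4 h5 h6
    rw [← map_add, ← rsP_add h5 h6]
    exact e5_five_mono e3 (h4 v hv)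

theorem e5g_htw [NeZero (ℓ : Ω)] (hk : IsAlgClosed k)
    (hfgk : FG k (⊤ : Subfield K)) (hl : IsAlgClosed l) (hB : Indp k B)
    (ht : ¬ IsAlgebraic (gsp k B) t) (halg : ∀ z : K, IsAlgebraic (adj (gsp k B) t) z)
    (D : Dat k (gsp k B) t Θ) (hu : Ulu D.U D.O)
    (P : ∀ i, E5G ℓ k l (gsp k B) Θ (D.W i) (D.O i) Ω) {v : K} (hv : v ∈ B) (x : L)
    (hx : gm D.U (fun i => (P i).ρ (rsP (D.O i) x)) ∉ uSub D.U (fun _ =>
        rcl (k.map (algebraMap K Ω)) ((B.erase v).image (algebraMap K Ω)))) :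
    ∃ f : D.S → Ω, Twi f (algebraMap K Ω v) ∧
      IsAlgebraic (adj (uSub D.U (fun _ =>
        rcl (k.map (algebraMap K Ω)) ((B.erase v).image (algebraMap K Ω)))) (gm D.U f))
        (gm D.U (fun i => (P i).ρ (rsP (D.O i) x))) := by
  obtain ⟨m0, θ, hθR, hθ⟩ := e5g_gen hk hfgk hB ht halg D P
  obtain ⟨m1, h1⟩ := e5g_five hk hfgk hl hB ht halg D hu P x
  refine e5_tw (ℓ := ℓ) (R := fun i => (P i).ι.fieldRange) (θ := θ)
    (m := max m0 m1) (e5_rcl_ac _ _) (fun i => ?_)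
    (fun i => (P i).map_le ⟨v, mem_gsp hv, rfl⟩) (e5_notMem hB hv) hθR ?_
    (fun i => (P i).ρ_mem _) ?_ hx
  · haveI := rs_perfect (P i).hW
    exact perfect_fieldRange _
  · filter_upwards [hθ] with i hi
    exact ⟨(hi v hv).1.mono le_rfl (le_max_left _ _), (hi v hv).2⟩
  · filter_upwards [h1] with i hi
    exact e5_five_mono (le_max_right _ _) (hi v hv)

/-- classes dying in the residue fields. -/
theorem e5g_hdie (hk : IsAlgClosed k) (htg : Good k t) (D : Dat k (gsp k B) t Θ)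
    (hu : Ulu D.U D.O) (P : ∀ i, E5G ℓ k l (gsp k B) Θ (D.W i) (D.O i) Ω) (N : ℕ) :
    ∃ x : Fin N → L, (∀ i, x i ≠ 0 ∧ ∃ h ∈ uSub D.U (fun i => (P i).ι.fieldRange),
      h ^ ℓ = gm D.U (fun j => (P j).ρ (rsP (D.O j) (x i)))) ∧
      ∀ i j, i ≠ j → ¬ ∃ w : L, x i = x j * w ^ ℓ := by
  obtain ⟨x, hx, hxx⟩ := sa_inf (Θ := Θ) hk htg N
  refine ⟨x, fun i => ⟨(hx i).1, ?_⟩, ?_⟩
  · refine e5g_die P (hu _ (hx i).1) ?_
    have h1 := D.ev_of_mem hk (le_gsp k B) htg.1 (hx i).2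
    rwa [LinearEquiv.apply_symm_apply] at h1
  · rintro i j hij ⟨w, hw⟩
    apply hxx i j hij
    have hw0 : w ≠ 0 := by
      rintro rfl
      rw [zero_pow (Fact.out : ℓ.Prime).ne_zero, mul_zero] at hw
      exact (hx i).1 hw
    exact (cl_eq_iff ℓ (hx i).1 (hx j).1).2 ⟨w, hw0, hw⟩

theorem e5g_hram (hk : IsAlgClosed k) (hB : Indp k B) (D : Dat k (gsp k B) t Θ)
    (hu : Ulu D.U D.O) (P : ∀ i, E5G ℓ k l (gsp k B) Θ (D.W i) (D.O i) Ω) {v : K}
    (hv : v ∈ B) :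
    {c : Ω | c ∈ k.map (algebraMap K Ω) ∧ ∃ z : L, z ≠ 0 ∧ ∃ e : ℕ,
      ∃ h ∈ uSub D.U (fun i => (P i).ι.fieldRange), h ≠ 0 ∧
      gm D.U (fun _ => algebraMap K Ω v - c) =
        gm D.U (fun i => (P i).ρ (rsP (D.O i) z)) ^ e * h ^ ℓ}.Infinite := by
  refine ((infinite_of_isAlgClosed hk).image (algebraMap K Ω).injective.injOn).mono ?_
  rintro _ ⟨c, hc, rfl⟩
  refine ⟨⟨c, hc, rfl⟩, ?_⟩
  have h0 : v - c ≠ 0 := by
    intro h
    rw [sub_eq_zero] at h
    refine hB ∅ (Finset.empty_subset _) v hv (Finset.notMem_empty _)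
      (isAlgebraic_of_mem (le_gsp k ∅ ?_))
    rw [h]
    exact hc
  obtain ⟨z, hz0, hz⟩ := cl_surj ℓ (Θ (cl ℓ (v - c)))
  obtain ⟨e, h, hh, hh0, h1⟩ := e5g_ram P (x := v - c)
    (Subfield.sub_mem _ (mem_gsp hv) (le_gsp k B hc)) h0 hz.symm (hu z hz0)
  refine ⟨z, hz0, e, h, hh, hh0, ?_⟩
  rw [← h1, map_sub]

theorem e5g_lim [NeZero (ℓ : Ω)] (hk : IsAlgClosed k) (hfgk : FG k (⊤ : Subfield K))
    (hl : IsAlgClosed l) (hfgl : FG l (⊤ : Subfield L)) (hB : Indp k B) (htg : Good k t)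
    (ht : ¬ IsAlgebraic (gsp k B) t) (halg : ∀ z : K, IsAlgebraic (adj (gsp k B) t) z)
    (hL : Td l (B.card + 1)) (D : Dat k (gsp k B) t Θ) (hu : Ulu D.U D.O)
    (P : ∀ i, E5G ℓ k l (gsp k B) Θ (D.W i) (D.O i) Ω) (A : L →+* Gm D.U Ω)
    (hA : ∀ z, A z = gm D.U (fun i => (P i).ρ (rsP (D.O i) z))) :
    ∃ e : L, e ∉ l ∧ A e ∈ uSub D.U (fun _ => k.map (algebraMap K Ω)) := by
  haveI : PerfectField (gsp k B) := gsp_perfect k B
  have hFG : FG (gsp k B) (⊤ : Subfield K) := hfgk.mono (le_gsp k B) le_top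
  obtain ⟨d, hd⟩ := res_deg hFG ht halg
  have hcard : (B.image (algebraMap K Ω)).card = B.card :=
    Finset.card_image_of_injective _ (algebraMap K Ω).injective
  refine lim_main ℓ (k := k.map (algebraMap K Ω)) (B := B.image (algebraMap K Ω))
    (R := fun i => (P i).ι.fieldRange) (d := d) (l := l) (e5_map_ac _ hk) (e5_indp _ hB)
    (fun i => ?_) (fun i => ?_) (fun i c hc => ?_) hl hfgl ?_ A (fun z => ?_) (fun c hc => ?_)
    ?_ ?_ ?_ ?_
  · rw [e5_gsp_map]
    exact (P i).map_le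
  · haveI := rs_perfect (P i).hW
    exact perfect_fieldRange _
  · exact (P i).deg (e5_gsp_map _ _ _) (hd (D.W i) (P i).hF i.1 (le_gsp k B (D.le _ i.2))
      (D.ov i).lt) hc
  · rw [hcard]
    exact hL
  · rw [hA]
    exact ⟨_, rfl, fun i => (P i).ρ_mem _⟩
  · rw [hA]
    exact ⟨_, rfl, fun i => (P i).ρ_l (le_gsp k B) hc⟩
  · intro v hv x y
    obtain ⟨v, hv', rfl⟩ := Finset.mem_image.1 hv
    rw [e5_erase, hA, hA]
    exact e5g_hdep hk hfgk hl hB ht halg D hu P hv' x y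
  · intro v hv x hx
    obtain ⟨v, hv', rfl⟩ := Finset.mem_image.1 hv
    rw [e5_erase, hA] at hx ⊢
    exact e5g_htw hk hfgk hl hB ht halg D hu P hv' x hx
  · intro N
    simp only [hA]
    exact e5g_hdie hk htg D hu P N
  · intro v hv
    obtain ⟨v, hv', rfl⟩ := Finset.mem_image.1 hv
    simp only [hA]
    exact e5g_hram hk hB D hu P hv'

end e5lim

variable {K L : Type*} [Field K] [Field L] [PerfectField K] [PerfectField L] {ℓ : ℕ}
  [Fact ℓ.Prime] [NeZero (ℓ : K)] [NeZero (ℓ : L)] {Θ : V ℓ K ≃ₗ[ZMod ℓ] V ℓ L}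

/-- Step A, assuming that the theorem holds for the residue fields. -/
theorem stepAn_gen {k : Subfield K} (hk : IsAlgClosed k) (hfgk : FG k (⊤ : Subfield K))
    {l : Subfield L} (hl : IsAlgClosed l) (hfgl : FG l (⊤ : Subfield L)) (hΘ : Compatible Θ)
    {B : Finset K} (hB : Indp k B) (hBne : B.Nonempty) {t : K} (htg : Good k t)
    (ht : ¬ IsAlgebraic (gsp k B) t) (halg : ∀ z : K, IsAlgebraic (adj (gsp k B) t) z)
    (hL : Td l (B.card + 1))
    (hIH : ∀ᶠ b in ae k, ∀ W : ValuationSubring K, Over W (gsp k B) t b →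
      ∃ O : ValuationSubring L, Tr Θ W (t - b) O ∧
        (O.valuation (ℓ : L) = 1 → ResIsoG ℓ Θ k l W O)) :
    ∃ E : Subfield L, Crv l E ∧ ∀ v, Θ v ∈ VS ℓ E ↔ v ∈ VS ℓ (adj k t) := by
  classical
  haveI : PerfectField k := inferInstance
  have hF : RatF k (gsp k B) := hB.ratF
  have hkF : k ≤ gsp k B := le_gsp k B
  have htrl := e5_trl (Finset.card_pos.2 hBne) hL
  haveI : NeZero (ℓ : AlgebraicClosure K) := ⟨by
    rw [← map_natCast (algebraMap K (AlgebraicClosure K)), Ne, map_eq_zero]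
    exact NeZero.ne (ℓ : K)⟩
  obtain ⟨θ, hθ⟩ := exists_over_nice hk hfgk hB ht halg
  have hIH' : ∀ᶠ b in ae k, ∀ W : ValuationSubring K, Over W (gsp k B) t b →
      ∃ O : ValuationSubring L, Tr Θ W (t - b) O ∧ ResIsoG ℓ Θ k l W O := by
    filter_upwards [hIH, ae_unit hk hfgk hl hfgl hΘ htrl hF htg ht halg
      (z := (ℓ : L)) (NeZero.ne _)] with b h1 h2 W hW
    obtain ⟨O, hO, hO'⟩ := h1 W hW
    exact ⟨O, hO, hO' (h2 W hW O hO)⟩
  obtain ⟨D, hD⟩ := e5_dat (Θ := Θ) (q := ResIsoG ℓ Θ k l) hk hθ hIH'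
  have hP : ∀ i, Nonempty (E5G ℓ k l (gsp k B) Θ (D.W i) (D.O i) (AlgebraicClosure K)) :=
    fun i => e5g_exists hkF (hD i).1 (hD i).2
  have hu : Ulu D.U D.O := D.ulu hk hfgk hl hfgl hΘ htrl hF htg ht halg
  let P := fun i => (hP i).some
  obtain ⟨A, hA'⟩ := exists_lim D.U D.O (fun i => (P i).ρ.comp (rf (D.O i))) hu
  have hA : ∀ z, A z = gm D.U (fun i => (P i).ρ (rsP (D.O i) z)) := hA'
  obtain ⟨h, hhl, hh⟩ := e5g_lim hk hfgk hl hfgl hB htg ht halg hL D hu P A hA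
  rw [hA, gm_mem_uSub] at hh
  have h1 : ∀ᶠ i in D.U, ∃ c ∈ l, (D.O i).valuation (h - c) < 1 := by
    filter_upwards [hh, hu.ev_mem h] with i h2 h3
    obtain ⟨c, hc, hcO, hc'⟩ := mem_rbarP.1 ((P i).of_ρ hkF h2)
    exact ⟨c, hc, (rsP_eq h3 hcO).1 hc'.symm⟩
  have h2 : ∀ i, ∃ c ∈ l, (∃ c ∈ l, (D.O i).valuation (h - c) < 1) →
      (D.O i).valuation (h - c) < 1 := by
    intro i
    by_cases h : ∃ c ∈ l, (D.O i).valuation (h - c) < 1
    · obtain ⟨c, hc, hc'⟩ := h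
      exact ⟨c, hc, fun _ => hc'⟩
    · exact ⟨0, l.zero_mem, fun h' => absurd h' h⟩
  choose c hc hc' using h2
  exact case_gen hk hfgk hl hfgl hΘ htrl htg hu
    (fun v hv => D.mem_of_ev hk hfgk hF htg ht halg hv) hhl hc (h1.mono fun i hi => hc' i hi)

end Vale.Agent.P019P
end
end

section

section

/-!
# The endgame: the isomorphism is induced by a homomorphism of fields
-/

namespace Vale.Agent.P019

open Filter

/-- a homomorphism of fields matching the correspondence of points. -/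
structure EndHyp (ℓ : ℕ) {K L : Type*} [Field K] [Field L] (k : Subfield K) (l : Subfield L)
    (Θ : V ℓ K ≃ₗ[ZMod ℓ] V ℓ L) (A : K →+* L) (e : ZMod ℓ) : Prop where
  e0 : e ≠ 0
  hA : ∀ c ∈ k, A c ∈ l
  hA' : ∀ β ∈ l, ∃ b ∈ k, A b = β
  rt : ∀ s, Good k s → Rt k l Θ s (A s)
  cor : ∀ s, Good k s → ∀ᶠ b in ae k, Cor k l Θ s (A s) e b (A b)
  rel : ∀ t s, Good k t → Good k s → Good k (t + s) → ¬ IsAlgebraic (adj k s) t →
    ∃ F' : Subfield L, l ≤ F' ∧ (∀ z : L, IsAlgebraic (adj F' (A t)) z) ∧ adj l (A s) ≤ F' ∧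
      ∀ᶠ a in ae k, ∃ u : ValuationSubring L, TrivOn u F' ∧ u.valuation (A t - A a) < 1 ∧
        ∀ b ∈ k, Θ (cl ℓ (s - b) - cl ℓ (t + s - a - b)) ∈ U1 ℓ u

section endgame

variable {K L : Type*} [Field K] [Field L] {ℓ : ℕ} {k : Subfield K} {l : Subfield L}
  {A : K →+* L}

variable [CharZero K] [CharZero L] [Fact ℓ.Prime]

variable {Θ : V ℓ K ≃ₗ[ZMod ℓ] V ℓ L} {e : ZMod ℓ}

end endgame

end Vale.Agent.P019
end
end

section

section

/-!
# The embedding of function fields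
-/

namespace Vale.Agent.P019

open Polynomial Filter

variable {K L : Type*} [Field K] [Field L] [CharZero K] [CharZero L] {ℓ : ℕ} [Fact ℓ.Prime]
  {k : Subfield K} {l : Subfield L} {Θ : V ℓ K ≃ₗ[ZMod ℓ] V ℓ L}

omit [CharZero K] [CharZero L] in
/-- the isomorphism of the constants preserves cofiniteness. -/
theorem IsoOn.tendsto {σ : K → L} (hσ : IsoOn k l σ) : Tendsto σ (ae k) (ae l) := by
  intro S hS
  have h1 : ∀ᶠ β in ae l, β ∈ S := hS
  change ∀ᶠ a in ae k, σ a ∈ S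
  rw [ae_iff] at h1 ⊢
  refine Set.Finite.of_finite_image (f := σ) (h1.subset ?_) ?_
  · rintro _ ⟨a, ⟨ha, ha'⟩, rfl⟩
    exact ⟨hσ.mem a ha, ha'⟩
  · rintro a ⟨ha, -⟩ b ⟨hb, -⟩ hab
    exact hσ.inj ha hb hab

end Vale.Agent.P019
end
end

section

section

/-!
# The homomorphism of fields (perfect version)

`IsoOn.tendsto` is that of the old file.
-/

namespace Vale.Agent.P019P

open Vale.Agent.P019

set_option linter.style.haveILetI false
set_option linter.unusedSectionVars false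

open Polynomial Filter

/-- almost all constants give infinitely many values. -/
theorem IsoOn.infinite_of_ae {K L : Type*} [Field K] [Field L] {k : Subfield K}
    {l : Subfield L} (hk : IsAlgClosed k) {σ : K → L} (hσ : IsoOn k l σ) {P : L → Prop}
    (h : ∀ᶠ b in ae k, P (σ b)) : {x : L | P x}.Infinite := by
  intro hfin
  rw [ae_iff] at h
  have h1 : {b : K | b ∈ k ∧ P (σ b)}.Finite := by
    refine Set.Finite.of_finite_image (f := σ) (hfin.subset ?_) ?_
    · rintro _ ⟨b, ⟨_, hb⟩, rfl⟩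
      exact hb
    · rintro a ⟨ha, -⟩ b ⟨hb, -⟩ hab
      exact hσ.inj ha hb hab
  refine infinite_of_isAlgClosed hk ((h.union h1).subset ?_)
  intro b hb
  by_cases hP : P (σ b)
  · exact Or.inr ⟨hb, hP⟩
  · exact Or.inl ⟨hb, hP⟩

variable {K L : Type*} [Field K] [Field L] [PerfectField K] [PerfectField L] {ℓ : ℕ}
  [Fact ℓ.Prime] [NeZero (ℓ : K)] [NeZero (ℓ : L)]
  {k : Subfield K} {l : Subfield L} {Θ : V ℓ K ≃ₗ[ZMod ℓ] V ℓ L}

theorem Hyp.Nm_add (H : Hyp ℓ k l Θ) {σ : K → L} (hσ : IsoOn k l σ) {e : ZMod ℓ} (he : e ≠ 0)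
    {t s : K} {t' s' z' : L} (hts : Ind k s t) (ht : Nm k l Θ σ e t t') (hs : Nm k l Θ σ e s s')
    (hz : Nm k l Θ σ e (t + s) z') : z' = t' + s' := by
  obtain ⟨G', hG', hrel⟩ := H.rel hts.2 ht.rt hs.rt hz.rt (shift_add H.ack hts.1 t)
    (ht.psi hσ he) (hs.psi hσ he) (hz.psi hσ he)
  by_contra hne
  have hne' : z' - s' - t' ≠ 0 := by
    intro h
    apply hne
    linear_combination h
  have hle : l ≤ adj G' s' := hG'.le.trans (le_adj G' s')
  have hun := hσ.tendsto.eventually ((hG'.unit hne').filter_mono (ae_mono hle))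
  have := ae_neBot_of_isAlgClosed H.ack
  obtain ⟨a, ⟨⟨hrel, hun⟩, hak⟩⟩ := ((hrel.and hun).and (ae_mem k)).exists
  obtain ⟨i, j, A, hA, B, hB, C, hC, D, hD, hdet, hmob, W, hW, hval⟩ := hrel
  have hq : (ringExpChar L) ^ i = (ringExpChar L) ^ j ∧ C = 0 ∧ A = 1 * D ∧
      B = σ a ^ (ringExpChar L) ^ i * D := by
    refine twist_mob (u := 1) (v := σ a ^ (ringExpChar L) ^ i) one_ne_zero hdet ?_
    refine IsoOn.infinite_of_ae H.ack hσ ?_
    filter_upwards [hmob, ae_mem k] with b hb hbk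
    have h1 := hb.1
    rw [hσ.add a hak b hbk, add_pow_q] at h1
    linear_combination h1
  obtain ⟨hij, hC0, hAD, hBD⟩ := hq
  rw [one_mul] at hAD
  have hD0 : D ≠ 0 := by
    rintro rfl
    apply hdet
    rw [hC0]
    ring
  have hDu : W.valuation D = 1 := hW.triv.eq_one (hle hD) hD0
  have h1 : W.valuation (z' - s' - σ a) < 1 := by
    have e1 : z' ^ (ringExpChar L) ^ i * (C * s' ^ (ringExpChar L) ^ j + D) -
        (A * s' ^ (ringExpChar L) ^ j + B) = D * (z' - s' - σ a) ^ (ringExpChar L) ^ i := by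
      rw [sub_pow_q, sub_pow_q, ← hij, hC0, hAD, hBD]
      ring
    rw [e1, map_mul, hDu, one_mul, map_pow] at hval
    by_contra hge
    exact absurd hval (not_lt.2 (one_le_pow₀ (not_lt.1 hge)))
  have h2 : W.valuation (z' - s' - t') < 1 := by
    have e1 : z' - s' - t' = (z' - s' - σ a) - (t' - σ a) := by ring
    rw [e1]
    exact lt_of_le_of_lt (Valuation.map_sub _ _ _) (max_lt h1 hW.lt)
  exact h2.ne (hun W hW)

theorem Hyp.Nm_mul (H : Hyp ℓ k l Θ) {σ : K → L} (hσ : IsoOn k l σ) {e : ZMod ℓ} (he : e ≠ 0)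
    {t s : K} {t' s' z' : L} (hts : Ind k s t) (ht : Nm k l Θ σ e t t') (hs : Nm k l Θ σ e s s')
    (hz : Nm k l Θ σ e (t * s) z') : z' = t' * s' := by
  obtain ⟨G', hG', hrel⟩ := H.rel hts.2 ht.rt hs.rt hz.rt (shift_mul H.ack hts.1 t)
    (ht.psi hσ he) (hs.psi hσ he) (hz.psi hσ he)
  by_contra hne
  have hne' : z' - t' * s' ≠ 0 := sub_ne_zero.2 hne
  have hle : l ≤ adj G' s' := hG'.le.trans (le_adj G' s')
  have hun := hσ.tendsto.eventually ((hG'.unit hne').filter_mono (ae_mono hle))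
  have := ae_neBot_of_isAlgClosed H.ack
  have hne0 : ∀ᶠ a in ae k, a ≠ 0 := by
    rw [ae_iff]
    refine (Set.finite_singleton (0 : K)).subset ?_
    rintro a ⟨-, ha⟩
    rw [not_not] at ha
    exact ha
  obtain ⟨a, ⟨⟨⟨hrel, hun⟩, hak⟩, ha0⟩⟩ := (((hrel.and hun).and (ae_mem k)).and hne0).exists
  obtain ⟨i, j, A, hA, B, hB, C, hC, D, hD, hdet, hmob, W, hW, hval⟩ := hrel
  have hσ0 : σ 0 = 0 := by
    have h1 := hσ.add 0 k.zero_mem 0 k.zero_mem
    rw [add_zero] at h1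
    linear_combination -h1
  have hσa : σ a ≠ 0 := by
    intro h
    apply ha0
    exact hσ.inj hak k.zero_mem (h.trans hσ0.symm)
  have hq : (ringExpChar L) ^ i = (ringExpChar L) ^ j ∧ C = 0 ∧
      A = σ a ^ (ringExpChar L) ^ i * D ∧ B = 0 * D := by
    refine twist_mob (u := σ a ^ (ringExpChar L) ^ i) (v := 0) (pow_ne_zero _ hσa) hdet ?_
    refine IsoOn.infinite_of_ae H.ack hσ ?_
    filter_upwards [hmob, ae_mem k] with b hb hbk
    have h1 := hb.1
    rw [hσ.mul a hak b hbk, mul_pow] at h1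
    linear_combination h1
  obtain ⟨hij, hC0, hAD, hB0⟩ := hq
  rw [zero_mul] at hB0
  have hD0 : D ≠ 0 := by
    rintro rfl
    apply hdet
    rw [hC0]
    ring
  have hDu : W.valuation D = 1 := hW.triv.eq_one (hle hD) hD0
  have h1 : W.valuation (z' - σ a * s') < 1 := by
    have e1 : z' ^ (ringExpChar L) ^ i * (C * s' ^ (ringExpChar L) ^ j + D) -
        (A * s' ^ (ringExpChar L) ^ j + B) = D * (z' - σ a * s') ^ (ringExpChar L) ^ i := by
      rw [sub_pow_q, mul_pow, ← hij, hC0, hAD, hB0]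
      ring
    rw [e1, map_mul, hDu, one_mul, map_pow] at hval
    by_contra hge
    exact absurd hval (not_lt.2 (one_le_pow₀ (not_lt.1 hge)))
  have hs1 : W.valuation s' ≤ 1 := (W.valuation_le_one_iff _).2 (hW.triv _ (mem_adj G' s'))
  have h2 : W.valuation (z' - t' * s') < 1 := by
    have e1 : z' - t' * s' = (z' - σ a * s') - (t' - σ a) * s' := by ring
    rw [e1]
    refine lt_of_le_of_lt (Valuation.map_sub _ _ _) (max_lt h1 ?_)
    rw [map_mul]
    exact lt_of_le_of_lt (mul_le_of_le_one_right' hs1) hW.lt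
  exact h2.ne (hun W hW)

theorem Hyp.exists_alpha (H : Hyp ℓ k l Θ) : ∃ (σ : K → L) (e : ZMod ℓ) (A : K →+* L),
    IsoOn k l σ ∧ e ≠ 0 ∧ (∀ b ∈ k, A b = σ b) ∧ ∀ s, Good k s → Nm k l Θ σ e s (A s) := by
  classical
  obtain ⟨σ, e, hσ, he, hall⟩ := H.exists_sigma
  let α : K → L := fun s => if h : Good k s then (hall s h).choose else 0
  have hα : ∀ s, Good k s → Nm k l Θ σ e s (α s) := by
    intro s hs
    have h1 : α s = (hall s hs).choose := dif_pos hs
    rw [h1]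
    exact (hall s hs).choose_spec
  obtain ⟨A, hA⟩ := extend_hom {s | Good k s} (Ind k) α (fun x y h => h.symm H.ack)
    (fun x y hx hy hxy hind => by
      have h1 : Good k (y + x) := by rw [add_comm]; exact hxy
      have h2 := H.Nm_add hσ he hind (hα y hy) (hα x hx) (hα (y + x) h1)
      rw [add_comm x y, h2, add_comm])
    (fun x y hx hy hxy hind => by
      have h1 : Good k (y * x) := by rw [mul_comm]; exact hxy
      have h2 := H.Nm_mul hσ he hind (hα y hy) (hα x hx) (hα (y * x) h1)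
      rw [mul_comm x y, h2, mul_comm])
    (fun x hx h0 => by
      have h1 := (hα x hx).rt.good'.1
      apply h1
      rw [h0]
      exact l.zero_mem)
    (fun A B hB => exists_gen_add H.ack H.fgk H.trk A B hB)
    (fun h t ht => exists_gen_mul H.ack H.fgk H.trk h t ht)
  have hAN : ∀ s, Good k s → Nm k l Θ σ e s (A s) := by
    intro s hs
    rw [hA s hs]
    exact hα s hs
  refine ⟨σ, e, A, hσ, he, ?_, hAN⟩
  intro b hb
  obtain ⟨t, ht⟩ := exists_gen_add H.ack H.fgk H.trk {0} ∅ (by simp)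
  have hs : Good k (0 + t) := (ht 0 (by simp)).1
  have h1 := (hAN _ hs).add_const H.ack H.acl hσ he hb
  have h2 := (hAN _ h1.rt.good).unique H.ack H.acl H.fgl hσ he h1
  rw [map_add] at h2
  exact add_left_cancel h2

end Vale.Agent.P019P
end
end

section

section

/-!
# The main theorem
-/

namespace Vale.Agent.P019P

open Vale.Agent.P019

set_option linter.style.haveILetI false
set_option linter.unusedSectionVars false

open Polynomial Filter

variable {K L : Type*} [Field K] [Field L] [PerfectField K] [PerfectField L] {ℓ : ℕ} [Fact ℓ.Prime]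
  [NeZero (ℓ : K)] [NeZero (ℓ : L)]
  {k : Subfield K} {l : Subfield L} {Θ : V ℓ K ≃ₗ[ZMod ℓ] V ℓ L}

/-- induction for `end_ratF`. -/
theorem end_ratF_aux {K : Type*} [Field K] [PerfectField K] {k : Subfield K} {e y : K}
    (he : ¬ IsAlgebraic k e) (hy : ¬ IsAlgebraic (adj k e) y) (T : Finset K) :
    ∃ (G : Subfield K) (s : K), RatF k G ∧ y ∈ adj G s ∧
      ¬ IsAlgebraic G s ∧ ¬ IsAlgebraic (adj G s) e ∧
      ∀ t ∈ T, IsAlgebraic (adj (adj G s) e) t := by
  classical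
  induction T using Finset.induction_on with
  | empty =>
    refine ⟨k, y, RatF.base, mem_adj _ _, fun h => hy (isAlgebraic_mono (le_adj k e) h),
      fun h => hy (exchange he h), ?_⟩
    intro t ht
    exact absurd ht (Finset.notMem_empty t)
  | insert t T _ ih =>
    obtain ⟨G, s, hG, hyG, hs, he', hT⟩ := ih
    by_cases ht : IsAlgebraic (adj (adj G s) e) t
    · refine ⟨G, s, hG, hyG, hs, he', ?_⟩
      intro t' ht'
      rcases Finset.mem_insert.1 ht' with h | h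
      · rw [h]
        exact ht
      · exact hT t' h
    · refine ⟨adj G s, t, RatF.step hG hs, le_adj _ _ hyG,
        fun h => ht (isAlgebraic_mono (le_adj _ e) h), fun h => ht (exchange he' h), ?_⟩
      intro t' ht'
      rcases Finset.mem_insert.1 ht' with h | h
      · rw [h]
        exact isAlgebraic_of_mem (le_adj _ e (mem_adj _ t))
      · exact isAlgebraic_mono (adj_mono (le_adj _ t) e) (hT t' h)

/-- existence of a frame with rational `G`, containing a given element. -/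
theorem end_ratF {K : Type*} [Field K] [PerfectField K] {k : Subfield K} (hk : IsAlgClosed k)
    (hfg : FG k (⊤ : Subfield K)) {e y : K} (he : ¬ IsAlgebraic k e)
    (hy : ¬ IsAlgebraic (adj k e) y) : ∃ (G : Subfield K) (s : K), RatF k G ∧ y ∈ adj G s ∧
      Frame k G e s := by
  haveI : PerfectField k := by
    haveI := hk
    infer_instance
  obtain ⟨S, hS⟩ := hfg
  obtain ⟨G, s, hG, hyG, hs, hes, hT⟩ := end_ratF_aux he hy S
  refine ⟨G, s, hG, hyG, hG.le, hG.fg, hes, hs, fun z => ?_⟩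
  have h1 : (⊤ : Subfield K) ≤ rac (adj (adj G s) e) := by
    rw [hS]
    refine pf_le (sup_le ?_ (Subfield.closure_le.2 fun w hw => mem_rac.2 (hT w hw)))
    exact hG.le.trans ((le_adj G s).trans ((le_adj _ e).trans (le_rac _)))
  exact mem_rac.1 (h1 (Subfield.mem_top z))

theorem Hyp.end_rel (H : Hyp ℓ k l Θ) {A : K →+* L} (hA : ∀ c ∈ k, A c ∈ l)
    (hA' : ∀ β ∈ l, ∃ b ∈ k, A b = β) {e : ZMod ℓ} (he : e ≠ 0) {t s : K}
    (ht : Rt k l Θ t (A t)) (hs : Rt k l Θ s (A s)) (hst : ¬ IsAlgebraic (adj k s) t)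
    (hc : ∀ᶠ a in ae k, Cor k l Θ t (A t) e a (A a)) :
    ∃ F' : Subfield L, RatF l F' ∧ ¬ IsAlgebraic F' (A t) ∧
      (∀ z : L, IsAlgebraic (adj F' (A t)) z) ∧ adj l (A s) ≤ F' ∧
      ∀ᶠ a in ae k, ∃ u : ValuationSubring L, TrivOn u F' ∧ u.valuation (A t - A a) < 1 ∧
        ∀ b ∈ k, Θ (cl ℓ (s - b) - cl ℓ (t + s - a - b)) ∈ U1 ℓ u := by
  have hrl := RAC_of_isAlgClosed l H.acl
  have hs' : ¬ IsAlgebraic l (A s) := fun h => hs.good'.1 (hrl _ h)
  have ht' : ¬ IsAlgebraic l (A t) := fun h => ht.good'.1 (hrl _ h)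
  have hst' : ¬ IsAlgebraic (adj l (A s)) (A t) := fun h => hst (end_alg hA' h)
  obtain ⟨G, s₁, hR, hsG, hG⟩ := end_ratF H.acl H.fgl ht' (fun h => hst' (exchange hs' h))
  obtain ⟨θ, hθ⟩ := hG.nice H.fgl
  have hlF : l ≤ adj G s₁ := hG.le.trans (le_adj _ _)
  have hsF : adj l (A s) ≤ adj G s₁ := adj_le hlF hsG
  refine ⟨adj G s₁, RatF.step hR hG.ss, hG.tt, hG.alg, hsF, ?_⟩
  have h1 : ∀ᶠ a in ae l, ∀ W : ValuationSubring L, Over W (adj G s₁) (A t) a →
      Nice W (adj G s₁) (A t - a) θ := ae_mono hlF hθ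
  have h2 := ae_of_image hA h1
  filter_upwards [h2, hc, ae_mem k] with a h2 hc ha
  obtain ⟨W, hW⟩ := exists_over hG.tt (hlF (hA a ha))
  have hN := h2 W hW
  have hWs : TrivOn W (adj l (A s)) := hN.triv.mono hsF
  have hfgF : FG l (adj G s₁) := hG.fg.adj_right _
  obtain ⟨O, hOk, hT⟩ := H.symm.exists_tr hlF hfgF hN hs.good' hWs
  have hOs : TrivOn O (adj k s) := H.symm.triv_crv hlF hfgF hN hOk hT hs.good'.1 hWs
    (Crv.of_good hs.good) (fun v hv => (hs.map _).1 (by rwa [LinearEquiv.apply_symm_apply]))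
  have hOt : O.valuation (t - a) < 1 :=
    H.centre ht ha (hA a ha) he hc (hWs.mono (le_adj _ _)) hN.unif hOk hT
  refine ⟨W, hN.triv, hW.lt, ?_⟩
  intro b hb
  have h3 : cl ℓ (s - b) - cl ℓ (t + s - a - b) ∈ U1 ℓ O := by
    rw [← neg_mem_iff, neg_sub]
    refine cl_sub_cl_mem_U1 (hOs.eq_one (Subfield.sub_mem _ (mem_adj _ _) (le_adj _ _ hb)) ?_) ?_
    · intro h
      rw [sub_eq_zero] at h
      exact hs.good.1 (h ▸ hb)
    · have h4 : t + s - a - b - (s - b) = t - a := by ring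
      rw [h4]
      exact hOt
  have h4 := (hT.iff (Θ (cl ℓ (s - b) - cl ℓ (t + s - a - b)))).1
  rw [LinearEquiv.symm_apply_apply] at h4
  exact h4 h3

theorem Hyp.exists_end (H : Hyp ℓ k l Θ) : ∃ (A : K →+* L) (e : ZMod ℓ), EndHyp ℓ k l Θ A e := by
  obtain ⟨σ, e, A, hσ, he, hA, hN⟩ := H.exists_alpha
  have h1 : ∀ c ∈ k, A c ∈ l := fun c hc => by rw [hA c hc]; exact hσ.mem c hc
  have h2 : ∀ β ∈ l, ∃ b ∈ k, A b = β := by
    intro β hβ
    obtain ⟨b, hb, rfl⟩ := hσ.surj β hβ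
    exact ⟨b, hb, hA b hb⟩
  have h3 : ∀ s, Good k s → ∀ᶠ b in ae k, Cor k l Θ s (A s) e b (A b) := by
    intro s hs
    filter_upwards [(hN s hs).cor, ae_mem k] with b hb hbk
    rwa [hA b hbk]
  exact ⟨A, e, he, h1, h2, fun s hs => (hN s hs).rt, h3, fun t s ht hs _ hst =>
    H.end_rel h1 h2 he (hN t ht).rt (hN s hs).rt hst (h3 t ht)⟩

theorem Hyp.final (H : Hyp ℓ k l Θ) :
    ∃ (c : (ZMod ℓ)ˣ) (α : K ≃+* L), (∀ x, x ∈ k ↔ α x ∈ l) ∧
      ∀ x : K, Θ (cl ℓ x) = (c : ZMod ℓ) • cl ℓ (α x) := by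
  obtain ⟨A, e, E⟩ := H.exists_end
  exact E.final H (fun y hy => H.symm.rt_all hy)

end Vale.Agent.P019P
end
end

section

section

/-!
# The main theorem from Step A in both directions
-/

namespace Vale.Agent.P019P

open Vale.Agent.P019

set_option linter.style.haveILetI false
set_option linter.unusedSectionVars false

open Polynomial Filter

variable {K L : Type*} [Field K] [Field L] [PerfectField K] [PerfectField L] {ℓ : ℕ}
  [Fact ℓ.Prime] [NeZero (ℓ : K)] [NeZero (ℓ : L)]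

/-- infinitely many powers of a constant of small valuation. -/
theorem fin1_const {l : Subfield L} {O : ValuationSubring L} (h : ¬ TrivOn O l) :
    ∃ a ∈ l, a ≠ 0 ∧ O.valuation a < 1 := by
  simp only [TrivOn] at h
  push Not at h
  obtain ⟨c, hc, hcO⟩ := h
  have h1 : 1 < O.valuation c := by
    rw [← not_le, O.valuation_le_one_iff]
    exact hcO
  have hc0 : c ≠ 0 := by
    rintro rfl
    exact hcO O.zero_mem
  exact ⟨c⁻¹, l.inv_mem hc, inv_ne_zero hc0, by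
    rw [map_inv₀]
    exact inv_lt_one_of_one_lt₀ h1⟩

/-- valuations transferred in a weak sense are trivial on the constants, from Step A. -/
theorem fin1_ltr {l : Subfield L} {Θ : V ℓ K ≃ₗ[ZMod ℓ] V ℓ L}
    (hl : IsAlgClosed l) (hfgl : FG l (⊤ : Subfield L))
    {U : Submodule (ZMod ℓ) (V ℓ K)} {T : Submodule (ZMod ℓ) (V ℓ K)}
    {E : Subfield L} (hE : Crv l E) (hA : ∀ v, Θ v ∈ VS ℓ E ↔ v ∈ T)
    (hfin : ((U ⊓ T : Submodule (ZMod ℓ) (V ℓ K)) : Set (V ℓ K)).Finite)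
    {O : ValuationSubring L} (hO : ∀ z, O.valuation z < 1 → Θ.symm (cl ℓ (1 + z)) ∈ U) :
    TrivOn O l := by
  by_contra hcon
  obtain ⟨a, ha, ha0, haO⟩ := fin1_const hcon
  -- an element of the curve
  obtain ⟨e, heE, hel, heO⟩ : ∃ e ∈ E, e ∉ l ∧ O.valuation e ≤ 1 := by
    obtain ⟨y, hyE, hyl, -⟩ := hE.ex
    by_cases h1 : O.valuation y ≤ 1
    · exact ⟨y, hyE, hyl, h1⟩
    · push Not at h1
      refine ⟨y⁻¹, E.inv_mem hyE, fun h => hyl (by simpa using l.inv_mem h), ?_⟩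
      rw [map_inv₀]
      exact (inv_lt_one_of_one_lt₀ h1).le
  have hO0 : O.valuation a ≠ 0 := (_root_.map_ne_zero _).2 ha0
  have key : ∀ j : ℕ, Θ.symm (cl ℓ (e - -((a ^ (j + 1))⁻¹))) ∈
      ((U ⊓ T : Submodule (ZMod ℓ) (V ℓ K)) : Set (V ℓ K)) := by
    intro j
    have haj : a ^ (j + 1) ≠ 0 := pow_ne_zero _ ha0
    have hajl : a ^ (j + 1) ∈ l := l.pow_mem ha _
    have h1 : O.valuation (a ^ (j + 1) * e) < 1 := by
      rw [map_mul, map_pow]
      exact mul_lt_one_of_lt_of_le (pow_lt_one₀ zero_le haO (Nat.succ_ne_zero j)) heO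
    have hne : e - -((a ^ (j + 1))⁻¹) ≠ 0 := by
      intro h
      apply hel
      rw [sub_eq_zero.1 h]
      exact l.neg_mem (l.inv_mem hajl)
    have h2 : cl ℓ (1 + a ^ (j + 1) * e) = cl ℓ (e - -((a ^ (j + 1))⁻¹)) := by
      have e1 : 1 + a ^ (j + 1) * e = a ^ (j + 1) * (e - -((a ^ (j + 1))⁻¹)) := by
        rw [sub_neg_eq_add, mul_add, mul_inv_cancel₀ haj, add_comm]
      rw [e1, cl_mul ℓ haj hne, line_cl_const hl hajl, zero_add]
    have h3 : Θ.symm (cl ℓ (e - -((a ^ (j + 1))⁻¹))) ∈ U := by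
      rw [← h2]
      exact hO _ h1
    refine ⟨h3, ?_⟩
    show Θ.symm (cl ℓ (e - -((a ^ (j + 1))⁻¹))) ∈ T
    rw [← hA, LinearEquiv.apply_symm_apply]
    exact cl_mem_VS (E.sub_mem heE (hE.le (l.neg_mem (l.inv_mem hajl))))
  -- the constants are pairwise different
  have hinj : Function.Injective (fun j : ℕ => -((a ^ (j + 1))⁻¹)) := by
    intro i j hij
    have h1 : a ^ (i + 1) = a ^ (j + 1) := inv_injective (neg_injective hij)
    have h2 := congrArg O.valuation h1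
    rw [map_pow, map_pow] at h2
    have h3 := pow_right_injective₀ (zero_lt_iff.2 hO0) haO.ne h2
    omega
  have hfin' : (Set.range fun j : ℕ => -((a ^ (j + 1))⁻¹)).Finite := by
    have h1 : (Set.range fun j : ℕ => -((a ^ (j + 1))⁻¹)) ⊆
        ⋃ v ∈ ((U ⊓ T : Submodule (ZMod ℓ) (V ℓ K)) : Set (V ℓ K)),
          {c : L | c ∈ l ∧ cl ℓ (e - c) = Θ v} := by
      rintro _ ⟨j, rfl⟩
      refine Set.mem_biUnion (key j) ⟨l.neg_mem (l.inv_mem (l.pow_mem ha _)), ?_⟩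
      rw [LinearEquiv.apply_symm_apply]
    exact (hfin.biUnion fun v _ => dist_top (ℓ := ℓ) hl hfgl hel (Θ v)).subset h1
  exact Set.infinite_range_of_injective hinj hfin'

/-- the main theorem from Step A in both directions. -/
theorem final_of_stepA' {Θ : V ℓ K ≃ₗ[ZMod ℓ] V ℓ L}
    {k : Subfield K} (hk : IsAlgClosed k) (hfgk : FG k (⊤ : Subfield K))
    {l : Subfield L} (hl : IsAlgClosed l) (hfgl : FG l (⊤ : Subfield L))
    (hΘ : Compatible Θ) (trk : ∃ x y : K, x ∉ k ∧ ¬ IsAlgebraic (adj k x) y)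
    (trl : ∃ x y : L, x ∉ l ∧ ¬ IsAlgebraic (adj l x) y)
    (hA : ∀ t, Good k t → ∃ E : Subfield L, Crv l E ∧ ∀ v, Θ v ∈ VS ℓ E ↔ v ∈ VS ℓ (adj k t))
    (hA' : ∀ t, Good l t → ∃ E : Subfield K, Crv k E ∧
      ∀ v, Θ.symm v ∈ VS ℓ E ↔ v ∈ VS ℓ (adj l t)) :
    ∃ (c : (ZMod ℓ)ˣ) (α : K ≃+* L), (∀ x, x ∈ k ↔ α x ∈ l) ∧
      ∀ x : K, Θ (cl ℓ x) = (c : ZMod ℓ) • cl ℓ (α x) := by
  have H : Hyp ℓ k l Θ := by
    refine ⟨hk, hl, hfgk, hfgl, trk, trl, hΘ, hA, hA', ?_, ?_, ?_, ?_⟩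
    · intro U x hx hfin O hO
      obtain ⟨E, hE, h1⟩ := hA x hx
      exact fin1_ltr hl hfgl hE h1 hfin hO
    · intro U x hx hfin O hO
      obtain ⟨E, hE, h1⟩ := hA' x hx
      exact fin1_ltr (Θ := Θ.symm) hk hfgk hE h1 hfin hO
    · intro x y hx hy
      exact ae_iff.2 (bertini hk hfgk hx hy)
    · intro x y hx hy
      exact ae_iff.2 (bertini hl hfgl hx hy)
  exact H.final

end Vale.Agent.P019P
end
end

section

section

/-!
# The main theorem over arbitrary algebraically closed fields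
-/

namespace Vale.Agent.P019P

open Vale.Agent.P019

set_option linter.style.haveILetI false
set_option linter.unusedSectionVars false
set_option linter.unusedVariables false

open Polynomial Filter

universe u v

noncomputable instance rfpAlg {K : Type*} [Field K] (W : ValuationSubring K) :
    Algebra (IsLocalRing.ResidueField W) (RFP W) := (rf W).toAlgebra

instance rfpPI {K : Type*} [Field K] (W : ValuationSubring K) :
    IsPurelyInseparable (IsLocalRing.ResidueField W) (RFP W) := by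
  rw [isPurelyInseparable_iff_pow_mem (IsLocalRing.ResidueField W)
    (ringExpChar (IsLocalRing.ResidueField W))]
  intro x
  obtain ⟨m, y, hy⟩ := rf_pow W x
  exact ⟨m, y, hy⟩

/-- two independent elements from a transcendence basis with at least two elements. -/
theorem r16_two {K : Type*} [Field K] [PerfectField K] {k : Subfield K}
    (hk : IsAlgClosed k) {n : ℕ} (h : Td k (n + 2)) :
    ∃ x y : K, x ∉ k ∧ ¬ IsAlgebraic (adj k x) y := by
  classical
  haveI : PerfectField k := inferInstance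
  obtain ⟨B, hBc, hB, -⟩ := h
  obtain ⟨x, hx, y, hy, hxy⟩ := Finset.one_lt_card.1 (show 1 < B.card by omega)
  refine ⟨x, y, fun hxk => ?_, fun hya => ?_⟩
  · exact hB ∅ (by simp) x hx (by simp) (isAlgebraic_of_mem (le_gsp _ _ hxk))
  · have e1 : gsp k (insert x ∅) = adj k x := by
      rw [gsp_insert, gsp_empty]
    refine hB (insert x ∅) (by simpa using hx) y hy (by simpa using hxy.symm) ?_
    rw [e1]
    exact hya

/-- a surface from a transcendence basis with two elements. -/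
theorem r16_srf {K : Type*} [Field K] [PerfectField K] {k : Subfield K}
    (hk : IsAlgClosed k) (h : Td k 2) : ∃ t s : K, Srf k t s := by
  classical
  haveI : PerfectField k := inferInstance
  obtain ⟨B, hBc, hB, halg⟩ := h
  obtain ⟨t, s, hts, rfl⟩ := Finset.card_eq_two.1 hBc
  have e1 : gsp k {s} = adj k s := by
    have := gsp_insert k ∅ s
    rw [gsp_empty] at this
    exact this
  have e2 : gsp k {t, s} = adj (adj k s) t := by
    rw [← e1]
    exact gsp_insert k {s} t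
  refine ⟨t, s, le_rfl, FG.refl', ?_, ?_, ?_⟩
  · rw [← e1]
    exact hB {s} (by simp) t (by simp) (by simpa using hts)
  · have := hB ∅ (by simp) s (by simp) (by simp)
    rwa [gsp_empty] at this
  · intro z
    rw [← e2]
    exact halg z

/-- a transcendence basis with at least two elements. -/
theorem r16_td {K : Type*} [Field K] [PerfectField K] {k : Subfield K}
    (hk : IsAlgClosed k) (hfg : FG k (⊤ : Subfield K))
    (tr : ∃ x y : K, x ∉ k ∧ ¬ IsAlgebraic (adj k x) y) : ∃ n, Td k (n + 2) := by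
  classical
  haveI : PerfectField k := inferInstance
  obtain ⟨x, y, hx, hy⟩ := tr
  have h0 : Indp k ∅ := fun S _ v hv => absurd hv (Finset.notMem_empty v)
  have h1 : Indp k (insert x ∅) := h0.insert (by
    rw [gsp_empty]
    exact fun h => hx (RAC_of_isAlgClosed k hk x h))
  have e1 : gsp k (insert x ∅) = adj k x := by
    rw [gsp_insert, gsp_empty]
  have h2 : Indp k (insert y (insert x ∅)) := h1.insert (by
    rw [e1]
    exact hy)
  have hyx : y ∉ insert x (∅ : Finset K) := by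
    rw [Finset.mem_insert]
    rintro (h | h)
    · exact hy (by rw [h]; exact isAlgebraic_of_mem (mem_adj k x))
    · exact Finset.notMem_empty y h
  obtain ⟨B', hsub, hB', halg⟩ := h2.extend hfg
  have hc := Finset.card_le_card hsub
  rw [Finset.card_insert_of_notMem hyx, Finset.card_insert_of_notMem (Finset.notMem_empty x),
    Finset.card_empty] at hc
  exact ⟨B'.card - 2, B', by omega, hB', halg⟩

/-- the main theorem in transcendence degree `n + 2`. -/
def R16Main (ℓ : ℕ) [Fact ℓ.Prime] (n : ℕ) : Prop := ∀ {K : Type u} {L : Type v} [Field K]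
    [Field L] [PerfectField K] [PerfectField L] [NeZero (ℓ : K)] [NeZero (ℓ : L)]
    {Θ : V ℓ K ≃ₗ[ZMod ℓ] V ℓ L} {k : Subfield K} (_ : IsAlgClosed k)
    (_ : FG k (⊤ : Subfield K)) {l : Subfield L} (_ : IsAlgClosed l)
    (_ : FG l (⊤ : Subfield L)) (_ : Compatible Θ) (_ : Td k (n + 2)) (_ : Td l (n + 2)),
    ∃ (c : (ZMod ℓ)ˣ) (α : K ≃+* L), (∀ x, x ∈ k ↔ α x ∈ l) ∧
      ∀ x : K, Θ (cl ℓ x) = (c : ZMod ℓ) • cl ℓ (α x)

theorem R16Main.symm {ℓ : ℕ} [Fact ℓ.Prime] {n : ℕ} (h : R16Main.{u, v} ℓ n) :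
    R16Main.{v, u} ℓ n := by
  intro K L _ _ _ _ _ _ Θ k hk hfgk l hl hfgl hΘ hK hL
  obtain ⟨c, α, h1, h2⟩ := h hl hfgl hk hfgk hΘ.symm hL hK
  refine ⟨c⁻¹, α.symm, fun x => ?_, fun x => ?_⟩
  · rw [h1, RingEquiv.apply_symm_apply]
  · have h3 := h2 (α.symm x)
    rw [RingEquiv.apply_symm_apply, LinearEquiv.symm_apply_eq, map_smul] at h3
    rw [h3, smul_smul, Units.inv_mul, one_smul]

/-- Step A from the main theorem for the residue fields. -/
theorem R16Main.stepA {ℓ : ℕ} [Fact ℓ.Prime] {n : ℕ} (ih : R16Main.{u, v} ℓ n)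
    {K : Type u} {L : Type v} [Field K] [Field L] [PerfectField K] [PerfectField L]
    [NeZero (ℓ : K)] [NeZero (ℓ : L)] {Θ : V ℓ K ≃ₗ[ZMod ℓ] V ℓ L} {k : Subfield K}
    (hk : IsAlgClosed k) (hfgk : FG k (⊤ : Subfield K)) {l : Subfield L}
    (hl : IsAlgClosed l) (hfgl : FG l (⊤ : Subfield L)) (hΘ : Compatible Θ)
    (hK : Td k (n + 3)) (hL : Td l (n + 3)) {t : K} (ht : Good k t) :
    ∃ E : Subfield L, Crv l E ∧ ∀ v, Θ v ∈ VS ℓ E ↔ v ∈ VS ℓ (adj k t) := by
  classical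
  haveI : PerfectField k := inferInstance
  obtain ⟨B, hBc, hB, htB, halg, -⟩ := Td.exists_basis hk hfgk (n := n + 2) hK ht.1
  have hBne : B.Nonempty := by
    rw [← Finset.card_pos, hBc]
    omega
  have hL' : Td l (B.card + 1) := by rw [hBc]; exact hL
  obtain ⟨θ, hθ⟩ := exists_over_nice hk hfgk hB htB halg
  refine stepAn_gen hk hfgk hl hfgl hΘ hB hBne ht htB halg hL' ?_
  filter_upwards [hθ] with b hb W hW
  have hN := hb.2 W hW
  have hWk : TrivOn W k := hN.triv.mono (le_gsp k B)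
  obtain ⟨y, hyB⟩ := id hBne
  have hyk : y ∉ k := fun h => hB ∅ (by simp) y hyB (by simp)
    (isAlgebraic_of_mem (le_gsp _ _ h))
  haveI := gsp_perfect k B
  obtain ⟨O, hT⟩ := exists_tr0 hk hfgk hl hΘ (le_gsp k B) (gsp_fg k B) hN hyk
    (hN.triv.mono (adj_le (le_gsp k B) (mem_gsp hyB)))
  refine ⟨O, hT, fun hOℓ => ?_⟩
  obtain ⟨hTdO, hFGO⟩ := res_td' hk hfgk hl hfgl hΘ hB hBne hL' hN hT
  obtain ⟨hTdW, hFGW⟩ := hN.td hB hWk
  haveI := rs_perfect hWk
  haveI := rs_neZero (ℓ := ℓ) hWk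
  haveI := rfp_neZero hOℓ
  obtain ⟨x, hx⟩ : ∃ x : IsLocalRing.ResidueField W, x ∉ bar hWk := by
    obtain ⟨B', hBc', hB', -⟩ := id hTdW
    have h0 : B'.Nonempty := by
      rw [← Finset.card_pos, hBc', hBc]
      omega
    obtain ⟨x, hx⟩ := h0
    refine ⟨x, fun h => hB' ∅ (by simp) x hx (by simp) ?_⟩
    exact isAlgebraic_of_mem (le_gsp _ _ h)
  have hNC : NoCtr ℓ (IsLocalRing.ResidueField W) := noCtr (bar_isAlgClosed hWk hk) hFGW hx
  have hTA : TrA Θ W (hN.unif.fn ℓ) O := ⟨hT.unit hN.unif, hT.iff⟩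
  have hAd : Adp W (hN.unif.fn ℓ) := IsUnif.adp (exists_neg hk) hN.unif
  obtain ⟨Θ', hΘ', hres⟩ := TrA.res hΘ (exists_neg hk) (exists_neg hl) hAd hTA hNC
  haveI : NeZero (ℓ : IsLocalRing.ResidueField O) := ⟨fun h => by
    apply NeZero.ne (ℓ : RFP O)
    have h1 := congrArg (rf O) h
    rwa [map_natCast, map_zero] at h1⟩
  let ΘQ : V ℓ (IsLocalRing.ResidueField W) ≃ₗ[ZMod ℓ] V ℓ (RFP O) :=
    Θ'.trans (perfV ℓ (IsLocalRing.ResidueField O) (RFP O))
  have hΘQ : Compatible ΘQ := Compatible.trans hΘ' perfV_compatible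
  rw [hBc] at hTdO hTdW
  obtain ⟨e, α, h1, h2⟩ := ih (bar_isAlgClosed hWk hk) hFGW (rbarP_ac hl O) hFGO hΘQ hTdW hTdO
  refine ⟨e, α, fun x => ?_, fun z y hz hy hzy => ?_⟩
  · rw [← h1, rbar_eq_bar hWk]
  · rw [← h2]
    change cl ℓ (rsP O y) = perfV ℓ (IsLocalRing.ResidueField O) (RFP O) (Θ' (cl ℓ (rs W z)))
    rw [hres z y hz hy hzy, perfV_apply, Vmap_cl]
    rfl

theorem main_gen' {ℓ : ℕ} [Fact ℓ.Prime] (n : ℕ) : ∀ {K : Type u} {L : Type v} [Field K]
    [Field L] [PerfectField K] [PerfectField L] [NeZero (ℓ : K)] [NeZero (ℓ : L)]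
    {Θ : V ℓ K ≃ₗ[ZMod ℓ] V ℓ L} {k : Subfield K} (_ : IsAlgClosed k)
    (_ : FG k (⊤ : Subfield K)) {l : Subfield L} (_ : IsAlgClosed l)
    (_ : FG l (⊤ : Subfield L)) (_ : Compatible Θ) (_ : Td k (n + 2)) (_ : Td l (n + 2)),
    ∃ (c : (ZMod ℓ)ˣ) (α : K ≃+* L), (∀ x, x ∈ k ↔ α x ∈ l) ∧
      ∀ x : K, Θ (cl ℓ x) = (c : ZMod ℓ) • cl ℓ (α x) := by
  change R16Main.{u, v} ℓ n
  induction n with
  | zero =>
    intro K L _ _ _ _ _ _ Θ k hk hfgk l hl hfgl hΘ hK hL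
    obtain ⟨t, s, hts⟩ := r16_srf hk hK
    obtain ⟨x, y, hxy⟩ := r16_srf hl hL
    exact final_of_stepA' hk hfgk hl hfgl hΘ (r16_two hk hK) (r16_two hl hL)
      (fun _ h => stepA2g hk hfgk hl hfgl hΘ hts hxy h)
      (fun _ h => stepA2g hl hfgl hk hfgk hΘ.symm hxy hts h)
  | succ n ih =>
    intro K L _ _ _ _ _ _ Θ k hk hfgk l hl hfgl hΘ hK hL
    exact final_of_stepA' hk hfgk hl hfgl hΘ (r16_two hk hK) (r16_two hl hL)
      (fun _ h => R16Main.stepA ih hk hfgk hl hfgl hΘ hK hL h)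
      (fun _ h => R16Main.stepA ih.symm hl hfgl hk hfgk hΘ.symm hL hK h)

/-- the main theorem. -/
theorem main_gen {K : Type u} {L : Type v} [Field K] [Field L] [PerfectField K] [PerfectField L]
    {ℓ : ℕ} [Fact ℓ.Prime] [NeZero (ℓ : K)] [NeZero (ℓ : L)] {Θ : V ℓ K ≃ₗ[ZMod ℓ] V ℓ L}
    {k : Subfield K} (hk : IsAlgClosed k) (hfgk : FG k (⊤ : Subfield K))
    {l : Subfield L} (hl : IsAlgClosed l) (hfgl : FG l (⊤ : Subfield L))
    (hΘ : Compatible Θ) (trk : ∃ x y : K, x ∉ k ∧ ¬ IsAlgebraic (adj k x) y)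
    (trl : ∃ x y : L, x ∉ l ∧ ¬ IsAlgebraic (adj l x) y) :
    ∃ (c : (ZMod ℓ)ˣ) (α : K ≃+* L), (∀ x, x ∈ k ↔ α x ∈ l) ∧
      ∀ x : K, Θ (cl ℓ x) = (c : ZMod ℓ) • cl ℓ (α x) := by
  obtain ⟨n, hn⟩ := r16_td hk hfgk trk
  obtain ⟨m, hm⟩ := r16_td hl hfgl trl
  obtain ⟨B, hBc, hB⟩ := dim_ge' (n + 2) hk hfgk hl hΘ hn
  obtain ⟨B', hBc', hB'⟩ := dim_ge' (m + 2) hl hfgl hk hΘ.symm hm
  have h1 := hm.le hB
  have h2 := hn.le hB'
  obtain rfl : n = m := by omega
  exact main_gen' n hk hfgk hl hfgl hΘ hn hm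

end Vale.Agent.P019P
end
end
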